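/-
Row 269, P1 Section 7: SECOND ORDER STABILITY WITH AN EXPONENTIALLY SMALL LIPSCHITZ CONSTANT (HOST-FREE, real variable).   LEAF PACKAGE LF-S7-stab2 (ONE FILE = ONE OWNER).   Statements: helper146.   Proof: helper175.
 `u = ‖P‖`, `v = ‖Δ‖`, `u₁ = ‖P 0‖`, `v₁ = ‖Δ 0‖`, `k(s) = c e^{-2(b + Lh - s)}`.
 `s7_stab2`:  `U = sup u`, `V = sup v` over `[0,Lh]` (`τ = D₁' - D`).  `u(τ) ≤ u₁ + ∫₀^τ (k(s)(V+U) + ε₁) ds ≤ u₁ + κ(V+U) + Lh ε₁`;  `v(τ) ≤ v₁ + τ u₁ + ∫₀^τ∫₀^s ... ≤ v₁ + Lh u₁ + κ' (V+U) + Lh² ε₁`, where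
    `∫₀^{Lh} k ≤ κ`, `∫₀^{Lh}∫₀^s k ≤ κ'`; for `k(s) = c e^{-2(D₁' - s)}`: `κ = c e^{-2D₀'}/2`, `κ' = c e^{-2D₀'}/4`.   `κ + κ' ≤ 1/2` closes the estimate.
 (Bounds of the form `‖P τ - P 0‖ ≤ ∫₀^τ ...` without integrals: `image_norm_le_of_norm_deriv_right_le_deriv_boundary` with the explicit primitives `(c/2) e^{-2(b+Lh-τ)} (V+U) + τ ε₁`, etc.)
-/
import Mathlib

set_option autoImplicit false

namespace Claimed.Agent.R269

open Complex Filter Topology Set Metric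
open scoped Real

/-- LEAF LF-S7-stab2 (HOST-FREE, real variable): second order stability with an exponentially small Lipschitz constant.
`Δ : ℝ → ℂ` on `[0,Lh]`, `Δ' = P`, `|P'| ≤ c e^{-2(b + Lh - τ)} (|Δ| + |P|) + ε₁`, `(3/4) c e^{-2b} ≤ 1/2`. -/
theorem s7_stab2 (c b Lh ε₁ : ℝ) (hc : 0 ≤ c) (hLh : 0 ≤ Lh) (hε₁ : 0 ≤ ε₁)
    (hcb : 3 / 4 * c * Real.exp (-2 * b) ≤ 1 / 2) (Δ P P' : ℝ → ℂ)
    (hΔ : ∀ τ ∈ Icc 0 Lh, HasDerivWithinAt Δ (P τ) (Icc 0 Lh) τ)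
    (hP : ∀ τ ∈ Icc 0 Lh, HasDerivWithinAt P (P' τ) (Icc 0 Lh) τ)
    (hP' : ∀ τ ∈ Icc 0 Lh, ‖P' τ‖ ≤ c * Real.exp (-2 * (b + Lh - τ)) * (‖Δ τ‖ + ‖P τ‖) + ε₁) :
    ∀ τ ∈ Icc 0 Lh, ‖Δ τ‖ + ‖P τ‖ ≤ 2 * (‖Δ 0‖ + (Lh + 1) * ‖P 0‖) + 4 * (Lh + 1) ^ 2 * ε₁ := by
  have hcΔ : ContinuousOn Δ (Icc 0 Lh) := fun τ hτ => (hΔ τ hτ).continuousWithinAt
  have hcP : ContinuousOn P (Icc 0 Lh) := fun τ hτ => (hP τ hτ).continuousWithinAt
  obtain ⟨τm, hτm, hmax⟩ := isCompact_Icc.exists_isMaxOn (nonempty_Icc.2 hLh)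
    (hcΔ.norm.add hcP.norm)
  obtain ⟨W, hW⟩ : ∃ W : ℝ, W = ‖Δ τm‖ + ‖P τm‖ := ⟨_, rfl⟩
  have hWmax : ∀ τ ∈ Icc 0 Lh, ‖Δ τ‖ + ‖P τ‖ ≤ W := fun τ hτ => by rw [hW]; exact hmax hτ
  have hW0 : 0 ≤ W := by rw [hW]; positivity
  have hright : ∀ (f : ℝ → ℂ) (f' : ℂ) (x : ℝ), x ∈ Ico 0 Lh →
      HasDerivWithinAt f f' (Icc 0 Lh) x → HasDerivWithinAt f f' (Ici x) x :=
    fun f f' x hx h => h.mono_of_mem_nhdsWithin (Icc_mem_nhdsGE_of_mem hx)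
  have hE : ∀ x : ℝ, HasDerivAt (fun τ : ℝ => Real.exp (-2 * (b + Lh - τ)))
      (2 * Real.exp (-2 * (b + Lh - x))) x := by
    intro x
    have h1 : HasDerivAt (fun τ : ℝ => -2 * (b + Lh - τ)) 2 x := by
      have := ((hasDerivAt_id x).const_sub (b + Lh)).const_mul (-2 : ℝ)
      simpa using this
    have := h1.exp
    simpa [mul_comm] using this
  -- first order
  have hB1 : ∀ x : ℝ, HasDerivAt (fun τ : ℝ => W * (c / 2) * Real.exp (-2 * (b + Lh - τ)) + τ * ε₁)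
      (W * c * Real.exp (-2 * (b + Lh - x)) + ε₁) x := by
    intro x
    have := ((hE x).const_mul (W * (c / 2))).add ((hasDerivAt_id x).mul_const ε₁)
    exact this.congr_deriv (by ring)
  have h1 : ∀ τ ∈ Icc 0 Lh, ‖P τ - P 0‖ ≤ W * (c / 2) * Real.exp (-2 * (b + Lh - τ)) + τ * ε₁ := by
    intro τ hτ
    refine image_norm_le_of_norm_deriv_right_le_deriv_boundary (f := fun τ => P τ - P 0) (f' := P')
      (hcP.sub continuousOn_const)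
      (fun x hx => hright _ _ x hx ((hP x ⟨hx.1, hx.2.le⟩).sub_const _)) ?_ hB1
      (fun x hx => ?_) hτ
    · simp only [sub_self, norm_zero, zero_mul, add_zero]
      positivity
    · have hx' : x ∈ Icc 0 Lh := ⟨hx.1, hx.2.le⟩
      have e1 := hP' x hx'
      have e2 : c * Real.exp (-2 * (b + Lh - x)) * (‖Δ x‖ + ‖P x‖) ≤
          c * Real.exp (-2 * (b + Lh - x)) * W :=
        mul_le_mul_of_nonneg_left (hWmax x hx') (by positivity)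
      nlinarith
  -- second order
  have hB2 : ∀ x : ℝ, HasDerivAt
      (fun τ : ℝ => W * (c / 4) * Real.exp (-2 * (b + Lh - τ)) + τ ^ 2 * (ε₁ / 2))
      (W * (c / 2) * Real.exp (-2 * (b + Lh - x)) + x * ε₁) x := by
    intro x
    have := ((hE x).const_mul (W * (c / 4))).add (((hasDerivAt_id x).pow 2).mul_const (ε₁ / 2))
    exact this.congr_deriv (by simp only [id]; push_cast; ring)
  have h2 : ∀ τ ∈ Icc 0 Lh, ‖Δ τ - Δ 0 - τ • P 0‖ ≤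
      W * (c / 4) * Real.exp (-2 * (b + Lh - τ)) + τ ^ 2 * (ε₁ / 2) := by
    intro τ hτ
    refine image_norm_le_of_norm_deriv_right_le_deriv_boundary
      (f := fun τ : ℝ => Δ τ - Δ 0 - τ • P 0) (f' := fun τ => P τ - P 0)
      ((hcΔ.sub continuousOn_const).sub (continuous_id.smul continuous_const).continuousOn)
      (fun x hx => hright _ _ x hx ?_) ?_ hB2 (fun x hx => h1 x ⟨hx.1, hx.2.le⟩) hτ
    · have e1 := (hΔ x ⟨hx.1, hx.2.le⟩).sub_const (Δ 0)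
      have e2 : HasDerivWithinAt (fun τ : ℝ => τ • P 0) (P 0) (Icc 0 Lh) x := by
        have := ((hasDerivAt_id x).smul_const (P 0)).hasDerivWithinAt (s := Icc 0 Lh)
        simpa using this
      exact e1.sub e2
    · simp only [sub_self, zero_smul, norm_zero]
      positivity
  -- the estimate at every point
  have hEb : ∀ τ ∈ Icc 0 Lh, Real.exp (-2 * (b + Lh - τ)) ≤ Real.exp (-2 * b) := fun τ hτ =>
    Real.exp_le_exp.2 (by linarith [hτ.2])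
  have hall : ∀ τ ∈ Icc 0 Lh, ‖Δ τ‖ + ‖P τ‖ ≤
      ‖Δ 0‖ + (Lh + 1) * ‖P 0‖ + W / 2 + (Lh + 1) ^ 2 * ε₁ := by
    intro τ hτ
    have a1 := h1 τ hτ
    have a2 := h2 τ hτ
    have a3 := hEb τ hτ
    have n1 : ‖P τ‖ ≤ ‖P 0‖ + ‖P τ - P 0‖ := by
      have := norm_add_le (P 0) (P τ - P 0)
      rwa [add_sub_cancel] at this
    have n2 : ‖Δ τ‖ ≤ ‖Δ 0‖ + τ * ‖P 0‖ + ‖Δ τ - Δ 0 - τ • P 0‖ := by
      have e : Δ τ = Δ 0 + τ • P 0 + (Δ τ - Δ 0 - τ • P 0) := by ring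
      have := norm_add₃_le (a := Δ 0) (b := τ • P 0) (c := Δ τ - Δ 0 - τ • P 0)
      rw [← e, norm_smul, Real.norm_eq_abs, abs_of_nonneg hτ.1] at this
      exact this
    have m1 : W * (c / 2) * Real.exp (-2 * (b + Lh - τ)) ≤ W * (c / 2) * Real.exp (-2 * b) :=
      mul_le_mul_of_nonneg_left a3 (by positivity)
    have m2 : W * (c / 4) * Real.exp (-2 * (b + Lh - τ)) ≤ W * (c / 4) * Real.exp (-2 * b) :=
      mul_le_mul_of_nonneg_left a3 (by positivity)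
    have m3 : W * (3 / 4 * c * Real.exp (-2 * b)) ≤ W * (1 / 2) :=
      mul_le_mul_of_nonneg_left hcb hW0
    have m4 : τ * ‖P 0‖ ≤ Lh * ‖P 0‖ := mul_le_mul_of_nonneg_right hτ.2 (norm_nonneg _)
    have m5 : τ * ε₁ ≤ Lh * ε₁ := mul_le_mul_of_nonneg_right hτ.2 hε₁
    have m6 : τ ^ 2 * (ε₁ / 2) ≤ Lh ^ 2 * (ε₁ / 2) :=
      mul_le_mul_of_nonneg_right (pow_le_pow_left₀ hτ.1 hτ.2 2) (by positivity)
    have m7 : 0 ≤ Lh * ε₁ := mul_nonneg hLh hε₁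
    have m8 : 0 ≤ Lh ^ 2 * ε₁ := by positivity
    nlinarith
  have hWle : W ≤ 2 * (‖Δ 0‖ + (Lh + 1) * ‖P 0‖) + 2 * (Lh + 1) ^ 2 * ε₁ := by
    have := hall τm hτm
    rw [← hW] at this
    linarith
  intro τ hτ
  have h3 : 0 ≤ (Lh + 1) ^ 2 * ε₁ := by positivity
  have := hWmax τ hτ
  linarith

end Claimed.Agent.R269
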