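/-
Row 269, P1 Section 7: STEEP TRACKING, definitions.   Trapezoids/steep set: helper146; abstract layer: helper237.

The proof of `S7Sys.steep` (see `S7/Steep.lean`) is cut as follows.
* `S7Up`     : HOST-FREE interface of the scaled passage at a FIXED index `n`, written for the UPWARD step `up T = sg · stp n T`:  domain, passage, parameter set `𝒯`, strip `W T`, fast functions `uC, uC', uD, uD'`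
               for the step `up T`, joint holomorphy on `FD`, recurrence, extension principle.     Instance: `S7Sys.upSys` (`S7/SteepInst.lean`).
* `S7Par`    : the real constants.   `K` = closed enlarged trapezoid, `U` = open trapezoid (half of the margin, strict top).
* `S7IH v`   : all `(y,T)`, `T ∈ 𝒯`, `y ∈ U`, `Im y < v` satisfy: `(y,T), (y - up T,T) ∈ dom` and `e + j ≤ B (Im y)`.
* `S7UpHyp`  : numeric conditions + one step solver (`solve`, from `s7_track_step`) + `base = S7IH hm`.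
* `s7up_step`: `S7IH v → hm ≤ v → S7IH (v + c)`;   `s7up_main`: everything in `U` is reached (`S7/SteepStep.lean`).
-/
import Claimed.Agent.R269.S7.Scaled
import Claimed.Agent.R269.S7.Track

set_option autoImplicit false

namespace Claimed.Agent.R269

open Complex Filter Topology Set Metric
open scoped Real

/-- the closed trapezoid `lo ≤ Im y ≤ hi`, `|Re y - xc| ≤ w + Λ (hi - Im y)`. -/
def s7Trap (xc w Λ lo hi : ℝ) : Set ℂ :=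
  {y | lo ≤ y.im ∧ y.im ≤ hi ∧ |y.re - xc| ≤ w + Λ * (hi - y.im)}

/-- the closed box `lo ≤ Im y ≤ hi`, `|Re y - xc| ≤ w`. -/
def s7Box (xc w lo hi : ℝ) : Set ℂ := {y | lo ≤ y.im ∧ y.im ≤ hi ∧ |y.re - xc| ≤ w}

/-- the open steep parameter set. -/
def s7Steep (sg R η : ℝ) : Set ℂ := {T | ‖T - 1‖ < R ∧ η < sg * T.im}

/-- the open trapezoid `lo < Im y < hi`, `|Re y - xc| < w + Λ (hi - Im y)`. -/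
def s7TrapO (xc w Λ lo hi : ℝ) : Set ℂ :=
  {y | lo < y.im ∧ y.im < hi ∧ |y.re - xc| < w + Λ * (hi - y.im)}

/-- host-free interface of the scaled passage at a fixed index, for the upward step `up T`. -/
structure S7Up where
  dom : Set (ℂ × ℂ)
  Sc : ℂ × ℂ → ℂ
  𝒯 : Set ℂ
  up : ℂ → ℂ
  W : ℂ → Set ℂ
  uC : ℂ → ℂ → ℂ → ℂ
  uC' : ℂ → ℂ → ℂ → ℂ
  uD : ℂ → ℂ → ℂ → ℂ
  uD' : ℂ → ℂ → ℂ → ℂ
  Sc_diff : DifferentiableOn ℂ Sc dom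
  Sc_mem : ∀ y T : ℂ, (y, T) ∈ dom → Sc (y, T) ∈ W T
  𝒯_open : IsOpen 𝒯
  up_diff : DifferentiableOn ℂ up 𝒯
  up_ne : ∀ T ∈ 𝒯, up T ≠ 0
  FD_open : IsOpen {p : ℂ × ℂ × ℂ | p.1 ∈ 𝒯 ∧ p.2.1 ∈ W p.1 ∧ p.2.1 + up p.1 * p.2.2 ∈ W p.1}
  C_diff : DifferentiableOn ℂ (fun p : ℂ × ℂ × ℂ => uC p.1 p.2.1 p.2.2)
    {p : ℂ × ℂ × ℂ | p.1 ∈ 𝒯 ∧ p.2.1 ∈ W p.1 ∧ p.2.1 + up p.1 * p.2.2 ∈ W p.1}
  D_diff : DifferentiableOn ℂ (fun p : ℂ × ℂ × ℂ => uD p.1 p.2.1 p.2.2)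
    {p : ℂ × ℂ × ℂ | p.1 ∈ 𝒯 ∧ p.2.1 ∈ W p.1 ∧ p.2.1 + up p.1 * p.2.2 ∈ W p.1}
  C_deriv : ∀ T ∈ 𝒯, ∀ σ ∈ W T, ∀ u : ℂ, σ + up T * u ∈ W T → HasDerivAt (uC T σ) (uC' T σ u) u
  D_deriv : ∀ T ∈ 𝒯, ∀ σ ∈ W T, ∀ u : ℂ, σ + up T * u ∈ W T → HasDerivAt (uD T σ) (uD' T σ u) u
  recur : ∀ y T : ℂ, T ∈ 𝒯 → (y - up T, T) ∈ dom → (y, T) ∈ dom → (y + up T, T) ∈ dom →
    uD T (Sc (y, T)) ((Sc (y + up T, T) - Sc (y, T)) / up T) *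
        uC T (Sc (y, T)) (-((Sc (y, T) - Sc (y - up T, T)) / up T)) +
      uD T (Sc (y, T)) (-((Sc (y, T) - Sc (y - up T, T)) / up T)) *
        uC T (Sc (y, T)) ((Sc (y + up T, T) - Sc (y, T)) / up T) = 0
  extend : ∀ O : Set (ℂ × ℂ), IsOpen O → (∀ z ∈ O, z.2 ∈ 𝒯) → ∀ w : ℂ × ℂ → ℂ, DifferentiableOn ℂ w O →
    (∀ z ∈ O, w z ∈ W z.2) →
    (∀ z ∈ O, ∃ η : ℝ, η ≤ z.1.im ∧ (∀ τ ∈ Icc η z.1.im, ((⟨z.1.re, τ⟩ : ℂ), z.2) ∈ O) ∧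
      ((⟨z.1.re, η⟩ : ℂ), z.2) ∈ dom ∧ w =ᶠ[𝓝 ((⟨z.1.re, η⟩ : ℂ), z.2)] Sc) →
    O ⊆ dom ∧ EqOn w Sc O

/-- the real constants of the steep induction. -/
structure S7Par where
  xc : ℝ
  w : ℝ
  Λ : ℝ
  hb : ℝ
  hm : ℝ
  ht : ℝ
  κ : ℝ
  c : ℝ
  c' : ℝ
  r₁ : ℝ
  L : ℝ
  δ₀ : ℝ
  ε' : ℝ
  β : ℝ
  γ : ℝ

/-- the closed enlarged trapezoid. -/
def S7Par.K (P : S7Par) : Set ℂ := s7Trap P.xc (P.w + P.κ) P.Λ (P.hb - P.κ) P.ht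

/-- the open trapezoid with half of the margin. -/
def S7Par.U (P : S7Par) : Set ℂ := s7TrapO P.xc (P.w + P.κ / 2) P.Λ (P.hb - P.κ / 2) P.ht

/-- the induction hypothesis up to the height `v`. -/
def S7IH (X : S7Up) (mdl : ℂ → ℂ) (P : S7Par) (B : ℝ → ℝ) (v : ℝ) : Prop :=
  ∀ T ∈ X.𝒯, ∀ y ∈ P.U, y.im < v → (y, T) ∈ X.dom ∧ (y - X.up T, T) ∈ X.dom ∧
    ‖X.Sc (y, T) - mdl y‖ +
      ‖(X.Sc (y, T) - X.Sc (y - X.up T, T)) / X.up T - (mdl y - mdl (y - X.up T)) / X.up T‖ ≤ B y.im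

/-- the hypotheses of the steep induction at a fixed index. -/
structure S7UpHyp (X : S7Up) (mdl : ℂ → ℂ) (P : S7Par) (B : ℝ → ℝ) : Prop where
  Λ_nonneg : 0 ≤ P.Λ
  κ_pos : 0 < P.κ
  c_pos : 0 < P.c
  c'_pos : 0 < P.c'
  c'_le_one : P.c' ≤ 1
  c'_le_κ : P.c' ≤ P.κ / 2
  c'_le_hm : 2 * P.c' ≤ P.hm - P.hb
  L_nonneg : 0 ≤ P.L
  ε'_nonneg : 0 ≤ P.ε'
  β_le_δ₀ : P.β ≤ P.δ₀
  β_le_one : P.β ≤ 1
  root_room : 2 * P.β + P.γ ≤ P.r₁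
  B_le : ∀ v ≤ P.ht, B v ≤ P.β
  B_step : ∀ v s t : ℝ, 0 ≤ t → t ≤ (1 + P.Λ) * s →
    B v * (1 + (2 * P.L + 2) * t) + (2 * P.L + 2) * t * P.ε' ≤ B (v + s)
  steep : ∀ T ∈ X.𝒯, P.c < (X.up T).im ∧ |(X.up T).re| ≤ P.Λ * (X.up T).im ∧ ‖X.up T‖ ≤ P.c'
  memW : ∀ T ∈ X.𝒯, ∀ y ∈ P.K, ∀ σ : ℂ, ‖σ - mdl y‖ ≤ 2 → σ ∈ X.W T
  solve : ∀ T ∈ X.𝒯, ∀ y ∈ P.K, ∀ σ Jm : ℂ, ‖σ - mdl y‖ ≤ P.δ₀ →
    ‖Jm - (mdl y - mdl (y - X.up T)) / X.up T‖ ≤ P.δ₀ →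
    ∃ Jp : ℂ, ‖Jp - Jm‖ < P.r₁ ∧ X.uD T σ Jp * X.uC T σ (-Jm) + X.uD T σ (-Jm) * X.uC T σ Jp = 0 ∧
      X.uD' T σ Jp * X.uC T σ (-Jm) + X.uD T σ (-Jm) * X.uC' T σ Jp ≠ 0 ∧
      (∀ J : ℂ, ‖J - Jm‖ ≤ P.r₁ →
        X.uD T σ J * X.uC T σ (-Jm) + X.uD T σ (-Jm) * X.uC T σ J = 0 → J = Jp) ∧
      ‖Jp - (mdl (y + X.up T) - mdl y) / X.up T‖ ≤ ‖Jm - (mdl y - mdl (y - X.up T)) / X.up T‖ +
        ‖X.up T‖ * (P.L * (‖σ - mdl y‖ + ‖Jm - (mdl y - mdl (y - X.up T)) / X.up T‖) + P.ε')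
  mdl2 : ∀ T ∈ X.𝒯, ∀ y ∈ P.K,
    ‖(mdl (y + X.up T) - mdl y) / X.up T - (mdl y - mdl (y - X.up T)) / X.up T‖ ≤ P.γ
  base : S7IH X mdl P B P.hm

end Claimed.Agent.R269
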