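/-
Row 269, P1 Section 7: STEEP TRACKING, the instance of the abstract interface `S7Up` given by the scaled passage `Y.Sc n` and the upward step `sg · stp n T`.   helper237.
For `sg = -1` the fast functions are the reflected ones (`IsFast.refl`); the recurrence is symmetric under the exchange of the two neighbours.
-/
import Claimed.Agent.R269.S7.SteepDefs

set_option autoImplicit false

namespace Claimed.Agent.R269

open Complex Filter Topology Set Metric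
open scoped Real

theorem s7Steep_isOpen (sg R η : ℝ) : IsOpen (s7Steep sg R η) := by
  have h1 : IsOpen {T : ℂ | ‖T - 1‖ < R} := isOpen_lt (by fun_prop) continuous_const
  have h2 : IsOpen {T : ℂ | η < sg * T.im} :=
    isOpen_lt continuous_const (continuous_const.mul Complex.continuous_im)
  exact h1.inter h2

theorem s7Steep_subset {sg R η : ℝ} (hR' : R ≤ 1 / 2) : s7Steep sg R η ⊆ ball (1 : ℂ) (1 / 2) := by
  intro T hT
  rw [mem_ball, dist_eq_norm]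
  exact hT.1.trans_le hR'

/-- the conclusion of `s7_track_step` for fixed constants. -/
def S7TrackProp (fst : Bool) (mdl : ℂ → ℂ) (K : Set ℂ) (r₁ L δ₀ ε η₀ : ℝ) : Prop :=
  ∀ (Ff Qf : ℂ → ℂ) (W : Set ℂ)
      (a y σ Jm : ℂ) (θ C C' Dd Dd' : ℂ → ℂ), S7Fld Ff Qf W → y ∈ K → a ≠ 0 → ‖a‖ ≤ η₀ →
      S7Close fst Ff Qf W (closedBall σ 1) η₀ → ‖σ - mdl y‖ ≤ δ₀ →
      ‖Jm - (mdl y - mdl (y - a)) / a‖ ≤ δ₀ →
      IsFast {u | σ + a * u ∈ W} (fun u => Ff (σ + a * u)) (fun u => Qf (σ + a * u)) θ C C' Dd Dd' →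
      ∃ Jp : ℂ, ‖Jp - Jm‖ < r₁ ∧ Dd Jp * C (-Jm) + Dd (-Jm) * C Jp = 0 ∧
        Dd' Jp * C (-Jm) + Dd (-Jm) * C' Jp ≠ 0 ∧
        (∀ J : ℂ, ‖J - Jm‖ ≤ r₁ → Dd J * C (-Jm) + Dd (-Jm) * C J = 0 → J = Jp) ∧
        ‖Jp - (mdl (y + a) - mdl y) / a‖ ≤ ‖Jm - (mdl y - mdl (y - a)) / a‖ +
          ‖a‖ * (L * (‖σ - mdl y‖ + ‖Jm - (mdl y - mdl (y - a)) / a‖) + ε)

namespace S7Sys

variable {Sh : Shape} (Y : S7Sys Sh)

theorem stp_ne (n : ℕ) {T : ℂ} (hT : T ∈ ball (1 : ℂ) (1 / 2)) : Y.stp n T ≠ 0 := by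
  have hT0 : T ≠ 0 := by
    rintro rfl
    rw [mem_ball, dist_eq_norm] at hT
    norm_num at hT
  have h1 : (Y.ℓ n : ℂ) ≠ 0 := by exact_mod_cast (Y.ℓ_pos n).ne'
  have h2 : (Y.m n : ℂ) ≠ 0 := by exact_mod_cast (Y.m_pos n).ne'
  exact div_ne_zero hT0 (mul_ne_zero h1 h2)

/-- the fast functions for the step `sg · stp n T`. -/
theorem up_fast (n : ℕ) {sg : ℝ} (hsg : sg = 1 ∨ sg = -1) {T σ : ℂ} (hT : T ∈ ball (1 : ℂ) (1 / 2))
    (hσ : σ ∈ Y.fW n T) :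
    IsFast {u | σ + ((sg : ℂ) * Y.stp n T) * u ∈ Y.fW n T}
      (fun u => Y.fF n T (σ + ((sg : ℂ) * Y.stp n T) * u))
      (fun u => Y.fQ n T (σ + ((sg : ℂ) * Y.stp n T) * u))
      (fun u => (sg : ℂ) * Y.fθ n T σ ((sg : ℂ) * u)) (fun u => Y.fC n T σ ((sg : ℂ) * u))
      (fun u => (sg : ℂ) * Y.fC' n T σ ((sg : ℂ) * u)) (fun u => (sg : ℂ) * Y.fD n T σ ((sg : ℂ) * u))
      (fun u => Y.fD' n T σ ((sg : ℂ) * u)) := by
  rcases hsg with rfl | rfl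
  · simpa using Y.isFast n hT hσ
  · simpa using (Y.isFast n hT hσ).refl

/-- the recurrence for the step `sg · stp n T`. -/
theorem up_rec (n : ℕ) {sg : ℝ} (hsg : sg = 1 ∨ sg = -1) {y T : ℂ}
    (hm : (y - (sg : ℂ) * Y.stp n T, T) ∈ Y.dom n) (h0 : (y, T) ∈ Y.dom n)
    (hp : (y + (sg : ℂ) * Y.stp n T, T) ∈ Y.dom n) :
    ((sg : ℂ) * Y.fD n T (Y.Sc n (y, T)) ((sg : ℂ) *
          ((Y.Sc n (y + (sg : ℂ) * Y.stp n T, T) - Y.Sc n (y, T)) / ((sg : ℂ) * Y.stp n T)))) *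
        Y.fC n T (Y.Sc n (y, T)) ((sg : ℂ) *
          (-((Y.Sc n (y, T) - Y.Sc n (y - (sg : ℂ) * Y.stp n T, T)) / ((sg : ℂ) * Y.stp n T)))) +
      ((sg : ℂ) * Y.fD n T (Y.Sc n (y, T)) ((sg : ℂ) *
          (-((Y.Sc n (y, T) - Y.Sc n (y - (sg : ℂ) * Y.stp n T, T)) / ((sg : ℂ) * Y.stp n T))))) *
        Y.fC n T (Y.Sc n (y, T)) ((sg : ℂ) *
          ((Y.Sc n (y + (sg : ℂ) * Y.stp n T, T) - Y.Sc n (y, T)) / ((sg : ℂ) * Y.stp n T))) = 0 := by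
  rcases hsg with rfl | rfl
  · simp only [Complex.ofReal_one, one_mul] at hm hp ⊢
    exact Y.rec_fast n hm h0 hp
  · simp only [Complex.ofReal_neg, Complex.ofReal_one, neg_mul, one_mul, sub_neg_eq_add,
      ← sub_eq_add_neg] at hm hp ⊢
    have h := Y.rec_fast n hp h0 hm
    have e1 : -((Y.Sc n (y - Y.stp n T, T) - Y.Sc n (y, T)) / -Y.stp n T)
        = -((Y.Sc n (y, T) - Y.Sc n (y - Y.stp n T, T)) / Y.stp n T) := by
      rw [div_neg, ← neg_div, neg_sub]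
    have e2 : - -((Y.Sc n (y, T) - Y.Sc n (y + Y.stp n T, T)) / -Y.stp n T)
        = (Y.Sc n (y + Y.stp n T, T) - Y.Sc n (y, T)) / Y.stp n T := by
      rw [neg_neg, div_neg, ← neg_div, neg_sub]
    rw [e1, e2]
    linear_combination -h

/-- **the upward system.** -/
noncomputable def upSys (n : ℕ) (sg R η : ℝ) (hsg : sg = 1 ∨ sg = -1) (hR' : R ≤ 1 / 2)
    (hn : ∀ T ∈ ball (1 : ℂ) (1 / 2), T / (Y.m n : ℂ) ∈ ball (0 : ℂ) Sh.ρ) : S7Up where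
  dom := Y.dom n
  Sc := Y.Sc n
  𝒯 := s7Steep sg R η
  up := fun T => (sg : ℂ) * Y.stp n T
  W := Y.fW n
  uC := fun T σ u => Y.fC n T σ ((sg : ℂ) * u)
  uC' := fun T σ u => (sg : ℂ) * Y.fC' n T σ ((sg : ℂ) * u)
  uD := fun T σ u => (sg : ℂ) * Y.fD n T σ ((sg : ℂ) * u)
  uD' := fun T σ u => Y.fD' n T σ ((sg : ℂ) * u)
  Sc_diff := Y.Sc_diff n
  Sc_mem := fun _ _ h => Y.Sc_mem n h
  𝒯_open := s7Steep_isOpen _ _ _
  up_diff := by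
    unfold S7Sys.stp
    fun_prop
  up_ne := fun T hT => by
    have h1 : (sg : ℂ) ≠ 0 := by rcases hsg with rfl | rfl <;> simp
    exact mul_ne_zero h1 (Y.stp_ne n (s7Steep_subset hR' hT))
  FD_open := by
    have hg : Continuous (fun p : ℂ × ℂ × ℂ => (p.1, p.2.1, (sg : ℂ) * p.2.2)) := by fun_prop
    have h1 := ((s7Steep_isOpen sg R η).preimage (continuous_fst (X := ℂ) (Y := ℂ × ℂ))).inter
      ((Y.fastDom_isOpen n).preimage hg)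
    convert h1 using 1
    ext p
    simp only [mem_ofPred_eq, mem_inter_iff, mem_preimage, S7Sys.fastDom]
    constructor
    · rintro ⟨a1, a2, a3⟩
      exact ⟨a1, s7Steep_subset hR' a1, a2, by rw [← mul_assoc, mul_comm (Y.stp n p.1)]; exact a3⟩
    · rintro ⟨a1, -, a2, a3⟩
      exact ⟨a1, a2, by rw [mul_comm (sg : ℂ), mul_assoc]; exact a3⟩
  C_diff := by
    have hg : Differentiable ℂ (fun p : ℂ × ℂ × ℂ => (p.1, p.2.1, (sg : ℂ) * p.2.2)) := by fun_prop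
    refine (Y.fast_diff n).1.comp hg.differentiableOn ?_
    rintro p ⟨a1, a2, a3⟩
    exact ⟨s7Steep_subset hR' a1, a2, by
      show p.2.1 + Y.stp n p.1 * ((sg : ℂ) * p.2.2) ∈ Y.fW n p.1
      rw [← mul_assoc, mul_comm (Y.stp n p.1)]; exact a3⟩
  D_diff := by
    have hg : Differentiable ℂ (fun p : ℂ × ℂ × ℂ => (p.1, p.2.1, (sg : ℂ) * p.2.2)) := by fun_prop
    refine ((Y.fast_diff n).2.2.1.comp hg.differentiableOn ?_).const_mul (sg : ℂ)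
    rintro p ⟨a1, a2, a3⟩
    exact ⟨s7Steep_subset hR' a1, a2, by
      show p.2.1 + Y.stp n p.1 * ((sg : ℂ) * p.2.2) ∈ Y.fW n p.1
      rw [← mul_assoc, mul_comm (Y.stp n p.1)]; exact a3⟩
  C_deriv := fun T hT σ hσ u hu => (Y.up_fast n hsg (s7Steep_subset hR' hT) hσ).C_deriv u hu
  D_deriv := fun T hT σ hσ u hu => (Y.up_fast n hsg (s7Steep_subset hR' hT) hσ).Dd_deriv u hu
  recur := fun y T _ hm h0 hp => Y.up_rec n hsg hm h0 hp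
  extend := fun O hO hOT w hw hD hatt =>
    Y.ext n hn hO (fun z hz => s7Steep_subset hR' (hOT z hz)) hw hD hatt

/-- steepness of the upward step. -/
theorem up_steep (n : ℕ) {sg R η Λ : ℝ} (hsg : sg = 1 ∨ sg = -1) (hη : 0 < η)
    (hΛ : (1 + R) / η ≤ Λ) {T : ℂ} (hT : T ∈ s7Steep sg R η) :
    η / (Y.ℓ n * Y.m n) < ((sg : ℂ) * Y.stp n T).im ∧
      |((sg : ℂ) * Y.stp n T).re| ≤ Λ * ((sg : ℂ) * Y.stp n T).im := by
  have hb : 0 < Y.ℓ n * Y.m n := mul_pos (Y.ℓ_pos n) (Y.m_pos n)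
  have e : (sg : ℂ) * Y.stp n T = ((sg / (Y.ℓ n * Y.m n) : ℝ) : ℂ) * T := by
    unfold S7Sys.stp
    push_cast
    ring
  have him : ((sg : ℂ) * Y.stp n T).im = sg * T.im / (Y.ℓ n * Y.m n) := by
    rw [e, Complex.im_ofReal_mul]; ring
  have hre : ((sg : ℂ) * Y.stp n T).re = sg * T.re / (Y.ℓ n * Y.m n) := by
    rw [e, Complex.re_ofReal_mul]; ring
  have h1 : η / (Y.ℓ n * Y.m n) < sg * T.im / (Y.ℓ n * Y.m n) := div_lt_div_of_pos_right hT.2 hb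
  refine ⟨by rw [him]; exact h1, ?_⟩
  rw [him, hre, abs_div, abs_of_pos hb, abs_mul]
  have hs : |sg| = 1 := by rcases hsg with rfl | rfl <;> simp
  rw [hs, one_mul]
  have h2 : |T.re| ≤ 1 + R := by
    have h3 : ‖T‖ ≤ ‖T - 1‖ + ‖(1 : ℂ)‖ := by simpa using norm_add_le (T - 1) 1
    rw [norm_one] at h3
    have := Complex.abs_re_le_norm T
    linarith [hT.1]
  have h4 : 1 + R ≤ Λ * η := (div_le_iff₀ hη).1 hΛ
  have hΛ0 : 0 ≤ Λ := by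
    have : 0 ≤ |T.re| := abs_nonneg _
    have h5 : 0 ≤ (1 + R) / η := div_nonneg (by linarith) hη.le
    linarith
  have h6 : Λ * η ≤ Λ * (sg * T.im) := mul_le_mul_of_nonneg_left hT.2.le hΛ0
  rw [← mul_div_assoc]
  exact div_le_div_of_nonneg_right (by linarith) hb.le

theorem up_norm (n : ℕ) {sg : ℝ} (hsg : sg = 1 ∨ sg = -1) (T : ℂ) :
    ‖(sg : ℂ) * Y.stp n T‖ = ‖Y.stp n T‖ := by
  rcases hsg with rfl | rfl <;> simp

/-- the one step solver of the upward system. -/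
theorem up_solve (n : ℕ) {sg R η : ℝ} (hsg : sg = 1 ∨ sg = -1) (hR' : R ≤ 1 / 2)
    (hn : ∀ T ∈ ball (1 : ℂ) (1 / 2), T / (Y.m n : ℂ) ∈ ball (0 : ℂ) Sh.ρ) {mdl : ℂ → ℂ} {K : Set ℂ}
    {r₁ L δ₀ ε η₀ δ : ℝ} (htr : S7TrackProp Y.fst mdl K r₁ L δ₀ ε η₀) (hδ : δ ≤ δ₀) (hδ1 : δ ≤ 1)
    (hcl : ∀ T ∈ ball (1 : ℂ) (1 / 2),
      S7Close Y.fst (Y.fF n T) (Y.fQ n T) (Y.fW n T) {σ | ∃ y ∈ K, ‖σ - mdl y‖ ≤ 2} η₀)
    (hsm : ∀ T ∈ ball (1 : ℂ) (1 / 2), ‖Y.stp n T‖ ≤ η₀) :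
    ∀ T ∈ (Y.upSys n sg R η hsg hR' hn).𝒯, ∀ y ∈ K, ∀ σ Jm : ℂ, ‖σ - mdl y‖ ≤ δ →
    ‖Jm - (mdl y - mdl (y - (Y.upSys n sg R η hsg hR' hn).up T)) / (Y.upSys n sg R η hsg hR' hn).up T‖
      ≤ δ →
    ∃ Jp : ℂ, ‖Jp - Jm‖ < r₁ ∧
      (Y.upSys n sg R η hsg hR' hn).uD T σ Jp * (Y.upSys n sg R η hsg hR' hn).uC T σ (-Jm) +
        (Y.upSys n sg R η hsg hR' hn).uD T σ (-Jm) * (Y.upSys n sg R η hsg hR' hn).uC T σ Jp = 0 ∧
      (Y.upSys n sg R η hsg hR' hn).uD' T σ Jp * (Y.upSys n sg R η hsg hR' hn).uC T σ (-Jm) +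
        (Y.upSys n sg R η hsg hR' hn).uD T σ (-Jm) * (Y.upSys n sg R η hsg hR' hn).uC' T σ Jp ≠ 0 ∧
      (∀ J : ℂ, ‖J - Jm‖ ≤ r₁ →
        (Y.upSys n sg R η hsg hR' hn).uD T σ J * (Y.upSys n sg R η hsg hR' hn).uC T σ (-Jm) +
          (Y.upSys n sg R η hsg hR' hn).uD T σ (-Jm) * (Y.upSys n sg R η hsg hR' hn).uC T σ J = 0 →
        J = Jp) ∧
      ‖Jp - (mdl (y + (Y.upSys n sg R η hsg hR' hn).up T) - mdl y) / (Y.upSys n sg R η hsg hR' hn).up T‖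
        ≤ ‖Jm - (mdl y - mdl (y - (Y.upSys n sg R η hsg hR' hn).up T)) /
            (Y.upSys n sg R η hsg hR' hn).up T‖ +
        ‖(Y.upSys n sg R η hsg hR' hn).up T‖ * (L * (‖σ - mdl y‖ +
          ‖Jm - (mdl y - mdl (y - (Y.upSys n sg R η hsg hR' hn).up T)) /
            (Y.upSys n sg R η hsg hR' hn).up T‖) + ε) := by
  intro T hT y hy σ Jm h1 h2
  have hTb : T ∈ ball (1 : ℂ) (1 / 2) := s7Steep_subset hR' hT
  have hσW : σ ∈ Y.fW n T := (hcl T hTb σ ⟨y, hy, by linarith⟩).1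
  refine htr (Y.fF n T) (Y.fQ n T) (Y.fW n T) ((sg : ℂ) * Y.stp n T) y σ Jm _ _ _ _ _ (Y.fld n hTb) hy
    ((Y.upSys n sg R η hsg hR' hn).up_ne T hT) (by rw [Y.up_norm n hsg]; exact hsm T hTb) ?_
    (h1.trans hδ) (h2.trans hδ) (Y.up_fast n hsg hTb hσW)
  intro σ' hσ'
  refine hcl T hTb σ' ⟨y, hy, ?_⟩
  have h3 : ‖σ' - σ‖ ≤ 1 := by simpa [dist_eq_norm] using hσ'
  have h4 : ‖σ' - mdl y‖ ≤ ‖σ' - σ‖ + ‖σ - mdl y‖ := by
    simpa using norm_add_le (σ' - σ) (σ - mdl y)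
  linarith

end S7Sys

end Claimed.Agent.R269
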