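/-
Row 269, P1 Section 7: STEEP TRACKING, the induction at a fixed index (HOST-FREE).   helper237.
See `S7/SteepDefs.lean` for the interface.  `s7up_step`: `S7IH v → hm ≤ v → S7IH (v + c)`;  `s7up_main`: all of `U` is reached with error `≤ β`.
-/
import Claimed.Agent.R269.S7.SteepDefs

set_option autoImplicit false

namespace Claimed.Agent.R269

open Complex Filter Topology Set Metric
open scoped Real

/-! ### geometry of the trapezoids -/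

theorem s7TrapO_isOpen (xc w Λ lo hi : ℝ) : IsOpen (s7TrapO xc w Λ lo hi) := by
  have h1 : IsOpen {y : ℂ | lo < y.im} := isOpen_lt continuous_const Complex.continuous_im
  have h2 : IsOpen {y : ℂ | y.im < hi} := isOpen_lt Complex.continuous_im continuous_const
  have h3 : IsOpen {y : ℂ | |y.re - xc| < w + Λ * (hi - y.im)} :=
    isOpen_lt (by fun_prop) (by fun_prop)
  exact h1.inter (h2.inter h3)

theorem S7Par.U_isOpen (P : S7Par) : IsOpen P.U := s7TrapO_isOpen _ _ _ _ _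

theorem S7Par.U_subset_K (P : S7Par) (hκ : 0 < P.κ) : P.U ⊆ P.K := by
  rintro y ⟨h1, h2, h3⟩
  exact ⟨by linarith, h2.le, by linarith⟩

/-- a downward steep step stays in `U` as long as the height does. -/
theorem S7Par.U_down (P : S7Par) {y a : ℂ} (hy : y ∈ P.U) (h0 : 0 ≤ a.im)
    (ha : |a.re| ≤ P.Λ * a.im) (hlo : P.hb - P.κ / 2 < y.im - a.im) : y - a ∈ P.U := by
  obtain ⟨h1, h2, h3⟩ := hy
  refine ⟨by simpa using hlo, by simp only [Complex.sub_im]; linarith, ?_⟩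
  simp only [Complex.sub_re, Complex.sub_im]
  have h4 : |y.re - a.re - xc P| ≤ |y.re - xc P| + |a.re| := by
    have : y.re - a.re - xc P = (y.re - xc P) - a.re := by ring
    rw [this]; exact abs_sub _ _
  nlinarith

/-- a short downward steep step from `U` stays in `K`. -/
theorem S7Par.K_down (P : S7Par) {y a : ℂ} (hy : y ∈ P.U) (h0 : 0 ≤ a.im)
    (ha : |a.re| ≤ P.Λ * a.im) (hs : a.im ≤ P.κ / 2) : y - a ∈ P.K := by
  obtain ⟨h1, h2, h3⟩ := hy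
  refine ⟨by simp only [Complex.sub_im]; linarith, by simp only [Complex.sub_im]; linarith, ?_⟩
  simp only [Complex.sub_re, Complex.sub_im]
  have h4 : |y.re - a.re - xc P| ≤ |y.re - xc P| + |a.re| := by
    have : y.re - a.re - xc P = (y.re - xc P) - a.re := by ring
    rw [this]; exact abs_sub _ _
  nlinarith

/-- going down vertically stays in `U`. -/
theorem S7Par.U_vert (P : S7Par) (hΛ : 0 ≤ P.Λ) {y : ℂ} (hy : y ∈ P.U) {τ : ℝ}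
    (h1 : P.hb - P.κ / 2 < τ) (h2 : τ ≤ y.im) : (⟨y.re, τ⟩ : ℂ) ∈ P.U := by
  obtain ⟨k1, k2, k3⟩ := hy
  refine ⟨h1, lt_of_le_of_lt h2 k2, ?_⟩
  show |y.re - P.xc| < P.w + P.κ / 2 + P.Λ * (P.ht - τ)
  nlinarith

/-- the norm of a steep step. -/
theorem s7_norm_steep {a : ℂ} {Λ : ℝ} (h0 : 0 ≤ a.im) (ha : |a.re| ≤ Λ * a.im) :
    ‖a‖ ≤ (1 + Λ) * a.im := by
  have := Complex.norm_le_abs_re_add_abs_im a
  rw [abs_of_nonneg h0] at this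
  linarith

/-! ### the arithmetic of the errors -/

theorem s7_err_arith {B : ℝ → ℝ} {L ε' Λ : ℝ} (hL : 0 ≤ L) (hε : 0 ≤ ε')
    (hB : ∀ v s t : ℝ, 0 ≤ t → t ≤ (1 + Λ) * s →
      B v * (1 + (2 * L + 2) * t) + (2 * L + 2) * t * ε' ≤ B (v + s))
    {e₁ j₁ ew jw t v s : ℝ} (he₁ : 0 ≤ e₁) (hj₁ : 0 ≤ j₁) (hE : e₁ + j₁ ≤ B v) (ht0 : 0 ≤ t)
    (ht1 : t ≤ 1) (hts : t ≤ (1 + Λ) * s) (hjw : jw ≤ j₁ + t * (L * (e₁ + j₁) + ε'))
    (hew : ew ≤ e₁ + t * jw) : ew + jw ≤ B (v + s) := by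
  refine le_trans ?_ (hB v s t ht0 hts)
  have hX : 0 ≤ L * (e₁ + j₁) + ε' := by positivity
  have h1 : t * jw ≤ t * (j₁ + t * (L * (e₁ + j₁) + ε')) := mul_le_mul_of_nonneg_left hjw ht0
  have h2 : t * (t * (L * (e₁ + j₁) + ε')) ≤ t * (L * (e₁ + j₁) + ε') := by
    have : t * (L * (e₁ + j₁) + ε') ≤ 1 * (L * (e₁ + j₁) + ε') := mul_le_mul_of_nonneg_right ht1 hX
    calc t * (t * (L * (e₁ + j₁) + ε')) ≤ t * (1 * (L * (e₁ + j₁) + ε')) :=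
          mul_le_mul_of_nonneg_left this ht0
      _ = t * (L * (e₁ + j₁) + ε') := by ring
  have h3 : (e₁ + j₁) * (1 + (2 * L + 2) * t) ≤ B v * (1 + (2 * L + 2) * t) :=
    mul_le_mul_of_nonneg_right hE (by positivity)
  have h4 : 0 ≤ t * e₁ := by positivity
  have h5 : 0 ≤ t * (e₁ + j₁) := by positivity
  have h6 : 0 ≤ L * t * ε' := by positivity
  nlinarith

/-- the set of joint holomorphy of the fast functions. -/
def S7Up.FD (X : S7Up) : Set (ℂ × ℂ × ℂ) :=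
  {p : ℂ × ℂ × ℂ | p.1 ∈ X.𝒯 ∧ p.2.1 ∈ X.W p.1 ∧ p.2.1 + X.up p.1 * p.2.2 ∈ X.W p.1}

/-- the state one step below `z`. -/
def S7Up.st (X : S7Up) (z : ℂ × ℂ) : ℂ := X.Sc (z.1 - X.up z.2, z.2)

/-- the incoming difference quotient one step below `z`. -/
noncomputable def S7Up.jm (X : S7Up) (z : ℂ × ℂ) : ℂ :=
  (X.Sc (z.1 - X.up z.2, z.2) - X.Sc (z.1 - X.up z.2 - X.up z.2, z.2)) / X.up z.2

/-- the step function at the state one step below `z`. -/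
noncomputable def S7Up.Phi (X : S7Up) (z : ℂ × ℂ) (J : ℂ) : ℂ :=
  X.uD z.2 (X.st z) J * X.uC z.2 (X.st z) (-X.jm z) + X.uD z.2 (X.st z) (-X.jm z) * X.uC z.2 (X.st z) J

/-- its derivative in `J`. -/
noncomputable def S7Up.Phi' (X : S7Up) (z : ℂ × ℂ) (J : ℂ) : ℂ :=
  X.uD' z.2 (X.st z) J * X.uC z.2 (X.st z) (-X.jm z) + X.uD z.2 (X.st z) (-X.jm z) * X.uC' z.2 (X.st z) J

theorem S7Up.up_snd_diff (X : S7Up) {O : Set (ℂ × ℂ)} (hT : ∀ z ∈ O, z.2 ∈ X.𝒯) :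
    DifferentiableOn ℂ (fun z : ℂ × ℂ => X.up z.2) O :=
  X.up_diff.comp differentiableOn_snd (fun z hz => hT z hz)

theorem S7Up.st_diff (X : S7Up) {O : Set (ℂ × ℂ)} (hT : ∀ z ∈ O, z.2 ∈ X.𝒯)
    (h1 : ∀ z ∈ O, (z.1 - X.up z.2, z.2) ∈ X.dom) : DifferentiableOn ℂ X.st O :=
  X.Sc_diff.comp (f := fun z : ℂ × ℂ => (z.1 - X.up z.2, z.2))
    ((differentiableOn_fst.sub (X.up_snd_diff hT)).prodMk differentiableOn_snd) (fun z hz => h1 z hz)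

theorem S7Up.jm_diff (X : S7Up) {O : Set (ℂ × ℂ)} (hT : ∀ z ∈ O, z.2 ∈ X.𝒯)
    (h1 : ∀ z ∈ O, (z.1 - X.up z.2, z.2) ∈ X.dom)
    (h2 : ∀ z ∈ O, (z.1 - X.up z.2 - X.up z.2, z.2) ∈ X.dom) : DifferentiableOn ℂ X.jm O := by
  have e2 : DifferentiableOn ℂ (fun z : ℂ × ℂ => X.Sc (z.1 - X.up z.2 - X.up z.2, z.2)) O :=
    X.Sc_diff.comp (f := fun z : ℂ × ℂ => (z.1 - X.up z.2 - X.up z.2, z.2))
      (((differentiableOn_fst.sub (X.up_snd_diff hT)).sub (X.up_snd_diff hT)).prodMk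
        differentiableOn_snd) (fun z hz => h2 z hz)
  have e3 := ((X.st_diff hT h1).sub e2).mul
    ((X.up_snd_diff hT).inv (fun z hz => X.up_ne _ (hT z hz)))
  exact e3.congr (fun z _ => by simp only [S7Up.jm, S7Up.st, div_eq_mul_inv, Pi.sub_apply, Pi.mul_apply, Pi.inv_apply])

/-- `σ - up · Jm` is the state two steps below. -/
theorem S7Up.st_sub (X : S7Up) {z : ℂ × ℂ} (hT : z.2 ∈ X.𝒯) :
    X.st z + X.up z.2 * (-X.jm z) = X.Sc (z.1 - X.up z.2 - X.up z.2, z.2) := by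
  have := X.up_ne _ hT
  unfold S7Up.st S7Up.jm
  field_simp
  ring

/-- **holomorphy of the root.** -/
theorem S7Up.root_holo (X : S7Up) {O : Set (ℂ × ℂ)} (hO : IsOpen O) (hT : ∀ z ∈ O, z.2 ∈ X.𝒯)
    (h1 : ∀ z ∈ O, (z.1 - X.up z.2, z.2) ∈ X.dom)
    (h2 : ∀ z ∈ O, (z.1 - X.up z.2 - X.up z.2, z.2) ∈ X.dom) {r : ℝ} {Jp : ℂ × ℂ → ℂ}
    (hin : ∀ z ∈ O, ‖Jp z - X.jm z‖ < r) (hroot : ∀ z ∈ O, X.Phi z (Jp z) = 0)
    (hnd : ∀ z ∈ O, X.Phi' z (Jp z) ≠ 0)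
    (huniq : ∀ z ∈ O, ∀ J : ℂ, ‖J - X.jm z‖ ≤ r → X.Phi z J = 0 → J = Jp z)
    (hW : ∀ z ∈ O, X.st z + X.up z.2 * Jp z ∈ X.W z.2) : DifferentiableOn ℂ Jp O := by
  have hst := X.st_diff hT h1
  have hjm := X.jm_diff hT h1 h2
  -- the two maps into `FD`
  set O' : Set ((ℂ × ℂ) × ℂ) := O ×ˢ univ with hO'
  have hO'o : IsOpen O' := hO.prod isOpen_univ
  have hfst : MapsTo (fun q : (ℂ × ℂ) × ℂ => q.1) O' O := fun q hq => hq.1
  have dT : DifferentiableOn ℂ (fun q : (ℂ × ℂ) × ℂ => q.1.2) O' :=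
    (differentiable_snd.comp differentiable_fst).differentiableOn
  have dst : DifferentiableOn ℂ (fun q : (ℂ × ℂ) × ℂ => X.st q.1) O' :=
    hst.comp differentiableOn_fst hfst
  have djm : DifferentiableOn ℂ (fun q : (ℂ × ℂ) × ℂ => -X.jm q.1) O' :=
    (hjm.comp differentiableOn_fst hfst).neg
  have dg1 : DifferentiableOn ℂ (fun q : (ℂ × ℂ) × ℂ => (q.1.2, X.st q.1, q.2)) O' :=
    dT.prodMk (dst.prodMk differentiableOn_snd)
  have dg2 : DifferentiableOn ℂ (fun q : (ℂ × ℂ) × ℂ => (q.1.2, X.st q.1, -X.jm q.1)) O' :=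
    dT.prodMk (dst.prodMk djm)
  set 𝒰 : Set ((ℂ × ℂ) × ℂ) :=
    (O' ∩ (fun q : (ℂ × ℂ) × ℂ => (q.1.2, X.st q.1, q.2)) ⁻¹' X.FD) ∩
      (O' ∩ (fun q : (ℂ × ℂ) × ℂ => (q.1.2, X.st q.1, -X.jm q.1)) ⁻¹' X.FD) with h𝒰
  have h𝒰o : IsOpen 𝒰 :=
    (dg1.continuousOn.isOpen_inter_preimage hO'o X.FD_open).inter
      (dg2.continuousOn.isOpen_inter_preimage hO'o X.FD_open)
  have h𝒰O' : 𝒰 ⊆ O' := fun q hq => hq.1.1
  have hΦ : DifferentiableOn ℂ (fun q : (ℂ × ℂ) × ℂ => X.Phi q.1 q.2) 𝒰 := by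
    have a1 := X.D_diff.comp (dg1.mono h𝒰O') (fun q hq => hq.1.2)
    have a2 := X.C_diff.comp (dg2.mono h𝒰O') (fun q hq => hq.2.2)
    have a3 := X.D_diff.comp (dg2.mono h𝒰O') (fun q hq => hq.2.2)
    have a4 := X.C_diff.comp (dg1.mono h𝒰O') (fun q hq => hq.1.2)
    exact (a1.mul a2).add (a3.mul a4)
  have hstW : ∀ z ∈ O, X.st z ∈ X.W z.2 := fun z hz => X.Sc_mem _ _ (h1 z hz)
  have hmem2 : ∀ z ∈ O, (z.2, X.st z, -X.jm z) ∈ X.FD := fun z hz =>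
    ⟨hT z hz, hstW z hz, by
      show X.st z + X.up z.2 * (-X.jm z) ∈ X.W z.2
      rw [X.st_sub (hT z hz)]; exact X.Sc_mem _ _ (h2 z hz)⟩
  refine ch_root_holo (E := ℂ × ℂ) hO h𝒰o hΦ (J := Jp) (c := X.jm) (r := r) hjm.continuousOn
    (fun z hz => ⟨⟨⟨hz, mem_univ _⟩, ⟨hT z hz, hstW z hz, hW z hz⟩⟩, ⟨⟨hz, mem_univ _⟩, hmem2 z hz⟩⟩)
    hroot hin (fun z hz w hw _ h0 => huniq z hz w hw.le h0) (fun z hz => ?_)
  have hd : HasDerivAt (fun w => X.Phi z w) (X.Phi' z (Jp z)) (Jp z) := by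
    have b1 := X.D_deriv z.2 (hT z hz) (X.st z) (hstW z hz) (Jp z) (hW z hz)
    have b2 := X.C_deriv z.2 (hT z hz) (X.st z) (hstW z hz) (Jp z) (hW z hz)
    exact (b1.mul_const _).add (b2.const_mul _)
  rw [hd.deriv]
  exact hnd z hz

/-! ### the induction step -/

section step

variable {X : S7Up} {mdl : ℂ → ℂ} {P : S7Par} {B : ℝ → ℝ}

theorem S7UpHyp.im_up (H : S7UpHyp X mdl P B) {T : ℂ} (hT : T ∈ X.𝒯) :
    0 < (X.up T).im ∧ (X.up T).im ≤ P.c' := by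
  obtain ⟨h1, -, h3⟩ := H.steep T hT
  exact ⟨H.c_pos.trans h1, ((le_abs_self _).trans (Complex.abs_im_le_norm _)).trans h3⟩

theorem S7UpHyp.below (H : S7UpHyp X mdl P B) {T y : ℂ} (hT : T ∈ X.𝒯) (hy : y ∈ P.U)
    (h1 : P.hm - P.c' < y.im) {v : ℝ} (h2 : y.im < v + P.c) :
    y - X.up T ∈ P.U ∧ (y - X.up T).im < v := by
  obtain ⟨k1, k2, k3⟩ := H.steep T hT
  obtain ⟨k4, k5⟩ := H.im_up hT
  refine ⟨P.U_down hy k4.le k2 ?_, ?_⟩
  · linarith [H.c'_le_hm, H.κ_pos]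
  · simp only [Complex.sub_im]; linarith

theorem S7UpHyp.point (H : S7UpHyp X mdl P B) {v : ℝ} (IH : S7IH X mdl P B v) {z : ℂ × ℂ}
    (hT : z.2 ∈ X.𝒯) (hy : z.1 ∈ P.U) (h1 : P.hm - P.c' < z.1.im) (h2 : z.1.im < v + P.c) :
    (z.1 - X.up z.2, z.2) ∈ X.dom ∧ (z.1 - X.up z.2 - X.up z.2, z.2) ∈ X.dom ∧
    ∃ Jp : ℂ, ‖Jp - X.jm z‖ < P.r₁ ∧ X.Phi z Jp = 0 ∧ X.Phi' z Jp ≠ 0 ∧
      (∀ J : ℂ, ‖J - X.jm z‖ ≤ P.r₁ → X.Phi z J = 0 → J = Jp) ∧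
      ‖X.st z + X.up z.2 * Jp - mdl z.1‖ +
        ‖Jp - (mdl z.1 - mdl (z.1 - X.up z.2)) / X.up z.2‖ ≤ B z.1.im := by
  obtain ⟨hU1, hv1⟩ := H.below hT hy h1 h2
  obtain ⟨d1, d2, hE⟩ := IH z.2 hT _ hU1 hv1
  obtain ⟨k1, k2, k3⟩ := H.steep z.2 hT
  obtain ⟨k4, k5⟩ := H.im_up hT
  have hne := X.up_ne _ hT
  refine ⟨d1, d2, ?_⟩
  have hBβ : B (z.1 - X.up z.2).im ≤ P.β := H.B_le _ hU1.2.1.le
  have he : ‖X.st z - mdl (z.1 - X.up z.2)‖ ≤ P.δ₀ := by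
    have := norm_nonneg ((X.Sc (z.1 - X.up z.2, z.2) - X.Sc (z.1 - X.up z.2 - X.up z.2, z.2)) / X.up z.2
      - (mdl (z.1 - X.up z.2) - mdl (z.1 - X.up z.2 - X.up z.2)) / X.up z.2)
    have h3 := H.β_le_δ₀
    show ‖X.Sc (z.1 - X.up z.2, z.2) - mdl (z.1 - X.up z.2)‖ ≤ P.δ₀
    linarith
  have hj : ‖X.jm z - (mdl (z.1 - X.up z.2) - mdl (z.1 - X.up z.2 - X.up z.2)) / X.up z.2‖ ≤ P.δ₀ := by
    have := norm_nonneg (X.Sc (z.1 - X.up z.2, z.2) - mdl (z.1 - X.up z.2))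
    have h3 := H.β_le_δ₀
    show ‖(X.Sc (z.1 - X.up z.2, z.2) - X.Sc (z.1 - X.up z.2 - X.up z.2, z.2)) / X.up z.2
      - (mdl (z.1 - X.up z.2) - mdl (z.1 - X.up z.2 - X.up z.2)) / X.up z.2‖ ≤ P.δ₀
    linarith
  obtain ⟨Jp, p1, p2, p3, p4, p5⟩ := H.solve z.2 hT _ (P.U_subset_K H.κ_pos hU1) (X.st z) (X.jm z) he hj
  refine ⟨Jp, p1, p2, p3, p4, ?_⟩
  rw [sub_add_cancel] at p5
  have hew : ‖X.st z + X.up z.2 * Jp - mdl z.1‖ ≤ ‖X.st z - mdl (z.1 - X.up z.2)‖ +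
      ‖X.up z.2‖ * ‖Jp - (mdl z.1 - mdl (z.1 - X.up z.2)) / X.up z.2‖ := by
    have e1 : X.st z + X.up z.2 * Jp - mdl z.1 = (X.st z - mdl (z.1 - X.up z.2)) +
        X.up z.2 * (Jp - (mdl z.1 - mdl (z.1 - X.up z.2)) / X.up z.2) := by
      field_simp
      ring
    rw [e1, ← norm_mul]
    exact norm_add_le _ _
  have him : z.1.im = (z.1 - X.up z.2).im + (X.up z.2).im := by simp
  rw [him]
  exact s7_err_arith H.L_nonneg H.ε'_nonneg H.B_step (norm_nonneg _) (norm_nonneg _) hE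
    (norm_nonneg _) (k3.trans H.c'_le_one) (s7_norm_steep k4.le k2) p5 hew

theorem S7UpHyp.overlap (H : S7UpHyp X mdl P B) {v : ℝ} (IH : S7IH X mdl P B v) {z : ℂ × ℂ}
    (hT : z.2 ∈ X.𝒯) (hy : z.1 ∈ P.U) (h1 : P.hm - P.c' < z.1.im) (h2 : z.1.im < v) {Jp : ℂ}
    (huniq : ∀ J : ℂ, ‖J - X.jm z‖ ≤ P.r₁ → X.Phi z J = 0 → J = Jp) :
    X.st z + X.up z.2 * Jp = X.Sc z := by
  obtain ⟨hU1, hv1⟩ := H.below hT hy h1 (by linarith [H.c_pos] : z.1.im < v + P.c)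
  obtain ⟨d1, d2, hE1⟩ := IH z.2 hT _ hU1 hv1
  obtain ⟨d0, -, hE0⟩ := IH z.2 hT _ hy h2
  have hne := X.up_ne _ hT
  have hB1 : B (z.1 - X.up z.2).im ≤ P.β := H.B_le _ hU1.2.1.le
  have hB0 : B z.1.im ≤ P.β := H.B_le _ hy.2.1.le
  have hrec := X.recur (z.1 - X.up z.2) z.2 hT d2 d1 (by rw [sub_add_cancel]; exact d0)
  rw [sub_add_cancel] at hrec
  have hm2 := H.mdl2 z.2 hT _ (P.U_subset_K H.κ_pos hU1)
  rw [sub_add_cancel] at hm2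
  have hJ := huniq ((X.Sc (z.1, z.2) - X.Sc (z.1 - X.up z.2, z.2)) / X.up z.2) ?_ hrec
  · rw [← hJ]
    show X.Sc (z.1 - X.up z.2, z.2) + X.up z.2 * ((X.Sc (z.1, z.2) - X.Sc (z.1 - X.up z.2, z.2)) / X.up z.2)
      = X.Sc (z.1, z.2)
    field_simp
    ring
  · have n0 := norm_nonneg (X.Sc (z.1, z.2) - mdl z.1)
    have n1 := norm_nonneg (X.Sc (z.1 - X.up z.2, z.2) - mdl (z.1 - X.up z.2))
    have e1 : (X.Sc (z.1, z.2) - X.Sc (z.1 - X.up z.2, z.2)) / X.up z.2 - X.jm z =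
        ((X.Sc (z.1, z.2) - X.Sc (z.1 - X.up z.2, z.2)) / X.up z.2
            - (mdl z.1 - mdl (z.1 - X.up z.2)) / X.up z.2) +
          ((mdl z.1 - mdl (z.1 - X.up z.2)) / X.up z.2
            - (mdl (z.1 - X.up z.2) - mdl (z.1 - X.up z.2 - X.up z.2)) / X.up z.2) -
          ((X.Sc (z.1 - X.up z.2, z.2) - X.Sc (z.1 - X.up z.2 - X.up z.2, z.2)) / X.up z.2
            - (mdl (z.1 - X.up z.2) - mdl (z.1 - X.up z.2 - X.up z.2)) / X.up z.2) := by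
      unfold S7Up.jm
      ring
    rw [e1]
    refine (norm_sub_le _ _).trans ?_
    refine (add_le_add_left (norm_add_le _ _) _).trans ?_
    linarith [H.root_room]

/-- **the induction step.** -/
theorem s7up_step (H : S7UpHyp X mdl P B) {v : ℝ} (hv : P.hm ≤ v) (IH : S7IH X mdl P B v) :
    S7IH X mdl P B (v + P.c) := by
  obtain ⟨O, hOdef⟩ : ∃ O : Set (ℂ × ℂ),
      O = {z | z.2 ∈ X.𝒯 ∧ z.1 ∈ P.U ∧ P.hm - P.c' < z.1.im ∧ z.1.im < v + P.c} := ⟨_, rfl⟩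
  have hOmem : ∀ z : ℂ × ℂ,
      z ∈ O ↔ (z.2 ∈ X.𝒯 ∧ z.1 ∈ P.U ∧ P.hm - P.c' < z.1.im ∧ z.1.im < v + P.c) := by
    intro z; rw [hOdef]; rfl
  have hcim : Continuous (fun z : ℂ × ℂ => z.1.im) := Complex.continuous_im.comp continuous_fst
  have hO : IsOpen O := by
    rw [hOdef]
    exact (X.𝒯_open.preimage continuous_snd).inter ((P.U_isOpen.preimage continuous_fst).inter
      ((isOpen_lt continuous_const hcim).inter (isOpen_lt hcim continuous_const)))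
  have hpt := fun (z : ℂ × ℂ) (hz : z ∈ O) =>
    H.point IH ((hOmem z).1 hz).1 ((hOmem z).1 hz).2.1 ((hOmem z).1 hz).2.2.1 ((hOmem z).1 hz).2.2.2
  have hex := fun (z : ℂ × ℂ) (hz : z ∈ O) => (hpt z hz).2.2
  choose! Jp hJp using hex
  have hOT : ∀ z ∈ O, z.2 ∈ X.𝒯 := fun z hz => ((hOmem z).1 hz).1
  have hW : ∀ z ∈ O, X.st z + X.up z.2 * Jp z ∈ X.W z.2 := by
    intro z hz
    have hy := ((hOmem z).1 hz).2.1
    refine H.memW z.2 (hOT z hz) z.1 (P.U_subset_K H.κ_pos hy) _ ?_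
    have h1 := (hJp z hz).2.2.2.2
    have h2 := norm_nonneg (Jp z - (mdl z.1 - mdl (z.1 - X.up z.2)) / X.up z.2)
    have h3 : B z.1.im ≤ P.β := H.B_le _ hy.2.1.le
    linarith [H.β_le_one]
  have hJd : DifferentiableOn ℂ Jp O :=
    X.root_holo hO hOT (fun z hz => (hpt z hz).1) (fun z hz => (hpt z hz).2.1)
      (fun z hz => (hJp z hz).1) (fun z hz => (hJp z hz).2.1) (fun z hz => (hJp z hz).2.2.1)
      (fun z hz => (hJp z hz).2.2.2.1) hW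
  have hwd : DifferentiableOn ℂ (fun z => X.st z + X.up z.2 * Jp z) O :=
    (X.st_diff hOT (fun z hz => (hpt z hz).1)).add ((X.up_snd_diff hOT).mul hJd)
  have hov : ∀ z ∈ O, z.1.im < v → X.st z + X.up z.2 * Jp z = X.Sc z := fun z hz hzv =>
    H.overlap IH ((hOmem z).1 hz).1 ((hOmem z).1 hz).2.1 ((hOmem z).1 hz).2.2.1 hzv
      (hJp z hz).2.2.2.1
  have hatt : ∀ z ∈ O, ∃ η : ℝ, η ≤ z.1.im ∧ (∀ τ ∈ Icc η z.1.im, ((⟨z.1.re, τ⟩ : ℂ), z.2) ∈ O) ∧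
      ((⟨z.1.re, η⟩ : ℂ), z.2) ∈ X.dom ∧
      (fun z => X.st z + X.up z.2 * Jp z) =ᶠ[𝓝 ((⟨z.1.re, η⟩ : ℂ), z.2)] X.Sc := by
    intro z hz
    obtain ⟨z1, z2, z3, z4⟩ := (hOmem z).1 hz
    have hc' := H.c'_pos
    have hη1 : P.hm - P.c' < min z.1.im (P.hm - P.c' / 2) := lt_min z3 (by linarith)
    have hseg : ∀ τ ∈ Icc (min z.1.im (P.hm - P.c' / 2)) z.1.im, ((⟨z.1.re, τ⟩ : ℂ), z.2) ∈ O := by
      intro τ hτ
      refine (hOmem _).2 ⟨z1, P.U_vert H.Λ_nonneg z2 ?_ hτ.2, ?_, ?_⟩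
      · linarith [hτ.1, H.c'_le_hm, H.κ_pos]
      · show P.hm - P.c' < τ
        linarith [hτ.1]
      · show τ < v + P.c
        linarith [hτ.2]
    have hp := hseg _ ⟨le_rfl, min_le_left _ _⟩
    have hpv : min z.1.im (P.hm - P.c' / 2) < v := by
      have := min_le_right z.1.im (P.hm - P.c' / 2)
      linarith
    refine ⟨min z.1.im (P.hm - P.c' / 2), min_le_left _ _, hseg, ?_, ?_⟩
    · exact (IH z.2 z1 _ ((hOmem _).1 hp).2.1 hpv).1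
    · have hopen : IsOpen (O ∩ {z : ℂ × ℂ | z.1.im < v}) := hO.inter (isOpen_lt hcim continuous_const)
      filter_upwards [hopen.mem_nhds ⟨hp, hpv⟩] with q hq
      exact hov q hq.1 hq.2
  obtain ⟨hsub, heq⟩ := X.extend O hO hOT _ hwd hW hatt
  intro T hT y hy hyv
  by_cases hlt : y.im < v
  · exact IH T hT y hy hlt
  · have hz : (y, T) ∈ O := (hOmem _).2 ⟨hT, hy, by
      show P.hm - P.c' < y.im
      linarith [H.c'_pos], hyv⟩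
    refine ⟨hsub hz, (hpt _ hz).1, ?_⟩
    have h1 := (hJp _ hz).2.2.2.2
    have h2 : X.st (y, T) + X.up T * Jp (y, T) = X.Sc (y, T) := heq hz
    have hne := X.up_ne _ hT
    have h3 : (X.Sc (y, T) - X.Sc (y - X.up T, T)) / X.up T = Jp (y, T) := by
      rw [← h2]
      show (X.Sc (y - X.up T, T) + X.up T * Jp (y, T) - X.Sc (y - X.up T, T)) / X.up T = Jp (y, T)
      field_simp
      ring
    rw [h3, ← h2]
    exact h1

/-- **the steep induction at a fixed index.** -/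
theorem s7up_main (H : S7UpHyp X mdl P B) :
    ∀ T ∈ X.𝒯, ∀ y ∈ P.U, (y, T) ∈ X.dom ∧ ‖X.Sc (y, T) - mdl y‖ ≤ P.β := by
  have hk : ∀ k : ℕ, S7IH X mdl P B (P.hm + k * P.c) := by
    intro k
    induction k with
    | zero => simpa using H.base
    | succ k ih =>
      have h1 : P.hm ≤ P.hm + k * P.c := by
        have := H.c_pos
        have : 0 ≤ (k : ℝ) * P.c := by positivity
        linarith
      have := s7up_step H h1 ih
      have e : P.hm + ((k + 1 : ℕ) : ℝ) * P.c = P.hm + k * P.c + P.c := by push_cast; ring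
      rw [e]; exact this
  intro T hT y hy
  obtain ⟨k, hk'⟩ := exists_nat_gt ((P.ht - P.hm) / P.c)
  have h1 : P.ht < P.hm + k * P.c := by
    have := (div_lt_iff₀ H.c_pos).1 hk'
    linarith
  obtain ⟨d0, -, hE⟩ := hk k T hT y hy (hy.2.1.trans h1)
  refine ⟨d0, ?_⟩
  have h2 := norm_nonneg ((X.Sc (y, T) - X.Sc (y - X.up T, T)) / X.up T - (mdl y - mdl (y - X.up T)) / X.up T)
  have h3 : B y.im ≤ P.β := H.B_le _ hy.2.1.le
  linarith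

end step

end Claimed.Agent.R269
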