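/-
Row 269, P1 Section 7: STEEP TRACKING (GST).   Owner of the statements: helper146.

For parameters `T` in the open steep set `𝒯 = {|T - 1| < R, η < sg · Im T}` (`sg = ±1`) the upward step is `â = sg · stp n T`, `Im â ≥ η/(ℓ m) > 0`, `|Re â| ≤ Λ Im â`, `|â| ≤ (1+Λ) Im â`.
`s7Trap xc w Λ lo hi` is the closed trapezoid `lo ≤ Im y ≤ hi`, `|Re y - xc| ≤ w + Λ (hi - Im y)`; it is closed under `y ↦ y - â` as long as `Im` stays `≥ lo`.
THEOREM `S7Sys.steep`: if `Sc n → mdl` on the lower part `Im y ≤ h0` of the `κ`-enlarged trapezoid (for `T ∈ 𝒯`), and the enlarged trapezoid lies in the domain of the model, then `Sc n → mdl` on the trapezoid.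

PROOF.  `K = s7Trap xc (w+κ) Λ (hb-κ) ht` (compact, `⊆ Ω`); `r₁, L, δ₀` from `s7_track_step`.  Let `ε_f > 0`.  `L'' = L + 2`, `B(v) = (E₀ + ε') exp(L'' (1+Λ) (v - hb + κ)) - ε'`  (so `B(v + Im â) ≥ B(v)(1 + L''|â|) + L''|â| ε'`),
 `E₀, ε'` so small that `B(ht) ≤ min(ε_f, δ₀, r₁/4, 1/2)`.  `η₀` from `s7_track_step` for `ε'`.
 Take `n` so large that: `param_small`; `|â| ≤ min(η₀, κ/8(1+Λ), (h0-hb)/8)`; `close` on the compact `{σ : ∃ y ∈ K, |σ - mdl y| ≤ 2}` with `η₀`; on the lower part `Low = {y ∈ K, Im y ≤ h0}`: in `dom`, `|Sc - mdl| ≤ E₀/2·min(1,κ₂)`;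
 by `conv_quot` (with `A = {y ∈ s7Trap xc (w+κ/2) Λ (hb-κ/2) ht, Im y ≤ hm}`, `hm = (hb+h0)/2`, radius `κ₂ = min(κ/(4(1+Λ)), (h0-hb)/4)`): `j ≤ E₀/2` on `A`.
 Errors at `z = (y,T)`:  `e(z) = |Sc z - mdl y|`, `j(z) = |(Sc z - Sc (z-â))/â - (mdl y - mdl (y-â))/â|`, `E = e + j`.
 CLAIM(k): every `z = (y,T)`, `T ∈ 𝒯`, `y ∈ P° := interior-type open trapezoid {hb - κ/2 < Im y < ht + κ', |Re y - xc| < w + κ/2 + Λ (ht - Im y)}`, `Im y ≤ ht`, `Im y < hm + k c`, `c = η/(ℓ m)`, lies in `dom n` and `E(z) ≤ B(Im y)`.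
 k = 0: the lower part.   STEP: `O = {z : T ∈ 𝒯, y ∈ P°, hm - 2c' < Im y < hm + (k+1) c}` (`c'` = a bound of `Im â`), `z₁ = z - â`, `z₂ = z - 2â` satisfy CLAIM(k) (or lie in the lower part).  State `σ = Sc z₁`, `Jm = (Sc z₁ - Sc z₂)/â`.
   `s7_track_step` with the explicit fast functions `Y.fC n T σ` ... for the step `stp n T` if `sg = 1`; for `sg = -1` use the reflected fast functions (`IsFast.refl`), which are the fast functions for the step `-stp n T`.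
   `Jp(z)` := the root; `w(z) = σ + â Jp(z)`.  Holomorphy of `Jp`: `ch_root_holo` with `E = ℂ × ℂ`, `Φ(z,J) = fD.. J * fC.. (-Jm z) + fD.. (-Jm z) * fC.. J` (`fast_diff`, `Sc_diff`), centre `c z = Jm z`, radius `r₁`.
   `w z ∈ fW`: `|w z - mdl y| ≤ 1` and `close`.   On `O ∩ {Im y < hm + k c}` (and on the lower part) `Sc z` itself gives a root `(Sc z - Sc z₁)/â` (`rec_fast`) within `r₁` of `Jm` (`j(z) + j(z₁) + C|â| < r₁`), so `w = Sc n` there.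
   `ext`: every `z ∈ O` is joined downwards inside `O` to a point with `Im y < hm` near which `w = Sc n`.  Hence `O ⊆ dom n`, `Sc n = w`, and `j(z) ≤ j(z₁) + |â| (L E(z₁) + ε')`, `e(z) ≤ e(z₁) + |â| j(z)` give `E(z) ≤ B(Im y)`.
 Finally `k` with `hm + k c > ht`.
REALISATION (helper237): `S7/SteepDefs.lean` (abstract interface `S7Up`, `S7UpHyp`), `S7/SteepStep.lean` (induction at a fixed index, host-free), `S7/SteepInst.lean` (instance from `Y`, both signs),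
 this file: barrier `s7B`, compactness, second difference of the model, `steep_fixed`, `steep_open` (strict top), `steep` (the top is gained from the margin of `K` in `Ω`).
-/
import Claimed.Agent.R269.S7.SteepStep
import Claimed.Agent.R269.S7.SteepInst
import Claimed.Agent.R269.S3.LibCA

set_option autoImplicit false

namespace Claimed.Agent.R269

open Complex Filter Topology Set Metric
open scoped Real

/-! ### the barrier -/

/-- the barrier `B(v) = (E₀ + ε') exp(M (v - v₀)) - ε'`. -/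
noncomputable def s7B (E₀ ε' M v₀ v : ℝ) : ℝ := (E₀ + ε') * Real.exp (M * (v - v₀)) - ε'

theorem s7B_ge {E₀ ε' M v₀ v : ℝ} (h0 : 0 ≤ E₀ + ε') (hM : 0 ≤ M) (hv : v₀ ≤ v) :
    E₀ ≤ s7B E₀ ε' M v₀ v := by
  have h1 : 1 ≤ Real.exp (M * (v - v₀)) := Real.one_le_exp (mul_nonneg hM (by linarith))
  unfold s7B
  nlinarith

theorem s7B_mono {E₀ ε' M v₀ v v' : ℝ} (h0 : 0 ≤ E₀ + ε') (hM : 0 ≤ M) (hv : v ≤ v') :
    s7B E₀ ε' M v₀ v ≤ s7B E₀ ε' M v₀ v' := by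
  have h1 : Real.exp (M * (v - v₀)) ≤ Real.exp (M * (v' - v₀)) :=
    Real.exp_le_exp.2 (mul_le_mul_of_nonneg_left (by linarith) hM)
  unfold s7B
  nlinarith

theorem s7B_step {E₀ ε' M₀ Λ v₀ : ℝ} (h0 : 0 ≤ E₀ + ε') (hM : 0 ≤ M₀) (v s t : ℝ) (_ht : 0 ≤ t)
    (hts : t ≤ (1 + Λ) * s) :
    s7B E₀ ε' (M₀ * (1 + Λ)) v₀ v * (1 + M₀ * t) + M₀ * t * ε' ≤ s7B E₀ ε' (M₀ * (1 + Λ)) v₀ (v + s) := by
  have e1 : Real.exp (M₀ * (1 + Λ) * (v + s - v₀)) =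
      Real.exp (M₀ * (1 + Λ) * (v - v₀)) * Real.exp (M₀ * (1 + Λ) * s) := by
    rw [← Real.exp_add]; congr 1; ring
  have h1 : 1 + M₀ * t ≤ Real.exp (M₀ * (1 + Λ) * s) := by
    have h2 := Real.add_one_le_exp (M₀ * (1 + Λ) * s)
    have h3 : M₀ * t ≤ M₀ * ((1 + Λ) * s) := mul_le_mul_of_nonneg_left hts hM
    linarith
  have h4 : 0 ≤ (E₀ + ε') * Real.exp (M₀ * (1 + Λ) * (v - v₀)) := mul_nonneg h0 (Real.exp_pos _).le
  have h5 := mul_le_mul_of_nonneg_left h1 h4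
  unfold s7B
  rw [e1]
  nlinarith

/-! ### compactness -/

theorem s7Trap_isCompact (xc w Λ lo hi : ℝ) (hΛ : 0 ≤ Λ) : IsCompact (s7Trap xc w Λ lo hi) := by
  have hcl : IsClosed (s7Trap xc w Λ lo hi) := by
    have h1 : IsClosed {y : ℂ | lo ≤ y.im} := isClosed_le continuous_const Complex.continuous_im
    have h2 : IsClosed {y : ℂ | y.im ≤ hi} := isClosed_le Complex.continuous_im continuous_const
    have h3 : IsClosed {y : ℂ | |y.re - xc| ≤ w + Λ * (hi - y.im)} :=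
      isClosed_le (by fun_prop) (by fun_prop)
    exact h1.inter (h2.inter h3)
  refine Metric.isCompact_of_isClosed_isBounded hcl ?_
  refine (Metric.isBounded_closedBall (x := (0 : ℂ))
    (r := (|xc| + |w + Λ * (hi - lo)|) + (|lo| + |hi|))).subset ?_
  rintro y ⟨h1, h2, h3⟩
  rw [mem_closedBall, dist_zero_right]
  refine (Complex.norm_le_abs_re_add_abs_im y).trans ?_
  have a1 : |y.im| ≤ |lo| + |hi| := by
    rw [abs_le]
    constructor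
    · linarith [neg_abs_le lo, abs_nonneg hi]
    · linarith [le_abs_self hi, abs_nonneg lo]
  have a2 : |y.re| ≤ |xc| + |w + Λ * (hi - lo)| := by
    have b1 : |y.re| ≤ |y.re - xc| + |xc| := by
      simpa using abs_add_le (y.re - xc) xc
    have b2 : w + Λ * (hi - y.im) ≤ w + Λ * (hi - lo) := by
      have := mul_le_mul_of_nonneg_left (by linarith : hi - y.im ≤ hi - lo) hΛ
      linarith
    linarith [le_abs_self (w + Λ * (hi - lo))]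
  linarith

theorem s7_tube_isCompact {K : Set ℂ} (hK : IsCompact K) {mdl : ℂ → ℂ} (hc : ContinuousOn mdl K) :
    IsCompact {σ : ℂ | ∃ y ∈ K, ‖σ - mdl y‖ ≤ 2} := by
  have h1 : IsCompact (K ×ˢ closedBall (0 : ℂ) 2) := hK.prod (isCompact_closedBall _ _)
  have h2 : ContinuousOn (fun p : ℂ × ℂ => mdl p.1 + p.2) (K ×ˢ closedBall (0 : ℂ) 2) :=
    (hc.comp continuousOn_fst (fun p hp => hp.1)).add continuousOn_snd
  convert h1.image_of_continuousOn h2 using 1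
  ext σ
  constructor
  · rintro ⟨y, hy, h⟩
    exact ⟨(y, σ - mdl y), ⟨hy, by simpa using h⟩, by simp⟩
  · rintro ⟨p, ⟨hp1, hp2⟩, rfl⟩
    exact ⟨p.1, hp1, by simpa using hp2⟩

/-! ### the second difference of the model -/

theorem s7_mdl2 {Ω : Set ℂ} {mdl : ℂ → ℂ} (hΩ : IsOpen Ω) (hd : DifferentiableOn ℂ mdl Ω) {K : Set ℂ}
    (hK : IsCompact K) (hKΩ : K ⊆ Ω) : ∀ γ > 0, ∃ η₂ > 0, ∀ y ∈ K, ∀ a : ℂ, a ≠ 0 → ‖a‖ ≤ η₂ →
      ‖(mdl (y + a) - mdl y) / a - (mdl y - mdl (y - a)) / a‖ ≤ γ := by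
  intro γ hγ
  obtain ⟨d, hd0, hdΩ⟩ := hK.exists_cthickening_subset_open hΩ hKΩ
  obtain ⟨C, hC⟩ := hK.cthickening.exists_bound_of_continuousOn (hd.continuousOn.mono hdΩ)
  have key : ∀ y ∈ K, ∀ a : ℂ, a ≠ 0 → ‖a‖ ≤ d / 2 →
      ‖mdl (y + a) - mdl y - a * deriv mdl y‖ ≤ 2 * C * ‖a‖ ^ 2 / d ^ 2 := by
    intro y hy a ha had
    have hna : 0 < ‖a‖ := norm_pos_iff.2 ha
    have hin : ∀ e ∈ ball (0 : ℂ) (d / ‖a‖), y + a * e ∈ cthickening d K := by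
      intro e he
      rw [mem_ball_zero_iff, lt_div_iff₀ hna] at he
      refine mem_cthickening_of_dist_le (y + a * e) y d K hy ?_
      rw [dist_eq_norm]
      simp only [add_sub_cancel_left, norm_mul]
      linarith
    have hg : DifferentiableOn ℂ (fun e => mdl (y + a * e)) (ball (0 : ℂ) (d / ‖a‖)) :=
      hd.comp (by fun_prop) (fun e he => hdΩ (hin e he))
    have h2 := S3.ca_second_order (g := fun e => mdl (y + a * e)) (R := d / ‖a‖) (M := C)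
      (by rw [le_div_iff₀ hna]; linarith) hg (fun e he => hC _ (hin e he))
    have hder : deriv (fun e => mdl (y + a * e)) 0 = a * deriv mdl y := by
      have h3 : HasDerivAt mdl (deriv mdl y) (y + a * 0) := by
        rw [mul_zero, add_zero]
        exact ((hd y (hKΩ hy)).differentiableAt (hΩ.mem_nhds (hKΩ hy))).hasDerivAt
      have h4 : HasDerivAt (fun e : ℂ => y + a * e) a 0 := by
        simpa using ((hasDerivAt_id (0 : ℂ)).const_mul a).const_add y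
      have := (h3.comp (0 : ℂ) h4).deriv
      rw [mul_comm]
      exact this
    rw [hder] at h2
    simp only [mul_one, mul_zero, add_zero] at h2
    refine h2.trans (le_of_eq ?_)
    field_simp
  have hC0 : 0 ≤ |C| := abs_nonneg _
  refine ⟨min (d / 2) (γ * d ^ 2 / (4 * (|C| + 1))), lt_min (by positivity) (by positivity), ?_⟩
  intro y hy a ha hle
  have hna : 0 < ‖a‖ := norm_pos_iff.2 ha
  have k1 := key y hy a ha (hle.trans (min_le_left _ _))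
  have k2 := key y hy (-a) (neg_ne_zero.2 ha) (by rw [norm_neg]; exact hle.trans (min_le_left _ _))
  rw [norm_neg, ← sub_eq_add_neg] at k2
  have e1 : (mdl (y + a) - mdl y) / a - (mdl y - mdl (y - a)) / a =
      ((mdl (y + a) - mdl y - a * deriv mdl y) + (mdl (y - a) - mdl y - -a * deriv mdl y)) / a := by
    field_simp
    ring
  rw [e1, norm_div, div_le_iff₀ hna]
  refine (norm_add_le _ _).trans ?_
  have h5 : ‖a‖ ≤ γ * d ^ 2 / (4 * (|C| + 1)) := hle.trans (min_le_right _ _)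
  rw [le_div_iff₀ (by positivity)] at h5
  have h6 : 2 * C * ‖a‖ ^ 2 / d ^ 2 ≤ γ * ‖a‖ / 2 := by
    rw [div_le_iff₀ (by positivity)]
    have h7 : C ≤ |C| := le_abs_self C
    have h8 : 2 * C * ‖a‖ ^ 2 ≤ 2 * (|C| + 1) * ‖a‖ ^ 2 := by
      have : 0 ≤ ‖a‖ ^ 2 := by positivity
      nlinarith
    have h9 : ‖a‖ * (4 * (|C| + 1)) * ‖a‖ ≤ γ * d ^ 2 * ‖a‖ := mul_le_mul_of_nonneg_right h5 hna.le
    nlinarith
  linarith

/-! ### the induction at a fixed index for the scaled passage -/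

theorem S7Sys.steep_fixed {Sh : Shape} (Y : S7Sys Sh) {mdl : ℂ → ℂ} (n : ℕ)
    (sg R η Λ xc w hb h0 ht κ : ℝ) (hsg : sg = 1 ∨ sg = -1) (hR' : R ≤ 1 / 2) (hη : 0 < η)
    (hΛ : (1 + R) / η ≤ Λ) (hΛ0 : 0 ≤ Λ) (hκ : 0 < κ) (hb0 : hb < h0) (_h0t : h0 ≤ ht)
    {r₁ L δ₀ ε' η₀ β c' E₀ : ℝ} (hL : 0 ≤ L) (hε' : 0 ≤ ε') (hE₀ : 0 ≤ E₀) (hβδ : β ≤ δ₀)
    (hβ1 : β ≤ 1) (hβr : 4 * β ≤ r₁)
    (hBβ : s7B E₀ ε' ((2 * L + 2) * (1 + Λ)) (hb - κ) ht ≤ β) (hc'0 : 0 < c') (hc'1 : c' ≤ 1)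
    (hc'κ : c' ≤ κ / 2) (hc'h : 4 * c' ≤ h0 - hb) (hc'η : c' ≤ η₀)
    (htr : S7TrackProp Y.fst mdl (s7Trap xc (w + κ) Λ (hb - κ) ht) r₁ L δ₀ ε' η₀)
    (hm2 : ∀ y ∈ s7Trap xc (w + κ) Λ (hb - κ) ht, ∀ a : ℂ, a ≠ 0 → ‖a‖ ≤ c' →
      ‖(mdl (y + a) - mdl y) / a - (mdl y - mdl (y - a)) / a‖ ≤ r₁ / 2)
    (hn : ∀ T ∈ ball (1 : ℂ) (1 / 2), T / (Y.m n : ℂ) ∈ ball (0 : ℂ) Sh.ρ)
    (hsm : ∀ T ∈ ball (1 : ℂ) (1 / 2), ‖Y.stp n T‖ ≤ c')
    (hcl : ∀ T ∈ ball (1 : ℂ) (1 / 2), S7Close Y.fst (Y.fF n T) (Y.fQ n T) (Y.fW n T)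
      {σ | ∃ y ∈ s7Trap xc (w + κ) Λ (hb - κ) ht, ‖σ - mdl y‖ ≤ 2} η₀)
    (hbase : ∀ z ∈ ({y | y ∈ s7Trap xc (w + κ) Λ (hb - κ) ht ∧ y.im ≤ h0} ×ˢ s7Steep sg R η),
      z ∈ Y.dom n ∧ ‖Y.Sc n z - mdl z.1‖ ≤ E₀ / 2)
    (hquot : ∀ y ∈ {y | y ∈ s7Trap xc (w + κ / 2) Λ (hb - κ / 2) ht ∧ y.im ≤ (hb + h0) / 2},
      ∀ T ∈ s7Steep sg R η, ∀ a : ℂ, (a = Y.stp n T ∨ a = -Y.stp n T) →
      ‖(Y.Sc n (y, T) - Y.Sc n (y - a, T)) / a - (mdl y - mdl (y - a)) / a‖ ≤ E₀ / 2) :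
    ∀ T ∈ s7Steep sg R η, ∀ y ∈ s7TrapO xc (w + κ / 2) Λ (hb - κ / 2) ht,
      (y, T) ∈ Y.dom n ∧ ‖Y.Sc n (y, T) - mdl y‖ ≤ β := by
  have hb' : 0 < Y.ℓ n * Y.m n := mul_pos (Y.ℓ_pos n) (Y.m_pos n)
  have hM₀ : 0 ≤ 2 * L + 2 := by linarith
  have hM : 0 ≤ (2 * L + 2) * (1 + Λ) := mul_nonneg hM₀ (by linarith)
  have hEε : 0 ≤ E₀ + ε' := by linarith
  have hst : ∀ T ∈ s7Steep sg R η, η / (Y.ℓ n * Y.m n) < ((sg : ℂ) * Y.stp n T).im ∧
      |((sg : ℂ) * Y.stp n T).re| ≤ Λ * ((sg : ℂ) * Y.stp n T).im ∧ ‖(sg : ℂ) * Y.stp n T‖ ≤ c' :=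
    fun T hT => ⟨(Y.up_steep n hsg hη hΛ hT).1, (Y.up_steep n hsg hη hΛ hT).2, by
      rw [Y.up_norm n hsg]; exact hsm T (s7Steep_subset hR' hT)⟩
  have hc0 : 0 < η / (Y.ℓ n * Y.m n) := div_pos hη hb'
  have H : S7UpHyp (Y.upSys n sg R η hsg hR' hn) mdl
      ⟨xc, w, Λ, hb, (hb + h0) / 2, ht, κ, η / (Y.ℓ n * Y.m n), c', r₁, L, min δ₀ 1, ε', β, r₁ / 2⟩
      (s7B E₀ ε' ((2 * L + 2) * (1 + Λ)) (hb - κ)) :=
    { Λ_nonneg := hΛ0
      κ_pos := hκ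
      c_pos := hc0
      c'_pos := hc'0
      c'_le_one := hc'1
      c'_le_κ := hc'κ
      c'_le_hm := by
        show 2 * c' ≤ (hb + h0) / 2 - hb
        linarith
      L_nonneg := hL
      ε'_nonneg := hε'
      β_le_δ₀ := le_min hβδ hβ1
      β_le_one := hβ1
      root_room := by
        show 2 * β + r₁ / 2 ≤ r₁
        linarith
      B_le := fun v hv => (s7B_mono hEε hM hv).trans hBβ
      B_step := fun v s t ht hts => s7B_step hEε hM₀ v s t ht hts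
      steep := hst
      memW := fun T hT y hy σ hσ => (hcl T (s7Steep_subset hR' hT) σ ⟨y, hy, hσ⟩).1
      solve := Y.up_solve n hsg hR' hn htr (min_le_left _ _) (min_le_right _ _) hcl
        (fun T hT => (hsm T hT).trans hc'η)
      mdl2 := fun T hT y hy => hm2 y hy _ ((Y.upSys n sg R η hsg hR' hn).up_ne T hT) (hst T hT).2.2
      base := by
        intro T hT y hy hyv
        have hyv' : y.im < (hb + h0) / 2 := hyv
        obtain ⟨s1, s2, s3⟩ := hst T hT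
        have s4 : 0 < ((sg : ℂ) * Y.stp n T).im := hc0.trans s1
        have s5 : ((sg : ℂ) * Y.stp n T).im ≤ κ / 2 :=
          (((le_abs_self _).trans (Complex.abs_im_le_norm _)).trans s3).trans hc'κ
        have hyK : y ∈ s7Trap xc (w + κ) Λ (hb - κ) ht := S7Par.U_subset_K _ hκ hy
        have hyK' : y - (sg : ℂ) * Y.stp n T ∈ s7Trap xc (w + κ) Λ (hb - κ) ht :=
          S7Par.K_down _ hy s4.le s2 s5
        have b1 := hbase (y, T) ⟨⟨hyK, by linarith⟩, hT⟩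
        have b2 := hbase (y - (sg : ℂ) * Y.stp n T, T) ⟨⟨hyK', by
          simp only [Complex.sub_im]; linarith⟩, hT⟩
        have b3 := hquot y ⟨⟨hy.1.le, hy.2.1.le, hy.2.2.le⟩, hyv'.le⟩ T hT ((sg : ℂ) * Y.stp n T)
          (by rcases hsg with rfl | rfl <;> simp)
        refine ⟨b1.1, b2.1, ?_⟩
        have b4 : E₀ ≤ s7B E₀ ε' ((2 * L + 2) * (1 + Λ)) (hb - κ) y.im := s7B_ge hEε hM hyK.1
        have b5 := b1.2
        exact (add_le_add b5 b3).trans (by linarith) }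
  exact s7up_main H

/-! ### assembly -/

/-- steep tracking below the (strict) top of the trapezoid. -/
theorem S7Sys.steep_open {Sh : Shape} (Y : S7Sys Sh) {Ω : Set ℂ} {mdl : ℂ → ℂ}
    (hm : S7Sol Y.fst Ω mdl) (sg R η Λ xc w hb h0 ht κ : ℝ) (hsg : sg = 1 ∨ sg = -1) (hR : 0 < R)
    (hR' : R ≤ 1 / 2) (hη : 0 < η) (hΛ : (1 + R) / η ≤ Λ) (hκ : 0 < κ) (hb0 : hb < h0)
    (h0t : h0 ≤ ht) (hΩ : s7Trap xc (w + κ) Λ (hb - κ) ht ⊆ Ω)
    (hbase : Y.Conv ({y | y ∈ s7Trap xc (w + κ) Λ (hb - κ) ht ∧ y.im ≤ h0} ×ˢ s7Steep sg R η) mdl) :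
    Y.Conv ({y | y ∈ s7Trap xc w Λ hb ht ∧ y.im < ht} ×ˢ s7Steep sg R η) mdl := by
  intro εf hεf
  have hΛ0 : 0 < Λ := lt_of_lt_of_le (div_pos (by linarith) hη) hΛ
  have hKc : IsCompact (s7Trap xc (w + κ) Λ (hb - κ) ht) := s7Trap_isCompact _ _ _ _ _ hΛ0.le
  obtain ⟨r₁, L, δ₀, hr₁, hL, hδ₀, htrack⟩ := s7_track_step Y.fst hm hKc hΩ
  obtain ⟨β, hβdef⟩ : ∃ β : ℝ, β = min (min εf δ₀) (min (r₁ / 4) 1) := ⟨_, rfl⟩
  have hβ0 : 0 < β := by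
    rw [hβdef]; exact lt_min (lt_min hεf hδ₀) (lt_min (by linarith) one_pos)
  have hβε : β ≤ εf := by rw [hβdef]; exact (min_le_left _ _).trans (min_le_left _ _)
  have hβδ : β ≤ δ₀ := by rw [hβdef]; exact (min_le_left _ _).trans (min_le_right _ _)
  have hβr : 4 * β ≤ r₁ := by
    have : β ≤ r₁ / 4 := by rw [hβdef]; exact (min_le_right _ _).trans (min_le_left _ _)
    linarith
  have hβ1 : β ≤ 1 := by rw [hβdef]; exact (min_le_right _ _).trans (min_le_right _ _)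
  obtain ⟨G, hGdef⟩ : ∃ G : ℝ, G = Real.exp ((2 * L + 2) * (1 + Λ) * (ht - (hb - κ))) := ⟨_, rfl⟩
  have hG0 : 0 < G := by rw [hGdef]; exact Real.exp_pos _
  obtain ⟨E₀, hE₀def⟩ : ∃ E₀ : ℝ, E₀ = β / (2 * G) := ⟨_, rfl⟩
  have hE₀ : 0 < E₀ := by rw [hE₀def]; positivity
  have hBβ : s7B E₀ E₀ ((2 * L + 2) * (1 + Λ)) (hb - κ) ht ≤ β := by
    unfold s7B
    rw [← hGdef]
    have : (E₀ + E₀) * G = β := by rw [hE₀def]; field_simp; ring
    linarith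
  obtain ⟨η₀, hη₀, htr⟩ := htrack E₀ hE₀
  obtain ⟨η₂, hη₂, hm2⟩ := s7_mdl2 hm.isOpen hm.diff hKc hΩ (r₁ / 2) (by linarith)
  obtain ⟨c', hc'def⟩ : ∃ c' : ℝ, c' = min (min η₀ η₂) (min (min (κ / 2) ((h0 - hb) / 4)) 1) :=
    ⟨_, rfl⟩
  have hc'0 : 0 < c' := by
    rw [hc'def]
    exact lt_min (lt_min hη₀ hη₂) (lt_min (lt_min (by linarith) (by linarith)) one_pos)
  have hc'η : c' ≤ η₀ := by rw [hc'def]; exact (min_le_left _ _).trans (min_le_left _ _)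
  have hc'η₂ : c' ≤ η₂ := by rw [hc'def]; exact (min_le_left _ _).trans (min_le_right _ _)
  have hc'κ : c' ≤ κ / 2 := by
    rw [hc'def]; exact ((min_le_right _ _).trans (min_le_left _ _)).trans (min_le_left _ _)
  have hc'h : 4 * c' ≤ h0 - hb := by
    have : c' ≤ (h0 - hb) / 4 := by
      rw [hc'def]; exact ((min_le_right _ _).trans (min_le_left _ _)).trans (min_le_right _ _)
    linarith
  have hc'1 : c' ≤ 1 := by rw [hc'def]; exact (min_le_right _ _).trans (min_le_right _ _)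
  have hK₂c := s7_tube_isCompact hKc (hm.diff.continuousOn.mono hΩ)
  -- the difference quotients on the lower part
  obtain ⟨κ₂, hκ₂def⟩ : ∃ κ₂ : ℝ, κ₂ = min (κ / (2 * (1 + Λ))) ((h0 - hb) / 2) := ⟨_, rfl⟩
  have hκ₂0 : 0 < κ₂ := by
    rw [hκ₂def]; exact lt_min (by positivity) (by linarith)
  have hκ₂a : (1 + Λ) * κ₂ ≤ κ / 2 := by
    have : κ₂ ≤ κ / (2 * (1 + Λ)) := by rw [hκ₂def]; exact min_le_left _ _
    rw [le_div_iff₀ (by positivity)] at this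
    linarith
  have hκ₂b : κ₂ ≤ (h0 - hb) / 2 := by rw [hκ₂def]; exact min_le_right _ _
  have hnear : ∀ y₀ ∈ {y | y ∈ s7Trap xc (w + κ / 2) Λ (hb - κ / 2) ht ∧ y.im ≤ (hb + h0) / 2},
      ∀ y : ℂ, ‖y - y₀‖ ≤ κ₂ → y ∈ s7Trap xc (w + κ) Λ (hb - κ) ht ∧ y.im ≤ h0 := by
    rintro y₀ ⟨⟨a1, a2, a3⟩, a4⟩ y hy
    have b1 : |y.re - y₀.re| ≤ κ₂ := by
      have := Complex.abs_re_le_norm (y - y₀)
      rw [Complex.sub_re] at this
      linarith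
    have b2 : |y.im - y₀.im| ≤ κ₂ := by
      have := Complex.abs_im_le_norm (y - y₀)
      rw [Complex.sub_im] at this
      linarith
    rw [abs_le] at b2
    have b3 : κ₂ ≤ κ / 2 := by nlinarith
    have b4 : y.im ≤ h0 := by linarith [b2.2]
    refine ⟨⟨by linarith [b2.1], by linarith, ?_⟩, b4⟩
    have b5 : |y.re - xc| ≤ |y.re - y₀.re| + |y₀.re - xc| := by
      simpa using abs_add_le (y.re - y₀.re) (y₀.re - xc)
    have b6 : Λ * (y.im - y₀.im) ≤ Λ * κ₂ := mul_le_mul_of_nonneg_left b2.2 hΛ0.le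
    nlinarith
  have hq := Y.conv_quot hm.isOpen hm.diff
    (A := {y | y ∈ s7Trap xc (w + κ / 2) Λ (hb - κ / 2) ht ∧ y.im ≤ (hb + h0) / 2})
    (𝒯 := s7Steep sg R η) hκ₂0
    (fun y₀ hy₀ y hy => hΩ (hnear y₀ hy₀ y (by simpa [dist_eq_norm] using hy)).1)
    (s7Steep_subset hR')
    (S7Sys.Conv.mono Y hbase (by
      rintro z ⟨⟨y₀, hy₀, hz⟩, hzT⟩
      exact ⟨hnear y₀ hy₀ z.1 hz, hzT⟩))
    (E₀ / 2) (by linarith)
  filter_upwards [Y.param_small, Y.stp_small c' hc'0, Y.close hK₂c η₀ hη₀,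
    hbase (E₀ / 2) (by linarith), hq] with n n1 n2 n3 n4 n5
  have main := Y.steep_fixed n sg R η Λ xc w hb h0 ht κ hsg hR' hη hΛ hΛ0.le hκ hb0 h0t hL hE₀.le
    hE₀.le hβδ hβ1 hβr hBβ hc'0 hc'1 hc'κ hc'h hc'η htr
    (fun y hy a ha hle => hm2 y hy a ha (hle.trans hc'η₂)) n1 (fun T hT => (n2 T hT).2) n3 n4 n5
  rintro ⟨y, T⟩ ⟨⟨⟨y1, y2, y3⟩, y4⟩, hT⟩
  have := main T hT y ⟨by linarith, y4, by linarith⟩
  exact ⟨this.1, this.2.trans hβε⟩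

/-- LEAF BP-S7-steep: **steep tracking**. -/
theorem S7Sys.steep {Sh : Shape} (Y : S7Sys Sh) {Ω : Set ℂ} {mdl : ℂ → ℂ} (hm : S7Sol Y.fst Ω mdl)
    (sg R η Λ xc w hb h0 ht κ : ℝ) (hsg : sg = 1 ∨ sg = -1) (hR : 0 < R) (hR' : R ≤ 1 / 2)
    (hη : 0 < η) (hΛ : (1 + R) / η ≤ Λ) (hκ : 0 < κ) (hw : 0 ≤ w) (hb0 : hb < h0) (h0t : h0 ≤ ht)
    (hΩ : s7Trap xc (w + κ) Λ (hb - κ) ht ⊆ Ω)
    (hbase : Y.Conv ({y | y ∈ s7Trap xc (w + κ) Λ (hb - κ) ht ∧ y.im ≤ h0} ×ˢ s7Steep sg R η) mdl) :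
    Y.Conv (s7Trap xc w Λ hb ht ×ˢ s7Steep sg R η) mdl := by
  have hΛ0 : 0 < Λ := lt_of_lt_of_le (div_pos (by linarith) hη) hΛ
  have hKc : IsCompact (s7Trap xc (w + κ) Λ (hb - κ) ht) := s7Trap_isCompact _ _ _ _ _ hΛ0.le
  obtain ⟨d, hd0, hdΩ⟩ := hKc.exists_cthickening_subset_open hm.isOpen hΩ
  obtain ⟨κ', hκ'def⟩ : ∃ κ' : ℝ, κ' = min d (κ / (2 * Λ)) := ⟨_, rfl⟩
  have hκ'0 : 0 < κ' := by rw [hκ'def]; exact lt_min hd0 (by positivity)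
  have hκ'd : κ' ≤ d := by rw [hκ'def]; exact min_le_left _ _
  have hκ'Λ : Λ * κ' ≤ κ / 2 := by
    have : κ' ≤ κ / (2 * Λ) := by rw [hκ'def]; exact min_le_right _ _
    rw [le_div_iff₀ (by positivity)] at this
    linarith
  -- the part of the taller trapezoid below `ht`
  have hlow : ∀ y ∈ s7Trap xc (w + κ / 2) Λ (hb - κ / 2) (ht + κ'), y.im ≤ ht →
      y ∈ s7Trap xc (w + κ) Λ (hb - κ) ht := by
    rintro y ⟨a1, a2, a3⟩ a4
    exact ⟨by linarith, a4, by nlinarith⟩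
  have hΩ' : s7Trap xc (w + κ / 2) Λ (hb - κ / 2) (ht + κ') ⊆ Ω := by
    intro y hy
    by_cases hyt : y.im ≤ ht
    · exact hΩ (hlow y hy hyt)
    · push Not at hyt
      obtain ⟨a1, a2, a3⟩ := hy
      refine hdΩ (mem_cthickening_of_dist_le y (⟨y.re, ht⟩ : ℂ) d _ ⟨?_, le_rfl, ?_⟩ ?_)
      · show hb - κ ≤ ht
        linarith
      · show |y.re - xc| ≤ w + κ + Λ * (ht - ht)
        have : Λ * (ht + κ' - y.im) ≤ Λ * κ' := mul_le_mul_of_nonneg_left (by linarith) hΛ0.le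
        nlinarith
      · rw [dist_eq_norm]
        have e : y - (⟨y.re, ht⟩ : ℂ) = ((y.im - ht : ℝ) : ℂ) * I := by
          apply Complex.ext <;> simp
        rw [e, norm_mul, Complex.norm_I, mul_one, Complex.norm_real, Real.norm_eq_abs,
          abs_of_pos (by linarith)]
        linarith
  have h1 := Y.steep_open hm sg R η Λ xc w hb h0 (ht + κ') (κ / 2) hsg hR hR' hη hΛ (by linarith) hb0
    (by linarith) hΩ' (S7Sys.Conv.mono Y hbase (by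
      rintro z ⟨⟨hz1, hz2⟩, hzT⟩
      exact ⟨⟨hlow z.1 hz1 (hz2.trans h0t), hz2⟩, hzT⟩))
  refine S7Sys.Conv.mono Y h1 ?_
  rintro z ⟨⟨a1, a2, a3⟩, hzT⟩
  refine ⟨⟨⟨a1, by linarith, ?_⟩, by linarith⟩, hzT⟩
  have : 0 ≤ Λ * κ' := by positivity
  nlinarith

end Claimed.Agent.R269
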