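/-
Row 269, P1 Section 7: DEEP CONVERGENCE TO THE ANCHORED MODEL (L1).   LEAF PACKAGE BP-S7-deepconv (ONE FILE = ONE OWNER).   Statements: helper146.

`S7Sys.deep_conv`: there is `D₀'` such that `Sc n → m₁` uniformly on `{-D₁ ≤ Im Ŷ ≤ -D₀', |Re Ŷ| ≤ Wd} × ball 1 (1/2)` for all `Wd, D₁`.      THIS IS WHERE `α > 1/2` IS USED.

PROOF.  Data: `D₀, Cd, α` from `Y.deep`; `C_a, u_a` from `M.anchor`; `C_X, u_X` from `s7X_deep`.  For `T ∈ ball 1 (1/2)`: `|log T| ≤ 1`, `‖T‖ < 3/2`; `Ŷ = Y + i log T`, so `|Im Ŷ - Im Y| ≤ 1`, `|Re Ŷ - Re Y| ≤ 1`, and `Sc n (Ŷ,T) - Ŷ = S_n(Y,T) - Y`.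
 Write `D = -Im Ŷ`.
 1. A PRIORI.  On `G(D_a, D_b, W) = {D_a ≤ D ≤ D_b, |Re Ŷ| ≤ W}` (any `D_a > D₀ + 1`, aperture `A = (W+1)/D₀`...) eventually:  in `dom n`, `|Sc n - Ŷ| ≤ C₁ D^{1-2α}`, `C₁ = 3 Cd 2^{|1-2α|}`.
    With the anchor: `Δ_n = Sc n (·,T) - m₁` satisfies `|Δ_n| ≤ C₂ D^{1-2α}`  (`e^{-2D} ≤ D^{1-2α}` for `D ≥ 1`).    Cauchy on `ball Ŷ (D/2)`:  `|∂Δ_n| ≤ C₃ D^{-2α}`, `|∂Sc n - 1| ≤ C₃ D^{-2α}`, `|∂ m₁ - 1| ≤ C₃ D^{-2α}`.
    Choose `D₀'` so large that: `D₀' ≥ 2(D₀+2)`, `C₃ D₀'^{-2α} ≤ 1/4`, `-D₀' + C₂ ≤ min(u_X, u_a)`, and `(3/4) C_X e^{2 C₂} e^{-2 D₀'} ≤ 1/2`.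
 2. CONSISTENCY.  `s7_cons` with `𝒦 = {(σ,J) : -2D₁ - C₂ ≤ Im σ ≤ -D₀' + C₂, |Re σ| ≤ W + C₂, |J - 1| ≤ 1/2}` (compact, regular by `s7X_deep`), `r = 1`, `B = 2 + 2C₂`, `stepEq`, `close`, `stp_small`:
    for every `ε₁`, eventually `|∂²Sc n - X(Sc n, ∂Sc n)| ≤ ε₁` on `G(D₀', D₁', W)`.   With `m₁'' = X(m₁, m₁')` and `s7X_deep`:   `|∂²Δ_n| ≤ C_X e^{2C₂} e^{-2D} (|Δ_n| + |∂Δ_n|) + ε₁`.
 3. STABILITY (`s7_stab2` below, real variable, along the vertical segment from depth `D₁'` up to depth `D₀'`, `D₁' ≥ D₁` large):   `sup (|Δ| + |∂Δ|) ≤ 2 (v₁ + (D₁'+1) u₁) + 4 (D₁'+1)² ε₁`,  `v₁ = |Δ|(D₁') ≤ C₂ D₁'^{1-2α}`, `u₁ = |∂Δ|(D₁') ≤ C₃ D₁'^{-2α}`.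
    Given `ε`: choose `D₁'` with `2 (C₂ + 2 C₃) D₁'^{1-2α} ≤ ε/2`  (`1 - 2α < 0`), then `ε₁`, then `n`.
 `s7_stab2`:  `U = sup u`, `V = sup v` over `[0,Lh]` (`τ = D₁' - D`).  `u(τ) ≤ u₁ + ∫₀^τ (k(s)(V+U) + ε₁) ds ≤ u₁ + κ(V+U) + Lh ε₁`;  `v(τ) ≤ v₁ + τ u₁ + ∫₀^τ∫₀^s ... ≤ v₁ + Lh u₁ + κ' (V+U) + Lh² ε₁`, where
    `∫₀^{Lh} k ≤ κ`, `∫₀^{Lh}∫₀^s k ≤ κ'`; for `k(s) = c e^{-2(D₁' - s)}`: `κ = c e^{-2D₀'}/2`, `κ' = c e^{-2D₀'}/4`.   `κ + κ' ≤ 1/2` closes the estimate.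
-/
import Claimed.Agent.R269.S7.Scaled
import Claimed.Agent.R269.S7.Track
import Claimed.Agent.R269.S7.Steep
import Claimed.Agent.R269.S7.Stab2

set_option autoImplicit false

namespace Claimed.Agent.R269

open Complex Filter Topology Set Metric
open scoped Real

/-- the vertical path `τ ↦ x + i (τ - d)`. -/
theorem s7dc_path (x d τ : ℝ) : HasDerivAt (fun τ : ℝ => (⟨x, τ - d⟩ : ℂ)) I τ := by
  have h1 : (fun τ : ℝ => (⟨x, τ - d⟩ : ℂ)) = fun τ : ℝ => (x : ℂ) + ((τ : ℂ) - (d : ℂ)) * I := by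
    funext τ
    apply Complex.ext <;> simp
  rw [h1]
  have h2 : HasDerivAt (fun τ : ℝ => (τ : ℂ)) 1 τ := Complex.ofRealCLM.hasDerivAt
  simpa using ((h2.sub_const (d : ℂ)).mul_const I).const_add (x : ℂ)

/-- `s7_stab2` for a holomorphic function along a vertical segment from depth `b + Lh` up to depth `b`. -/
theorem s7dc_vert {U : Set ℂ} (hU : IsOpen U) {h : ℂ → ℂ} (hh : DifferentiableOn ℂ h U)
    (x b Lh c ε₁ : ℝ) (hc : 0 ≤ c) (hLh : 0 ≤ Lh) (hε₁ : 0 ≤ ε₁)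
    (hcb : 3 / 4 * c * Real.exp (-2 * b) ≤ 1 / 2)
    (hseg : ∀ τ ∈ Icc 0 Lh, (⟨x, τ - (b + Lh)⟩ : ℂ) ∈ U)
    (hineq : ∀ τ ∈ Icc 0 Lh, ‖deriv (deriv h) (⟨x, τ - (b + Lh)⟩ : ℂ)‖ ≤
      c * Real.exp (-2 * (b + Lh - τ)) *
        (‖h (⟨x, τ - (b + Lh)⟩ : ℂ)‖ + ‖deriv h (⟨x, τ - (b + Lh)⟩ : ℂ)‖) + ε₁) :
    ∀ τ ∈ Icc 0 Lh, ‖h (⟨x, τ - (b + Lh)⟩ : ℂ)‖ ≤
      2 * (‖h (⟨x, -(b + Lh)⟩ : ℂ)‖ + (Lh + 1) * ‖deriv h (⟨x, -(b + Lh)⟩ : ℂ)‖)
        + 4 * (Lh + 1) ^ 2 * ε₁ := by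
  have hh' : DifferentiableOn ℂ (deriv h) U := hh.deriv hU
  set γ : ℝ → ℂ := fun τ => (⟨x, τ - (b + Lh)⟩ : ℂ) with hγ
  have hγd : ∀ τ, HasDerivAt γ I τ := fun τ => s7dc_path x (b + Lh) τ
  have key := s7_stab2 c b Lh ε₁ hc hLh hε₁ hcb (fun τ => h (γ τ)) (fun τ => I * deriv h (γ τ))
    (fun τ => I * (I * deriv (deriv h) (γ τ)))
    (fun τ hτ => by
      have h1 : HasDerivAt h (deriv h (γ τ)) (γ τ) :=
        (hh.differentiableAt (hU.mem_nhds (hseg τ hτ))).hasDerivAt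
      have h2 := HasDerivAt.scomp τ h1 (hγd τ)
      rw [smul_eq_mul] at h2
      exact h2.hasDerivWithinAt)
    (fun τ hτ => by
      have h1 : HasDerivAt (deriv h) (deriv (deriv h) (γ τ)) (γ τ) :=
        (hh'.differentiableAt (hU.mem_nhds (hseg τ hτ))).hasDerivAt
      have h2 := HasDerivAt.scomp τ h1 (hγd τ)
      rw [smul_eq_mul] at h2
      exact (h2.const_mul I).hasDerivWithinAt)
    (fun τ hτ => by
      simp only [norm_mul, Complex.norm_I, one_mul]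
      exact hineq τ hτ)
  intro τ hτ
  have h1 := key τ hτ
  simp only [norm_mul, Complex.norm_I, one_mul] at h1
  have h2 : γ 0 = (⟨x, -(b + Lh)⟩ : ℂ) := by simp [hγ]
  rw [h2] at h1
  have h3 : 0 ≤ ‖deriv h (γ τ)‖ := norm_nonneg _
  linarith


theorem s7dc_log_le {T : ℂ} (hT : T ∈ ball (1 : ℂ) (1 / 2)) : ‖Complex.log T‖ ≤ 1 := by
  have h1 : ‖T - 1‖ ≤ 1 / 2 := by
    have := mem_ball.1 hT
    rw [dist_eq_norm] at this
    exact this.le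
  have h2 := Complex.norm_log_one_add_half_le_self h1
  rw [add_sub_cancel] at h2
  linarith

/-- the a priori bound of Lemma 7.2 in sheared coordinates. -/
theorem S7Sys.dc_apriori {Sh : Shape} (Y : S7Sys Sh) :
    ∃ Da Cp β : ℝ, 3 ≤ Da ∧ 0 ≤ Cp ∧ 0 < β ∧ ∀ W Db : ℝ, ∀ᶠ n in atTop, ∀ y T : ℂ, Da ≤ -y.im →
      -y.im ≤ Db → |y.re| ≤ W → T ∈ ball (1 : ℂ) (1 / 2) →
      (y, T) ∈ Y.dom n ∧ ‖Y.Sc n (y, T) - y‖ ≤ Cp * (-y.im - 1) ^ (-β) := by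
  obtain ⟨D₀, Cd, α, hα, hdeep⟩ := Y.deep
  refine ⟨max D₀ 1 + 2, |Cd| * (9 / 4), 2 * α - 1, by linarith [le_max_right D₀ 1], by positivity,
    by linarith, fun W Db => ?_⟩
  filter_upwards [hdeep (|W| + 2) (Db + 2)] with n hn y T hy1 hy2 hy3 hT
  set L : ℂ := Complex.log T with hL
  have hLn : ‖L‖ ≤ 1 := s7dc_log_le hT
  have hLre : |L.re| ≤ 1 := (Complex.abs_re_le_norm L).trans hLn
  have hLim : |L.im| ≤ 1 := (Complex.abs_im_le_norm L).trans hLn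
  have hD0 := le_max_left D₀ 1
  have hD1 := le_max_right D₀ 1
  have him : (y - I * L).im = y.im - L.re := by simp
  have hre : (y - I * L).re = y.re + L.im := by simp
  have hTn : ‖T‖ < 3 / 2 := by
    have h1 : ‖T - 1‖ < 1 / 2 := by
      have := mem_ball.1 hT
      rwa [dist_eq_norm] at this
    have h2 : ‖T‖ ≤ ‖T - 1‖ + ‖(1 : ℂ)‖ := by simpa using norm_add_le (T - 1) 1
    simp only [norm_one] at h2
    linarith
  have hdep : -y.im - 1 ≤ -(y - I * L).im := by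
    rw [him]; linarith [(abs_le.1 hLre).1]
  have hpos : 0 < -y.im - 1 := by linarith
  have key := hn (y - I * L) T (by linarith) (by rw [him]; linarith [(abs_le.1 hLre).2])
    (by
      rw [hre]
      have h1 : |y.re + L.im| ≤ |y.re| + |L.im| := abs_add_le _ _
      have h2 : W ≤ |W| := le_abs_self W
      have h3 : (|W| + 2) * 1 ≤ (|W| + 2) * -(y - I * L).im := by
        apply mul_le_mul_of_nonneg_left _ (by positivity)
        linarith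
      linarith) (by linarith)
  refine ⟨⟨hT, key.1⟩, ?_⟩
  have e : Y.Sc n (y, T) - y
      = (Sh.s9Smax ((⟨Y.x n, Y.h n⟩ : ℂ) + (Y.ℓ n : ℂ) * (y - I * L), T / (Y.m n : ℂ))
          - (⟨Y.x n, Y.h n⟩ : ℂ)) / (Y.ℓ n : ℂ) - (y - I * L) := by
    simp only [S7Sys.Sc, S7Sys.phys, S7Sys.ctr, hL]
    ring
  rw [e]
  refine key.2.trans ?_
  have h1 : (-(y - I * L).im) ^ (1 - 2 * α) ≤ (-y.im - 1) ^ (-(2 * α - 1)) := by
    have : -(2 * α - 1) = 1 - 2 * α := by ring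
    rw [this]
    exact Real.rpow_le_rpow_of_nonpos hpos hdep (by linarith)
  have h2 : 0 ≤ (-(y - I * L).im) ^ (1 - 2 * α) := Real.rpow_nonneg (by linarith) _
  have h3 : ‖T‖ ^ 2 ≤ 9 / 4 := by nlinarith [norm_nonneg T]
  calc Cd * ‖T‖ ^ 2 * (-(y - I * L).im) ^ (1 - 2 * α)
      ≤ |Cd| * ‖T‖ ^ 2 * (-(y - I * L).im) ^ (1 - 2 * α) := by
        gcongr
        exact le_abs_self Cd
    _ ≤ |Cd| * (9 / 4) * (-y.im - 1) ^ (-(2 * α - 1)) := by gcongr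


theorem s7dc_deriv_sub_id {U : Set ℂ} (hU : IsOpen U) {f : ℂ → ℂ} (hf : DifferentiableOn ℂ f U)
    {y : ℂ} {R Mb : ℝ} (hR : 0 < R) (hsub : closedBall y R ⊆ U)
    (hM : ∀ y' ∈ closedBall y R, ‖f y' - y'‖ ≤ Mb) : ‖deriv f y - 1‖ ≤ Mb / R := by
  have hy : y ∈ U := hsub (mem_closedBall_self hR.le)
  have h1 := s7t_cauchy (f := fun y' => f y' - y') hU (hf.sub differentiableOn_id) hR hsub hM
  have h2 : deriv (fun y' => f y' - y') y = deriv f y - 1 := by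
    have h3 : HasDerivAt (fun y' => f y' - y') (deriv f y - 1) y :=
      (hf.differentiableAt (hU.mem_nhds hy)).hasDerivAt.sub (hasDerivAt_id y)
    exact h3.deriv
  rwa [h2] at h1

theorem s7dc_deriv2_sub {U : Set ℂ} (hU : IsOpen U) {g m : ℂ → ℂ} (hg : DifferentiableOn ℂ g U)
    (hm : DifferentiableOn ℂ m U) {y : ℂ} (hy : y ∈ U) :
    deriv (fun y => g y - m y) y = deriv g y - deriv m y ∧
      deriv (deriv (fun y => g y - m y)) y = deriv (deriv g) y - deriv (deriv m) y := by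
  have h1 : ∀ w ∈ U, deriv (fun y => g y - m y) w = deriv g w - deriv m w := fun w hw =>
    ((hg.differentiableAt (hU.mem_nhds hw)).hasDerivAt.sub
      (hm.differentiableAt (hU.mem_nhds hw)).hasDerivAt).deriv
  refine ⟨h1 y hy, ?_⟩
  have h2 : deriv (fun y => g y - m y) =ᶠ[𝓝 y] fun w => deriv g w - deriv m w := by
    filter_upwards [hU.mem_nhds hy] with w hw using h1 w hw
  rw [h2.deriv_eq]
  exact (((hg.deriv hU).differentiableAt (hU.mem_nhds hy)).hasDerivAt.sub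
    ((hm.deriv hU).differentiableAt (hU.mem_nhds hy)).hasDerivAt).deriv

theorem s7dc_im_le {a y : ℂ} {δ : ℝ} (h : ‖a - y‖ ≤ δ) : a.im ≤ y.im + δ := by
  have h1 : |(a - y).im| ≤ ‖a - y‖ := Complex.abs_im_le_norm _
  have h2 := (abs_le.1 h1).2
  simp only [Complex.sub_im] at h2
  linarith

/-- the differential inequality for the difference of an approximate and an exact solution, deep below. -/
theorem s7dc_ineq (fst : Bool) {CX uX : ℝ}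
    (hX : ∀ σ σ' J J' : ℂ, σ.im ≤ uX → σ'.im ≤ uX → ‖J - 1‖ ≤ 1 / 2 → ‖J' - 1‖ ≤ 1 / 2 →
      (σ, J) ∈ s7Reg fst ∧ ‖s7X fst σ J - s7X fst σ' J'‖
        ≤ CX * Real.exp (2 * max σ.im σ'.im) * (‖σ - σ'‖ + ‖J - J'‖))
    {U : Set ℂ} (hU : IsOpen U) {g m : ℂ → ℂ} (hg : DifferentiableOn ℂ g U)
    (hm : DifferentiableOn ℂ m U) {y : ℂ} (hball : closedBall y 1 ⊆ U)
    (hg1 : ∀ y' ∈ closedBall y 1, ‖g y' - y'‖ ≤ 1 / 2)
    (hm1 : ∀ y' ∈ closedBall y 1, ‖m y' - y'‖ ≤ 1 / 2) (hy : y.im + 1 / 2 ≤ uX) {ε₁ : ℝ}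
    (hgc : ‖deriv (deriv g) y - s7X fst (g y) (deriv g y)‖ ≤ ε₁)
    (hmo : deriv (deriv m) y = s7X fst (m y) (deriv m y)) :
    ‖deriv (deriv (fun y => g y - m y)) y‖ ≤ |CX| * Real.exp 2 * Real.exp (2 * y.im) *
      (‖g y - m y‖ + ‖deriv (fun y => g y - m y) y‖) + ε₁ := by
  have hyU : y ∈ U := hball (mem_closedBall_self zero_le_one)
  have hyb : y ∈ closedBall y 1 := mem_closedBall_self zero_le_one
  obtain ⟨e1, e2⟩ := s7dc_deriv2_sub hU hg hm hyU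
  have dg : ‖deriv g y - 1‖ ≤ 1 / 2 := by
    simpa using s7dc_deriv_sub_id hU hg one_pos hball hg1
  have dm : ‖deriv m y - 1‖ ≤ 1 / 2 := by
    simpa using s7dc_deriv_sub_id hU hm one_pos hball hm1
  have ig : (g y).im ≤ y.im + 1 / 2 := s7dc_im_le (hg1 y hyb)
  have im : (m y).im ≤ y.im + 1 / 2 := s7dc_im_le (hm1 y hyb)
  have hl := (hX (g y) (m y) (deriv g y) (deriv m y) (by linarith) (by linarith) dg dm).2
  rw [e2, e1, hmo]
  have e3 : deriv (deriv g) y - s7X fst (m y) (deriv m y)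
      = (deriv (deriv g) y - s7X fst (g y) (deriv g y))
        + (s7X fst (g y) (deriv g y) - s7X fst (m y) (deriv m y)) := by ring
  rw [e3]
  refine (norm_add_le _ _).trans ?_
  have hS : 0 ≤ ‖g y - m y‖ + ‖deriv g y - deriv m y‖ := by positivity
  have hexp : Real.exp (2 * max (g y).im (m y).im) ≤ Real.exp 2 * Real.exp (2 * y.im) := by
    rw [← Real.exp_add]
    apply Real.exp_le_exp.2
    have : max (g y).im (m y).im ≤ y.im + 1 / 2 := max_le ig im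
    linarith
  have h4 : CX * Real.exp (2 * max (g y).im (m y).im) * (‖g y - m y‖ + ‖deriv g y - deriv m y‖)
      ≤ |CX| * (Real.exp 2 * Real.exp (2 * y.im)) * (‖g y - m y‖ + ‖deriv g y - deriv m y‖) := by
    apply mul_le_mul_of_nonneg_right _ hS
    calc CX * Real.exp (2 * max (g y).im (m y).im)
        ≤ |CX| * Real.exp (2 * max (g y).im (m y).im) :=
          mul_le_mul_of_nonneg_right (le_abs_self CX) (Real.exp_pos _).le
      _ ≤ |CX| * (Real.exp 2 * Real.exp (2 * y.im)) :=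
          mul_le_mul_of_nonneg_left hexp (abs_nonneg _)
  have h5 : |CX| * Real.exp 2 * Real.exp (2 * y.im) = |CX| * (Real.exp 2 * Real.exp (2 * y.im)) := by
    ring
  rw [h5]
  linarith

/-- the compact set of deep states used for the consistency lemma. -/
def s7dcK (Rσ u : ℝ) : Set (ℂ × ℂ) :=
  (closedBall (0 : ℂ) Rσ ∩ {σ : ℂ | σ.im ≤ u}) ×ˢ closedBall (1 : ℂ) (1 / 2)

theorem s7dcK_compact (Rσ u : ℝ) : IsCompact (s7dcK Rσ u) :=
  ((isCompact_closedBall _ _).inter_right (isClosed_le Complex.continuous_im continuous_const)).prod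
    (isCompact_closedBall _ _)

/-- everything at a fixed (large) index `n`. -/
theorem S7Sys.dc_fixed {Sh : Shape} (Y : S7Sys Sh) (M : S7Model Y.fst) {CX uX Ca ua Cp β : ℝ}
    (hCp : 0 ≤ Cp) (hβ : 0 < β)
    (hX : ∀ σ σ' J J' : ℂ, σ.im ≤ uX → σ'.im ≤ uX → ‖J - 1‖ ≤ 1 / 2 → ‖J' - 1‖ ≤ 1 / 2 →
      (σ, J) ∈ s7Reg Y.fst ∧ ‖s7X Y.fst σ J - s7X Y.fst σ' J'‖
        ≤ CX * Real.exp (2 * max σ.im σ'.im) * (‖σ - σ'‖ + ‖J - J'‖))
    (hanch : ∀ y : ℂ, y.im ≤ ua → ‖M.m₁ y - y‖ ≤ Ca * Real.exp (2 * y.im))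
    {D₀' D₁' Wd ε₁ η₀ : ℝ} (hD5 : 5 ≤ D₀') (hD₁' : 2 * D₀' ≤ D₁')
    (hψ : ∀ D ≥ D₀', Cp * (D - 2) ^ (-β) ≤ 1 / 2)
    (hχ : ∀ D ≥ D₀', |Ca| * Real.exp 2 * Real.exp (-2 * D) ≤ 1 / 2)
    (huX : -D₀' + 2 ≤ uX) (hua : -D₀' + 2 ≤ ua) (huR : -D₀' + 2 < M.uR)
    (hcb : 3 / 4 * (|CX| * Real.exp 2) * Real.exp (-2 * D₀') ≤ 1 / 2) (hε₁ : 0 ≤ ε₁)
    (hcons : ∀ (Ff Qf : ℂ → ℂ) (W : Set ℂ) (a y₀ : ℂ) (g : ℂ → ℂ), S7Fld Ff Qf W → a ≠ 0 →
      ‖a‖ ≤ η₀ → DifferentiableOn ℂ g (ball y₀ 1) → (∀ y ∈ ball y₀ 1, ‖g y - g y₀‖ ≤ 3) →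
      (g y₀, deriv g y₀) ∈ s7dcK (|Wd| + D₁' + 1) (-D₀' + 1) →
      S7Close Y.fst Ff Qf W (closedBall (g y₀) 1) η₀ →
      S7StepEq Ff Qf W a (g y₀) ((g y₀ - g (y₀ - a)) / a) ((g (y₀ + a) - g y₀) / a) →
      ‖deriv (deriv g) y₀ - s7X Y.fst (g y₀) (deriv g y₀)‖ ≤ ε₁)
    (n : ℕ)
    (hap : ∀ y T : ℂ, D₀' - 2 ≤ -y.im → -y.im ≤ 2 * D₁' + 1 → |y.re| ≤ |Wd| + D₁' + 1 →
      T ∈ ball (1 : ℂ) (1 / 2) →
      (y, T) ∈ Y.dom n ∧ ‖Y.Sc n (y, T) - y‖ ≤ Cp * (-y.im - 1) ^ (-β))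
    (hstp : ∀ T ∈ ball (1 : ℂ) (1 / 2), Y.stp n T ≠ 0 ∧ ‖Y.stp n T‖ ≤ min η₀ (1 / 2))
    (hclose : ∀ T ∈ ball (1 : ℂ) (1 / 2), S7Close Y.fst (Y.fF n T) (Y.fQ n T) (Y.fW n T)
      (closedBall 0 (|Wd| + D₁' + 2)) η₀) :
    ∀ y T : ℂ, D₀' ≤ -y.im → -y.im ≤ D₁' → |y.re| ≤ Wd → T ∈ ball (1 : ℂ) (1 / 2) →
      ‖Y.Sc n (y, T) - M.m₁ y‖ ≤ 6 * (Cp * (D₁' / 2 - 1) ^ (-β) + |Ca| * Real.exp (-D₁'))
        + 4 * (D₁' + 1) ^ 2 * ε₁ := by
  intro y₀ T hy1 hy2 hy3 hT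
  set g : ℂ → ℂ := fun y => Y.Sc n (y, T) with hgdef
  set m : ℂ → ℂ := M.m₁ with hmdef
  set W' : ℝ := |Wd| + D₁' + 1 with hW'
  have hWd : Wd ≤ |Wd| := le_abs_self Wd
  have hWd0 : 0 ≤ |Wd| := abs_nonneg Wd
  set U : Set ℂ := {y : ℂ | D₀' - 2 < -y.im ∧ -y.im < 2 * D₁' + 1 ∧ |y.re| < W'} with hUdef
  have hU : IsOpen U :=
    (isOpen_lt continuous_const Complex.continuous_im.neg).inter
      ((isOpen_lt Complex.continuous_im.neg continuous_const).inter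
        (isOpen_lt Complex.continuous_re.abs continuous_const))
  have hUdom : ∀ y ∈ U, (y, T) ∈ Y.dom n ∧ ‖g y - y‖ ≤ Cp * (-y.im - 1) ^ (-β) :=
    fun y hy => hap y T hy.1.le hy.2.1.le hy.2.2.le hT
  have hg : DifferentiableOn ℂ g U :=
    (Y.Sc_diff n).comp (f := fun y : ℂ => (y, T)) (by fun_prop) (fun y hy => (hUdom y hy).1)
  have hUΩ : U ⊆ s7Ω₁ M.uR M.ϱ := fun y hy => Or.inl (by linarith [hy.1])
  have hm : DifferentiableOn ℂ m U := M.sol₁.diff.mono hUΩ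
  have hmU : ∀ y ∈ U, ‖m y - y‖ ≤ |Ca| * Real.exp (2 * y.im) := fun y hy =>
    (hanch y (by linarith [hy.1])).trans
      (mul_le_mul_of_nonneg_right (le_abs_self _) (Real.exp_pos _).le)
  -- coordinates of nearby points
  have hnear : ∀ (y y' : ℂ) (R : ℝ), y' ∈ closedBall y R → |y'.im - y.im| ≤ R ∧ |y'.re - y.re| ≤ R := by
    intro y y' R hy'
    have h1 : ‖y' - y‖ ≤ R := by simpa [dist_eq_norm] using hy'
    exact ⟨by simpa using (Complex.abs_im_le_norm (y' - y)).trans h1,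
      by simpa using (Complex.abs_re_le_norm (y' - y)).trans h1⟩
  -- facts at the points of the segment
  have hpt : ∀ y : ℂ, D₀' ≤ -y.im → -y.im ≤ D₁' → |y.re| ≤ |Wd| →
      closedBall y 1 ⊆ U ∧ (∀ y' ∈ closedBall y 1, ‖g y' - y'‖ ≤ 1 / 2) ∧
        (∀ y' ∈ closedBall y 1, ‖m y' - y'‖ ≤ 1 / 2) := by
    intro y h1 h2 h3
    have hsub : closedBall y 1 ⊆ U := by
      intro y' hy'
      obtain ⟨a1, a2⟩ := hnear y y' 1 hy'
      have b1 := abs_le.1 a1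
      have b2 : |y'.re| ≤ |y'.re - y.re| + |y.re| := by
        simpa using abs_add_le (y'.re - y.re) y.re
      exact ⟨by linarith [b1.2], by linarith [b1.1], by rw [hW']; linarith⟩
    refine ⟨hsub, fun y' hy' => ?_, fun y' hy' => ?_⟩
    · obtain ⟨a1, -⟩ := hnear y y' 1 hy'
      have b1 := abs_le.1 a1
      refine (hUdom y' (hsub hy')).2.trans (le_trans ?_ (hψ (-y.im) h1))
      apply mul_le_mul_of_nonneg_left _ hCp
      exact Real.rpow_le_rpow_of_nonpos (by linarith) (by linarith [b1.2]) (by linarith)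
    · obtain ⟨a1, -⟩ := hnear y y' 1 hy'
      have b1 := abs_le.1 a1
      refine (hmU y' (hsub hy')).trans (le_trans ?_ (hχ (-y.im) h1))
      rw [mul_assoc, ← Real.exp_add]
      apply mul_le_mul_of_nonneg_left _ (abs_nonneg _)
      apply Real.exp_le_exp.2
      linarith [b1.2]
  -- consistency at the points of the segment
  have hcs : ∀ y : ℂ, D₀' ≤ -y.im → -y.im ≤ D₁' → |y.re| ≤ |Wd| →
      ‖deriv (deriv g) y - s7X Y.fst (g y) (deriv g y)‖ ≤ ε₁ := by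
    intro y h1 h2 h3
    obtain ⟨hsub, hg1, -⟩ := hpt y h1 h2 h3
    obtain ⟨ha0, ha⟩ := hstp T hT
    have ha1 : ‖Y.stp n T‖ ≤ η₀ := ha.trans (min_le_left _ _)
    have ha2 : ‖Y.stp n T‖ ≤ 1 := ha.trans ((min_le_right _ _).trans (by norm_num))
    have hyb : y ∈ closedBall y 1 := mem_closedBall_self zero_le_one
    have hgy : ‖g y - y‖ ≤ 1 / 2 := hg1 y hyb
    have hyn : ‖y‖ ≤ |Wd| + D₁' := by
      have := Complex.norm_le_abs_re_add_abs_im y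
      have h4 : |y.im| ≤ D₁' := abs_le.2 ⟨by linarith, by linarith⟩
      linarith
    have hgn : ‖g y‖ ≤ |Wd| + D₁' + 1 := by
      have : ‖g y‖ ≤ ‖g y - y‖ + ‖y‖ := by simpa using norm_add_le (g y - y) y
      linarith
    refine hcons (Y.fF n T) (Y.fQ n T) (Y.fW n T) (Y.stp n T) y g (Y.fld n hT) ha0 ha1
      (hg.mono (ball_subset_closedBall.trans hsub)) (fun y' hy' => ?_) ?_ ?_ ?_
    · have h5 := hg1 y' (ball_subset_closedBall hy')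
      have h6 : ‖y' - y‖ ≤ 1 := by
        have := mem_ball.1 hy'
        rw [dist_eq_norm] at this
        exact this.le
      have e : g y' - g y = (g y' - y') + (y' - y) - (g y - y) := by ring
      rw [e]
      have := norm_sub_le ((g y' - y') + (y' - y)) (g y - y)
      have := norm_add_le (g y' - y') (y' - y)
      linarith
    · refine ⟨⟨by simpa using hgn, ?_⟩, ?_⟩
      · have := s7dc_im_le hgy
        show (g y).im ≤ -D₀' + 1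
        linarith
      · have := s7dc_deriv_sub_id hU hg one_pos hsub hg1
        rw [mem_closedBall, dist_eq_norm]
        simpa using this
    · refine (hclose T hT).s7t_mono ?_ le_rfl
      intro s hs
      have h5 : ‖s - g y‖ ≤ 1 := by simpa [dist_eq_norm] using hs
      have : ‖s‖ ≤ ‖s - g y‖ + ‖g y‖ := by simpa using norm_add_le (s - g y) (g y)
      rw [mem_closedBall, dist_zero_right]
      linarith
    · have hm' : y - Y.stp n T ∈ closedBall y 1 := by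
        rw [mem_closedBall, dist_eq_norm]; simpa using ha2
      have hp' : y + Y.stp n T ∈ closedBall y 1 := by
        rw [mem_closedBall, dist_eq_norm]; simpa using ha2
      exact Y.stepEq n (hUdom _ (hsub hm')).1 (hUdom _ (hsub hyb)).1 (hUdom _ (hsub hp')).1
  set Lh : ℝ := D₁' - D₀' with hLh
  have hLh0 : 0 ≤ Lh := by rw [hLh]; linarith
  have hbL : D₀' + Lh = D₁' := by rw [hLh]; ring
  set x : ℝ := y₀.re with hx
  have hxW : |x| ≤ |Wd| := hy3.trans hWd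
  have hsegpt : ∀ τ ∈ Icc 0 Lh, D₀' ≤ -(⟨x, τ - (D₀' + Lh)⟩ : ℂ).im ∧
      -(⟨x, τ - (D₀' + Lh)⟩ : ℂ).im ≤ D₁' ∧ |(⟨x, τ - (D₀' + Lh)⟩ : ℂ).re| ≤ |Wd| := by
    intro τ hτ
    exact ⟨by simp only; linarith [hτ.2], by simp only; linarith [hτ.1], hxW⟩
  have hhd : DifferentiableOn ℂ (fun y => g y - m y) U := hg.sub hm
  have key := s7dc_vert (h := fun y => g y - m y) hU hhd x D₀' Lh (|CX| * Real.exp 2) ε₁
    (by positivity) hLh0 hε₁ hcb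
    (fun τ hτ => (hpt _ (hsegpt τ hτ).1 (hsegpt τ hτ).2.1 (hsegpt τ hτ).2.2).1
      (mem_closedBall_self zero_le_one))
    (fun τ hτ => by
      obtain ⟨p1, p2, p3⟩ := hsegpt τ hτ
      obtain ⟨hsub, hg1, hm1⟩ := hpt _ p1 p2 p3
      have h1 := s7dc_ineq Y.fst hX hU hg hm hsub hg1 hm1 (by linarith) (hcs _ p1 p2 p3)
        (M.sol₁.ode _ (hUΩ (hsub (mem_closedBall_self zero_le_one))))
      have h2 : 2 * (⟨x, τ - (D₀' + Lh)⟩ : ℂ).im = -2 * (D₀' + Lh - τ) := by simp only; ring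
      rw [h2] at h1
      exact h1)
  -- the bottom point
  set yb : ℂ := (⟨x, -(D₀' + Lh)⟩ : ℂ) with hyb
  set Ξ : ℝ := Cp * (D₁' / 2 - 1) ^ (-β) + |Ca| * Real.exp (-D₁') with hΞ
  have hΞ0 : 0 ≤ Ξ := by
    have : 0 ≤ (D₁' / 2 - 1) ^ (-β) := Real.rpow_nonneg (by linarith) _
    positivity
  have hR : 0 < D₁' / 2 := by linarith
  have hbsub : closedBall yb (D₁' / 2) ⊆ U := by
    intro y' hy'
    obtain ⟨a1, a2⟩ := hnear yb y' _ hy'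
    have b1 := abs_le.1 a1
    have e1 : yb.im = -D₁' := by rw [hyb]; simp only; linarith
    have e2 : yb.re = x := rfl
    have b2 : |y'.re| ≤ |y'.re - yb.re| + |yb.re| := by
      simpa using abs_add_le (y'.re - yb.re) yb.re
    rw [e2] at b2 a2
    rw [e1] at b1
    exact ⟨by linarith [b1.2], by linarith [b1.1], by rw [hW']; linarith⟩
  have hbM : ∀ y' ∈ closedBall yb (D₁' / 2), ‖g y' - m y'‖ ≤ Ξ := by
    intro y' hy'
    obtain ⟨a1, -⟩ := hnear yb y' _ hy'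
    have b1 := abs_le.1 a1
    have e1 : yb.im = -D₁' := by rw [hyb]; simp only; linarith
    rw [e1] at b1
    have e : g y' - m y' = (g y' - y') - (m y' - y') := by ring
    rw [e]
    refine (norm_sub_le _ _).trans (add_le_add ?_ ?_)
    · refine (hUdom y' (hbsub hy')).2.trans (mul_le_mul_of_nonneg_left ?_ hCp)
      exact Real.rpow_le_rpow_of_nonpos (by linarith) (by linarith [b1.2]) (by linarith)
    · refine (hmU y' (hbsub hy')).trans (mul_le_mul_of_nonneg_left ?_ (abs_nonneg _))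
      exact Real.exp_le_exp.2 (by linarith [b1.2])
  have hb0 : ‖g yb - m yb‖ ≤ Ξ := hbM yb (mem_closedBall_self hR.le)
  have hb1 : ‖deriv (fun y => g y - m y) yb‖ ≤ Ξ / (D₁' / 2) := s7t_cauchy hU hhd hR hbsub hbM
  have hτ : D₁' + y₀.im ∈ Icc 0 Lh := ⟨by linarith, by rw [hLh]; linarith⟩
  have hfin := key _ hτ
  have e3 : (⟨x, D₁' + y₀.im - (D₀' + Lh)⟩ : ℂ) = y₀ := by
    apply Complex.ext
    · rfl
    · simp only; linarith
  rw [e3] at hfin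
  have h6 : (Lh + 1) * ‖deriv (fun y => g y - m y) yb‖ ≤ 2 * Ξ := by
    have h7 : (Lh + 1) * ‖deriv (fun y => g y - m y) yb‖ ≤ D₁' * (Ξ / (D₁' / 2)) := by
      apply mul_le_mul _ hb1 (norm_nonneg _) (by linarith)
      rw [hLh]; linarith
    have hD0 : D₁' ≠ 0 := by linarith
    have h8 : D₁' * (Ξ / (D₁' / 2)) = 2 * Ξ := by
      rw [div_div_eq_mul_div, mul_div_assoc', mul_comm D₁' (Ξ * 2), mul_div_assoc, div_self hD0]
      ring
    linarith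
  have h9 : 4 * (Lh + 1) ^ 2 * ε₁ ≤ 4 * (D₁' + 1) ^ 2 * ε₁ := by
    apply mul_le_mul_of_nonneg_right _ hε₁
    have : (Lh + 1) ^ 2 ≤ (D₁' + 1) ^ 2 := pow_le_pow_left₀ (by linarith) (by rw [hLh]; linarith) 2
    linarith
  show ‖g y₀ - m y₀‖ ≤ 6 * Ξ + 4 * (D₁' + 1) ^ 2 * ε₁
  linarith

/-- LEAF BP-S7-deepconv: **deep convergence**. -/
theorem S7Sys.deep_conv {Sh : Shape} (Y : S7Sys Sh) (M : S7Model Y.fst) :
    ∃ D₀' : ℝ, ∀ Wd D₁ : ℝ, Y.Conv (s7Box 0 Wd (-D₁) (-D₀') ×ˢ ball (1 : ℂ) (1 / 2)) M.m₁ := by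
  obtain ⟨Da, Cp, β, hDa, hCp, hβ, hap⟩ := Y.dc_apriori
  obtain ⟨Ca, ua, hanch⟩ := M.anchor
  obtain ⟨CX, uX, hX⟩ := s7X_deep Y.fst
  -- limits
  have l1 : Tendsto (fun D : ℝ => Cp * (D - 2) ^ (-β)) atTop (𝓝 0) := by
    have h1 : Tendsto (fun D : ℝ => D - 2) atTop atTop := tendsto_atTop_add_const_right _ _ tendsto_id
    have h2 := (tendsto_rpow_neg_atTop hβ).comp h1
    simpa using h2.const_mul Cp
  have lexp : Tendsto (fun D : ℝ => Real.exp (-2 * D)) atTop (𝓝 0) := by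
    have h1 : Tendsto (fun D : ℝ => -2 * D) atTop atBot :=
      tendsto_id.const_mul_atTop_of_neg (by norm_num)
    exact Real.tendsto_exp_atBot.comp h1
  have l2 : Tendsto (fun D : ℝ => |Ca| * Real.exp 2 * Real.exp (-2 * D)) atTop (𝓝 0) := by
    simpa using lexp.const_mul (|Ca| * Real.exp 2)
  have l3 : Tendsto (fun D : ℝ => 3 / 4 * (|CX| * Real.exp 2) * Real.exp (-2 * D)) atTop (𝓝 0) := by
    simpa using lexp.const_mul (3 / 4 * (|CX| * Real.exp 2))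
  have hhalf : (0 : ℝ) < 1 / 2 := by norm_num
  have hev : ∀ᶠ D : ℝ in atTop, Cp * (D - 2) ^ (-β) ≤ 1 / 2 ∧
      |Ca| * Real.exp 2 * Real.exp (-2 * D) ≤ 1 / 2 ∧
      3 / 4 * (|CX| * Real.exp 2) * Real.exp (-2 * D) ≤ 1 / 2 := by
    filter_upwards [l1.eventually (ge_mem_nhds hhalf), l2.eventually (ge_mem_nhds hhalf),
      l3.eventually (ge_mem_nhds hhalf)] with D h1 h2 h3 using ⟨h1, h2, h3⟩
  obtain ⟨Dz, hDz⟩ := eventually_atTop.1 hev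
  set D₀' : ℝ := max (max (max Dz (Da + 2)) 5) (max (max (2 - uX) (2 - ua)) (3 - M.uR)) with hD₀'
  have b1 : Dz ≤ D₀' := (le_max_left _ _).trans ((le_max_left _ _).trans (le_max_left _ _))
  have b2 : Da + 2 ≤ D₀' := (le_max_right _ _).trans ((le_max_left _ _).trans (le_max_left _ _))
  have b3 : 5 ≤ D₀' := (le_max_right _ _).trans (le_max_left _ _)
  have b4 : 2 - uX ≤ D₀' := (le_max_left _ _).trans ((le_max_left _ _).trans (le_max_right _ _))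
  have b5 : 2 - ua ≤ D₀' := (le_max_right _ _).trans ((le_max_left _ _).trans (le_max_right _ _))
  have b6 : 3 - M.uR ≤ D₀' := (le_max_right _ _).trans (le_max_right _ _)
  refine ⟨D₀', fun Wd D₁ ε hε => ?_⟩
  -- the choice of `D₁'`
  have l4 : Tendsto (fun D : ℝ => 6 * (Cp * (D / 2 - 1) ^ (-β) + |Ca| * Real.exp (-D))) atTop (𝓝 0) := by
    have h1 : Tendsto (fun D : ℝ => D / 2 - 1) atTop atTop :=
      tendsto_atTop_add_const_right _ _ (tendsto_id.atTop_div_const (by norm_num))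
    have h2 := ((tendsto_rpow_neg_atTop hβ).comp h1).const_mul Cp
    have h3 : Tendsto (fun D : ℝ => Real.exp (-D)) atTop (𝓝 0) :=
      Real.tendsto_exp_atBot.comp tendsto_neg_atTop_atBot
    simpa using (h2.add (h3.const_mul |Ca|)).const_mul 6
  obtain ⟨Dy, hDy⟩ := eventually_atTop.1 (l4.eventually (ge_mem_nhds (half_pos hε)))
  set D₁' : ℝ := max (max Dy D₁) (2 * D₀') with hD₁'
  have c1 : Dy ≤ D₁' := (le_max_left _ _).trans (le_max_left _ _)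
  have c2 : D₁ ≤ D₁' := (le_max_right _ _).trans (le_max_left _ _)
  have c3 : 2 * D₀' ≤ D₁' := le_max_right _ _
  have hΞ := hDy D₁' c1
  have hpos : 0 < 8 * (D₁' + 1) ^ 2 := by
    have : 0 < D₁' + 1 := by linarith
    positivity
  set ε₁ : ℝ := ε / (8 * (D₁' + 1) ^ 2) with hε₁
  have hε₁0 : 0 < ε₁ := div_pos hε hpos
  have hε₁e : 4 * (D₁' + 1) ^ 2 * ε₁ = ε / 2 := by
    have h1 : 8 * (D₁' + 1) ^ 2 * ε₁ = ε := by
      rw [hε₁]
      exact mul_div_cancel₀ ε hpos.ne'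
    linarith
  have hreg : s7dcK (|Wd| + D₁' + 1) (-D₀' + 1) ⊆ s7Reg Y.fst := by
    rintro ⟨σ, J⟩ ⟨⟨-, h1⟩, h2⟩
    have h3 : σ.im ≤ uX := by
      have : σ.im ≤ -D₀' + 1 := h1
      linarith
    have h4 : ‖J - 1‖ ≤ 1 / 2 := by simpa [dist_eq_norm] using h2
    exact (hX σ σ J J h3 h3 h4 h4).1
  obtain ⟨η₀, hη₀, hcons⟩ := s7_cons Y.fst (s7dcK (|Wd| + D₁' + 1) (-D₀' + 1)) (s7dcK_compact _ _) hreg
    1 3 one_pos ε₁ hε₁0
  filter_upwards [hap (|Wd| + D₁' + 1) (2 * D₁' + 1),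
    Y.stp_small (min η₀ (1 / 2)) (lt_min hη₀ (by norm_num)),
    Y.close (isCompact_closedBall (0 : ℂ) (|Wd| + D₁' + 2)) η₀ hη₀] with n hn1 hn2 hn3
  rintro ⟨y, T⟩ ⟨⟨hy1, hy2, hy3⟩, hT⟩
  have hT' : T ∈ ball (1 : ℂ) (1 / 2) := hT
  have hy3' : |y.re| ≤ Wd := by simpa using hy3
  have hWd : Wd ≤ |Wd| := le_abs_self Wd
  refine ⟨(hn1 y T (by linarith) (by linarith) (by linarith) hT').1, ?_⟩
  have key := Y.dc_fixed M hCp hβ hX hanch b3 c3 (fun D hD => (hDz D (b1.trans hD)).1)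
    (fun D hD => (hDz D (b1.trans hD)).2.1) (by linarith) (by linarith) (by linarith)
    (hDz D₀' b1).2.2 hε₁0.le hcons n
    (fun y T h1 h2 h3 h4 => hn1 y T (by linarith) h2 h3 h4) hn2 hn3 y T (by linarith) (by linarith)
    hy3' hT'
  show ‖Y.Sc n (y, T) - M.m₁ y‖ ≤ ε
  linarith

end Claimed.Agent.R269
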