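/-
Row 269, P1 Section 7: THE BENDING FUNCTION OF THE ANALYTIC DISCS (HOST-FREE).   LEAF PACKAGE LF-S7-bump (ONE FILE = ONE OWNER).   Statements: helper146.   Proof: helper175.

* `s7bump A ρ2 ζ = -2 i A ((1 + ρ2 ζ²)/(1 - ρ2 ζ²) - 1)`  (`0 < ρ2 < 1`), `dip = A/(1-ρ2)`.   `P = (1+ρ2ζ²)/(1-ρ2ζ²)` has `Re P > 0` on `|ζ| ≤ 1`; `Im bump = 2A - 2A Re P`.
     (b1) holomorphic on `ball 0 R'`, `R' = ρ2^{-1/2} > 1`;   (b2) `Im ≤ 2A` on `closedBall 0 1`;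
     (b3) `|ζ| = 1`, `|Im ζ| ≤ (1-ρ2)/2` ⇒ `Im ≤ 2A - dip`  [`|1 - ρ2 ζ²|² = (1-ρ2)² + 4ρ2 (Im ζ)² ≤ (1-ρ2)²(1+ρ2)`, `Re P = (1-ρ2²)/|1-ρ2ζ²|² ≥ 1/(1-ρ2)`];
     (b4) `|bump| ≤ 4 dip` on `closedBall 0 1`  [`|P - 1| = |2ρ2ζ²/(1-ρ2ζ²)| ≤ 2/(1-ρ2)`];     (b5) `|ζ| ≤ 1/4` ⇒ `|bump| ≤ A/2`.
-/
import Mathlib

set_option autoImplicit false

namespace Claimed.Agent.R269

open Complex Filter Topology Set Metric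
open scoped Real

/-- the bending function of the analytic discs. -/
noncomputable def s7bump (A ρ2 : ℝ) (ζ : ℂ) : ℂ :=
  -2 * I * (A : ℂ) * ((1 + (ρ2 : ℂ) * ζ ^ 2) / (1 - (ρ2 : ℂ) * ζ ^ 2) - 1)

theorem s7bump_aux_norm (w : ℂ) (t : ℝ) (ht : t < 1) (hw : ‖w‖ ≤ t) :
    1 - w ≠ 0 ∧ ‖(1 + w) / (1 - w) - 1‖ ≤ 2 * t / (1 - t) := by
  have ht0 : 0 ≤ t := (norm_nonneg _).trans hw
  have h1 : 1 - t ≤ ‖1 - w‖ := by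
    have := norm_sub_norm_le (1 : ℂ) w
    rw [norm_one] at this
    linarith
  have hne : 1 - w ≠ 0 := by
    intro h
    rw [h, norm_zero] at h1
    linarith
  refine ⟨hne, ?_⟩
  have e : (1 + w) / (1 - w) - 1 = 2 * w / (1 - w) := by
    field_simp; ring
  rw [e, norm_div, norm_mul, Complex.norm_ofNat]
  exact div_le_div₀ (by positivity) (by linarith) (by linarith) h1

theorem s7bump_aux_re (w : ℂ) : ((1 + w) / (1 - w)).re = (1 - normSq w) / normSq (1 - w) := by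
  rw [Complex.div_re, ← add_div]
  congr 1
  simp only [normSq_apply, add_re, one_re, sub_re, add_im, one_im, sub_im]
  ring

theorem s7bump_aux_im (A ρ2 : ℝ) (ζ : ℂ) :
    (s7bump A ρ2 ζ).im = 2 * A - 2 * A * ((1 + (ρ2 : ℂ) * ζ ^ 2) / (1 - (ρ2 : ℂ) * ζ ^ 2)).re := by
  unfold s7bump
  simp only [mul_im, mul_re, neg_re, neg_im, sub_re, sub_im, I_re, I_im, ofReal_re, ofReal_im, one_re,
    one_im, re_ofNat, im_ofNat]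
  ring

theorem s7bump_aux_nrm (A ρ2 : ℝ) (hA : 0 < A) (ζ : ℂ) :
    ‖s7bump A ρ2 ζ‖ = 2 * A * ‖(1 + (ρ2 : ℂ) * ζ ^ 2) / (1 - (ρ2 : ℂ) * ζ ^ 2) - 1‖ := by
  unfold s7bump
  rw [norm_mul, norm_mul, norm_mul, norm_neg, Complex.norm_ofNat, norm_I, Complex.norm_real,
    Real.norm_eq_abs, abs_of_pos hA, mul_one]

/-- LEAF LF-S7-bump (HOST-FREE). -/
theorem s7bump_spec (A ρ2 : ℝ) (hA : 0 < A) (h0 : 0 < ρ2) (h1 : ρ2 < 1) :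
    (∃ R' : ℝ, 1 < R' ∧ DifferentiableOn ℂ (s7bump A ρ2) (ball 0 R')) ∧
    (∀ ζ ∈ closedBall (0 : ℂ) 1, (s7bump A ρ2 ζ).im ≤ 2 * A) ∧
    (∀ ζ ∈ sphere (0 : ℂ) 1, |ζ.im| ≤ (1 - ρ2) / 2 → (s7bump A ρ2 ζ).im ≤ 2 * A - A / (1 - ρ2)) ∧
    (∀ ζ ∈ closedBall (0 : ℂ) 1, ‖s7bump A ρ2 ζ‖ ≤ 4 * (A / (1 - ρ2))) ∧
    (∀ ζ ∈ closedBall (0 : ℂ) (1 / 4), ‖s7bump A ρ2 ζ‖ ≤ A / 2) := by
  have hw : ∀ ζ : ℂ, ‖(ρ2 : ℂ) * ζ ^ 2‖ = ρ2 * ‖ζ‖ ^ 2 := by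
    intro ζ
    rw [norm_mul, norm_pow, Complex.norm_real, Real.norm_eq_abs, abs_of_pos h0]
  have h1ρ : 0 < 1 - ρ2 := by linarith
  refine ⟨⟨1 / Real.sqrt ρ2, ?_, ?_⟩, ?_, ?_, ?_, ?_⟩
  · rw [lt_div_iff₀ (Real.sqrt_pos.2 h0), one_mul]
    calc Real.sqrt ρ2 < Real.sqrt 1 := Real.sqrt_lt_sqrt h0.le h1
      _ = 1 := Real.sqrt_one
  · intro ζ hζ
    have hζ' : ‖ζ‖ < 1 / Real.sqrt ρ2 := by simpa using hζ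
    have hlt : ρ2 * ‖ζ‖ ^ 2 < 1 := by
      have h2 : ‖ζ‖ ^ 2 < (1 / Real.sqrt ρ2) ^ 2 := by
        exact pow_lt_pow_left₀ hζ' (norm_nonneg _) two_ne_zero
      rw [div_pow, one_pow, Real.sq_sqrt h0.le, lt_div_iff₀ h0] at h2
      linarith
    have hne : 1 - (ρ2 : ℂ) * ζ ^ 2 ≠ 0 :=
      (s7bump_aux_norm _ _ hlt (hw ζ).le).1
    unfold s7bump
    apply DifferentiableAt.differentiableWithinAt
    fun_prop (disch := exact hne)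
  · intro ζ hζ
    have hζ' : ‖ζ‖ ≤ 1 := by simpa using hζ
    rw [s7bump_aux_im, s7bump_aux_re]
    have hn : normSq ((ρ2 : ℂ) * ζ ^ 2) ≤ 1 := by
      rw [← Complex.sq_norm, hw]
      have : ‖ζ‖ ^ 2 ≤ 1 := pow_le_one₀ (norm_nonneg _) hζ'
      have h3 : ρ2 * ‖ζ‖ ^ 2 ≤ 1 := by nlinarith [sq_nonneg ‖ζ‖]
      exact pow_le_one₀ (by positivity) h3
    have : 0 ≤ (1 - normSq ((ρ2 : ℂ) * ζ ^ 2)) / normSq (1 - (ρ2 : ℂ) * ζ ^ 2) :=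
      div_nonneg (by linarith) (normSq_nonneg _)
    nlinarith
  · intro ζ hζ hy
    have hζ' : ‖ζ‖ = 1 := by simpa using hζ
    rw [s7bump_aux_im, s7bump_aux_re]
    have hxy : ζ.re ^ 2 + ζ.im ^ 2 = 1 := by
      have := Complex.sq_norm ζ
      rw [hζ', normSq_apply] at this
      nlinarith
    have hn : normSq ((ρ2 : ℂ) * ζ ^ 2) = ρ2 ^ 2 := by
      rw [← Complex.sq_norm, hw, hζ']; ring
    have hd : normSq (1 - (ρ2 : ℂ) * ζ ^ 2) = (1 - ρ2) ^ 2 + 4 * ρ2 * ζ.im ^ 2 := by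
      have e1 : (1 - (ρ2 : ℂ) * ζ ^ 2).re = 1 - ρ2 * (ζ.re ^ 2 - ζ.im ^ 2) := by
        simp [pow_two]
      have e2 : (1 - (ρ2 : ℂ) * ζ ^ 2).im = -(ρ2 * (2 * ζ.re * ζ.im)) := by
        simp only [pow_two, sub_im, one_im, mul_im, ofReal_re, ofReal_im, mul_re]
        ring
      rw [normSq_apply, e1, e2]
      have hx : ζ.re ^ 2 = 1 - ζ.im ^ 2 := by linarith
      have : (1 - ρ2 * (ζ.re ^ 2 - ζ.im ^ 2)) * (1 - ρ2 * (ζ.re ^ 2 - ζ.im ^ 2)) +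
          -(ρ2 * (2 * ζ.re * ζ.im)) * -(ρ2 * (2 * ζ.re * ζ.im)) =
          (1 - ρ2 * (ζ.re ^ 2 - ζ.im ^ 2)) ^ 2 + 4 * ρ2 ^ 2 * ζ.re ^ 2 * ζ.im ^ 2 := by ring
      rw [this, hx]; ring
    rw [hn, hd]
    have hy2 : ζ.im ^ 2 ≤ ((1 - ρ2) / 2) ^ 2 := by
      rw [← sq_abs ζ.im]
      exact pow_le_pow_left₀ (abs_nonneg _) hy 2
    have hden : (1 - ρ2) ^ 2 + 4 * ρ2 * ζ.im ^ 2 ≤ (1 - ρ2) ^ 2 * (1 + ρ2) := by nlinarith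
    have hden0 : 0 < (1 - ρ2) ^ 2 + 4 * ρ2 * ζ.im ^ 2 := by positivity
    have hP : 1 / (1 - ρ2) ≤ (1 - ρ2 ^ 2) / ((1 - ρ2) ^ 2 + 4 * ρ2 * ζ.im ^ 2) := by
      rw [div_le_div_iff₀ h1ρ hden0]
      nlinarith
    have e : A / (1 - ρ2) = A * (1 / (1 - ρ2)) := by ring
    have hpos : 0 < 1 / (1 - ρ2) := by positivity
    rw [e]
    nlinarith
  · intro ζ hζ
    have hζ' : ‖ζ‖ ≤ 1 := by simpa using hζ
    rw [s7bump_aux_nrm A ρ2 hA]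
    have hle : ‖(ρ2 : ℂ) * ζ ^ 2‖ ≤ ρ2 := by
      rw [hw]
      have : ‖ζ‖ ^ 2 ≤ 1 := pow_le_one₀ (norm_nonneg _) hζ'
      nlinarith
    have := (s7bump_aux_norm _ ρ2 h1 hle).2
    have h2 : 2 * ρ2 / (1 - ρ2) ≤ 2 / (1 - ρ2) :=
      div_le_div_of_nonneg_right (by linarith) h1ρ.le
    calc 2 * A * ‖(1 + (ρ2 : ℂ) * ζ ^ 2) / (1 - (ρ2 : ℂ) * ζ ^ 2) - 1‖ ≤ 2 * A * (2 / (1 - ρ2)) :=
          mul_le_mul_of_nonneg_left (this.trans h2) (by positivity)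
      _ = 4 * (A / (1 - ρ2)) := by ring
  · intro ζ hζ
    have hζ' : ‖ζ‖ ≤ 1 / 4 := by simpa using hζ
    rw [s7bump_aux_nrm A ρ2 hA]
    have hle : ‖(ρ2 : ℂ) * ζ ^ 2‖ ≤ 1 / 16 := by
      rw [hw]
      have : ‖ζ‖ ^ 2 ≤ (1 / 4) ^ 2 := pow_le_pow_left₀ (norm_nonneg _) hζ' 2
      nlinarith [sq_nonneg ‖ζ‖]
    have := (s7bump_aux_norm _ (1 / 16) (by norm_num) hle).2
    calc 2 * A * ‖(1 + (ρ2 : ℂ) * ζ ^ 2) / (1 - (ρ2 : ℂ) * ζ ^ 2) - 1‖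
        ≤ 2 * A * (2 * (1 / 16) / (1 - 1 / 16)) := mul_le_mul_of_nonneg_left this (by positivity)
      _ ≤ A / 2 := by nlinarith

end Claimed.Agent.R269
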