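/-
Row 269, P1 Section 7: RAISING THE KNOWN REGION BY ANALYTIC DISCS (RAISE).   LEAF PACKAGE LF-S7-raise (ONE FILE = ONE OWNER).   Statements: helper146.

* `s7bump A ρ2`, `dip = A/(1-ρ2)`: see `S7/Bump.lean` (`s7bump_spec`, items (b1)-(b5)).
* `S7Sys.raise`.  KNOWN: `Sc n → mdl` on `Box(xc, Wb, lo, hb) × ball 1 R` (all parameter directions).   CONCLUSION: `Sc n → mdl` on `Box(xc, w, lt, ht) × closedBall 1 (R/8)`, `ht > hb`.
     Constants:  `dip = A/(1-ρ2) ≥ ht - hb + 5A/2`,  `η = R(1-ρ2)/4`,  `Λ = (1+R)/η`,  `htop = ht + 5A/2`,  `wT = w + A/2 + 4 dip`,  `s₀ = htop - hb`,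
                 `Wb ≥ wT + κ + Λ (htop - hb + 2κ)`,   `lo ≤ min(hb - 2κ, lt - A/2 - 4 dip - s₀)`;   the model lives on `Box(xc,Wb,lo,hb) ∪ Trap(xc, wT+κ, Λ, hb-2κ, htop)`.
   PROOF.  1. `S7Sys.steep` for `sg = ±1` with `(R, η, Λ, xc, wT, hb-κ, hb, htop, κ)`: its lower part `{y ∈ Trap(xc,wT+κ,Λ,hb-2κ,htop), Im y ≤ hb}` is contained in `Box(xc,Wb,lo,hb)`, `s7Steep sg R η ⊆ ball 1 R`.
        So `Sc n → mdl` on `𝒜 = Box(xc,Wb,lo,hb) × ball 1 R  ∪  Trap(xc,wT,Λ,hb-κ,htop) × (s7Steep 1 R η ∪ s7Steep (-1) R η)`.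
     2. Fix `ε`, `n` large (`param_small`, and step 1 with `ε`).  Target `(y*,T*)`, `ζ* = (T* - 1)/(R/2)`, `|ζ*| ≤ 1/4`.  `S7Sys.fill` with `Tc = 1`, radius `R/2`, `g = s7bump A ρ2`, `Yc = y* - g ζ*`, `s₀`:
        for `|ζ| ≤ 1`:  `Im (Yc + g ζ - s i) ≤ ht + A/2 + 2A = htop`,  `≥ lt - A/2 - 4dip - s₀ ≥ lo`,  `|Re - xc| ≤ wT`;
        `s = s₀`: `Im ≤ hb`: base.    `|ζ| = 1`, `|Im ζ| ≤ (1-ρ2)/2`: `Im ≤ htop - dip ≤ hb`: base.    `|ζ| = 1`, `|Im ζ| > (1-ρ2)/2`: `|Im T| = (R/2)|Im ζ| > η`: steep; the point is in the base if `Im ≤ hb`, else in the trapezoid.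
        The target is the point `ζ = ζ*`, `s = 0`.
-/
import Claimed.Agent.R269.S7.Steep
import Claimed.Agent.R269.S7.Bump

set_option autoImplicit false

namespace Claimed.Agent.R269

open Complex Filter Topology Set Metric
open scoped Real

/-- LEAF LF-S7-raise (GLUE: `steep` + `fill` + `s7bump_spec`). -/
theorem S7Sys.raise {Sh : Shape} (Y : S7Sys Sh) {Ω : Set ℂ} {mdl : ℂ → ℂ} (hm : S7Sol Y.fst Ω mdl)
    (R A ρ2 xc w lt ht hb lo Wb κ : ℝ) (hR : 0 < R) (hR' : R ≤ 1 / 2) (hA : 0 < A) (h0 : 0 < ρ2)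
    (h1 : ρ2 < 1) (hκ : 0 < κ) (hw : 0 ≤ w) (hbt : hb ≤ ht)
    (hdip : ht - hb + 5 * A / 2 ≤ A / (1 - ρ2))
    (hWb : w + A / 2 + 4 * (A / (1 - ρ2)) + κ
      + (1 + R) / (R * (1 - ρ2) / 4) * (ht + 5 * A / 2 - hb + 2 * κ) ≤ Wb)
    (hlo : lo ≤ hb - 2 * κ) (hlo' : lo ≤ lt - A / 2 - 4 * (A / (1 - ρ2)) - (ht + 5 * A / 2 - hb))
    (hΩb : s7Box xc Wb lo hb ⊆ Ω)
    (hΩt : s7Trap xc (w + A / 2 + 4 * (A / (1 - ρ2)) + κ) ((1 + R) / (R * (1 - ρ2) / 4)) (hb - 2 * κ)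
      (ht + 5 * A / 2) ⊆ Ω)
    (hbase : Y.Conv (s7Box xc Wb lo hb ×ˢ ball (1 : ℂ) R) mdl) :
    Y.Conv (s7Box xc w lt ht ×ˢ closedBall (1 : ℂ) (R / 8)) mdl := by
  -- constants
  have h1' : 0 < 1 - ρ2 := by linarith
  set dip : ℝ := A / (1 - ρ2) with hdipdef
  have hdip0 : 0 < dip := div_pos hA h1'
  set η : ℝ := R * (1 - ρ2) / 4 with hηdef
  have hη : 0 < η := by positivity
  set Λ : ℝ := (1 + R) / η with hΛdef
  have hΛ0 : 0 < Λ := by positivity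
  set htop : ℝ := ht + 5 * A / 2 with htopdef
  set wT : ℝ := w + A / 2 + 4 * dip with hwTdef
  have hwT0 : 0 ≤ wT := by positivity
  have hbtop : hb ≤ htop := by rw [htopdef]; linarith
  clear_value wT htop Λ η dip
  -- step 1: the steep sectors
  have hsteep : ∀ sg : ℝ, sg = 1 ∨ sg = -1 →
      Y.Conv (s7Trap xc wT Λ (hb - κ) htop ×ˢ s7Steep sg R η) mdl := by
    intro sg hsg
    refine Y.steep hm sg R η Λ xc wT (hb - κ) hb htop κ hsg hR hR' hη hΛdef.ge hκ hwT0 (by linarith)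
      hbtop ?_ ?_
    · have e : hb - κ - κ = hb - 2 * κ := by ring
      rw [e]
      exact hΩt
    · refine S7Sys.Conv.mono Y hbase ?_
      rintro ⟨y, T⟩ ⟨⟨⟨hy1, hy2, hy3⟩, hy4⟩, hT⟩
      refine ⟨⟨by simp only at hy1 ⊢; linarith, hy4, ?_⟩, ?_⟩
      · simp only at hy1 hy3 ⊢
        refine hy3.trans (le_trans ?_ hWb)
        have : Λ * (htop - y.im) ≤ Λ * (htop - hb + 2 * κ) :=
          mul_le_mul_of_nonneg_left (by linarith) hΛ0.le
        linarith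
      · exact mem_ball.2 (by simpa [dist_eq_norm] using hT.1)
  obtain ⟨⟨R', hR'1, hgd⟩, hb2, hb3, hb4, hb5⟩ := s7bump_spec A ρ2 hA h0 h1
  simp only [← hdipdef] at hb3 hb4
  intro ε hε
  filter_upwards [Y.param_small, hbase ε hε, hsteep 1 (Or.inl rfl) ε hε,
    hsteep (-1) (Or.inr rfl) ε hε] with n hn hB hS1 hS2
  rintro ⟨ys, Ts⟩ ⟨⟨hys1, hys2, hys3⟩, hTs⟩
  simp only at hys1 hys2 hys3 hTs
  set g := s7bump A ρ2 with hg
  set ζs : ℂ := (Ts - 1) / ((R / 2 : ℝ) : ℂ) with hζs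
  have hR2 : (0 : ℝ) < R / 2 := by positivity
  have hR2c : ((R / 2 : ℝ) : ℂ) ≠ 0 := by exact_mod_cast hR2.ne'
  have hζs4 : ζs ∈ closedBall (0 : ℂ) (1 / 4) := by
    rw [mem_closedBall_zero_iff, hζs, norm_div, Complex.norm_real, Real.norm_of_nonneg hR2.le,
      div_le_iff₀ hR2]
    have := mem_closedBall_iff_norm.1 hTs
    linarith
  have hζs1 : ζs ∈ closedBall (0 : ℂ) 1 := closedBall_subset_closedBall (by norm_num) hζs4
  have hgs : ‖g ζs‖ ≤ A / 2 := hb5 ζs hζs4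
  set Yc : ℂ := ys - g ζs with hYc
  set s₀ : ℝ := htop - hb with hs₀
  have hs₀0 : 0 ≤ s₀ := by rw [hs₀]; linarith
  have e1 : Yc + g ζs - ((0 : ℝ) : ℂ) * I = ys := by simp [hYc]
  have e2 : (1 : ℂ) + ((R / 2 : ℝ) : ℂ) * ζs = Ts := by
    rw [hζs, mul_div_cancel₀ _ hR2c]; ring
  -- geometry of the discs
  have him : ∀ (ζ : ℂ) (s : ℝ), (Yc + g ζ - (s : ℂ) * I).im = ys.im - (g ζs).im + (g ζ).im - s := by
    intro ζ s
    simp [hYc]
  have hre : ∀ (ζ : ℂ) (s : ℝ), (Yc + g ζ - (s : ℂ) * I).re = ys.re - (g ζs).re + (g ζ).re := by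
    intro ζ s
    simp [hYc]
  have hgsim := (abs_le.1 ((Complex.abs_im_le_norm (g ζs)).trans hgs))
  have hgsre := (abs_le.1 ((Complex.abs_re_le_norm (g ζs)).trans hgs))
  clear_value Yc s₀ ζs g
  have geo : ∀ ζ ∈ closedBall (0 : ℂ) 1, ∀ s ∈ Icc 0 s₀,
      lo ≤ (Yc + g ζ - (s : ℂ) * I).im ∧ (Yc + g ζ - (s : ℂ) * I).im ≤ htop - s ∧
        |(Yc + g ζ - (s : ℂ) * I).re - xc| ≤ wT := by
    intro ζ hζ s hs
    have k1 := abs_le.1 ((Complex.abs_im_le_norm (g ζ)).trans (hb4 ζ hζ))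
    have k2 := abs_le.1 ((Complex.abs_re_le_norm (g ζ)).trans (hb4 ζ hζ))
    have k3 := hb2 ζ hζ
    have k4 := abs_le.1 hys3
    rw [him, hre]
    refine ⟨?_, ?_, ?_⟩
    · have := hs.2
      rw [hs₀] at this
      linarith [k1.1, hgsim.2]
    · rw [htopdef]; linarith [hgsim.1]
    · rw [abs_le, hwTdef]
      constructor <;> linarith [k2.1, k2.2, k4.1, k4.2, hgsre.1, hgsre.2]
  have hwTWb : wT ≤ Wb := by
    have : 0 ≤ Λ * (s₀ + 2 * κ) := mul_nonneg hΛ0.le (by linarith)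
    linarith
  have inBox : ∀ ζ ∈ closedBall (0 : ℂ) 1, ∀ s ∈ Icc 0 s₀, (Yc + g ζ - (s : ℂ) * I).im ≤ hb →
      Yc + g ζ - (s : ℂ) * I ∈ s7Box xc Wb lo hb := fun ζ hζ s hs h =>
    ⟨(geo ζ hζ s hs).1, h, (geo ζ hζ s hs).2.2.trans hwTWb⟩
  have hTball : ∀ ζ ∈ closedBall (0 : ℂ) 1, (1 : ℂ) + ((R / 2 : ℝ) : ℂ) * ζ ∈ ball (1 : ℂ) R := by
    intro ζ hζ
    rw [mem_ball_iff_norm, add_sub_cancel_left, norm_mul, Complex.norm_real,
      Real.norm_of_nonneg hR2.le]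
    have := mem_closedBall_zero_iff.1 hζ
    have h3 : R / 2 * ‖ζ‖ ≤ R / 2 * 1 := mul_le_mul_of_nonneg_left this hR2.le
    linarith
  have key := Y.fill n hn hm.isOpen hm.diff 1 Yc (R / 2) R' s₀ ε hR2
    (by
      intro T hT
      rw [mem_closedBall_iff_norm] at hT
      rw [mem_ball_iff_norm]
      linarith) hR'1 g hgd hs₀0
    (by
      intro ζ hζ s hs
      by_cases hc : (Yc + g ζ - (s : ℂ) * I).im ≤ hb
      · exact hΩb (inBox ζ hζ s hs hc)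
      · refine hΩt ⟨by linarith, ?_, ?_⟩
        · have := (geo ζ hζ s hs).2.1
          linarith [hs.1]
        · have h2 := (geo ζ hζ s hs).2.1
          have : 0 ≤ Λ * (htop - (Yc + g ζ - (s : ℂ) * I).im) :=
            mul_nonneg hΛ0.le (by linarith [hs.1])
          linarith [(geo ζ hζ s hs).2.2])
    (by
      intro ζ hζ
      refine (hB _ ⟨inBox ζ hζ s₀ ⟨hs₀0, le_rfl⟩ ?_, hTball ζ hζ⟩).1
      have := (geo ζ hζ s₀ ⟨hs₀0, le_rfl⟩).2.1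
      rw [hs₀] at this ⊢
      linarith)
    (by
      intro ζ hζ s hs
      have hζ1 : ζ ∈ closedBall (0 : ℂ) 1 := sphere_subset_closedBall hζ
      by_cases hc : (Yc + g ζ - (s : ℂ) * I).im ≤ hb
      · exact hB _ ⟨inBox ζ hζ1 s hs hc, hTball ζ hζ1⟩
      · have hsteepζ : (1 - ρ2) / 2 < |ζ.im| := by
          by_contra hcon
          have k := hb3 ζ hζ (not_lt.1 hcon)
          apply hc
          rw [him]
          rw [htopdef] at hbtop
          linarith [hgsim.1, hs.1]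
        have hTr : Yc + g ζ - (s : ℂ) * I ∈ s7Trap xc wT Λ (hb - κ) htop := by
          refine ⟨by linarith, ?_, ?_⟩
          · have := (geo ζ hζ1 s hs).2.1
            linarith [hs.1]
          · have h2 := (geo ζ hζ1 s hs).2.1
            have : 0 ≤ Λ * (htop - (Yc + g ζ - (s : ℂ) * I).im) :=
              mul_nonneg hΛ0.le (by linarith [hs.1])
            linarith [(geo ζ hζ1 s hs).2.2]
        have hTim : ((1 : ℂ) + ((R / 2 : ℝ) : ℂ) * ζ).im = R / 2 * ζ.im := by simp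
        have hTn : ‖(1 : ℂ) + ((R / 2 : ℝ) : ℂ) * ζ - 1‖ < R := by
          have := hTball ζ hζ1
          rwa [mem_ball_iff_norm] at this
        rcases le_total 0 ζ.im with hpos | hneg
        · rw [abs_of_nonneg hpos] at hsteepζ
          refine hS1 _ ⟨hTr, hTn, ?_⟩
          rw [hTim, hηdef]
          have := mul_lt_mul_of_pos_left hsteepζ hR2
          linarith
        · rw [abs_of_nonpos hneg] at hsteepζ
          refine hS2 _ ⟨hTr, hTn, ?_⟩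
          rw [hTim, hηdef]
          have := mul_lt_mul_of_pos_left hsteepζ hR2
          linarith)
  have := key ζs hζs1 0 ⟨le_rfl, hs₀0⟩
  rw [e1, e2] at this
  exact this

end Claimed.Agent.R269
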