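/-
Row 269, P1 Section 7: THE CONTRADICTION (core of Theorem 7.1).   Owner: helper146.

`S7Sys.false`: a normalised system with deep data cannot exist, given a model with a branch point.

PROOF (GLUE).  `uR, ϱ, m₁, m₂` from `M`;  `θ = ϱ/4`,  `ν = θ/4000`,  `u₁ = uR + ν/2`.
 1. `D₀'` from `deep_conv`; enlarge it so that `-D₀' ≤ uR - 2ν - 1` (`Conv.mono`).
 2. INNER (`raise` with `mdl = m₁`, `Ω = s7Ω₁`, `R = 1/2`, `xc = 0`, `hb = -D₀'`, `ht = uR - ν`, `A = ν/8`, `1 - ρ2 = A/(ht - hb + 5A/2)` (`< 1`), `κ = 1`, `w = w₁`, `lt = lt₁` (chosen in step 3), `Wb`, `lo` := the right-hand sides):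
      everything lies in `Im ≤ ht + 5A/2 < uR`, i.e. in `s7Ω₁`.   Result: `Conv (Box 0 w₁ lt₁ (uR-ν) × closedBall 1 (1/16)) m₁`.
 3. OUTER LEFT/RIGHT (`raise`, `R = 1/16`, `xc = ∓θ`, `hb = uR - ν`, `ht = uR + ν`, `A = ν/2`, `ρ2 = 9/10` (`dip = 5ν ≥ 2ν + 5ν/4`), `κ = ν/4`, `w = ν`, `lt = uR - ν`):  `Λ = (17/16)/((1/16)(1/10)/4) = 680`,
      `wT + κ = ν + ν/4 + 20ν + ν/4 = 21.5ν`,  `htop = uR + 9ν/4`,  `Wb = 21.5ν + 680 (13ν/4 + ν/2) = 2571.5ν`,  `lo = uR - ν - ν/4 - 20ν - 13ν/4 = uR - 24.5ν`.   So `w₁ = θ + 2571.5ν`, `lt₁ = uR - 24.5ν`.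
      The trapezoid above `uR`: `|Re y ∓ θ| ≤ 21.5ν + 680 · 9ν/4 = 1551.5ν < θ`, so `Re y ≠ 0`, `|y - i uR| < 2θ + 9ν/4 < ϱ`: in `s7Ω₁`.
      Result: `Conv (Box (∓θ) ν (uR-ν) (uR+ν) × closedBall 1 (1/128)) m₁`.
 4. BAND: `(-θ + i(uR+ν), 1) ∈ dom n` eventually; `band` with `lo = uR - 1`: `(y,1) ∈ dom n` for `uR - 1 ≤ Im y ≤ uR + ν`.
 5. ROW: `s7_row` with `mdl = m₂`, `Ω = s7Ω₂`, `p = -θ - ν/2`, `q = θ`, `u = u₁`, `ri = ν`; `γ x = Sc n (x + i u₁, 1)`, `a = ‖stp n 1‖ = 1/(ℓ m)` (`stp n 1` is real positive), `stepEq`, `fld`, `close`;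
      the initial closeness from step 3 (left), `M.agree` (`m₂ = m₁` for `Re < 0`, also at `y - a`) and `conv_quot` (`A = ` the segment, `κ = ν/4`).
 6. At `y_e = θ + i u₁`:  `|Sc - m₂| ≤ ε`, `|quot Sc - quot m₂| ≤ ε` (row) and `|Sc - m₁| ≤ ε`, `|quot Sc - quot m₁| ≤ ε` (step 3 right + `conv_quot`).  As `a → 0` the quotients of `m₁, m₂` tend to the derivatives.
      So `m₁ y_e = m₂ y_e` and `m₁' y_e = m₂' y_e`, contradicting `M.differ`.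
-/
import Claimed.Agent.R269.S7.Raise
import Claimed.Agent.R269.S7.Deep

set_option autoImplicit false

namespace Claimed.Agent.R269

open Complex Filter Topology Set Metric
open scoped Real

namespace S7Sys

variable {Sh : Shape} (Y : S7Sys Sh) (M : S7Model Y.fst)

/-- step 2 (INNER): all boxes below the height `uR - ν`, for `T ∈ closedBall 1 (1/16)`. -/
theorem core_inner (ν : ℝ) (hν : 0 < ν) (w₁ lt₁ : ℝ) (hw₁ : 0 ≤ w₁) :
    Y.Conv (s7Box 0 w₁ lt₁ (M.uR - ν) ×ˢ closedBall (1 : ℂ) (1 / 16)) M.m₁ := by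
  obtain ⟨D₀', hdeep⟩ := Y.deep_conv M
  set hb : ℝ := min (-D₀') (M.uR - 2 * ν - 1) with hhb
  have hb1 : hb ≤ -D₀' := min_le_left _ _
  have hb2 : hb ≤ M.uR - 2 * ν - 1 := min_le_right _ _
  clear_value hb
  set ht : ℝ := M.uR - ν with hht
  set A : ℝ := ν / 8 with hA
  have hA0 : 0 < A := by positivity
  have hbt : hb ≤ ht := by rw [hht]; linarith
  set dd : ℝ := ht - hb + 5 * A / 2 with hdd
  have hdd0 : 0 < dd := by rw [hdd]; linarith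
  have hAdd : A < dd := by rw [hdd]; linarith
  set ρ2 : ℝ := 1 - A / dd with hρ2
  have h1ρ : 1 - ρ2 = A / dd := by rw [hρ2]; ring
  have hq1 : A / dd < 1 := (div_lt_one hdd0).2 hAdd
  have hq0 : 0 < A / dd := div_pos hA0 hdd0
  have hdip : A / (1 - ρ2) = dd := by
    rw [h1ρ]; field_simp
  have e16 : (1 / 16 : ℝ) = 1 / 2 / 8 := by norm_num
  rw [e16]
  obtain ⟨lo, hlo⟩ : ∃ lo : ℝ, lo = min (hb - 2 * 1)
      (lt₁ - A / 2 - 4 * (A / (1 - ρ2)) - (ht + 5 * A / 2 - hb)) := ⟨_, rfl⟩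
  obtain ⟨Wb, hWb⟩ : ∃ Wb : ℝ, Wb = w₁ + A / 2 + 4 * (A / (1 - ρ2)) + 1
      + (1 + 1 / 2) / (1 / 2 * (1 - ρ2) / 4) * (ht + 5 * A / 2 - hb + 2 * 1) := ⟨_, rfl⟩
  refine Y.raise M.sol₁ (1 / 2) A ρ2 0 w₁ lt₁ ht hb lo Wb 1
    (by norm_num) le_rfl hA0 (by rw [hρ2]; linarith) (by rw [hρ2]; linarith) one_pos hw₁ hbt
    (by rw [hdip]) hWb.ge (hlo.le.trans (min_le_left _ _)) (hlo.le.trans (min_le_right _ _)) ?_ ?_ ?_
  · rintro y ⟨-, hy, -⟩
    exact Or.inl (by linarith)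
  · rintro y ⟨-, hy, -⟩
    refine Or.inl ?_
    rw [hht, hA] at hy
    linarith
  · refine S7Sys.Conv.mono Y (hdeep Wb (-lo)) ?_
    rintro ⟨y, T⟩ ⟨⟨hy1, hy2, hy3⟩, hT⟩
    exact ⟨⟨by simpa using hy1, hy2.trans hb1, hy3⟩, hT⟩

/-- step 3 (OUTER): the two boxes beside the slit, up to the height `uR + ν`, for `T ∈ closedBall 1 (1/128)`. -/
theorem core_outer (sg : ℝ) (hsg : sg = 1 ∨ sg = -1) (θ ν : ℝ) (hθ : θ = M.ϱ / 4)
    (hν : ν = θ / 4000) :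
    Y.Conv (s7Box (sg * θ) ν (M.uR - ν) (M.uR + ν) ×ˢ closedBall (1 : ℂ) (1 / 128)) M.m₁ := by
  have hϱ := M.ϱ_pos
  have hθ0 : 0 < θ := by rw [hθ]; positivity
  have hν0 : 0 < ν := by rw [hν]; positivity
  have hθν : θ = 4000 * ν := by rw [hν]; ring
  have hsgθ : |sg * θ| = θ := by
    rcases hsg with rfl | rfl
    · rw [one_mul, abs_of_pos hθ0]
    · rw [neg_one_mul, abs_neg, abs_of_pos hθ0]
  have e128 : (1 / 128 : ℝ) = 1 / 16 / 8 := by norm_num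
  have edip : ν / 2 / (1 - 9 / 10) = 5 * ν := by ring
  have eΛ : (1 + 1 / 16 : ℝ) / (1 / 16 * (1 - 9 / 10) / 4) = 680 := by norm_num
  rw [e128]
  refine Y.raise M.sol₁ (1 / 16) (ν / 2) (9 / 10) (sg * θ) ν (M.uR - ν) (M.uR + ν) (M.uR - ν)
    (M.uR - 49 / 2 * ν) (5143 / 2 * ν) (ν / 4) (by norm_num) (by norm_num) (by positivity)
    (by norm_num) (by norm_num) (by positivity) hν0.le (by linarith) ?_ ?_ (by linarith) ?_ ?_ ?_ ?_
  · rw [edip]; linarith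
  · rw [edip, eΛ]; linarith
  · rw [edip]; linarith
  · rintro y ⟨-, hy, -⟩
    exact Or.inl (by linarith)
  · rw [edip, eΛ]
    rintro y ⟨hy1, hy2, hy3⟩
    by_cases hc : y.im < M.uR
    · exact Or.inl hc
    · have hc' : M.uR ≤ y.im := not_lt.1 hc
      have h3 : |y.re - sg * θ| < θ := by
        refine lt_of_le_of_lt hy3 ?_
        rw [hθν]
        nlinarith
      have hre0 : y.re ≠ 0 := by
        intro h0
        rw [h0, zero_sub, abs_neg, hsgθ] at h3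
        exact lt_irrefl _ h3
      have hre2 : |y.re| < 2 * θ := by
        have := abs_sub_abs_le_abs_sub y.re (sg * θ)
        rw [hsgθ] at this
        linarith
      refine Or.inr ⟨?_, hre0⟩
      rw [mem_ball_iff_norm]
      have h5 : ‖y - (M.uR : ℂ) * I‖ ≤ |y.re| + |y.im - M.uR| := by
        have := Complex.norm_le_abs_re_add_abs_im (y - (M.uR : ℂ) * I)
        simpa using this
      have h6 : |y.im - M.uR| ≤ 9 / 4 * ν := by
        rw [abs_of_nonneg (by linarith)]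
        linarith
      have : M.ϱ = 4 * θ := by rw [hθ]; ring
      linarith
  · refine S7Sys.Conv.mono Y (Y.core_inner M ν hν0 (θ + 5143 / 2 * ν) (M.uR - 49 / 2 * ν)
      (by positivity)) ?_
    rintro ⟨y, T⟩ ⟨⟨hy1, hy2, hy3⟩, hT⟩
    refine ⟨⟨hy1, hy2, ?_⟩, ball_subset_closedBall hT⟩
    simp only at hy3 ⊢
    rw [sub_zero]
    have := abs_sub_abs_le_abs_sub y.re (sg * θ)
    rw [hsgθ] at this
    linarith

theorem core_mk_sub (x v a : ℝ) : (⟨x, v⟩ : ℂ) - (a : ℂ) = ⟨x - a, v⟩ := by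
  apply Complex.ext <;> simp

theorem core_mk_add (x v a : ℝ) : (⟨x, v⟩ : ℂ) + (a : ℂ) = ⟨x + a, v⟩ := by
  apply Complex.ext <;> simp

theorem core_stp_one (n : ℕ) : Y.stp n 1 = ((1 / (Y.ℓ n * Y.m n) : ℝ) : ℂ) := by
  unfold S7Sys.stp
  push_cast
  rfl

theorem core_mem_ball {θ ν : ℝ} (hθ : θ = M.ϱ / 4) (hν : ν = θ / 4000) {y : ℂ}
    (h1 : |y.re| ≤ θ + ν) (h2 : |y.im - M.uR| ≤ ν) : y ∈ ball ((M.uR : ℂ) * I) M.ϱ := by
  have hϱ := M.ϱ_pos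
  rw [mem_ball_iff_norm]
  have h5 : ‖y - (M.uR : ℂ) * I‖ ≤ |y.re| + |y.im - M.uR| := by
    have := Complex.norm_le_abs_re_add_abs_im (y - (M.uR : ℂ) * I)
    simpa using this
  have e1 : M.ϱ = 4 * θ := by rw [hθ]; ring
  have e2 : θ = 4000 * ν := by rw [hν]; ring
  have : 0 < ν := by rw [hν, hθ]; positivity
  linarith

/-- beside the slit, on the row of height `uR + ν/2` at `T = 1`: values and difference quotients converge to those of `m₁`. -/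
theorem core_side (sg : ℝ) (hsg : sg = 1 ∨ sg = -1) (θ ν : ℝ) (hθ : θ = M.ϱ / 4)
    (hν : ν = θ / 4000) : ∀ ε > 0, ∀ᶠ n in atTop, ∀ x : ℝ, |x - sg * θ| ≤ ν / 2 →
      ((⟨x, M.uR + ν / 2⟩ : ℂ), (1 : ℂ)) ∈ Y.dom n ∧
      ‖Y.Sc n (⟨x, M.uR + ν / 2⟩, 1) - M.m₁ ⟨x, M.uR + ν / 2⟩‖ ≤ ε ∧
      ‖(Y.Sc n (⟨x, M.uR + ν / 2⟩, 1) - Y.Sc n ((⟨x, M.uR + ν / 2⟩ : ℂ) - Y.stp n 1, 1)) / Y.stp n 1
        - (M.m₁ ⟨x, M.uR + ν / 2⟩ - M.m₁ ((⟨x, M.uR + ν / 2⟩ : ℂ) - Y.stp n 1)) / Y.stp n 1‖ ≤ ε := by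
  have hϱ := M.ϱ_pos
  have hθ0 : 0 < θ := by rw [hθ]; positivity
  have hν0 : 0 < ν := by rw [hν]; positivity
  have hθν : θ = 4000 * ν := by rw [hν]; ring
  have hsgθ : |sg * θ| = θ := by
    rcases hsg with rfl | rfl
    · rw [one_mul, abs_of_pos hθ0]
    · rw [neg_one_mul, abs_neg, abs_of_pos hθ0]
  have hout := Y.core_outer M sg hsg θ ν hθ hν
  set A : Set ℂ := {y | ∃ x : ℝ, |x - sg * θ| ≤ ν / 2 ∧ y = ⟨x, M.uR + ν / 2⟩} with hA
  -- geometry of the thickened segment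
  have geo : ∀ y₀ ∈ A, ∀ y : ℂ, ‖y - y₀‖ ≤ ν / 4 →
      |y.re - sg * θ| ≤ 3 / 4 * ν ∧ |y.im - (M.uR + ν / 2)| ≤ ν / 4 := by
    rintro y₀ ⟨x, hx, rfl⟩ y hy
    have h1 := (Complex.abs_re_le_norm (y - ⟨x, M.uR + ν / 2⟩)).trans hy
    have h2 := (Complex.abs_im_le_norm (y - ⟨x, M.uR + ν / 2⟩)).trans hy
    simp only [Complex.sub_re, Complex.sub_im] at h1 h2
    refine ⟨?_, h2⟩
    have := abs_sub_le y.re x (sg * θ)
    linarith
  have hq := Y.conv_quot (Ω := s7Ω₁ M.uR M.ϱ) (mdl := M.m₁) M.sol₁.isOpen M.sol₁.diff (A := A)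
    (𝒯 := {1}) (κ := ν / 4) (by positivity)
    (by
      intro y₀ hy₀ y hy
      obtain ⟨g1, g2⟩ := geo y₀ hy₀ y (by simpa [dist_eq_norm] using hy)
      have g3 : |y.re| ≤ θ + ν := by
        have := abs_sub_abs_le_abs_sub y.re (sg * θ)
        rw [hsgθ] at this
        linarith
      have g4 : |y.im - M.uR| ≤ ν := by
        have := abs_le.1 g2
        rw [abs_le]
        constructor <;> linarith [this.1, this.2]
      refine Or.inr ⟨Y.core_mem_ball M hθ hν g3 g4, ?_⟩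
      intro h0
      rw [h0, zero_sub, abs_neg, hsgθ] at g1
      linarith)
    (by
      intro T hT
      rw [mem_singleton_iff.1 hT]
      exact mem_ball_self (by norm_num))
    (by
      refine S7Sys.Conv.mono Y hout ?_
      rintro ⟨y, T⟩ ⟨⟨y₀, hy₀, hy⟩, hT⟩
      obtain ⟨g1, g2⟩ := geo y₀ hy₀ y hy
      have g2' := abs_le.1 g2
      refine ⟨⟨?_, ?_, ?_⟩, ?_⟩
      · show M.uR - ν ≤ y.im
        linarith [g2'.1]
      · show y.im ≤ M.uR + ν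
        linarith [g2'.2]
      · show |y.re - sg * θ| ≤ ν
        linarith
      · rw [mem_singleton_iff.1 hT]
        exact mem_closedBall_self (by norm_num))
  intro ε hε
  filter_upwards [hout ε hε, hq ε hε] with n h1 h2 x hx
  have hmem : ((⟨x, M.uR + ν / 2⟩ : ℂ), (1 : ℂ))
      ∈ s7Box (sg * θ) ν (M.uR - ν) (M.uR + ν) ×ˢ closedBall (1 : ℂ) (1 / 128) := by
    refine ⟨⟨?_, ?_, ?_⟩, mem_closedBall_self (by norm_num)⟩
    · show M.uR - ν ≤ M.uR + ν / 2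
      linarith
    · show M.uR + ν / 2 ≤ M.uR + ν
      linarith
    · show |x - sg * θ| ≤ ν
      linarith
  exact ⟨(h1 _ hmem).1, (h1 _ hmem).2, h2 _ ⟨x, hx, rfl⟩ 1 rfl _ (Or.inl rfl)⟩

/-- steps 4, 5 (BAND + ROW): at the right end of the row the values and difference quotients converge to those of `m₂`. -/
theorem core_row (θ ν : ℝ) (hθ : θ = M.ϱ / 4) (hν : ν = θ / 4000) : ∀ ε > 0, ∀ᶠ n in atTop,
      ‖Y.Sc n (⟨θ, M.uR + ν / 2⟩, 1) - M.m₂ ⟨θ, M.uR + ν / 2⟩‖ ≤ ε ∧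
      ‖(Y.Sc n (⟨θ, M.uR + ν / 2⟩, 1) - Y.Sc n ((⟨θ, M.uR + ν / 2⟩ : ℂ) - Y.stp n 1, 1)) / Y.stp n 1
        - (M.m₂ ⟨θ, M.uR + ν / 2⟩ - M.m₂ ((⟨θ, M.uR + ν / 2⟩ : ℂ) - Y.stp n 1)) / Y.stp n 1‖ ≤ ε := by
  have hϱ := M.ϱ_pos
  have hθ0 : 0 < θ := by rw [hθ]; positivity
  have hν0 : 0 < ν := by rw [hν]; positivity
  have hθν : θ = 4000 * ν := by rw [hν]; ring
  obtain ⟨u₁, hu₁⟩ : ∃ u₁ : ℝ, u₁ = M.uR + ν / 2 := ⟨_, rfl⟩
  rw [← hu₁]
  obtain ⟨p, hp⟩ : ∃ p : ℝ, p = -θ - ν / 2 := ⟨_, rfl⟩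
  have hballx : ∀ x : ℝ, |x| ≤ θ + ν → (⟨x, u₁⟩ : ℂ) ∈ ball ((M.uR : ℂ) * I) M.ϱ := by
    intro x hx
    refine Y.core_mem_ball M hθ hν hx ?_
    show |u₁ - M.uR| ≤ ν
    rw [hu₁, abs_of_nonneg (by linarith)]
    linarith
  have hseg : ∀ x ∈ Icc p θ, (⟨x, u₁⟩ : ℂ) ∈ s7Ω₂ M.uR M.ϱ := by
    intro x hx
    refine ⟨hballx x ?_, Or.inr ?_⟩
    · rw [abs_le]
      constructor <;> linarith [hx.1, hx.2]
    · show M.uR < u₁
      linarith
  -- a compact set containing the balls of radius 2 about the model row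
  have hcont₂ : ContinuousOn (fun x : ℝ => M.m₂ ⟨x, u₁⟩) (Icc p θ) := by
    have h1 : Continuous (fun x : ℝ => (⟨x, u₁⟩ : ℂ)) := by
      have : (fun x : ℝ => (⟨x, u₁⟩ : ℂ)) = fun x : ℝ => (x : ℂ) + (u₁ : ℂ) * I := by
        funext x
        apply Complex.ext <;> simp
      rw [this]
      fun_prop
    exact M.sol₂.diff.continuousOn.comp h1.continuousOn hseg
  have hKc : IsCompact (cthickening 2 ((fun x : ℝ => M.m₂ ⟨x, u₁⟩) '' Icc p θ)) :=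
    (isCompact_Icc.image_of_continuousOn hcont₂).cthickening
  intro ε hε
  obtain ⟨δ, hδ, η₀, hη₀, hrow⟩ := s7_row Y.fst M.sol₂ p θ u₁ ν hν0 (by rw [hp]; linarith) hseg ε hε
  have h1mem : (1 : ℂ) ∈ ball (1 : ℂ) (1 / 2) := mem_ball_self (by norm_num)
  have hbandpre : ∀ᶠ n in atTop, ((⟨-θ, M.uR + ν⟩ : ℂ), (1 : ℂ)) ∈ Y.dom n := by
    filter_upwards [Y.core_outer M (-1) (Or.inr rfl) θ ν hθ hν 1 one_pos] with n hn
    refine (hn _ ⟨⟨?_, ?_, ?_⟩, mem_closedBall_self (by norm_num)⟩).1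
    · show M.uR - ν ≤ M.uR + ν
      linarith
    · show M.uR + ν ≤ M.uR + ν
      exact le_rfl
    · show |-θ - -1 * θ| ≤ ν
      rw [show -θ - -1 * θ = 0 by ring, abs_zero]
      exact hν0.le
  filter_upwards [Y.band ⟨-θ, M.uR + ν⟩ (M.uR - 1) hbandpre,
    Y.stp_small (min η₀ (ν / 4)) (lt_min hη₀ (by positivity)), Y.close hKc η₀ hη₀,
    Y.core_side M (-1) (Or.inr rfl) θ ν hθ hν δ hδ] with n hband hstp hclose hside
  obtain ⟨a, ha⟩ : ∃ a : ℝ, a = 1 / (Y.ℓ n * Y.m n) := ⟨_, rfl⟩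
  have ha0 : 0 < a := by
    rw [ha]
    exact one_div_pos.2 (mul_pos (Y.ℓ_pos n) (Y.m_pos n))
  have hsa : Y.stp n 1 = (a : ℂ) := by rw [Y.core_stp_one n, ha]
  have hasm : a ≤ min η₀ (ν / 4) := by
    have := (hstp 1 h1mem).2
    rwa [hsa, Complex.norm_real, Real.norm_eq_abs, abs_of_pos ha0] at this
  have ha1 : a ≤ η₀ := hasm.trans (min_le_left _ _)
  have ha2 : a ≤ ν / 4 := hasm.trans (min_le_right _ _)
  have hdomx : ∀ x : ℝ, ((⟨x, u₁⟩ : ℂ), (1 : ℂ)) ∈ Y.dom n := by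
    intro x
    refine hband _ ?_ ?_
    · show M.uR - 1 ≤ u₁
      linarith
    · show u₁ ≤ M.uR + ν
      linarith
  rw [← hu₁, hsa] at hside
  rw [hsa, core_mk_sub]
  have hγc : ContinuousOn (fun x : ℝ => Y.Sc n (⟨x, u₁⟩, 1)) (Icc p θ) := by
    have h1 : Continuous (fun x : ℝ => ((⟨x, u₁⟩ : ℂ), (1 : ℂ))) := by
      have : (fun x : ℝ => ((⟨x, u₁⟩ : ℂ), (1 : ℂ)))
          = fun x : ℝ => ((x : ℂ) + (u₁ : ℂ) * I, (1 : ℂ)) := by
        funext x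
        refine Prod.ext ?_ rfl
        apply Complex.ext <;> simp
      rw [this]
      fun_prop
    exact (Y.Sc_diff n).continuousOn.comp h1.continuousOn fun x _ => hdomx x
  have key := hrow (Y.fF n 1) (Y.fQ n 1) (Y.fW n 1) a (fun x : ℝ => Y.Sc n (⟨x, u₁⟩, 1))
    (Y.fld n h1mem) ha0 ha1 hγc ?_ ?_ ?_ θ ⟨by rw [hp]; linarith, le_rfl⟩
  · exact key
  · intro x hx σ hσ
    exact hclose 1 h1mem σ (closedBall_subset_cthickening (mem_image_of_mem _ hx) 2 hσ)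
  · intro x _
    have := Y.stepEq n (y := ⟨x, u₁⟩) (T := 1) (by rw [hsa, core_mk_sub]; exact hdomx _) (hdomx x)
      (by rw [hsa, core_mk_add]; exact hdomx _)
    rw [hsa, core_mk_sub, core_mk_add] at this
    exact this
  · intro x hx
    have hx1 : |x - -1 * θ| ≤ ν / 2 := by
      rw [abs_le]
      constructor <;> linarith [hx.1, hx.2]
    obtain ⟨-, s1, s2⟩ := hside x hx1
    rw [core_mk_sub] at s2
    have e1 : M.m₂ ⟨x, u₁⟩ = M.m₁ ⟨x, u₁⟩ := by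
      refine M.agree _ (hballx x ?_) ?_
      · rw [abs_le]
        constructor <;> linarith [hx.1, hx.2]
      · show x < 0
        linarith [hx.2]
    have e2 : M.m₂ ⟨x - a, u₁⟩ = M.m₁ ⟨x - a, u₁⟩ := by
      refine M.agree _ (hballx (x - a) ?_) ?_
      · rw [abs_le]
        constructor <;> linarith [hx.1, hx.2]
      · show x - a < 0
        linarith [hx.2]
    rw [e1, e2]
    exact ⟨s1, s2⟩

/-- backward difference quotients along the steps `stp n 1 → 0` converge to the derivative. -/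
theorem core_quot_tendsto {f : ℂ → ℂ} {y : ℂ} (hf : DifferentiableAt ℂ f y) :
    Tendsto (fun n => (f y - f (y - Y.stp n 1)) / Y.stp n 1) atTop (𝓝 (deriv f y)) := by
  have h1mem : (1 : ℂ) ∈ ball (1 : ℂ) (1 / 2) := mem_ball_self (by norm_num)
  have h0 : Tendsto (fun n => Y.stp n 1) atTop (𝓝 0) := by
    rw [NormedAddGroup.tendsto_nhds_zero]
    intro ε hε
    filter_upwards [Y.stp_small (ε / 2) (by positivity)] with n hn
    exact lt_of_le_of_lt (hn 1 h1mem).2 (by linarith)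
  have h1 : Tendsto (fun n => y - Y.stp n 1) atTop (𝓝[≠] y) := by
    rw [tendsto_nhdsWithin_iff]
    constructor
    · simpa using (tendsto_const_nhds (x := y)).sub h0
    · filter_upwards [Y.stp_small 1 one_pos] with n hn
      have := (hn 1 h1mem).1
      simpa [sub_eq_self] using this
  have h2 := (hasDerivAt_iff_tendsto_slope.1 hf.hasDerivAt).comp h1
  refine h2.congr' ?_
  filter_upwards [Y.stp_small 1 one_pos] with n hn
  have hne := (hn 1 h1mem).1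
  simp only [Function.comp, slope, vsub_eq_sub, smul_eq_mul]
  rw [show y - Y.stp n 1 - y = -Y.stp n 1 by ring, inv_neg, div_eq_mul_inv]
  ring

end S7Sys

/-- LEAF LF-S7-core (GLUE). -/
theorem S7Sys.false {Sh : Shape} (Y : S7Sys Sh) (M : S7Model Y.fst) : False := by
  have hϱ := M.ϱ_pos
  obtain ⟨θ, hθ⟩ : ∃ θ : ℝ, θ = M.ϱ / 4 := ⟨_, rfl⟩
  obtain ⟨ν, hν⟩ : ∃ ν : ℝ, ν = θ / 4000 := ⟨_, rfl⟩
  have hθ0 : 0 < θ := by rw [hθ]; positivity
  have hν0 : 0 < ν := by rw [hν]; positivity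
  obtain ⟨ye, hye⟩ : ∃ ye : ℂ, ye = ⟨θ, M.uR + ν / 2⟩ := ⟨_, rfl⟩
  have hrow := Y.core_row M θ ν hθ hν
  have hside := Y.core_side M 1 (Or.inl rfl) θ ν hθ hν
  have hball : ye ∈ ball ((M.uR : ℂ) * I) M.ϱ := by
    rw [hye]
    refine Y.core_mem_ball M hθ hν ?_ ?_
    · show |θ| ≤ θ + ν
      rw [abs_of_pos hθ0]
      linarith
    · show |M.uR + ν / 2 - M.uR| ≤ ν
      rw [abs_of_nonneg (by linarith)]
      linarith
  have hre : 0 < ye.re := by rw [hye]; exact hθ0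
  have hd₁ : DifferentiableAt ℂ M.m₁ ye :=
    M.sol₁.diff.differentiableAt (M.sol₁.isOpen.mem_nhds (Or.inr ⟨hball, hre.ne'⟩))
  have hd₂ : DifferentiableAt ℂ M.m₂ ye :=
    M.sol₂.diff.differentiableAt (M.sol₂.isOpen.mem_nhds ⟨hball, Or.inl hre.ne'⟩)
  have both : ∀ ε > 0, ∀ᶠ n in atTop, ‖M.m₂ ye - M.m₁ ye‖ ≤ 2 * ε ∧
      ‖(M.m₂ ye - M.m₂ (ye - Y.stp n 1)) / Y.stp n 1
        - (M.m₁ ye - M.m₁ (ye - Y.stp n 1)) / Y.stp n 1‖ ≤ 2 * ε := by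
    intro ε hε
    filter_upwards [hrow ε hε, hside ε hε] with n h1 h2
    obtain ⟨-, s1, s2⟩ := h2 θ (by rw [one_mul, sub_self, abs_zero]; positivity)
    obtain ⟨r1, r2⟩ := h1
    rw [← hye] at s1 s2 r1 r2
    constructor
    · have := norm_sub_le_norm_sub_add_norm_sub (M.m₂ ye) (Y.Sc n (ye, 1)) (M.m₁ ye)
      rw [norm_sub_rev (M.m₂ ye) (Y.Sc n (ye, 1))] at this
      linarith
    · have := norm_sub_le_norm_sub_add_norm_sub ((M.m₂ ye - M.m₂ (ye - Y.stp n 1)) / Y.stp n 1)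
        ((Y.Sc n (ye, 1) - Y.Sc n (ye - Y.stp n 1, 1)) / Y.stp n 1)
        ((M.m₁ ye - M.m₁ (ye - Y.stp n 1)) / Y.stp n 1)
      rw [norm_sub_rev ((M.m₂ ye - M.m₂ (ye - Y.stp n 1)) / Y.stp n 1)
        ((Y.Sc n (ye, 1) - Y.Sc n (ye - Y.stp n 1, 1)) / Y.stp n 1)] at this
      linarith
  have hval : M.m₂ ye = M.m₁ ye := by
    rw [← sub_eq_zero, ← norm_le_zero_iff]
    refine le_of_forall_pos_le_add fun ε hε => ?_
    obtain ⟨n, hn⟩ := (both (ε / 2) (by positivity)).exists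
    linarith [hn.1]
  have hder : deriv M.m₂ ye = deriv M.m₁ ye := by
    rw [← sub_eq_zero, ← norm_le_zero_iff]
    refine le_of_forall_pos_le_add fun ε hε => ?_
    have ht := ((Y.core_quot_tendsto hd₂).sub (Y.core_quot_tendsto hd₁)).norm
    have := le_of_tendsto ht ((both (ε / 2) (by positivity)).mono fun n hn => hn.2)
    linarith
  rcases M.differ ye hball hre with h | h
  · exact h hval
  · exact h hder

end Claimed.Agent.R269
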