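/-
Row 269, P1 Section 7 (07-profiles.tex): DEFINITIONS for Theorem 7.1 (exponential-profile obstruction).   Owner: helper146 (sub-captain of Section 7).

ROUTE (differs from the paper: no kernel division, no action, no Montel; everything runs on the ENTIRE recurrence of `Lib/Chord*.lean` and on the maximal passage `s9Rmax/s9Smax`).

0. NORMALISATION.  Replacing `m_n` by `|c₀| m_n` and `x_n` by `x_n + ℓ_n arg c₀` we may assume `c₀ = 1`.  `S7Sys Sh` = the normalised scaling data + the conclusion of Lemma 7.2 (deep data).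
1. SHEARED COORDINATES.  `T ∈ ball 1 (1/2)`, `Ŷ = Y + i log T`, `Ŝ = S + i log T`:
      `phys n (Ŷ,T) = (ctr n + ℓ n (Ŷ - i log T), T / m n)`,   `Sc n (Ŷ,T) = (Smax (phys n (Ŷ,T)) - ctr n)/ℓ n + i log T`,   `dom n = {T ∈ ball 1 (1/2), phys ∈ Rmax}`.
   The billiard step `y ↦ y + t` is `Ŷ ↦ Ŷ + a`, `a = stp n T = T/(ℓ n m n) → 0`.  The fast fields at the state `σ = Sc n (Ŷ,T)` are `u ↦ fF n T (σ + a u)`, `u ↦ fQ n T (σ + a u)` with
      `fF n T σ = T f(ctr + ℓ (σ - i log T))/m → s7pF σ`,  `fQ n T σ = T² q(...)/m² → s7pQ σ`:     THE LIMIT DOES NOT DEPEND ON `T`.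
2. LIMIT EQUATION.  With `J± = ±(Sc(Ŷ ± a) - Sc(Ŷ))/a` the recurrence gives `J₊ - J₋ = a X(σ,J₋) + o(a)` at regular states, `X = s7X fst`;  in the limit `Ŝ'' = X(Ŝ, Ŝ')`.
      first profile  `(e^{-iσ}, 0)`   : `z = e^{-iσ} J/2`, `X = 2i e^{2iσ} (2z² - 6 + 6 z cot z)`,            regular: `sin z ≠ 0`;   energy `2(sin z - z cos z)/λ³ = 1/12`;
      second profile `(0, e^{-2iσ})`  : `X = 2i e^{2iσ} (2z² - 3 cosh² z + 3 z coth z)`,                        regular: `sinh z ≠ 0`;  energy `(tanh z - z sech² z)/λ³ = 1/12`.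
3. MODEL (`S7Model`).  The solution `m₁` with `m₁(Ŷ) - Ŷ → 0` as `Im Ŷ → -∞` is holomorphic in `Im Ŷ < uR` and has a branch point at `i uR`: it continues to `ball (i uR) ϱ` minus the upward slit; its continuation `m₂` from
   the left across the slit differs from `m₁` on the right.
4. CONTRADICTION (`S7/Core.lean`).  `Sc n → m₁` deep below (Lemma 7.2 + stability), then up to height `uR - ν` for all `T` near `1` and on both sides of the slit above `uR` at `T = 1` (steep tracking + analytic discs).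
   At the REAL parameter `T = 1` the real no-patch transfer (`passage_width`) puts the whole band below that height into the tube; tracking along a horizontal row from the left to the right of the slit gives `Sc n → m₂` there.
-/
import Claimed.Agent.R269.Lib.ChordHost
import Claimed.Agent.R269.Lib.ChordStep

set_option autoImplicit false

namespace Claimed.Agent.R269

open Complex Filter Topology Set Metric
open scoped Real

/-- the normalised first profile field. -/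
noncomputable def s7pF (fst : Bool) (σ : ℂ) : ℂ := if fst then Complex.exp (-(I * σ)) else 0

/-- the normalised second profile field. -/
noncomputable def s7pQ (fst : Bool) (σ : ℂ) : ℂ := if fst then 0 else Complex.exp (-(2 * I * σ))

/-- `z = λ J / 2`, `λ = e^{-iσ}`. -/
noncomputable def s7z (σ J : ℂ) : ℂ := Complex.exp (-(I * σ)) * J / 2

/-- regular states `(σ, J)`. -/
def s7Reg (fst : Bool) : Set (ℂ × ℂ) :=
  {p | if fst then Complex.sin (s7z p.1 p.2) ≠ 0 else Complex.sinh (s7z p.1 p.2) ≠ 0}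

/-- the right-hand side of the limit equation `Ŝ'' = X(Ŝ, Ŝ')`. -/
noncomputable def s7X (fst : Bool) (σ J : ℂ) : ℂ :=
  2 * I * Complex.exp (2 * I * σ) *
    (if fst then 2 * s7z σ J ^ 2 - 6 + 6 * s7z σ J * Complex.cos (s7z σ J) / Complex.sin (s7z σ J)
     else 2 * s7z σ J ^ 2 - 3 * Complex.cosh (s7z σ J) ^ 2
        + 3 * s7z σ J * Complex.cosh (s7z σ J) / Complex.sinh (s7z σ J))

/-- a holomorphic solution of the limit equation through regular states. -/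
structure S7Sol (fst : Bool) (Ω : Set ℂ) (mdl : ℂ → ℂ) : Prop where
  isOpen : IsOpen Ω
  diff : DifferentiableOn ℂ mdl Ω
  reg : ∀ y ∈ Ω, (mdl y, deriv mdl y) ∈ s7Reg fst
  ode : ∀ y ∈ Ω, deriv (deriv mdl) y = s7X fst (mdl y) (deriv mdl y)

/-- the half plane `Im < uR` together with the disc about the branch point minus the upward slit. -/
def s7Ω₁ (uR ϱ : ℝ) : Set ℂ := {y | y.im < uR ∨ (y ∈ ball ((uR : ℂ) * I) ϱ ∧ y.re ≠ 0)}

/-- the disc about the branch point minus the downward slit. -/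
def s7Ω₂ (uR ϱ : ℝ) : Set ℂ := {y | y ∈ ball ((uR : ℂ) * I) ϱ ∧ (y.re ≠ 0 ∨ uR < y.im)}

/-- the model interface: the anchored solution and its branch point. -/
structure S7Model (fst : Bool) where
  uR : ℝ
  ϱ : ℝ
  ϱ_pos : 0 < ϱ
  m₁ : ℂ → ℂ
  m₂ : ℂ → ℂ
  sol₁ : S7Sol fst (s7Ω₁ uR ϱ) m₁
  sol₂ : S7Sol fst (s7Ω₂ uR ϱ) m₂
  agree : ∀ y ∈ ball ((uR : ℂ) * I) ϱ, y.re < 0 → m₂ y = m₁ y
  differ : ∀ y ∈ ball ((uR : ℂ) * I) ϱ, 0 < y.re → m₂ y ≠ m₁ y ∨ deriv m₂ y ≠ deriv m₁ y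
  anchor : ∃ C u₀ : ℝ, ∀ y : ℂ, y.im ≤ u₀ → ‖m₁ y - y‖ ≤ C * Real.exp (2 * y.im)

/-- the step equation at the state `σ` with step `a`, for scaled fields `Ff, Qf` on `W`: `σ ± a J±` are the neighbouring states. -/
def S7StepEq (Ff Qf : ℂ → ℂ) (W : Set ℂ) (a σ Jm Jp : ℂ) : Prop :=
  ∃ θ C C' Dd Dd' : ℂ → ℂ,
    IsFast {u | σ + a * u ∈ W} (fun u => Ff (σ + a * u)) (fun u => Qf (σ + a * u)) θ C C' Dd Dd' ∧
      Dd Jp * C (-Jm) + Dd (-Jm) * C Jp = 0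

/-- admissible scaled fields: holomorphic on a convex open set. -/
structure S7Fld (Ff Qf : ℂ → ℂ) (W : Set ℂ) : Prop where
  isOpen : IsOpen W
  convex : Convex ℝ W
  diffF : DifferentiableOn ℂ Ff W
  diffQ : DifferentiableOn ℂ Qf W

/-- the fields are `η`-close to the profile on `K ⊆ W`. -/
def S7Close (fst : Bool) (Ff Qf : ℂ → ℂ) (W K : Set ℂ) (η : ℝ) : Prop :=
  ∀ σ ∈ K, σ ∈ W ∧ ‖Ff σ - s7pF fst σ‖ ≤ η ∧ ‖Qf σ - s7pQ fst σ‖ ≤ η

/-- **The normalised scaling data of Theorem 7.1 (`c₀ = 1`) together with the deep data of Lemma 7.2.** -/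
structure S7Sys (Sh : Shape) where
  fst : Bool
  x : ℕ → ℝ
  h : ℕ → ℝ
  ℓ : ℕ → ℝ
  m : ℕ → ℝ
  ℓ_pos : ∀ n, 0 < ℓ n
  m_pos : ∀ n, 0 < m n
  b_tendsto : Tendsto (fun n => ℓ n * m n) atTop atTop
  m_tendsto : Tendsto m atTop atTop
  height : Tendsto (fun n => h n / ℓ n) atTop atTop
  exhaust : ∀ K : ℝ, ∀ᶠ n in atTop, ∀ S : ℂ, ‖S‖ ≤ K → (⟨x n, h n⟩ : ℂ) + (ℓ n : ℂ) * S ∈ Sh.D
  limF : TendstoLocallyUniformly (fun n S => Sh.f ((⟨x n, h n⟩ : ℂ) + (ℓ n : ℂ) * S) / (m n : ℂ))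
    (s7pF fst) atTop
  limQ : TendstoLocallyUniformly (fun n S => Sh.q ((⟨x n, h n⟩ : ℂ) + (ℓ n : ℂ) * S) / (m n : ℂ) ^ 2)
    (s7pQ fst) atTop
  deep : ∃ D₀ Cd α : ℝ, 1 / 2 < α ∧ ∀ A D₁ : ℝ, ∀ᶠ n in atTop, ∀ Y T : ℂ, D₀ < -Y.im → -Y.im < D₁ →
    |Y.re| < A * (-Y.im) → ‖T‖ < 2 →
    ((⟨x n, h n⟩ : ℂ) + (ℓ n : ℂ) * Y, T / (m n : ℂ)) ∈ Sh.s9Rmax ∧
      ‖(Sh.s9Smax ((⟨x n, h n⟩ : ℂ) + (ℓ n : ℂ) * Y, T / (m n : ℂ)) - (⟨x n, h n⟩ : ℂ)) / (ℓ n : ℂ) - Y‖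
        ≤ Cd * ‖T‖ ^ 2 * (-Y.im) ^ (1 - 2 * α)

namespace S7Sys

variable {Sh : Shape} (Y : S7Sys Sh)

/-- the centre `x_n + i h_n`. -/
def ctr (n : ℕ) : ℂ := ⟨Y.x n, Y.h n⟩

/-- sheared coordinates `(Ŷ,T)` to physical coordinates `(y,t)`. -/
noncomputable def phys (n : ℕ) (z : ℂ × ℂ) : ℂ × ℂ :=
  (Y.ctr n + (Y.ℓ n : ℂ) * (z.1 - I * Complex.log z.2), z.2 / (Y.m n : ℂ))

/-- the domain of the scaled maximal passage. -/
def dom (n : ℕ) : Set (ℂ × ℂ) := {z | z.2 ∈ ball (1 : ℂ) (1 / 2) ∧ Y.phys n z ∈ Sh.s9Rmax}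

/-- the scaled, sheared maximal passage `Ŝ_n(Ŷ,T)`. -/
noncomputable def Sc (n : ℕ) (z : ℂ × ℂ) : ℂ :=
  (Sh.s9Smax (Y.phys n z) - Y.ctr n) / (Y.ℓ n : ℂ) + I * Complex.log z.2

/-- the scaled step `a = T/(ℓ_n m_n)`. -/
noncomputable def stp (n : ℕ) (T : ℂ) : ℂ := T / ((Y.ℓ n : ℂ) * (Y.m n : ℂ))

/-- the state `σ` in physical coordinates. -/
noncomputable def unsc (n : ℕ) (T σ : ℂ) : ℂ := Y.ctr n + (Y.ℓ n : ℂ) * (σ - I * Complex.log T)

/-- the scaled first field. -/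
noncomputable def fF (n : ℕ) (T σ : ℂ) : ℂ := T * Sh.f (Y.unsc n T σ) / (Y.m n : ℂ)

/-- the scaled second field. -/
noncomputable def fQ (n : ℕ) (T σ : ℂ) : ℂ := T ^ 2 * Sh.q (Y.unsc n T σ) / (Y.m n : ℂ) ^ 2

/-- the scaled shape strip. -/
def fW (n : ℕ) (T : ℂ) : Set ℂ := {σ | Y.unsc n T σ ∈ Sh.D}

/-- uniform convergence of the scaled passage to a model (a function of `Ŷ` alone) on a set `A` of `(Ŷ,T)`. -/
def Conv (A : Set (ℂ × ℂ)) (mdl : ℂ → ℂ) : Prop :=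
  ∀ ε > 0, ∀ᶠ n in atTop, ∀ z ∈ A, z ∈ Y.dom n ∧ ‖Y.Sc n z - mdl z.1‖ ≤ ε

end S7Sys

end Claimed.Agent.R269
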