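/-
Row 269, P1 Section 7: the hypotheses of Theorem 7.1 in NORMALISED form (`c₀ = 1`) and the conclusion of Lemma 7.2.   Owner: helper146.
* `S7HypFin Sh fst x h ℓ m α₀ δb` : Theorem 7.1 (i) (`H < ∞`).       * `S7HypInf Sh fst x h ℓ m α₀` : Theorem 7.1 (ii) (`H = ∞`).       * `S7Deep Sh x h ℓ m` : field `deep` of `S7Sys`.
-/
import Claimed.Agent.R269.S7.Defs

set_option autoImplicit false

namespace Claimed.Agent.R269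

open Complex Filter Topology Set Metric
open scoped ENNReal Real

/-- the hypotheses of Theorem 7.1 (i), normalised to `c₀ = 1`. -/
structure S7HypFin (Sh : Shape) (fst : Bool) (x h ℓ m : ℕ → ℝ) (α₀ δb : ℝ) : Prop where
  fin : Sh.H ≠ ⊤
  pos : ∀ n, 0 < ℓ n ∧ 0 < m n ∧ |h n| < Sh.Hr
  hb : Tendsto (fun n => ℓ n * m n) atTop atTop
  hh : Tendsto h atTop (𝓝 Sh.Hr)
  hℓ : Tendsto ℓ atTop (𝓝 0)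
  hex : Tendsto (fun n => (Sh.Hr - h n) / ℓ n) atTop atTop
  limF : TendstoLocallyUniformly (fun n S => Sh.f ((⟨x n, h n⟩ : ℂ) + (ℓ n : ℂ) * S) / (m n : ℂ))
    (s7pF fst) atTop
  limQ : TendstoLocallyUniformly (fun n S => Sh.q ((⟨x n, h n⟩ : ℂ) + (ℓ n : ℂ) * S) / (m n : ℂ) ^ 2)
    (s7pQ fst) atTop
  hα₀ : 1 / 2 < α₀
  hα₀' : α₀ < 1
  hδb : 0 < δb
  hδb' : δb < Sh.Hr / 2
  hcone : ∀ L : ℝ, ∃ C : ℝ, ∀ᶠ n in atTop, ∀ s : ℂ, ℓ n ≤ h n - s.im → h n - s.im ≤ δb →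
    |s.re - x n| ≤ L * (h n - s.im) → Sh.M s ≤ C * m n * (ℓ n / (h n - s.im)) ^ α₀

/-- the hypotheses of Theorem 7.1 (ii) (`H = ∞`), normalised to `c₀ = 1`. -/
structure S7HypInf (Sh : Shape) (fst : Bool) (x h ℓ m : ℕ → ℝ) (α₀ : ℝ) : Prop where
  top : Sh.H = ⊤
  pos : ∀ n, 0 < ℓ n ∧ 0 < m n
  hb : Tendsto (fun n => ℓ n * m n) atTop atTop
  hh : Tendsto h atTop atTop
  hℓ : ∃ C : ℝ, ∀ n, ℓ n ≤ C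
  limF : TendstoLocallyUniformly (fun n S => Sh.f ((⟨x n, h n⟩ : ℂ) + (ℓ n : ℂ) * S) / (m n : ℂ))
    (s7pF fst) atTop
  limQ : TendstoLocallyUniformly (fun n S => Sh.q ((⟨x n, h n⟩ : ℂ) + (ℓ n : ℂ) * S) / (m n : ℂ) ^ 2)
    (s7pQ fst) atTop
  hα₀ : 1 / 2 < α₀
  hα₀' : α₀ < 1
  hcone : ∃ C : ℝ, ∀ᶠ n in atTop, ∀ s : ℂ, ℓ n ≤ h n - s.im → 0 ≤ s.im →
    Sh.M s ≤ C * m n * (ℓ n / (h n - s.im)) ^ α₀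
  hlog : Tendsto (fun n => Real.log (1 + h n / ℓ n) / Real.log (m n)) atTop (𝓝 0)

/-- the conclusion of Lemma 7.2 (field `deep` of `S7Sys`). -/
def S7Deep (Sh : Shape) (x h ℓ m : ℕ → ℝ) : Prop :=
  ∃ D₀ Cd α : ℝ, 1 / 2 < α ∧ ∀ A D₁ : ℝ, ∀ᶠ n in atTop, ∀ Y T : ℂ, D₀ < -Y.im → -Y.im < D₁ →
    |Y.re| < A * (-Y.im) → ‖T‖ < 2 →
    ((⟨x n, h n⟩ : ℂ) + (ℓ n : ℂ) * Y, T / (m n : ℂ)) ∈ Sh.s9Rmax ∧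
      ‖(Sh.s9Smax ((⟨x n, h n⟩ : ℂ) + (ℓ n : ℂ) * Y, T / (m n : ℂ)) - (⟨x n, h n⟩ : ℂ)) / (ℓ n : ℂ) - Y‖
        ≤ Cd * ‖T‖ ^ 2 * (-Y.im) ^ (1 - 2 * α)

end Claimed.Agent.R269
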