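/-
Row 269, P1 Section 7: LEMMA 7.2 (deep passages) for `H < ∞`, and the elementary fields of `S7Sys`.   LEAF PACKAGE LF-S7-deepfin (ONE FILE = ONE OWNER).   Statements: helper146.
* `Shape.s7_deep_fin`       : Lemma 7.2 for `H < ∞` from `Shape.s6_cone` (S6/Stmt.lean).
     Fix `α = (1/2 + α₀)/2`.  `c* = sup_{D ≥ 1} 2 e^{-D} D^α` (any bound, e.g. `2`).  `s6_cone hH α δb` gives `Lf`; `K = 1` gives `ε₀ d₀ δs C`.  `D₀ ≥ 10` with `ε := 8 c* D₀^{-α} ≤ ε₀`.   `Cd = C (1 + 2 c*)²`...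
     For given `A, D₁` (wlog `A > 0`): `m₀ = A`, `d = ℓ_n D₀`, `r = 4/m_n`, `x₀ = x_n`, reference height `h_n`.  FIELD HYPOTHESIS `r M ≤ ε (d/δ)^α` ⇔ `M/m_n ≤ 2 c* (ℓ_n/δ)^α` for `ℓ_n D₀/10 ≤ δ ≤ δb`, `|Re s - x_n| ≤ Lf A δ`:
       with `C_L` from `hcone (Lf A)`:  `(ℓ/δ)^{α₀} = (ℓ/δ)^α (ℓ/δ)^{α₀-α}`, so it holds for `δ/ℓ ≥ D_th`, `C_L D_th^{-(α₀-α)} ≤ 2c*`;   for `1 ≤ δ/ℓ ≤ D_th` use the locally uniform convergence on the compact set
       `{S : -D_th ≤ Im S ≤ -1, |Re S| ≤ Lf A D_th}`:  `M/m = max(|F_n|, |Q_n|^{1/2}) ≤ e^{Im S} + o(1) ≤ 2 e^{-D} ≤ c* D^{-α}·...`.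
     CONCLUSION scaled by `ℓ_n`:   `C (1 + (ε/r) d^α)² (|T|/m)² (ℓ D)^{1-2α}/ℓ = C (1/(m ℓ^α) + ε D₀^α/4)² |T|² D^{1-2α}`, and `m ℓ^α = (ℓ m) ℓ^{α-1} → ∞`.
     Eventually: `d ≤ d₀`, `r ≤ d` (`ℓ m ≥ 4/D₀`), `Hr - δb/4 ≤ h_n ≤ Hr`, `ℓ_n D₁ < δs`.
* `Shape.s7_sys_fin/inf`    : the remaining fields of `S7Sys` (`m → ∞`, `h/ℓ → ∞`, exhaustion) are elementary.
     (`m = (ℓ m)/ℓ`; `Hr > 0` by `Sh.ch_hstrip_subset_D`/`Glance.le_hX`; `s ∈ Sh.D ⇔ |Im s| < Hr` for `H ≠ ⊤`, everything for `H = ⊤`.)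
-/
import Claimed.Agent.R269.S7.Hyp
import Claimed.Agent.R269.S6.Stmt

set_option autoImplicit false

namespace Claimed.Agent.R269

open Complex Filter Topology Set Metric
open scoped ENNReal Real

namespace Shape

variable (Sh : Shape)

/-- norm of the first profile. -/
theorem s7df_pF (fst : Bool) (S : ℂ) : ‖s7pF fst S‖ ≤ Real.exp S.im := by
  unfold s7pF
  cases fst
  · simp [Real.exp_nonneg]
  · simp [Complex.norm_exp]

/-- norm of the second profile. -/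
theorem s7df_pQ (fst : Bool) (S : ℂ) : ‖s7pQ fst S‖ ≤ Real.exp S.im ^ 2 := by
  unfold s7pQ
  cases fst
  · simp only [Bool.false_eq_true, if_false, Complex.norm_exp]
    rw [← Real.exp_nat_mul]
    apply le_of_eq
    congr 1
    simp
  · simp [sq_nonneg]

/-- (A) the weakened cone bound with constant `1`. -/
theorem s7df_field {fst : Bool} {x h ℓ m : ℕ → ℝ} {α₀ δb : ℝ} (hy : S7HypFin Sh fst x h ℓ m α₀ δb)
    (α : ℝ) (hα1 : α < α₀) (L : ℝ) :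
    ∀ᶠ n in atTop, ∀ s : ℂ, ℓ n ≤ h n - s.im → h n - s.im ≤ δb → |s.re - x n| ≤ L * (h n - s.im) →
      Sh.M s ≤ m n * (ℓ n / (h n - s.im)) ^ α := by
  obtain ⟨C, hC⟩ := hy.hcone L
  obtain ⟨C', hC'def⟩ : ∃ C' : ℝ, C' = max C 1 := ⟨_, rfl⟩
  have hC'1 : 1 ≤ C' := by rw [hC'def]; exact le_max_right _ _
  have hC'C : C ≤ C' := by rw [hC'def]; exact le_max_left _ _
  have hγ : 0 < α₀ - α := by linarith
  obtain ⟨Dt, hDtdef⟩ : ∃ Dt : ℝ, Dt = max 1 (C' ^ (1 / (α₀ - α))) := ⟨_, rfl⟩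
  have hDt1 : 1 ≤ Dt := by rw [hDtdef]; exact le_max_left _ _
  have hDtC : C' ^ (1 / (α₀ - α)) ≤ Dt := by rw [hDtdef]; exact le_max_right _ _
  have hDt0 : 0 < Dt := by linarith
  -- compact set
  have hK : IsCompact ((Icc (-(max L 0 * Dt)) (max L 0 * Dt)) ×ℂ (Icc (-Dt) (-1))) :=
    isCompact_Icc.reProdIm isCompact_Icc
  have hF := (tendstoLocallyUniformly_iff_forall_isCompact.1 hy.limF) _ hK
  have hQ := (tendstoLocallyUniformly_iff_forall_isCompact.1 hy.limQ) _ hK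
  rw [Metric.tendstoUniformlyOn_iff] at hF hQ
  filter_upwards [hC, hF (1 / (2 * Dt)) (by positivity), hQ ((1 / (2 * Dt)) ^ 2) (by positivity)]
    with n h1 h2 h3 s hs1 hs2 hs3
  have hℓ := (hy.pos n).1
  have hm := (hy.pos n).2.1
  have hδ : 0 < h n - s.im := lt_of_lt_of_le hℓ hs1
  have hq0 : 0 < ℓ n / (h n - s.im) := div_pos hℓ hδ
  rcases le_total Dt ((h n - s.im) / ℓ n) with hD | hD
  · -- far part
    have h4 := h1 s hs1 hs2 hs3
    have h5 : (ℓ n / (h n - s.im)) ^ α₀ = (ℓ n / (h n - s.im)) ^ α * (ℓ n / (h n - s.im)) ^ (α₀ - α) := by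
      rw [← Real.rpow_add hq0]; congr 1; ring
    have h6 : C' * (ℓ n / (h n - s.im)) ^ (α₀ - α) ≤ 1 := by
      have e : ℓ n / (h n - s.im) = ((h n - s.im) / ℓ n)⁻¹ := by rw [inv_div]
      rw [e, Real.inv_rpow (div_pos hδ hℓ).le]
      have h7 : C' ≤ ((h n - s.im) / ℓ n) ^ (α₀ - α) := by
        have h8 : (C' ^ (1 / (α₀ - α))) ^ (α₀ - α) ≤ ((h n - s.im) / ℓ n) ^ (α₀ - α) :=
          Real.rpow_le_rpow (by positivity) (hDtC.trans hD) hγ.le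
        rwa [← Real.rpow_mul (by linarith), one_div_mul_cancel hγ.ne', Real.rpow_one] at h8
      have h9 : 0 < ((h n - s.im) / ℓ n) ^ (α₀ - α) := by linarith
      rw [← div_eq_mul_inv, div_le_one h9]
      exact h7
    have hp : 0 ≤ (ℓ n / (h n - s.im)) ^ α := (Real.rpow_pos_of_pos hq0 _).le
    have hp2 : 0 ≤ (ℓ n / (h n - s.im)) ^ (α₀ - α) := (Real.rpow_pos_of_pos hq0 _).le
    calc Sh.M s ≤ C * m n * (ℓ n / (h n - s.im)) ^ α₀ := h4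
      _ ≤ C' * m n * (ℓ n / (h n - s.im)) ^ α₀ := by
          apply mul_le_mul_of_nonneg_right _ (Real.rpow_pos_of_pos hq0 _).le
          exact mul_le_mul_of_nonneg_right hC'C hm.le
      _ = m n * (ℓ n / (h n - s.im)) ^ α * (C' * (ℓ n / (h n - s.im)) ^ (α₀ - α)) := by rw [h5]; ring
      _ ≤ m n * (ℓ n / (h n - s.im)) ^ α * 1 := mul_le_mul_of_nonneg_left h6 (by positivity)
      _ = m n * (ℓ n / (h n - s.im)) ^ α := by ring
  · -- compact part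
    obtain ⟨D, hDdef⟩ : ∃ D : ℝ, D = (h n - s.im) / ℓ n := ⟨_, rfl⟩
    rw [← hDdef] at hD
    have hD1 : 1 ≤ D := by rw [hDdef, le_div_iff₀ hℓ]; linarith
    have hD0 : 0 < D := by linarith
    obtain ⟨S, hSdef⟩ : ∃ S : ℂ, S = ⟨(s.re - x n) / ℓ n, -D⟩ := ⟨_, rfl⟩
    have hsS : (⟨x n, h n⟩ : ℂ) + (ℓ n : ℂ) * S = s := by
      rw [hSdef, hDdef]
      apply Complex.ext
      · simp; field_simp; ring
      · simp; field_simp; ring
    have hSK : S ∈ (Icc (-(max L 0 * Dt)) (max L 0 * Dt)) ×ℂ (Icc (-Dt) (-1)) := by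
      rw [Complex.mem_reProdIm, hSdef]
      refine ⟨?_, ⟨by simp only; linarith, by simp only; linarith⟩⟩
      simp only
      rw [mem_Icc, ← abs_le, abs_div, abs_of_pos hℓ, div_le_iff₀ hℓ]
      have e1 : L * (h n - s.im) = L * D * ℓ n := by rw [hDdef]; field_simp
      have e2 : L * D ≤ max L 0 * Dt := by
        calc L * D ≤ max L 0 * D := mul_le_mul_of_nonneg_right (le_max_left _ _) hD0.le
          _ ≤ max L 0 * Dt := mul_le_mul_of_nonneg_left hD (le_max_right _ _)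
      calc |s.re - x n| ≤ L * D * ℓ n := by rw [← e1]; exact hs3
        _ ≤ max L 0 * Dt * ℓ n := mul_le_mul_of_nonneg_right e2 hℓ.le
    have hSim : S.im = -D := by rw [hSdef]
    have hf := h2 S hSK
    have hq := h3 S hSK
    rw [hsS, dist_comm, dist_eq_norm] at hf hq
    obtain ⟨E, hEdef⟩ : ∃ E : ℝ, E = Real.exp (-D) + 1 / (2 * Dt) := ⟨_, rfl⟩
    have hE0 : 0 < E := by rw [hEdef]; positivity
    have hmc : (m n : ℂ) ≠ 0 := by exact_mod_cast hm.ne'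
    have hf2 : ‖Sh.f s‖ ≤ m n * E := by
      have h4 : ‖Sh.f s / (m n : ℂ)‖ ≤ E := by
        have h5 := norm_le_insert' (Sh.f s / (m n : ℂ)) (s7pF fst S)
        have h6 := s7df_pF fst S
        rw [hSim] at h6
        rw [hEdef]; linarith
      rw [norm_div, Complex.norm_real, Real.norm_eq_abs, abs_of_pos hm, div_le_iff₀ hm] at h4
      linarith
    have hq2 : Real.sqrt ‖Sh.q s‖ ≤ m n * E := by
      have h4 : ‖Sh.q s / (m n : ℂ) ^ 2‖ ≤ E ^ 2 := by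
        have h5 := norm_le_insert' (Sh.q s / (m n : ℂ) ^ 2) (s7pQ fst S)
        have h6 := s7df_pQ fst S
        rw [hSim] at h6
        rw [hEdef]
        have h7 : 0 < Real.exp (-D) * (1 / (2 * Dt)) := by positivity
        nlinarith
      rw [norm_div, norm_pow, Complex.norm_real, Real.norm_eq_abs, abs_of_pos hm, div_le_iff₀ (by positivity)] at h4
      rw [Real.sqrt_le_iff]
      exact ⟨by positivity, by nlinarith⟩
    have hE1 : E ≤ 1 / D := by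
      have h4 : 2 * D ≤ Real.exp D := by
        have := Real.quadratic_le_exp_of_nonneg hD0.le
        nlinarith [sq_nonneg (D - 1)]
      have h5 : Real.exp (-D) ≤ 1 / (2 * D) := by
        rw [Real.exp_neg, ← one_div]
        exact one_div_le_one_div_of_le (by positivity) h4
      have h6 : 1 / (2 * Dt) ≤ 1 / (2 * D) := one_div_le_one_div_of_le (by positivity) (by linarith)
      have h7 : 1 / (2 * D) + 1 / (2 * D) = 1 / D := by field_simp; ring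
      rw [hEdef]; linarith
    have hE2 : 1 / D ≤ (ℓ n / (h n - s.im)) ^ α := by
      have e : ℓ n / (h n - s.im) = 1 / D := by rw [hDdef, one_div_div]
      rw [e]
      have h4 : (1 / D) ^ (1 : ℝ) ≤ (1 / D) ^ α :=
        Real.rpow_le_rpow_of_exponent_ge (by positivity) (by rw [div_le_one hD0]; exact hD1)
          (by have := hy.hα₀'; linarith)
      rwa [Real.rpow_one] at h4
    have hfin : m n * E ≤ m n * (ℓ n / (h n - s.im)) ^ α :=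
      mul_le_mul_of_nonneg_left (hE1.trans hE2) hm.le
    exact (max_le hf2 hq2).trans hfin

/-- LEAF LF-S7-deepfin: **Lemma 7.2, `H < ∞`**. -/
theorem s7_deep_fin {fst : Bool} {x h ℓ m : ℕ → ℝ} {α₀ δb : ℝ} (hy : S7HypFin Sh fst x h ℓ m α₀ δb) :
    S7Deep Sh x h ℓ m := by
  have hHr := Sh.sb_Hr_pos hy.fin
  obtain ⟨α, hαdef⟩ : ∃ α : ℝ, α = (1 / 2 + α₀) / 2 := ⟨_, rfl⟩
  have hα₀ := hy.hα₀
  have hα₀' := hy.hα₀'
  have hα1 : 1 / 2 < α := by rw [hαdef]; linarith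
  have hα2 : α < α₀ := by rw [hαdef]; linarith
  have hα3 : α < 1 := by linarith
  have hα0 : 0 < α := by linarith
  obtain ⟨Lf, hLf, hK⟩ := Sh.s6_cone hy.fin α δb hα1 hα3 hy.hδb hy.hδb'
  obtain ⟨ε₀, d₀, δs, C, hε₀, hd₀, hδs, hC, hcone⟩ := hK 1 one_pos
  obtain ⟨D₀, hD₀def⟩ : ∃ D₀ : ℝ, D₀ = max 10 ((4 / ε₀) ^ (1 / α)) := ⟨_, rfl⟩
  have hD₀10 : 10 ≤ D₀ := by rw [hD₀def]; exact le_max_left _ _
  have hD₀ε : (4 / ε₀) ^ (1 / α) ≤ D₀ := by rw [hD₀def]; exact le_max_right _ _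
  have hD₀0 : 0 < D₀ := by linarith
  have hD₀α : 0 < D₀ ^ α := Real.rpow_pos_of_pos hD₀0 _
  have hε : 4 * D₀ ^ (-α) ≤ ε₀ := by
    have h1 : ((4 / ε₀) ^ (1 / α)) ^ α ≤ D₀ ^ α := Real.rpow_le_rpow (by positivity) hD₀ε hα0.le
    rw [← Real.rpow_mul (by positivity), one_div_mul_cancel hα0.ne', Real.rpow_one, div_le_iff₀ hε₀] at h1
    rw [Real.rpow_neg hD₀0.le, ← div_eq_mul_inv, div_le_iff₀ hD₀α]
    linarith
  refine ⟨D₀, 4 * C, α, hα1, fun A D₁ => ?_⟩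
  have hℓsmall : ∀ c : ℝ, 0 < c → ∀ᶠ n in atTop, ℓ n < c := fun c hc =>
    hy.hℓ.eventually (gt_mem_nhds hc)
  filter_upwards [Sh.s7df_field hy α hα2 (Lf (max A 1)), hℓsmall (d₀ / D₀) (by positivity),
    hy.hb.eventually_ge_atTop (max (4 / D₀) 1), hy.hh.eventually (lt_mem_nhds (by linarith [hy.hδb] : Sh.Hr - δb / 4 < Sh.Hr)),
    hℓsmall (δs / (|D₁| + 1)) (by positivity), hℓsmall 1 one_pos] with n hfield hd hb hh hδ1 hℓ1 Y T hY1 hY2 hY3 hT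
  have hℓ := (hy.pos n).1
  have hm := (hy.pos n).2.1
  have hhH : h n ≤ Sh.Hr := ((le_abs_self _).trans_lt (hy.pos n).2.2).le
  have hℓc : (ℓ n : ℂ) ≠ 0 := by exact_mod_cast hℓ.ne'
  have hD : 0 < -Y.im := by linarith
  have hb1 : 4 / D₀ ≤ ℓ n * m n := (le_max_left _ _).trans hb
  have hb2 : 1 ≤ ℓ n * m n := (le_max_right _ _).trans hb
  have him : h n - ((⟨x n, h n⟩ : ℂ) + (ℓ n : ℂ) * Y).im = ℓ n * (-Y.im) := by simp
  have hre : ((⟨x n, h n⟩ : ℂ) + (ℓ n : ℂ) * Y).re - x n = ℓ n * Y.re := by simp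
  have hℓα : 0 < ℓ n ^ α := Real.rpow_pos_of_pos hℓ _
  have key := hcone (max A 1) (4 * D₀ ^ (-α)) (ℓ n * D₀) (4 / m n) (x n) (h n)
    (lt_of_lt_of_le one_pos (le_max_right _ _)) (by positivity) hε (by positivity)
    (by rw [lt_div_iff₀ hD₀0] at hd; exact hd.le) (by positivity)
    (by
      rw [one_mul, div_le_iff₀ hm]
      rw [div_le_iff₀ hD₀0] at hb1
      linarith)
    hh.le hhH
    (fun s hs1 hs2 hs3 => by
      have hs1' : ℓ n ≤ h n - s.im := by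
        have h0 : ℓ n * 10 ≤ ℓ n * D₀ := mul_le_mul_of_nonneg_left hD₀10 hℓ.le
        linarith
      have hδ : 0 < h n - s.im := lt_of_lt_of_le hℓ hs1'
      have h1 := hfield s hs1' hs2 hs3
      have e : 4 * D₀ ^ (-α) * (ℓ n * D₀ / (h n - s.im)) ^ α = 4 * (ℓ n / (h n - s.im)) ^ α := by
        have e1 : ℓ n * D₀ / (h n - s.im) = D₀ * (ℓ n / (h n - s.im)) := by ring
        rw [e1, Real.mul_rpow hD₀0.le (div_pos hℓ hδ).le, Real.rpow_neg hD₀0.le]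
        field_simp
      rw [e, div_mul_eq_mul_div, div_le_iff₀ hm]
      linarith)
    ((⟨x n, h n⟩ : ℂ) + (ℓ n : ℂ) * Y) (T / (m n : ℂ))
    (by rw [him]; exact mul_lt_mul_of_pos_left hY1 hℓ)
    (by
      rw [him]
      rw [lt_div_iff₀ (by positivity)] at hδ1
      have h1 : -Y.im < |D₁| + 1 := by linarith [le_abs_self D₁]
      have h2 : ℓ n * (-Y.im) < ℓ n * (|D₁| + 1) := mul_lt_mul_of_pos_left h1 hℓ
      linarith)
    (by
      rw [him, hre, abs_mul, abs_of_pos hℓ]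
      have h1 : A * (-Y.im) ≤ max A 1 * (-Y.im) := mul_le_mul_of_nonneg_right (le_max_left _ _) hD.le
      have h2 : ℓ n * |Y.re| < ℓ n * (max A 1 * (-Y.im)) := mul_lt_mul_of_pos_left (by linarith) hℓ
      linarith)
    (by
      rw [him, norm_div, Complex.norm_real, Real.norm_eq_abs, abs_of_pos hm]
      have h1 : 1 ≤ (ℓ n * (-Y.im) / (ℓ n * D₀)) ^ α := by
        apply Real.one_le_rpow _ hα0.le
        rw [le_div_iff₀ (by positivity), one_mul]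
        exact mul_le_mul_of_nonneg_left hY1.le hℓ.le
      have h2 : ‖T‖ / m n < 4 / m n := div_lt_div_of_pos_right (by linarith) hm
      have h3 : 4 / m n ≤ 4 / m n * (ℓ n * (-Y.im) / (ℓ n * D₀)) ^ α := le_mul_of_one_le_right (by positivity) h1
      linarith)
  refine ⟨key.1, ?_⟩
  have hbound := key.2
  rw [him] at hbound
  -- the constant
  have eB : 4 * D₀ ^ (-α) / (4 / m n) * (ℓ n * D₀) ^ α = m n * ℓ n ^ α := by
    rw [Real.mul_rpow hℓ.le hD₀0.le, Real.rpow_neg hD₀0.le]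
    field_simp
  have hB1 : 1 ≤ m n * ℓ n ^ α := by
    have h1 : ℓ n ^ (1 : ℝ) ≤ ℓ n ^ α := Real.rpow_le_rpow_of_exponent_ge hℓ hℓ1.le hα3.le
    rw [Real.rpow_one] at h1
    have h2 : m n * ℓ n ≤ m n * ℓ n ^ α := mul_le_mul_of_nonneg_left h1 hm.le
    linarith
  rw [eB, norm_div, Complex.norm_real, Real.norm_eq_abs, abs_of_pos hm, Real.mul_rpow hℓ.le hD.le] at hbound
  have e1 : (Sh.s9Smax ((⟨x n, h n⟩ : ℂ) + (ℓ n : ℂ) * Y, T / (m n : ℂ)) - (⟨x n, h n⟩ : ℂ)) / (ℓ n : ℂ) - Y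
      = (Sh.s9Smax ((⟨x n, h n⟩ : ℂ) + (ℓ n : ℂ) * Y, T / (m n : ℂ)) - ((⟨x n, h n⟩ : ℂ) + (ℓ n : ℂ) * Y)) / (ℓ n : ℂ) := by
    field_simp
    ring
  rw [e1, norm_div, Complex.norm_real, Real.norm_eq_abs, abs_of_pos hℓ, div_le_iff₀ hℓ]
  refine hbound.trans ?_
  have hDp : 0 < (-Y.im) ^ (1 - 2 * α) := Real.rpow_pos_of_pos hD _
  have e2 : ℓ n ^ (1 - 2 * α) * (ℓ n ^ α) ^ 2 = ℓ n := by
    rw [← Real.rpow_natCast (ℓ n ^ α) 2, ← Real.rpow_mul hℓ.le, ← Real.rpow_add hℓ]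
    have : 1 - 2 * α + α * ((2 : ℕ) : ℝ) = 1 := by push_cast; ring
    rw [this, Real.rpow_one]
  have h3 : (1 + m n * ℓ n ^ α) ^ 2 ≤ 4 * (m n * ℓ n ^ α) ^ 2 := by
    have h4 : (1 + m n * ℓ n ^ α) ^ 2 ≤ (2 * (m n * ℓ n ^ α)) ^ 2 :=
      pow_le_pow_left₀ (by positivity) (by linarith) 2
    linarith [h4, mul_pow 2 (m n * ℓ n ^ α) 2]
  have hℓp : 0 < ℓ n ^ (1 - 2 * α) := Real.rpow_pos_of_pos hℓ _
  calc C * (1 + m n * ℓ n ^ α) ^ 2 * (‖T‖ / m n) ^ 2 * (ℓ n ^ (1 - 2 * α) * (-Y.im) ^ (1 - 2 * α))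
      ≤ C * (4 * (m n * ℓ n ^ α) ^ 2) * (‖T‖ / m n) ^ 2 * (ℓ n ^ (1 - 2 * α) * (-Y.im) ^ (1 - 2 * α)) := by
        gcongr
    _ = 4 * C * ‖T‖ ^ 2 * (-Y.im) ^ (1 - 2 * α) * (ℓ n ^ (1 - 2 * α) * (ℓ n ^ α) ^ 2) := by
        field_simp
    _ = 4 * C * ‖T‖ ^ 2 * (-Y.im) ^ (1 - 2 * α) * ℓ n := by rw [e2]

/-- LEAF LF-S7-sysfin (elementary limits). -/
theorem s7_sys_fin {fst : Bool} {x h ℓ m : ℕ → ℝ} {α₀ δb : ℝ} (hy : S7HypFin Sh fst x h ℓ m α₀ δb) :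
    Tendsto m atTop atTop ∧ Tendsto (fun n => h n / ℓ n) atTop atTop ∧
      ∀ K : ℝ, ∀ᶠ n in atTop, ∀ S : ℂ, ‖S‖ ≤ K → (⟨x n, h n⟩ : ℂ) + (ℓ n : ℂ) * S ∈ Sh.D := by
  have hHr := Sh.sb_Hr_pos hy.fin
  have hℓsmall : ∀ c : ℝ, 0 < c → ∀ᶠ n in atTop, ℓ n < c := fun c hc =>
    hy.hℓ.eventually (gt_mem_nhds hc)
  have hhbig : ∀ᶠ n in atTop, Sh.Hr / 2 < h n := hy.hh.eventually (lt_mem_nhds (by linarith))
  refine ⟨?_, ?_, ?_⟩
  · refine tendsto_atTop_mono' _ ?_ hy.hb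
    filter_upwards [hℓsmall 1 one_pos] with n hn
    have := (hy.pos n).2.1
    nlinarith
  · rw [Filter.tendsto_atTop]
    intro b
    filter_upwards [hℓsmall (Sh.Hr / (2 * (|b| + 1))) (by positivity), hhbig] with n h1 h2
    have hℓ := (hy.pos n).1
    rw [le_div_iff₀ hℓ]
    rw [lt_div_iff₀ (by positivity)] at h1
    have h3 : b * ℓ n ≤ |b| * ℓ n := mul_le_mul_of_nonneg_right (le_abs_self b) hℓ.le
    nlinarith [abs_nonneg b]
  · intro K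
    filter_upwards [hy.hex.eventually_gt_atTop K, hℓsmall (Sh.Hr / (2 * (|K| + 1))) (by positivity), hhbig]
      with n h1 h2 h3 S hS
    have hℓ := (hy.pos n).1
    rw [Sh.sb_mem_D_iff hy.fin]
    have him : ((⟨x n, h n⟩ : ℂ) + (ℓ n : ℂ) * S).im = h n + ℓ n * S.im := by simp
    rw [him, abs_lt]
    have h4 := (abs_le.1 ((Complex.abs_im_le_norm S).trans hS))
    rw [lt_div_iff₀ hℓ] at h1
    rw [lt_div_iff₀ (by positivity)] at h2
    have h5 : ℓ n * S.im ≤ ℓ n * K := mul_le_mul_of_nonneg_left h4.2 hℓ.le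
    have h6 : ℓ n * (-K) ≤ ℓ n * S.im := mul_le_mul_of_nonneg_left h4.1 hℓ.le
    have h7 : ℓ n * K ≤ ℓ n * |K| := mul_le_mul_of_nonneg_left (le_abs_self K) hℓ.le
    constructor
    · nlinarith [abs_nonneg K]
    · nlinarith

/-- LEAF LF-S7-sysinf (elementary limits). -/
theorem s7_sys_inf {fst : Bool} {x h ℓ m : ℕ → ℝ} {α₀ : ℝ} (hy : S7HypInf Sh fst x h ℓ m α₀) :
    Tendsto m atTop atTop ∧ Tendsto (fun n => h n / ℓ n) atTop atTop ∧
      ∀ K : ℝ, ∀ᶠ n in atTop, ∀ S : ℂ, ‖S‖ ≤ K → (⟨x n, h n⟩ : ℂ) + (ℓ n : ℂ) * S ∈ Sh.D := by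
  obtain ⟨C, hC⟩ := hy.hℓ
  have hC' : ∀ n, ℓ n ≤ max C 1 := fun n => (hC n).trans (le_max_left _ _)
  have hC1 : 0 < max C 1 := lt_of_lt_of_le one_pos (le_max_right _ _)
  refine ⟨?_, ?_, ?_⟩
  · have h1 : Tendsto (fun n => ℓ n * m n / max C 1) atTop atTop := hy.hb.atTop_div_const hC1
    refine tendsto_atTop_mono (fun n => ?_) h1
    rw [div_le_iff₀ hC1]
    have := (hy.pos n).2
    have := hC' n
    nlinarith
  · have h1 : Tendsto (fun n => h n / max C 1) atTop atTop := hy.hh.atTop_div_const hC1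
    refine tendsto_atTop_mono' _ ?_ h1
    filter_upwards [hy.hh.eventually_ge_atTop 0] with n hn
    exact div_le_div_of_nonneg_left hn (hy.pos n).1 (hC' n)
  · intro K
    refine Eventually.of_forall fun n S _ => ?_
    rw [Sh.sb_mem_D]
    have : Sh.G.Hs = ⊤ := hy.top
    rw [this]
    exact ENNReal.ofReal_lt_top

end Shape

end Claimed.Agent.R269
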