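/-
Row 269, P1 Section 7: EXTENSION OF THE MAXIMAL PASSAGE.   LEAF PACKAGE LF-S7-ext (ONE FILE = ONE OWNER).   Statements: helper146.
Imports only `S9/PassageMax.lean` (K1-K4 there are black boxes) and the SCV library.  Usable by Sections 6-9.

* `Shape.s7_ext` (EXT).  A holomorphic `w` on an open set `O`, with values in `D`, such that every point of `O` is joined inside `O` by a vertical segment (parameter fixed) to a lower point of `Rmax` near which `w = Smax`.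
      Then `O ⊆ Rmax` and `w = Smax` on `O`.
   PROOF.  (i) `w = Smax` on `O ∩ Rmax`: for `z ∈ O ∩ Rmax` let `b` be the lower point; the segment `[b,z]` lies in `O` and, by `s9k_fibre`, in `Rmax`; `y ↦ w (y,t)`, `y ↦ Smax (y,t)` are analytic on a neighbourhood of the segment
      and agree near `b`: `AnalyticOnNhd.eqOn_of_preconnected_of_eventuallyEq`.   (ii) `R' = Rmax ∪ O`, `S' = Smax` on `Rmax`, `= w` on `O \ Rmax`; `S'` is locally equal to `Smax` or to `w`, so it is differentiable on `R'`;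
      `attached`: for `z ∈ O` go down to `b`, then use `attached` of `Rmax` at `b` (concatenate the two vertical segments).   (iii) `s9k_max_spec`.
-/
import Claimed.Agent.R269.S9.PassageMax
import Claimed.Agent.R269.Lib.SCV0

set_option autoImplicit false

namespace Claimed.Agent.R269

open Complex Filter Topology Set Metric
open scoped ENNReal Real

namespace Shape

variable (Sh : Shape)

/-- LEAF LF-S7-ext: **extension of the maximal passage**. -/
theorem s7_ext {O : Set (ℂ × ℂ)} (hO : IsOpen O) {w : ℂ × ℂ → ℂ} (hw : DifferentiableOn ℂ w O)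
    (hD : ∀ z ∈ O, w z ∈ Sh.D) (hρ : ∀ z ∈ O, z.2 ∈ ball (0 : ℂ) Sh.ρ)
    (hatt : ∀ z ∈ O, ∃ η : ℝ, η ≤ z.1.im ∧ (∀ τ ∈ Icc η z.1.im, ((⟨z.1.re, τ⟩ : ℂ), z.2) ∈ O) ∧
      ((⟨z.1.re, η⟩ : ℂ), z.2) ∈ Sh.s9Rmax ∧ w =ᶠ[𝓝 ((⟨z.1.re, η⟩ : ℂ), z.2)] Sh.s9Smax) :
    O ⊆ Sh.s9Rmax ∧ EqOn w Sh.s9Smax O := by
  classical
  have hM := Sh.s9k_max
  -- (i)
  have hi : ∀ z ∈ O, z ∈ Sh.s9Rmax → w z = Sh.s9Smax z := by
    rintro ⟨y, t⟩ hzO hzR
    obtain ⟨η, hη, hseg, hb, hev⟩ := hatt _ hzO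
    simp only at hη hseg hb hev
    have htop : ((⟨y.re, y.im⟩ : ℂ), t) ∈ Sh.s9Rmax := by simpa using hzR
    have := s9k_vert (hO.inter hM.isOpen) (hw.mono inter_subset_left)
      (hM.diff.mono inter_subset_right) y.re η y.im t hη
      (fun τ hτ => ⟨hseg τ hτ, Sh.s9k_fibre y.re η y.im τ t hb htop hτ⟩) hev y.im ⟨hη, le_rfl⟩
    simpa using this
  -- (ii)
  set S' : ℂ × ℂ → ℂ := fun z => if z ∈ Sh.s9Rmax then Sh.s9Smax z else w z with hS'
  have hS1 : ∀ z ∈ Sh.s9Rmax, S' z = Sh.s9Smax z := fun z hz => by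
    show (if z ∈ Sh.s9Rmax then Sh.s9Smax z else w z) = _
    rw [if_pos hz]
  have hS2 : ∀ z ∈ O, S' z = w z := fun z hz => by
    show (if z ∈ Sh.s9Rmax then Sh.s9Smax z else w z) = _
    by_cases h : z ∈ Sh.s9Rmax
    · rw [if_pos h, hi z hz h]
    · rw [if_neg h]
  have hev1 : ∀ z ∈ Sh.s9Rmax, S' =ᶠ[𝓝 z] Sh.s9Smax := fun z hz => by
    filter_upwards [hM.isOpen.mem_nhds hz] with z' hz'
    exact hS1 z' hz'
  have hev2 : ∀ z ∈ O, S' =ᶠ[𝓝 z] w := fun z hz => by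
    filter_upwards [hO.mem_nhds hz] with z' hz'
    exact hS2 z' hz'
  have hP : Sh.IsPassage (Sh.s9Rmax ∪ O) S' := by
    refine ⟨hM.isOpen.union hO, ?_, ?_, ?_, ?_⟩
    · rintro z (hz | hz)
      · have h1 : DifferentiableAt ℂ Sh.s9Smax z :=
          (hM.diff z hz).differentiableAt (hM.isOpen.mem_nhds hz)
        exact ((hev1 z hz).differentiableAt_iff.2 h1).differentiableWithinAt
      · have h1 : DifferentiableAt ℂ w z := (hw z hz).differentiableAt (hO.mem_nhds hz)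
        exact ((hev2 z hz).differentiableAt_iff.2 h1).differentiableWithinAt
    · rintro z (hz | hz)
      · rw [hS1 z hz]; exact hM.mem z hz
      · rw [hS2 z hz]; exact hD z hz
    · rintro z (hz | hz)
      · exact hM.param z hz
      · exact hρ z hz
    · rintro z (hz | hz)
      · obtain ⟨η, hη, hseg, hbT, hev⟩ := hM.attached z hz
        exact ⟨η, hη, fun τ hτ => Or.inl (hseg τ hτ), hbT,
          (hev1 _ (hseg η ⟨le_rfl, hη⟩)).trans hev⟩
      · obtain ⟨η₁, hη₁, hseg₁, hb₁, -⟩ := hatt z hz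
        obtain ⟨η₂, hη₂, hseg₂, hbT, hev⟩ := hM.attached _ hb₁
        simp only at hη₂ hseg₂ hbT hev
        refine ⟨η₂, hη₂.trans hη₁, ?_, hbT, (hev1 _ (hseg₂ η₂ ⟨le_rfl, hη₂⟩)).trans hev⟩
        intro τ hτ
        rcases le_total τ η₁ with h | h
        · exact Or.inl (hseg₂ τ ⟨hτ.1, h⟩)
        · exact Or.inr (hseg₁ τ ⟨h, hτ.2⟩)
  have hsub : O ⊆ Sh.s9Rmax := fun z hz => (Sh.s9k_max_spec hP).1 (Or.inr hz)
  exact ⟨hsub, fun z hz => hi z hz (hsub hz)⟩

end Shape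

end Claimed.Agent.R269
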