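/-
Row 269, P1 Section 7: the KONTINUITAETSSATZ FOR ROUND DISCS, WITHOUT ANY ASSUMPTION ON `H`.   LEAF PACKAGE LF-S7-konti (ONE FILE = ONE OWNER).   Statements: helper146.   Usable by Sections 6-9.
* `Shape.s7_konti` (K).  Analytic disc `t ↦ (g t, t)` over `closedBall tc R`, `g` holomorphic on a larger disc; vertical translates by `-s i`, `0 ≤ s ≤ s₀`.  If the lowest translate of the closed disc and all translates of the
      boundary circle lie in `Rmax`, then all translates of the closed disc lie in `Rmax`.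
   PROOF.  1. Compactness + openness of `Rmax`: there are `ε > 0` and `R₁ < R` with  (a) `(g t + w, t) ∈ Rmax` for `t ∈ closedBall tc R`, `|w + s₀ i| < 2ε`;  (b) `(g t + w, t) ∈ Rmax` for `R₁ < |t - tc| < R + (R - R₁)` (inside `ball tc R'`),
         `w ∈ W' := {|Re w| < 2ε, -s₀ - 2ε < Im w < 2ε}`.
      2. `A(w,t) = (2πi)⁻¹ ∮_{|τ - tc| = R} Smax (g τ + w, τ)/(τ - t) dτ` is holomorphic on `W' × ball tc R` (`analyticOnNhd_cauchy_param` with the roles: integration variable `τ`, parameter `w`).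
      3. For `|w + s₀ i| < 2ε`: `t ↦ Smax (g t + w, t)` is holomorphic near `closedBall tc R`, so `A(w,t) = Smax (g t + w, t)` (Cauchy formula).
      4. On the connected open set `W' × {R₁ < |t - tc| < R}` both `A` and `(w,t) ↦ Smax (g t + w, t)` are holomorphic and they agree for `w` near `-s₀ i`: they agree everywhere (`SCV.eqOn_of_differentiableOn`).
      5. Values in `D`: trivial if `H = ⊤`.  Otherwise fix `w ∈ W'`, `R₂ ∈ (R₁,R)`: on `sphere tc R₂`, `A(w,·) = Smax(...) ∈ D`, compactness gives `|Im A| ≤ H' < H` there, maximum modulus for `exp(∓ i A(w,·))` gives the same on `closedBall tc R₂`.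
      6. `O = {(y,t) : t ∈ ball tc R, y - g t ∈ W'' }`, `W'' = {|Re w| < ε, -s₀ - ε < Im w < ε}`, `w(y,t) = A(y - g t, t)`; lower point: `Im (y - g t) = -s₀`.  `s7_ext`.  The boundary circle is covered by the hypothesis.
-/
import Claimed.Agent.R269.S7.Ext
import Claimed.Agent.R269.Lib.SCVParam

set_option autoImplicit false

namespace Claimed.Agent.R269

open Complex Filter Topology Set Metric
open scoped ENNReal Real

/-- maximum principle for `|Im h|` on a disc. -/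
theorem s7k_im_le {h : ℂ → ℂ} {c : ℂ} {r m : ℝ} (hr : 0 < r) (hd : DiffContOnCl ℂ h (ball c r))
    (hb : ∀ z ∈ sphere c r, |(h z).im| ≤ m) : ∀ z ∈ closedBall c r, |(h z).im| ≤ m := by
  have key : ∀ σ : ℂ, (σ = I ∨ σ = -I) → ∀ z ∈ closedBall c r, (σ * h z).re ≤ m := by
    intro σ hσ z hz
    have hd' : DiffContOnCl ℂ (fun z => Complex.exp (σ * h z)) (ball c r) :=
      Complex.differentiable_exp.comp_diffContOnCl (hd.const_smul σ)
    have h1 := Complex.norm_le_of_forall_mem_frontier_norm_le isBounded_ball hd'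
      (C := Real.exp m) (by
        intro w hw
        rw [frontier_ball c hr.ne'] at hw
        rw [Complex.norm_exp]
        apply Real.exp_le_exp.2
        have := abs_le.1 (hb w hw)
        rcases hσ with rfl | rfl
        · simp; linarith [this.1]
        · simp; linarith [this.2])
      (by rw [closure_ball c hr.ne']; exact hz)
    rw [Complex.norm_exp] at h1
    exact Real.exp_le_exp.1 h1
  intro z hz
  have h1 := key I (Or.inl rfl) z hz
  have h2 := key (-I) (Or.inr rfl) z hz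
  simp at h1 h2
  rw [abs_le]
  constructor <;> linarith

/-- the rectangle of vertical translations. -/
def s7kW (s₀ ε : ℝ) : Set ℂ := {w : ℂ | -ε < w.re ∧ w.re < ε ∧ -s₀ - ε < w.im ∧ w.im < ε}

theorem s7kW_isOpen (s₀ ε : ℝ) : IsOpen (s7kW s₀ ε) :=
  (isOpen_lt continuous_const Complex.continuous_re).inter
    ((isOpen_lt Complex.continuous_re continuous_const).inter
      ((isOpen_lt continuous_const Complex.continuous_im).inter
        (isOpen_lt Complex.continuous_im continuous_const)))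

theorem s7kW_convex (s₀ ε : ℝ) : Convex ℝ (s7kW s₀ ε) :=
  (convex_halfSpace_re_gt (-ε)).inter ((convex_halfSpace_re_lt ε).inter
    ((convex_halfSpace_im_gt (-s₀ - ε)).inter (convex_halfSpace_im_lt ε)))

/-- every point of the rectangle is `2ε`-close to the segment. -/
theorem s7kW_near (s₀ ε : ℝ) (hs₀ : 0 ≤ s₀) (w : ℂ) (hw : w ∈ s7kW s₀ ε) :
    ∃ s ∈ Icc 0 s₀, ‖w + (s : ℂ) * I‖ < 2 * ε := by
  obtain ⟨h1, h2, h3, h4⟩ := hw
  refine ⟨max 0 (min s₀ (-w.im)), ⟨le_max_left _ _, max_le hs₀ (min_le_left _ _)⟩, ?_⟩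
  refine lt_of_le_of_lt (Complex.norm_le_abs_re_add_abs_im _) ?_
  have e1 : (w + ((max 0 (min s₀ (-w.im)) : ℝ) : ℂ) * I).re = w.re := by simp
  have e2 : (w + ((max 0 (min s₀ (-w.im)) : ℝ) : ℂ) * I).im = w.im + max 0 (min s₀ (-w.im)) := by simp
  rw [e1, e2]
  have h5 : |w.re| < ε := abs_lt.2 ⟨h1, h2⟩
  have h6 : |w.im + max 0 (min s₀ (-w.im))| < ε := by
    rw [abs_lt]
    rcases le_total (-w.im) 0 with h | h
    · rw [max_eq_left ((min_le_right _ _).trans h)]
      constructor <;> linarith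
    · rcases le_total s₀ (-w.im) with h' | h'
      · rw [min_eq_left h', max_eq_right hs₀]
        constructor <;> linarith
      · rw [min_eq_right h', max_eq_right h]
        constructor <;> linarith
  linarith

/-- **core of the Kontinuitaetssatz** (pure SCV).  Coordinates `(t, w)`. -/
theorem s7k_core (Ω : Set (ℂ × ℂ)) (hΩ : IsOpen Ω) (F : ℂ × ℂ → ℂ) (hF : DifferentiableOn ℂ F Ω)
    (tc : ℂ) (R : ℝ) (hR : 0 < R) (s₀ : ℝ) (hs₀ : 0 ≤ s₀)
    (hdeep : ∀ t ∈ closedBall tc R, (t, -(s₀ : ℂ) * I) ∈ Ω)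
    (hbd : ∀ t ∈ sphere tc R, ∀ s ∈ Icc 0 s₀, (t, -(s : ℂ) * I) ∈ Ω)
    (H : ℝ≥0∞) (hH : ∀ p ∈ Ω, ENNReal.ofReal |(F p).im| < H) :
    ∃ ε : ℝ, 0 < ε ∧ ∃ A : ℂ × ℂ → ℂ, DifferentiableOn ℂ A (ball tc R ×ˢ s7kW s₀ ε) ∧
      (∀ p ∈ ball tc R ×ˢ s7kW s₀ ε, ENNReal.ofReal |(A p).im| < H) ∧
      (∀ t ∈ ball tc R, ∀ w : ℂ, ‖w + (s₀ : ℂ) * I‖ < 2 * ε → (t, w) ∈ Ω ∧ A (t, w) = F (t, w)) := by
  -- compactness
  set K : Set (ℂ × ℂ) := (closedBall tc R ×ˢ {-(s₀ : ℂ) * I}) ∪
    (sphere tc R ×ˢ ((fun s : ℝ => -(s : ℂ) * I) '' Icc 0 s₀)) with hK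
  have hKc : IsCompact K :=
    ((isCompact_closedBall _ _).prod isCompact_singleton).union
      ((isCompact_sphere _ _).prod (isCompact_Icc.image (by fun_prop)))
  have hKΩ : K ⊆ Ω := by
    rintro ⟨t, w⟩ (⟨ht, hw⟩ | ⟨ht, s, hs, hw⟩)
    · have hw' : w = -(s₀ : ℂ) * I := hw
      rw [hw']; exact hdeep t ht
    · have hw' : -(s : ℂ) * I = w := hw
      rw [← hw']; exact hbd t ht s hs
  obtain ⟨δ, hδ, hth⟩ := hKc.exists_thickening_subset_open hΩ hKΩ
  have ha : ∀ t ∈ closedBall tc R, ∀ w : ℂ, ‖w + (s₀ : ℂ) * I‖ < δ → (t, w) ∈ Ω := by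
    intro t ht w hw
    apply hth
    rw [mem_thickening_iff]
    refine ⟨(t, -(s₀ : ℂ) * I), Or.inl ⟨ht, rfl⟩, ?_⟩
    rw [Prod.dist_eq]
    apply max_lt
    · simpa using hδ
    · show dist w (-(s₀ : ℂ) * I) < δ
      rw [dist_eq_norm]
      have : w - -(s₀ : ℂ) * I = w + (s₀ : ℂ) * I := by ring
      rwa [this]
  have hb : ∀ t t' : ℂ, t' ∈ sphere tc R → dist t t' < δ → ∀ w ∈ s7kW s₀ (δ / 2), (t, w) ∈ Ω := by
    intro t t' ht' htt w hw
    obtain ⟨s, hs, hws⟩ := s7kW_near s₀ (δ / 2) hs₀ w hw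
    apply hth
    rw [mem_thickening_iff]
    refine ⟨(t', -(s : ℂ) * I), Or.inr ⟨ht', s, hs, rfl⟩, ?_⟩
    rw [Prod.dist_eq]
    apply max_lt htt
    show dist w (-(s : ℂ) * I) < δ
    rw [dist_eq_norm]
    have : w - -(s : ℂ) * I = w + (s : ℂ) * I := by ring
    rw [this]
    linarith
  have hFan : ∀ p ∈ Ω, AnalyticAt ℂ F p := fun p hp =>
    SCV.analyticAt_of_differentiableOn hF (hΩ.mem_nhds hp)
  have hFd : ∀ p ∈ Ω, DifferentiableAt ℂ F p := fun p hp => (hFan p hp).differentiableAt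
  set W := s7kW s₀ (δ / 2) with hW
  have hWo : IsOpen W := s7kW_isOpen _ _
  set A : ℂ × ℂ → ℂ := fun p =>
    (2 * π * I : ℂ)⁻¹ • ∮ η in C(tc, R), (η - p.1)⁻¹ • F (η, p.2) with hA
  have hAan : AnalyticOnNhd ℂ (fun z : ℂ × ℂ => ∮ η in C(tc, R), (η - z.1)⁻¹ • F (η, z.2))
      (ball tc R ×ˢ W) :=
    analyticOnNhd_cauchy_param hR hWo
      (fun η hη w hw => hFan _ (hb η η hη (by simpa using hδ) w hw))
  have hAd : DifferentiableOn ℂ A (ball tc R ×ˢ W) :=
    hAan.differentiableOn.const_smul ((2 * π * I : ℂ)⁻¹)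
  have hAo : IsOpen (ball tc R ×ˢ W) := isOpen_ball.prod hWo
  -- Cauchy formula near the deep level
  have hcauchy : ∀ t ∈ ball tc R, ∀ w : ℂ, ‖w + (s₀ : ℂ) * I‖ < δ → A (t, w) = F (t, w) := by
    intro t ht w hw
    have hd : DiffContOnCl ℂ (fun η => F (η, w)) (ball tc R) := by
      apply DifferentiableOn.diffContOnCl
      rw [closure_ball tc hR.ne']
      intro η hη
      have h1 : DifferentiableAt ℂ F (η, w) := hFd _ (ha η hη w hw)
      have h2 : DifferentiableAt ℂ (fun η : ℂ => (η, w)) η := by fun_prop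
      exact (DifferentiableAt.comp η h1 h2).differentiableWithinAt
    exact hd.two_pi_i_inv_smul_circleIntegral_sub_inv_smul ht
  -- identity theorem in `w` over the annulus
  set R₁ : ℝ := max (R - δ) (R / 2) with hR₁
  have hR₁R : R₁ < R := max_lt (by linarith) (by linarith)
  have hR₁0 : 0 < R₁ := lt_of_lt_of_le (by positivity) (le_max_right _ _)
  have hw₀ : -(s₀ : ℂ) * I ∈ W := by
    refine ⟨?_, ?_, ?_, ?_⟩ <;> simp <;> linarith
  have hann : ∀ t : ℂ, R₁ < ‖t - tc‖ → ‖t - tc‖ < R → ∀ w ∈ W, (t, w) ∈ Ω ∧ A (t, w) = F (t, w) := by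
    intro t ht1 ht2
    have hn0 : 0 < ‖t - tc‖ := hR₁0.trans ht1
    have htb : t ∈ ball tc R := by rwa [mem_ball, dist_eq_norm]
    have hmem : ∀ w ∈ W, (t, w) ∈ Ω := by
      apply hb t (tc + ((R / ‖t - tc‖ : ℝ) : ℂ) * (t - tc))
      · rw [mem_sphere, dist_eq_norm, add_sub_cancel_left, norm_mul, Complex.norm_real,
          Real.norm_of_nonneg (by positivity)]
        field_simp
      · rw [dist_eq_norm]
        have e1 : t - (tc + ((R / ‖t - tc‖ : ℝ) : ℂ) * (t - tc))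
            = ((1 - R / ‖t - tc‖ : ℝ) : ℂ) * (t - tc) := by
          push_cast; ring
        rw [e1, norm_mul, Complex.norm_real, Real.norm_eq_abs]
        have e2 : 1 - R / ‖t - tc‖ ≤ 0 := by
          rw [sub_nonpos, le_div_iff₀ hn0]; linarith
        rw [abs_of_nonpos e2]
        have e3 : -(1 - R / ‖t - tc‖) * ‖t - tc‖ = R - ‖t - tc‖ := by field_simp; ring
        rw [e3]
        have := le_max_left (R - δ) (R / 2)
        linarith
    have h1 : AnalyticOnNhd ℂ (fun w => A (t, w)) W := by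
      apply DifferentiableOn.analyticOnNhd _ hWo
      intro w hw
      have h1 : DifferentiableAt ℂ A (t, w) :=
        (hAd _ ⟨htb, hw⟩).differentiableAt (hAo.mem_nhds ⟨htb, hw⟩)
      have h2 : DifferentiableAt ℂ (fun w : ℂ => (t, w)) w := by fun_prop
      exact (DifferentiableAt.comp w h1 h2).differentiableWithinAt
    have h2 : AnalyticOnNhd ℂ (fun w => F (t, w)) W := by
      apply DifferentiableOn.analyticOnNhd _ hWo
      intro w hw
      have h1 : DifferentiableAt ℂ F (t, w) := hFd _ (hmem w hw)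
      have h2 : DifferentiableAt ℂ (fun w : ℂ => (t, w)) w := by fun_prop
      exact (DifferentiableAt.comp w h1 h2).differentiableWithinAt
    have h3 : (fun w => A (t, w)) =ᶠ[𝓝 (-(s₀ : ℂ) * I)] fun w => F (t, w) := by
      have : ∀ᶠ w in 𝓝 (-(s₀ : ℂ) * I), ‖w + (s₀ : ℂ) * I‖ < δ := by
        have hc : Continuous fun w : ℂ => ‖w + (s₀ : ℂ) * I‖ := by fun_prop
        apply hc.continuousAt.eventually_lt continuousAt_const
        simpa using hδ
      filter_upwards [this] with w hw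
      exact hcauchy t htb w hw
    have h4 := h1.eqOn_of_preconnected_of_eventuallyEq h2 (s7kW_convex _ _).isPreconnected hw₀ h3
    exact fun w hw => ⟨hmem w hw, h4 hw⟩
  refine ⟨δ / 2, by positivity, A, hAd, ?_, ?_⟩
  · -- values
    rintro ⟨t, w⟩ ⟨ht0, hw0⟩
    have ht : t ∈ ball tc R := ht0
    have hw : w ∈ W := hw0
    have ht' : ‖t - tc‖ < R := by rwa [mem_ball, dist_eq_norm] at ht
    obtain ⟨R₂, hR₂a, hR₂b⟩ := exists_between (max_lt ht' hR₁R)
    have hR₂1 : ‖t - tc‖ < R₂ := lt_of_le_of_lt (le_max_left _ _) hR₂a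
    have hR₂2 : R₁ < R₂ := lt_of_le_of_lt (le_max_right _ _) hR₂a
    have hR₂0 : 0 < R₂ := hR₁0.trans hR₂2
    have hd : DifferentiableOn ℂ (fun η => A (η, w)) (closedBall tc R₂) := by
      intro η hη
      have hη' : η ∈ ball tc R := closedBall_subset_ball hR₂b hη
      have hmem : (η, w) ∈ ball tc R ×ˢ W := ⟨hη', hw⟩
      have h1 : DifferentiableAt ℂ A (η, w) :=
        (hAd _ hmem).differentiableAt (hAo.mem_nhds hmem)
      have h2 : DifferentiableAt ℂ (fun η : ℂ => (η, w)) η := by fun_prop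
      exact (DifferentiableAt.comp η h1 h2).differentiableWithinAt
    have hdc : DiffContOnCl ℂ (fun η => A (η, w)) (ball tc R₂) := by
      apply DifferentiableOn.diffContOnCl
      rwa [closure_ball tc hR₂0.ne']
    have hcont : ContinuousOn (fun η => |(A (η, w)).im|) (sphere tc R₂) :=
      ((Complex.continuous_im.comp_continuousOn hd.continuousOn).abs).mono sphere_subset_closedBall
    obtain ⟨ts, hts, hmax⟩ := (isCompact_sphere tc R₂).exists_isMaxOn
      (NormedSpace.sphere_nonempty.2 hR₂0.le) hcont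
    have hts' : ‖ts - tc‖ = R₂ := by rwa [mem_sphere, dist_eq_norm] at hts
    obtain ⟨hm1, hm2⟩ := hann ts (by rw [hts']; exact hR₂2) (by rw [hts']; exact hR₂b) w hw
    have hle := s7k_im_le hR₂0 hdc (m := |(A (ts, w)).im|) (fun z hz => hmax hz) t
      (by rw [mem_closedBall, dist_eq_norm]; exact hR₂1.le)
    refine lt_of_le_of_lt (ENNReal.ofReal_le_ofReal hle) ?_
    rw [hm2]
    exact hH _ hm1
  · intro t ht w hw
    have hw' : ‖w + (s₀ : ℂ) * I‖ < δ := by linarith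
    exact ⟨ha t (ball_subset_closedBall ht) w hw', hcauchy t ht w hw'⟩

namespace Shape

variable (Sh : Shape)

/-- LEAF LF-S7-konti: **Kontinuitaetssatz for round discs** (`H` finite or infinite, no margin hypothesis). -/
theorem s7_konti (tc : ℂ) (R R' : ℝ) (hR : 0 < R) (hRR' : R < R')
    (hρ : closedBall tc R ⊆ ball (0 : ℂ) Sh.ρ) (g : ℂ → ℂ) (hg : DifferentiableOn ℂ g (ball tc R'))
    (s₀ : ℝ) (hs₀ : 0 ≤ s₀)
    (hdeep : ∀ t ∈ closedBall tc R, (g t - (s₀ : ℂ) * I, t) ∈ Sh.s9Rmax)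
    (hbd : ∀ t ∈ sphere tc R, ∀ s ∈ Icc 0 s₀, (g t - (s : ℂ) * I, t) ∈ Sh.s9Rmax) :
    ∀ t ∈ closedBall tc R, ∀ s ∈ Icc 0 s₀, (g t - (s : ℂ) * I, t) ∈ Sh.s9Rmax := by
  have hRmax := Sh.s9k_max
  -- the domain in the coordinates `(t, w)`
  set B' : Set (ℂ × ℂ) := {p | p.1 ∈ ball tc R'} with hB'
  have hB'o : IsOpen B' := isOpen_ball.preimage continuous_fst
  set Φ : ℂ × ℂ → ℂ × ℂ := fun p => (g p.1 + p.2, p.1) with hΦ
  have hΦd : DifferentiableOn ℂ Φ B' := by
    have h1 : DifferentiableOn ℂ (fun p : ℂ × ℂ => g p.1) B' :=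
      hg.comp differentiableOn_fst (fun p hp => hp)
    exact (h1.add differentiableOn_snd).prodMk differentiableOn_fst
  set Ω : Set (ℂ × ℂ) := B' ∩ Φ ⁻¹' Sh.s9Rmax with hΩdef
  have hΩ : IsOpen Ω := hΦd.continuousOn.isOpen_inter_preimage hB'o hRmax.isOpen
  set F : ℂ × ℂ → ℂ := fun p => Sh.s9Smax (Φ p) with hFdef
  have hF : DifferentiableOn ℂ F Ω :=
    hRmax.diff.comp (hΦd.mono inter_subset_left) (fun p hp => hp.2)
  have hH : ∀ p ∈ Ω, ENNReal.ofReal |(F p).im| < Sh.G.Hs := fun p hp => hRmax.mem _ hp.2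
  have hsubR' : closedBall tc R ⊆ ball tc R' := closedBall_subset_ball hRR'
  have hdeep' : ∀ t ∈ closedBall tc R, (t, -(s₀ : ℂ) * I) ∈ Ω := by
    intro t ht
    refine ⟨hsubR' ht, ?_⟩
    show (g t + -(s₀ : ℂ) * I, t) ∈ Sh.s9Rmax
    have : g t + -(s₀ : ℂ) * I = g t - (s₀ : ℂ) * I := by ring
    rw [this]
    exact hdeep t ht
  have hbd' : ∀ t ∈ sphere tc R, ∀ s ∈ Icc 0 s₀, (t, -(s : ℂ) * I) ∈ Ω := by
    intro t ht s hs
    refine ⟨hsubR' (sphere_subset_closedBall ht), ?_⟩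
    show (g t + -(s : ℂ) * I, t) ∈ Sh.s9Rmax
    have : g t + -(s : ℂ) * I = g t - (s : ℂ) * I := by ring
    rw [this]
    exact hbd t ht s hs
  obtain ⟨ε, hε, A, hAd, hAH, hAeq⟩ := s7k_core Ω hΩ F hF tc R hR s₀ hs₀ hdeep' hbd' Sh.G.Hs hH
  -- back to the coordinates `(y, t)`
  set B : Set (ℂ × ℂ) := {z | z.2 ∈ ball tc R} with hB
  have hBo : IsOpen B := isOpen_ball.preimage continuous_snd
  set Ψ : ℂ × ℂ → ℂ := fun z => z.1 - g z.2 with hΨ
  have hΨd : DifferentiableOn ℂ Ψ B := by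
    have h1 : DifferentiableOn ℂ (fun z : ℂ × ℂ => g z.2) B :=
      hg.comp differentiableOn_snd (fun z hz => hsubR' (ball_subset_closedBall hz))
    exact differentiableOn_fst.sub h1
  set O : Set (ℂ × ℂ) := B ∩ Ψ ⁻¹' (s7kW s₀ ε) with hOdef
  have hO : IsOpen O := hΨd.continuousOn.isOpen_inter_preimage hBo (s7kW_isOpen _ _)
  set wf : ℂ × ℂ → ℂ := fun z => A (z.2, Ψ z) with hwf
  have hwd : DifferentiableOn ℂ wf O := by
    apply hAd.comp ((differentiableOn_snd.prodMk hΨd).mono inter_subset_left)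
    intro z hz
    exact ⟨hz.1, hz.2⟩
  have hext := Sh.s7_ext hO hwd
    (fun z hz => hAH (z.2, Ψ z) ⟨hz.1, hz.2⟩)
    (fun z hz => hρ (ball_subset_closedBall hz.1))
    (by
      rintro ⟨y, t⟩ ⟨ht0, hw0⟩
      have ht : t ∈ ball tc R := ht0
      have hw : y - g t ∈ s7kW s₀ ε := hw0
      obtain ⟨w1, w2, w3, w4⟩ := hw
      rw [Complex.sub_re] at w1 w2
      rw [Complex.sub_im] at w3 w4
      refine ⟨min y.im (-s₀ + (g t).im), min_le_left _ _, ?_, ?_, ?_⟩
      · intro τ hτ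
        refine ⟨ht, ?_⟩
        show (⟨y.re, τ⟩ : ℂ) - g t ∈ s7kW s₀ ε
        have hτ1 : min y.im (-s₀ + (g t).im) ≤ τ := hτ.1
        have hτ2 : τ ≤ y.im := hτ.2
        refine ⟨?_, ?_, ?_, ?_⟩
        · rw [Complex.sub_re]; exact w1
        · rw [Complex.sub_re]; exact w2
        · rw [Complex.sub_im]
          show -s₀ - ε < τ - (g t).im
          rcases min_le_iff.1 hτ1 with h | h <;> linarith
        · rw [Complex.sub_im]
          show τ - (g t).im < ε
          linarith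
      all_goals
        have hbase : ‖((⟨y.re, min y.im (-s₀ + (g t).im)⟩ : ℂ) - g t) + (s₀ : ℂ) * I‖ < 2 * ε := by
          refine lt_of_le_of_lt (Complex.norm_le_abs_re_add_abs_im _) ?_
          have e1 : (((⟨y.re, min y.im (-s₀ + (g t).im)⟩ : ℂ) - g t) + (s₀ : ℂ) * I).re
              = y.re - (g t).re := by simp
          have e2 : (((⟨y.re, min y.im (-s₀ + (g t).im)⟩ : ℂ) - g t) + (s₀ : ℂ) * I).im
              = min y.im (-s₀ + (g t).im) - (g t).im + s₀ := by simp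
          rw [e1, e2]
          have h5 : |y.re - (g t).re| < ε := abs_lt.2 ⟨w1, w2⟩
          have h6 : |min y.im (-s₀ + (g t).im) - (g t).im + s₀| < ε := by
            rw [abs_lt]
            rcases le_total y.im (-s₀ + (g t).im) with h | h
            · rw [min_eq_left h]; constructor <;> linarith
            · rw [min_eq_right h]; constructor <;> linarith
          linarith
      · have := (hAeq t ht _ hbase).1.2
        have e : Φ (t, (⟨y.re, min y.im (-s₀ + (g t).im)⟩ : ℂ) - g t)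
            = ((⟨y.re, min y.im (-s₀ + (g t).im)⟩ : ℂ), t) := by
          show (g t + ((⟨y.re, min y.im (-s₀ + (g t).im)⟩ : ℂ) - g t), t) = _
          rw [add_sub_cancel]
        have h2 : Φ (t, (⟨y.re, min y.im (-s₀ + (g t).im)⟩ : ℂ) - g t) ∈ Sh.s9Rmax := this
        rwa [e] at h2
      · have hNo : IsOpen (B ∩ (fun z => Ψ z + (s₀ : ℂ) * I) ⁻¹' (ball (0 : ℂ) (2 * ε))) :=
          (hΨd.continuousOn.add continuousOn_const).isOpen_inter_preimage hBo isOpen_ball
        have hbN : ((⟨y.re, min y.im (-s₀ + (g t).im)⟩ : ℂ), t)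
            ∈ B ∩ (fun z => Ψ z + (s₀ : ℂ) * I) ⁻¹' (ball (0 : ℂ) (2 * ε)) := by
          refine ⟨ht, ?_⟩
          show ((⟨y.re, min y.im (-s₀ + (g t).im)⟩ : ℂ) - g t) + (s₀ : ℂ) * I ∈ ball (0 : ℂ) (2 * ε)
          rw [mem_ball_zero_iff]
          exact hbase
        filter_upwards [hNo.mem_nhds hbN] with z hz
        have hz2 : ‖Ψ z + (s₀ : ℂ) * I‖ < 2 * ε := by
          have := hz.2
          rwa [mem_preimage, mem_ball_zero_iff] at this
        have h1 := (hAeq z.2 hz.1 (Ψ z) hz2).2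
        show A (z.2, Ψ z) = Sh.s9Smax z
        rw [h1]
        show Sh.s9Smax (g z.2 + (z.1 - g z.2), z.2) = Sh.s9Smax z
        rw [add_sub_cancel])
  intro t ht s hs
  rcases eq_or_lt_of_le (mem_closedBall.1 ht) with h | h
  · exact hbd t (mem_sphere.2 h) s hs
  · apply hext.1
    refine ⟨mem_ball.2 h, ?_⟩
    show (g t - (s : ℂ) * I) - g t ∈ s7kW s₀ ε
    have : (g t - (s : ℂ) * I) - g t = -(s : ℂ) * I := by ring
    rw [this]
    refine ⟨?_, ?_, ?_, ?_⟩ <;> simp <;> linarith [hs.1, hs.2]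

end Shape

end Claimed.Agent.R269
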