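/-
Row 269, P1 Section 7, Lemma 7.2 for `H = ∞`: THE DYADIC ANALYTIC-DISC FILLING WITHOUT ANY ASSUMPTION ON `H`.   LEAF PACKAGE LF-S7-di-fill (ONE FILE = ONE OWNER).   Statements: helper146.   NO PAPER READING NEEDED.
 (a) `Shape.s7_konti'`: the Kontinuitaetssatz `Shape.s7_konti` (S7/Konti.lean; black box) for `g` which is only `DiffContOnCl` on the disc.
     PROOF.  Points of the sphere are covered by `hbd`.  Let `t₁ ∈ ball tc R`.  `K = {(g t - s i, t) : t ∈ sphere tc R, s ∈ [0,s₀]}` is compact (continuous image of `sphere ×ˢ Icc`) and contained in the open set `Rmax`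
     (`s9k_max.isOpen`): `IsCompact.exists_thickening_subset_open` gives `ε`.  `g` is uniformly continuous on the compact `closedBall tc R` (`IsCompact.uniformContinuousOn_of_continuous`): `∃ η`, `|t - t'| < η ⇒ |g t - g t'| < ε`.
     Take `R₁ < R` with `R - R₁ < min η ε`, `‖t₁ - tc‖ ≤ R₁`, `0 < R₁`.  For `t ∈ sphere tc R₁` the radial projection `t' = tc + (R/R₁)(t - tc) ∈ sphere tc R` has `|t - t'| = R - R₁`; so `(g t - s i, t)` is `ε`-close (sup metric) to `(g t' - s i, t') ∈ K`.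
     `s7_konti tc R₁ R` (`g` differentiable on `ball tc R`).
 (b) `Shape.s7di_fill_step`, `s7di_fill`:  VERBATIM COPIES of `Shape.s6_fill_step`, `s6_fill` (S6/Fill.lean, proved) with the hypothesis `hH` deleted and the call of `Sh.s9k_konti hH (ball tc (3R)) ...` replaced by `Sh.s7_konti' tc (3R) ...`
     (no margin `r₀` is needed any more, but it does no harm: `hbd` is applied at the centre `y = g t - s i` of the ball).   All auxiliary lemmas `s6f_*`, `s6_bend`, `s6_Umax`, `S6All`, `S6Stp` are imported from S6/Fill.lean.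
-/
import Claimed.Agent.R269.S7.Konti
import Claimed.Agent.R269.S6.Fill

set_option autoImplicit false

namespace Claimed.Agent.R269

open Complex Filter Topology Set Metric
open scoped ENNReal Real

namespace Shape

variable (Sh : Shape)

/-- LEAF LF-S7-di-fill (a): Kontinuitaetssatz for round discs, `g` continuous up to the boundary. -/
theorem s7_konti' (tc : ℂ) (R : ℝ) (hR : 0 < R) (hρ : closedBall tc R ⊆ ball (0 : ℂ) Sh.ρ) (g : ℂ → ℂ)
    (hg : DiffContOnCl ℂ g (ball tc R)) (s₀ : ℝ) (hs₀ : 0 ≤ s₀)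
    (hdeep : ∀ t ∈ closedBall tc R, (g t - (s₀ : ℂ) * I, t) ∈ Sh.s9Rmax)
    (hbd : ∀ t ∈ sphere tc R, ∀ s ∈ Icc 0 s₀, (g t - (s : ℂ) * I, t) ∈ Sh.s9Rmax) :
    ∀ t ∈ closedBall tc R, ∀ s ∈ Icc 0 s₀, (g t - (s : ℂ) * I, t) ∈ Sh.s9Rmax := by
  intro t₁ ht₁ s hs
  rcases (mem_closedBall.1 ht₁).lt_or_eq with hlt | heq
  swap
  · exact hbd t₁ (mem_sphere.2 heq) s hs
  have hgc : ContinuousOn g (closedBall tc R) := by
    have := hg.continuousOn
    rwa [closure_ball tc hR.ne'] at this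
  set Φ : ℂ × ℝ → ℂ × ℂ := fun p => (g p.1 - (p.2 : ℂ) * I, p.1) with hΦ
  set K : Set (ℂ × ℂ) := Φ '' (sphere tc R ×ˢ Icc 0 s₀) with hK
  have hKc : IsCompact K := by
    apply ((isCompact_sphere tc R).prod isCompact_Icc).image_of_continuousOn
    have h1 : ContinuousOn (fun p : ℂ × ℝ => g p.1) (sphere tc R ×ˢ Icc 0 s₀) :=
      hgc.comp continuousOn_fst (fun p hp => sphere_subset_closedBall hp.1)
    exact (h1.sub (by fun_prop)).prodMk continuousOn_fst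
  have hKsub : K ⊆ Sh.s9Rmax := by
    rintro _ ⟨p, hp, rfl⟩
    exact hbd p.1 hp.1 p.2 hp.2
  obtain ⟨ε, hε, hthick⟩ := hKc.exists_thickening_subset_open Sh.s9k_max.isOpen hKsub
  obtain ⟨η, hη, huc⟩ := Metric.uniformContinuousOn_iff.1
    ((isCompact_closedBall tc R).uniformContinuousOn_of_continuous hgc) ε hε
  set μ : ℝ := min η ε with hμ
  have hμ0 : 0 < μ := lt_min hη hε
  set R₁ : ℝ := max (max (dist t₁ tc) (R - μ / 2)) (R / 2) with hR₁
  have hR₁R : R₁ < R := max_lt (max_lt hlt (by linarith)) (by linarith)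
  have hR₁0 : 0 < R₁ := lt_of_lt_of_le (by positivity) (le_max_right _ _)
  have hR₁μ : R - R₁ < μ := by
    have : R - μ / 2 ≤ R₁ := (le_max_right _ _).trans (le_max_left _ _)
    linarith
  have ht₁' : t₁ ∈ closedBall tc R₁ := mem_closedBall.2 ((le_max_left _ _).trans (le_max_left _ _))
  have hsub : closedBall tc R₁ ⊆ closedBall tc R := closedBall_subset_closedBall hR₁R.le
  refine Sh.s7_konti tc R₁ R hR₁0 hR₁R (hsub.trans hρ) g hg.differentiableOn s₀ hs₀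
    (fun t ht => hdeep t (hsub ht)) ?_ t₁ ht₁' s hs
  intro t ht s' hs'
  apply hthick
  rw [Metric.mem_thickening_iff]
  set t' : ℂ := tc + ((R / R₁ : ℝ) : ℂ) * (t - tc) with ht'
  have htn : ‖t - tc‖ = R₁ := by rw [← dist_eq_norm]; exact mem_sphere.1 ht
  have ht's : t' ∈ sphere tc R := by
    rw [mem_sphere, dist_eq_norm, ht', add_sub_cancel_left, norm_mul, Complex.norm_real,
      Real.norm_of_nonneg (by positivity), htn]
    field_simp
  have hdist : dist t t' < μ := by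
    have e : t - t' = ((1 - R / R₁ : ℝ) : ℂ) * (t - tc) := by
      rw [ht']
      push_cast
      ring
    rw [dist_eq_norm, e, norm_mul, Complex.norm_real, htn, Real.norm_eq_abs]
    have h1 : 1 - R / R₁ = -((R - R₁) / R₁) := by field_simp; ring
    rw [h1, abs_neg, abs_of_nonneg (div_nonneg (by linarith) hR₁0.le), div_mul_cancel₀ _ hR₁0.ne']
    exact hR₁μ
  refine ⟨Φ (t', s'), ⟨(t', s'), ⟨ht's, hs'⟩, rfl⟩, ?_⟩
  rw [Prod.dist_eq]
  apply max_lt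
  · show dist (g t - (s' : ℂ) * I) (g t' - (s' : ℂ) * I) < ε
    rw [dist_sub_right]
    exact huc t (hsub (sphere_subset_closedBall ht)) t' (sphere_subset_closedBall ht's)
      (lt_of_lt_of_le hdist (min_le_left _ _))
  · exact lt_of_lt_of_le hdist (min_le_right _ _)

set_option maxHeartbeats 1600000 in
/-- LEAF LF-S7-di-fill (b1): one band of analytic discs (copy of `s6_fill_step` without `hH`). -/
theorem s7di_fill_step (α γ C₀ D₀ m h x₀ r d δs δt δ₁ : ℝ) (Ψ : ℝ → ℝ)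
    (hα : 0 < α) (hα1 : α ≤ 1) (hγ : 0 < γ) (hC₀ : 0 < C₀) (hD₀ : 5 ≤ D₀ ^ α) (hD₀' : 5 ≤ D₀)
    (hbend : ∀ τ : ℝ, |τ| ≤ 1 / 3 →
      ∃ g₀ : ℂ → ℂ, DiffContOnCl ℂ g₀ (ball 0 1) ∧ g₀ 0 = 0 ∧
        (∀ ζ ∈ closedBall (0 : ℂ) 1, ‖g₀ ζ‖ ≤ C₀) ∧
        (∀ ζ ∈ closedBall (0 : ℂ) 1, (g₀ ζ).im ≤ 1 / 4) ∧
        (∀ ζ ∈ sphere (0 : ℂ) 1, |ζ.im + τ| ≤ 4 / 3 * γ → (g₀ ζ).im ≤ -D₀))
    (hm : C₀ + 1 ≤ m * D₀) (hm0 : 0 < m) (hΨ : AntitoneOn Ψ (Ioi 0)) (hr : 0 < r) (hd : 0 < d)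
    (hδ₁ : d ≤ δ₁) (hδ₁s : δ₁ ≤ δs) (hδt : (C₀ + D₀ + 3) * δs ≤ δt)
    (hρ : 10 * r * (δt / d) ^ α < Sh.ρ)
    (hsteep : Sh.S6Stp h x₀ (2 * (m + C₀) + 1) γ r d α Ψ δt)
    (hall : Sh.S6All h x₀ m r d α Ψ δ₁ δt) :
    Sh.S6All h x₀ m r d α Ψ (max (δ₁ / 2) d) δt := by
  intro yc tc h1 h2 h3 h4
  by_cases hcase : δ₁ < h - yc.im
  · exact hall yc tc hcase h2 h3 h4
  rw [not_lt] at hcase
  obtain ⟨δ, hδdef⟩ : ∃ δ : ℝ, δ = h - yc.im := ⟨_, rfl⟩
  rw [← hδdef] at h1 h2 h3 h4 hcase ⊢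
  have hδ1 : δ₁ / 2 < δ := lt_of_le_of_lt (le_max_left _ _) h1
  have hδd : d < δ := lt_of_le_of_lt (le_max_right _ _) h1
  have hδ0 : 0 < δ := lt_trans hd hδd
  have hP : 0 < (δ / d) ^ α := Real.rpow_pos_of_pos (by positivity) _
  obtain ⟨R, hRdef⟩ : ∃ R : ℝ, R = r * (δ / d) ^ α := ⟨_, rfl⟩
  have hR : 0 < R := by rw [hRdef]; positivity
  rw [← hRdef] at h4
  have h3R : (0 : ℝ) < 3 * R := by positivity
  have h3Rne : ((3 * R : ℝ) : ℂ) ≠ 0 := by exact_mod_cast h3R.ne'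
  -- the bending function
  have hτ : |tc.im / (3 * R)| ≤ 1 / 3 := by
    rw [abs_div, abs_of_pos h3R, div_le_div_iff₀ h3R (by norm_num)]
    have := Complex.abs_im_le_norm tc
    linarith
  obtain ⟨g₀, hg₀d, hg₀0, hg₀n, hg₀i, hg₀D⟩ := hbend _ hτ
  set Z : ℂ → ℂ := fun t => (t - tc) / ((3 * R : ℝ) : ℂ) with hZ
  set g : ℂ → ℂ := fun t => yc + (δ : ℂ) * g₀ (Z t) with hg
  have hZn : ∀ t, ‖Z t‖ = ‖t - tc‖ / (3 * R) := by
    intro t
    simp only [hZ]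
    rw [norm_div, Complex.norm_real, Real.norm_eq_abs, abs_of_pos h3R]
  have hZcl : ∀ t ∈ closedBall tc (3 * R), Z t ∈ closedBall (0 : ℂ) 1 := by
    intro t ht
    rw [mem_closedBall, dist_eq_norm] at ht
    rw [mem_closedBall, dist_zero_right, hZn, div_le_one h3R]
    exact ht
  have hZb : MapsTo Z (ball tc (3 * R)) (ball (0 : ℂ) 1) := by
    intro t ht
    rw [mem_ball, dist_eq_norm] at ht
    rw [mem_ball, dist_zero_right, hZn, div_lt_one h3R]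
    exact ht
  have hZs : ∀ t ∈ sphere tc (3 * R), Z t ∈ sphere (0 : ℂ) 1 := by
    intro t ht
    rw [mem_sphere, dist_eq_norm] at ht
    rw [mem_sphere, dist_zero_right, hZn, ht, div_self h3R.ne']
  have hZim : ∀ t, (Z t).im + tc.im / (3 * R) = t.im / (3 * R) := by
    intro t
    simp only [hZ]
    rw [Complex.div_ofReal_im, Complex.sub_im]
    ring
  have hnt : ∀ t ∈ closedBall tc (3 * R), ‖t‖ < 4 * (r * (δ / d) ^ α) := by
    intro t ht
    rw [mem_closedBall, dist_eq_norm] at ht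
    rw [← hRdef]
    have := norm_add_le (t - tc) tc
    rw [sub_add_cancel] at this
    linarith
  have hgd : DiffContOnCl ℂ g (ball tc (3 * R)) := by
    have hZd : DiffContOnCl ℂ Z (ball tc (3 * R)) := by
      apply Differentiable.diffContOnCl
      simp only [hZ]
      fun_prop
    have hc := hg₀d.comp hZd hZb
    exact ⟨(hc.differentiableOn.const_mul _).const_add _,
      continuousOn_const.add (continuousOn_const.mul hc.continuousOn)⟩
  have hcl : closure (ball tc (3 * R)) = closedBall tc (3 * R) := closure_ball tc h3R.ne'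
  have hfr : frontier (ball tc (3 * R)) = sphere tc (3 * R) := frontier_ball tc h3R.ne'
  have hsub : closedBall tc (3 * R) ⊆ ball (0 : ℂ) Sh.ρ := by
    intro t ht
    rw [mem_ball, dist_zero_right]
    refine lt_trans (hnt t ht) (lt_of_le_of_lt ?_ hρ)
    have h5 : (δ / d) ^ α ≤ (δt / d) ^ α :=
      Real.rpow_le_rpow (by positivity) (div_le_div_of_nonneg_right h2.le hd.le) hα.le
    have h6 : r * (δ / d) ^ α ≤ r * (δt / d) ^ α := mul_le_mul_of_nonneg_left h5 hr.le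
    have h7 : 0 < r * (δ / d) ^ α := by positivity
    linarith
  obtain ⟨r₀, hr₀def⟩ : ∃ r₀ : ℝ, r₀ = δ / (8 * (m + 1)) := ⟨_, rfl⟩
  have hr₀0 : 0 < r₀ := by rw [hr₀def]; positivity
  have hr₀ : (m + 1) * r₀ = δ / 8 := by rw [hr₀def]; field_simp
  obtain ⟨s₀, hs₀def⟩ : ∃ s₀ : ℝ, s₀ = (D₀ + 1) * δ := ⟨_, rfl⟩
  have hs₀0 : 0 ≤ s₀ := by rw [hs₀def]; positivity
  -- bounds of `g₀`
  have hw : ∀ t ∈ closedBall tc (3 * R), |(g₀ (Z t)).re| ≤ C₀ ∧ -C₀ ≤ (g₀ (Z t)).im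
      ∧ (g₀ (Z t)).im ≤ 1 / 4 := by
    intro t ht
    have hn := hg₀n _ (hZcl t ht)
    refine ⟨(Complex.abs_re_le_norm _).trans hn, ?_, hg₀i _ (hZcl t ht)⟩
    have := (abs_le.1 ((Complex.abs_im_le_norm (g₀ (Z t))).trans hn)).1
    exact this
  -- deep points
  have hDeep : ∀ t ∈ closedBall tc (3 * R), ∀ s : ℝ, ∀ y ∈ ball (g t - (s : ℂ) * I) r₀,
      (D₀ + 1) * δ ≤ δ - δ * (g₀ (Z t)).im + s → s ≤ s₀ →
      (y, t) ∈ Sh.s9Rmax ∧ ‖Sh.s9Smax (y, t) - y‖ ≤ ‖t‖ ^ 2 * Ψ (δ / 2) := by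
    intro t ht s y hy hb1 hs
    obtain ⟨w1, w2, w3⟩ := hw t ht
    obtain ⟨p1, p2⟩ := s6f_pt hδdef hy
    have hb2 : δ - δ * (g₀ (Z t)).im + s ≤ (C₀ + D₀ + 2) * δ := by
      rw [hs₀def] at hs
      nlinarith
    obtain ⟨q1, q2, q3, q4, q5⟩ := s6f_all hα hC₀ hD₀ hD₀' hm hm0 hr hd hδ₁s hδt hδ1 hδd hcase hr₀
      hr₀0 hb1 hb2 p1 p2 w1 h3 (hnt t ht)
    obtain ⟨a1, a2⟩ := hall y t q1 q2 q3 q4
    refine ⟨a1, a2.trans (mul_le_mul_of_nonneg_left ?_ (by positivity))⟩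
    exact hΨ (by show (0 : ℝ) < δ / 2; positivity) (by show (0 : ℝ) < (h - y.im) / 2; linarith)
      (by linarith)
  -- boundary points
  have hBd : ∀ t ∈ sphere tc (3 * R), ∀ s ∈ Icc 0 s₀, ∀ y ∈ ball (g t - (s : ℂ) * I) r₀,
      (y, t) ∈ Sh.s9Rmax ∧ ‖Sh.s9Smax (y, t) - y‖ ≤ ‖t‖ ^ 2 * Ψ (δ / 2) := by
    intro t ht s hs y hy
    have htc : t ∈ closedBall tc (3 * R) := sphere_subset_closedBall ht
    obtain ⟨w1, w2, w3⟩ := hw t htc
    by_cases hA : |(Z t).im + tc.im / (3 * R)| ≤ 4 / 3 * γ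
    · have hD := hg₀D _ (hZs t ht) hA
      apply hDeep t htc s y hy _ hs.2
      nlinarith [hs.1]
    · rw [not_le] at hA
      obtain ⟨p1, p2⟩ := s6f_pt hδdef hy
      have hb1 : 3 / 4 * δ ≤ δ - δ * (g₀ (Z t)).im + s := by nlinarith [hs.1]
      have hb2 : δ - δ * (g₀ (Z t)).im + s ≤ (C₀ + D₀ + 2) * δ := by
        have := hs.2
        rw [hs₀def] at this
        nlinarith
      obtain ⟨q1, q2, q3, q4, q5⟩ := s6f_stp hα hα1 hC₀ hD₀' hm0 hr hd hδ₁s hδt hδd hcase hr₀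
        hr₀0 hb1 hb2 p1 p2 w1 h3 (hnt t htc)
      have hst : γ * ‖t‖ < |t.im| := by
        rw [hZim, abs_div, abs_of_pos h3R, lt_div_iff₀ h3R] at hA
        have := hnt t htc
        rw [← hRdef] at this
        have h8 := mul_lt_mul_of_pos_left this hγ
        linarith
      obtain ⟨a1, a2⟩ := hsteep y t q1 q2 q3 hst q4
      refine ⟨a1, a2.trans (mul_le_mul_of_nonneg_left ?_ (by positivity))⟩
      exact hΨ (by show (0 : ℝ) < δ / 2; positivity) (by show (0 : ℝ) < h - y.im; linarith) q5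
  -- the Kontinuitaetssatz
  have hk := Sh.s7_konti' tc (3 * R) h3R hsub g hgd s₀ hs₀0
    (by
      intro t ht
      obtain ⟨w1, w2, w3⟩ := hw t ht
      refine (hDeep t ht s₀ _ (mem_ball_self hr₀0) ?_ le_rfl).1
      rw [hs₀def]; nlinarith)
    (by
      intro t ht s hs
      exact (hBd t ht s hs _ (mem_ball_self hr₀0)).1)
  have hgtc : g tc = yc := by
    simp only [hg, hZ, sub_self, zero_div, hg₀0, mul_zero, add_zero]
  have htcb : tc ∈ ball tc (3 * R) := mem_ball_self h3R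
  have e0 : ∀ t, g t - ((0 : ℝ) : ℂ) * I = g t := by intro t; simp
  have hin : ∀ t ∈ closedBall tc (3 * R), (g t, t) ∈ Sh.s9Rmax := by
    intro t ht
    have := hk t ht 0 ⟨le_rfl, hs₀0⟩
    rwa [e0] at this
  have hU := Sh.s6_Umax tc (3 * R) (by linarith) hsub g hgd hin (Ψ (δ / 2))
    (fun t ht => (hBd t ht 0 ⟨le_rfl, hs₀0⟩ (g t) (by rw [e0]; exact mem_ball_self hr₀0)).2)
    tc htcb
  rw [hgtc] at hU
  have := hin tc (mem_closedBall_self h3R.le)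
  rw [hgtc] at this
  exact ⟨this, hU⟩

end Shape

/-- LEAF LF-S7-di-fill (b2): **analytic discs, `H` finite or infinite** (copy of `s6_fill` without `Sh.H ≠ ⊤`). -/
theorem s7di_fill (α : ℝ) (hα : 0 < α) (hα1 : α ≤ 1) :
    ∃ γ C₀ D₀ m₁ : ℝ, 0 < γ ∧ γ ≤ 1 ∧ 0 < C₀ ∧ 1 ≤ D₀ ∧ 0 < m₁ ∧
      ∀ (Sh : Shape) (m h x₀ r d δs δt : ℝ) (Ψ : ℝ → ℝ), m₁ ≤ m →
        AntitoneOn Ψ (Ioi 0) → 0 < r → 0 < d → d ≤ δs → (C₀ + D₀ + 3) * δs ≤ δt →
        10 * r * (δt / d) ^ α < Sh.ρ →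
        (∀ y t : ℂ, d / 2 < h - y.im → h - y.im < δt →
          |y.re - x₀| < (2 * (m + C₀) + 1) * (h - y.im) → γ * ‖t‖ < |t.im| →
          ‖t‖ < 10 * r * ((h - y.im) / d) ^ α →
          (y, t) ∈ Sh.s9Rmax ∧ ‖Sh.s9Smax (y, t) - y‖ ≤ ‖t‖ ^ 2 * Ψ (h - y.im)) →
        (∀ y t : ℂ, δs ≤ h - y.im → h - y.im < δt → |y.re - x₀| < m * (h - y.im) →
          ‖t‖ < r * ((h - y.im) / d) ^ α →
          (y, t) ∈ Sh.s9Rmax ∧ ‖Sh.s9Smax (y, t) - y‖ ≤ ‖t‖ ^ 2 * Ψ ((h - y.im) / 2)) →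
        ∀ y t : ℂ, d < h - y.im → h - y.im < δt → |y.re - x₀| < m * (h - y.im) →
          ‖t‖ < r * ((h - y.im) / d) ^ α →
          (y, t) ∈ Sh.s9Rmax ∧ ‖Sh.s9Smax (y, t) - y‖ ≤ ‖t‖ ^ 2 * Ψ ((h - y.im) / 2) := by
  have h5 : (0 : ℝ) < 5 := by norm_num
  set D₀ : ℝ := 5 ^ (1 / α) with hD₀def
  have hD₀α : D₀ ^ α = 5 := by
    rw [hD₀def, ← Real.rpow_mul h5.le, one_div_mul_cancel hα.ne', Real.rpow_one]
  have hD₀5 : 5 ≤ D₀ := by
    have h1 : (1 : ℝ) ≤ 1 / α := by rw [le_div_iff₀ hα]; linarith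
    calc (5 : ℝ) = 5 ^ (1 : ℝ) := (Real.rpow_one 5).symm
      _ ≤ 5 ^ (1 / α) := Real.rpow_le_rpow_of_exponent_le (by norm_num) h1
  have hD₀0 : 0 < D₀ := by linarith
  obtain ⟨γ, C₀, hγ, hγ1, hC₀, hbend⟩ := s6_bend D₀ hD₀0
  refine ⟨γ, C₀, D₀, (C₀ + 1) / D₀, hγ, hγ1, hC₀, by linarith, by positivity, ?_⟩
  intro Sh m h x₀ r d δs δt Ψ hm hΨ hr hd hdδs hδt hρ hsteep hbase
  have hm' : C₀ + 1 ≤ m * D₀ := by rwa [div_le_iff₀ hD₀0] at hm
  have hm0 : 0 < m := lt_of_lt_of_le (by positivity) hm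
  have hδs0 : 0 < δs := lt_of_lt_of_le hd hdδs
  have hind : ∀ k : ℕ, Sh.S6All h x₀ m r d α Ψ (max (δs / 2 ^ k) d) δt := by
    intro k
    induction k with
    | zero =>
      intro y t h1 h2 h3 h4
      refine hbase y t ?_ h2 h3 h4
      have : δs ≤ max (δs / 2 ^ 0) d := by simp
      linarith
    | succ k ih =>
      have h1 : max (δs / 2 ^ k) d ≤ δs := by
        refine max_le ?_ hdδs
        exact div_le_self hδs0.le (one_le_pow₀ (by norm_num))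
      have h2 := Sh.s7di_fill_step α γ C₀ D₀ m h x₀ r d δs δt (max (δs / 2 ^ k) d) Ψ hα hα1 hγ hC₀
        hD₀α.ge hD₀5 hbend hm' hm0 hΨ hr hd (le_max_right _ _) h1 hδt hρ hsteep ih
      have e : max (max (δs / 2 ^ k) d / 2) d = max (δs / 2 ^ (k + 1)) d := by
        have e1 : δs / 2 ^ (k + 1) = δs / 2 ^ k / 2 := by rw [pow_succ]; field_simp
        rw [e1]
        apply le_antisymm
        · refine max_le ?_ (le_max_right _ _)
          rcases le_total (δs / 2 ^ k) d with h3 | h3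
          · rw [max_eq_right h3]
            exact le_max_of_le_right (by linarith)
          · rw [max_eq_left h3]
            exact le_max_left _ _
        · refine max_le ?_ (le_max_right _ _)
          refine le_max_of_le_left ?_
          have := le_max_left (δs / 2 ^ k) d
          linarith
      rw [e] at h2
      exact h2
  obtain ⟨k, hk⟩ := pow_unbounded_of_one_lt (δs / d) (by norm_num : (1 : ℝ) < 2)
  have hk' : δs / 2 ^ k ≤ d := by
    rw [div_lt_iff₀ hd] at hk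
    rw [div_le_iff₀ (by positivity)]
    linarith
  have := hind k
  rw [max_eq_right hk'] at this
  exact this

end Claimed.Agent.R269
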