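/-
Row 269, P1 Section 7, Lemma 7.2 for `H = ∞`: ONE ANALYTIC DISC CENTRED AT `t = 0`.   LEAF PACKAGE LF-S7-di-disc (ONE FILE = ONE OWNER).   Statements: helper146.   NO PAPER READING NEEDED.
Tools (black boxes): `Shape.s7_konti` (S7/Konti.lean), `Shape.s6_Umax` (S6/Fill.lean, proved), `s7bump`, `s7bump_spec` (S7/Bump.lean).
 * `s7bump_inner`:  `bump = -2 i A (P - 1)`, `P - 1 = 2 ρ2 ζ²/(1 - ρ2 ζ²)`, `|1 - ρ2 ζ²| ≥ 1 - |ζ|²`.
 * `Shape.s7di_disc`.  The disc `t ↦ (g t, t)`, `g t = y₀ + bump (t/R')`, `|t| ≤ R'`.  `dip = A/(1-ρ2)`.  Heights: `a` = bottom, `c` = top of the band where ALL parameter directions are known, `e` = top of the band where the STEEP directions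
      `γ |t| < |Im t|`, `γ = (1-ρ2)/2`, are known.  `bb` = the bound for `(S - y)/t²` on the known points.
      PROOF.  `(R₁, b1), b2, b3, b4` from `s7bump_spec`.  `g` is differentiable on `ball 0 (R' R₁)`.  `Im (g t - s i) = Im y₀ + Im bump - s`; `-4 dip ≤ Im bump ≤ 2A` on the closed disc (b4, b2).
      `hdeep` (`s = s₀`): height in `[a, c]` by `ha`, `hc1`: `hall`.    `hbd`: `ζ = t/R'`, `|ζ| = 1`, `Im ζ = Im t/R'`, `‖t‖ = R'`.  If `|Im ζ| ≤ (1-ρ2)/2`: (b3) height `≤ Im y₀ + 2A - dip - s ≤ c` (`hc2`), `≥ a`: `hall`.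
      Otherwise `(1-ρ2)/2 ‖t‖ < |Im t|`, height in `[a, e]` (`he`): `hstp`.    `s7_konti 0 R' (R' R₁)` gives the closed disc (`s = 0`) in `Rmax`;  `s6_Umax 0 R'` with `b = bb` (the two cases above with `s = 0`) gives the bound.
-/
import Claimed.Agent.R269.S7.Konti
import Claimed.Agent.R269.S7.Bump
import Claimed.Agent.R269.S6.Fill

set_option autoImplicit false

namespace Claimed.Agent.R269

open Complex Filter Topology Set Metric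
open scoped ENNReal Real

/-- LEAF LF-S7-di-disc (a) (HOST-FREE): the bending function in the interior of the disc. -/
theorem s7bump_inner (A ρ2 : ℝ) (hA : 0 < A) (h0 : 0 < ρ2) (h1 : ρ2 < 1) (ζ : ℂ) (hζ : ‖ζ‖ < 1) :
    ‖s7bump A ρ2 ζ‖ ≤ 4 * A * ‖ζ‖ ^ 2 / (1 - ‖ζ‖ ^ 2) := by
  have hw : ‖(ρ2 : ℂ) * ζ ^ 2‖ = ρ2 * ‖ζ‖ ^ 2 := by
    rw [norm_mul, norm_pow, Complex.norm_real, Real.norm_eq_abs, abs_of_pos h0]
  have ht : ‖ζ‖ ^ 2 < 1 := pow_lt_one₀ (norm_nonneg _) hζ two_ne_zero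
  have hle : ‖(ρ2 : ℂ) * ζ ^ 2‖ ≤ ‖ζ‖ ^ 2 := by
    rw [hw]
    exact mul_le_of_le_one_left (by positivity) h1.le
  have h2 := (s7bump_aux_norm _ _ ht hle).2
  rw [s7bump_aux_nrm A ρ2 hA]
  calc 2 * A * ‖(1 + (ρ2 : ℂ) * ζ ^ 2) / (1 - (ρ2 : ℂ) * ζ ^ 2) - 1‖
      ≤ 2 * A * (2 * ‖ζ‖ ^ 2 / (1 - ‖ζ‖ ^ 2)) := mul_le_mul_of_nonneg_left h2 (by positivity)
    _ = 4 * A * ‖ζ‖ ^ 2 / (1 - ‖ζ‖ ^ 2) := by ring

/-- LEAF LF-S7-di-disc (b): one analytic disc centred at `t = 0` (no assumption on `H`, no horizontal localisation). -/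
theorem Shape.s7di_disc (Sh : Shape) (A ρ2 R' : ℝ) (hA : 0 < A) (h0 : 0 < ρ2) (h1 : ρ2 < 1) (hR' : 0 < R')
    (hρ : R' < Sh.ρ) (y₀ : ℂ) (s₀ a c e bb : ℝ) (hs₀ : 0 ≤ s₀)
    (ha : a ≤ y₀.im - 4 * (A / (1 - ρ2)) - s₀) (hc1 : y₀.im + 2 * A - s₀ ≤ c)
    (hc2 : y₀.im + 2 * A - A / (1 - ρ2) ≤ c) (he : y₀.im + 2 * A ≤ e)
    (hall : ∀ y t : ℂ, ‖t‖ ≤ R' → a ≤ y.im → y.im ≤ c →
      (y, t) ∈ Sh.s9Rmax ∧ ‖Sh.s9Smax (y, t) - y‖ ≤ ‖t‖ ^ 2 * bb)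
    (hstp : ∀ y t : ℂ, ‖t‖ ≤ R' → (1 - ρ2) / 2 * ‖t‖ < |t.im| → a ≤ y.im → y.im ≤ e →
      (y, t) ∈ Sh.s9Rmax ∧ ‖Sh.s9Smax (y, t) - y‖ ≤ ‖t‖ ^ 2 * bb) :
    ∀ t ∈ ball (0 : ℂ) R', (y₀ + s7bump A ρ2 (t / (R' : ℂ)), t) ∈ Sh.s9Rmax ∧
      ‖Sh.s9Smax (y₀ + s7bump A ρ2 (t / (R' : ℂ)), t) - (y₀ + s7bump A ρ2 (t / (R' : ℂ)))‖
        ≤ ‖t‖ ^ 2 * bb := by
  obtain ⟨⟨R₁, hR₁, b1⟩, b2, b3, b4, -⟩ := s7bump_spec A ρ2 hA h0 h1
  have hR'c : (R' : ℂ) ≠ 0 := by exact_mod_cast hR'.ne'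
  have hnz : ∀ t : ℂ, ‖t / (R' : ℂ)‖ = ‖t‖ / R' := by
    intro t
    rw [norm_div, Complex.norm_real, Real.norm_eq_abs, abs_of_pos hR']
  set g : ℂ → ℂ := fun t => y₀ + s7bump A ρ2 (t / (R' : ℂ)) with hg
  have hgd : DifferentiableOn ℂ g (ball 0 (R' * R₁)) := by
    have h2 : DifferentiableOn ℂ (fun t : ℂ => t / (R' : ℂ)) (ball 0 (R' * R₁)) :=
      (differentiable_id.div_const _).differentiableOn
    have h3 : MapsTo (fun t : ℂ => t / (R' : ℂ)) (ball 0 (R' * R₁)) (ball 0 R₁) := by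
      intro t ht
      rw [mem_ball_zero_iff] at ht ⊢
      rw [hnz, div_lt_iff₀ hR']
      linarith
    exact (b1.comp h2 h3).const_add y₀
  have him : ∀ (t : ℂ) (s : ℝ), (g t - (s : ℂ) * I).im = y₀.im + (s7bump A ρ2 (t / (R' : ℂ))).im - s := by
    intro t s
    simp [hg]
  have hcb : ∀ t ∈ closedBall (0 : ℂ) R', t / (R' : ℂ) ∈ closedBall (0 : ℂ) 1 := by
    intro t ht
    rw [mem_closedBall_zero_iff] at ht ⊢
    rw [hnz, div_le_one hR']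
    exact ht
  have hlow : ∀ t ∈ closedBall (0 : ℂ) R', -(4 * (A / (1 - ρ2))) ≤ (s7bump A ρ2 (t / (R' : ℂ))).im := by
    intro t ht
    have h2 := b4 _ (hcb t ht)
    have h3 := (abs_le.1 ((Complex.abs_im_le_norm _).trans h2)).1
    exact h3
  have hdeep : ∀ t ∈ closedBall (0 : ℂ) R', (g t - (s₀ : ℂ) * I, t) ∈ Sh.s9Rmax := by
    intro t ht
    have h2 := b2 _ (hcb t ht)
    have h3 := hlow t ht
    exact (hall _ t (mem_closedBall_zero_iff.1 ht) (by rw [him]; linarith) (by rw [him]; linarith)).1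
  have hbd2 : ∀ t ∈ sphere (0 : ℂ) R', ∀ s ∈ Icc 0 s₀, (g t - (s : ℂ) * I, t) ∈ Sh.s9Rmax ∧
      ‖Sh.s9Smax (g t - (s : ℂ) * I, t) - (g t - (s : ℂ) * I)‖ ≤ ‖t‖ ^ 2 * bb := by
    intro t ht s hs
    have htn : ‖t‖ = R' := mem_sphere_zero_iff_norm.1 ht
    have htc : t ∈ closedBall (0 : ℂ) R' := sphere_subset_closedBall ht
    have h2 := b2 _ (hcb t htc)
    have h3 := hlow t htc
    have hsp : t / (R' : ℂ) ∈ sphere (0 : ℂ) 1 := by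
      rw [mem_sphere_zero_iff_norm, hnz, htn, div_self hR'.ne']
    have himz : (t / (R' : ℂ)).im = t.im / R' := by
      rw [Complex.div_ofReal_im]
    rcases le_or_gt |(t / (R' : ℂ)).im| ((1 - ρ2) / 2) with hc | hc
    · have h4 := b3 _ hsp hc
      exact hall _ t htn.le (by rw [him]; linarith [hs.2]) (by rw [him]; linarith [hs.1])
    · rw [himz, abs_div, abs_of_pos hR', lt_div_iff₀ hR'] at hc
      exact hstp _ t htn.le (by rw [htn]; exact hc) (by rw [him]; linarith [hs.2])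
        (by rw [him]; linarith [hs.1])
  have hsub : closedBall (0 : ℂ) R' ⊆ ball (0 : ℂ) Sh.ρ := closedBall_subset_ball hρ
  have hRR : R' < R' * R₁ := by
    have := mul_lt_mul_of_pos_left hR₁ hR'
    linarith
  have hk := Sh.s7_konti 0 R' (R' * R₁) hR' hRR hsub g hgd s₀ hs₀ hdeep
    (fun t ht s hs => (hbd2 t ht s hs).1)
  have hz : ∀ t : ℂ, g t - ((0 : ℝ) : ℂ) * I = g t := by
    intro t; simp
  have hin : ∀ t ∈ closedBall (0 : ℂ) R', (g t, t) ∈ Sh.s9Rmax := by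
    intro t ht
    have := hk t ht 0 ⟨le_rfl, hs₀⟩
    rwa [hz] at this
  have hU := Sh.s6_Umax 0 R' (by simpa using hR') hsub g
    (hgd.diffContOnCl_ball (closedBall_subset_ball hRR)) hin bb
    (by
      intro t ht
      have := (hbd2 t ht 0 ⟨le_rfl, hs₀⟩).2
      rwa [hz] at this)
  intro t ht
  exact ⟨hin t (ball_subset_closedBall ht), hU t ht⟩

end Claimed.Agent.R269
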