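/-
Row 269, P1 Section 7, Lemma 7.2 for `H = ∞`: THE INITIALIZER (all parameter directions at the heights between the base slab and the depth `δs ≥ (h - lo)/K₀`).
LEAF PACKAGE LF-S7-di-init (ONE FILE = ONE OWNER).   Statement: helper146.   NO PAPER READING NEEDED (this REPLACES the flat bumps of the paper by a geometric induction on the elevation with an arbitrarily small polynomial loss `κ` in the radius).
Only tool: `Shape.s7di_disc`, `s7bump_inner` (S7/DiDisc.lean, black boxes).  The rest is real arithmetic.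

NOTATION.  `lo` = bottom line, elevation `v = Im y - lo`, depth `δ = h - Im y`.  Base slab: `0 < v < 2b`.
CONSTANTS.  `θ = 8/7`, `q = θ^κ > 1`, `e* = min (1/8) (7/(2K₀))`, `ϵ = min (1/2) (e*/(2 + 4/(q²-1)))`, `E = 4ϵ/(q²-1)`, `e₁ = 2ϵ + E ≤ e*`, `ρ2 = 1 - ϵ`, `γ = ϵ/2 = (1-ρ2)/2`.
`All v₁ := ∀ y t, lo < Im y → Im y < lo + v₁ → δs ≤ h - Im y → ‖t‖ < ρs → ‖t‖ < ρs ((Im y - lo)/b)^(-κ) → (y,t) ∈ Rmax ∧ ‖Smax - y‖ ≤ ‖t‖² Ψ ((h - Im y)/2)`.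
`All (2b)` = `hbase`.   STEP `All v₁ → All (θ v₁)` for `2b ≤ v₁`.   Then `All (2b θ^k)` for all `k`, and every `v` is `< 2b θ^k` for some `k` (`pow_unbounded_of_one_lt`).
STEP.  Target `(yc,tc)`, `u = Im yc`, `v = u - lo`; if `v < v₁` use `All v₁`.  Otherwise `2b ≤ v₁ ≤ v < θ v₁`, `δ = h - u ≥ δs`.   `R = ρs (v/b)^(-κ) > ‖tc‖`, `Rc = (‖tc‖ + R)/2`, `R' = q Rc` (`‖tc‖ < Rc < R' < q R`), `Δ = v/7`, `A = ϵ Δ`
   (so `A/(1-ρ2) = Δ`), `ζc = tc/R'` (`‖ζc‖ < 1/q`, so `‖ζc‖²/(1-‖ζc‖²) ≤ 1/(q²-1)` and `‖bump ζc‖ ≤ E Δ` by `s7bump_inner`), `y₀ = yc - bump ζc` (`|Im y₀ - u| ≤ E Δ`),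
   `s₀ = v/8 + e₁ Δ`, `a = lo + v/4`, `c = lo + 7v/8`, `e = u + e₁ Δ`, `bb = Ψ (δ/2)`.
   `ha`:  `Im y₀ - 4Δ - s₀ ≥ lo + 7v/8 - (4 + E + e₁) v/7 ≥ lo + 7v/8 - (17/4) v/7 ≥ lo + v/4`.      `hc1`: `Im y₀ + 2A - s₀ ≤ u + e₁Δ - v/8 - e₁Δ = lo + 7v/8`.
   `hc2`: `Im y₀ + 2A - Δ ≤ u - (1-e₁) v/7 ≤ u - v/8`.      `he`: clear.
   `q R = ρs (v/(θ b))^(-κ) ≤ ρs` because `v ≥ 2b ≥ θ b`.   So `R' < ρs ≤ Sh.ρ`.
   `hall`: `‖t‖ ≤ R'`, `v' = Im y - lo ∈ [v/4, 7v/8]`:  `v' ≤ v/θ < v₁`;  depth `≥ δ ≥ δs`;  `‖t‖ < ρs`;  `ρs (v'/b)^(-κ) ≥ ρs (v/(θ b))^(-κ) = q R > R'`;  `All v₁`;  `Ψ (depth/2) ≤ Ψ (δ/2)` (antitone).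
   `hstp`: `Im y ≥ a > lo`;  `e₁ Δ ≤ (7/(2K₀)) v/7 = v/(2K₀) ≤ δ/2` because `v ≤ h - lo ≤ K₀ δs ≤ K₀ δ`;  so depth `≥ δ/2 ≥ δs/2`;  `hsteep`;  `Ψ depth ≤ Ψ (δ/2)`.
   `s7di_disc` at `t = tc`:  `y₀ + bump (tc/R') = yc`.
-/
import Claimed.Agent.R269.S7.DiDisc

set_option autoImplicit false

namespace Claimed.Agent.R269

open Complex Filter Topology Set Metric
open scoped ENNReal Real

/-- the constants of the initializer. -/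
theorem s7di_consts (κ K₀ : ℝ) (hκ : 0 < κ) (hK₀ : 1 ≤ K₀) :
    ∃ q ϵ E e₁ : ℝ, q = (8 / 7 : ℝ) ^ κ ∧ 1 < q ∧ 0 < ϵ ∧ ϵ ≤ 1 / 2 ∧ E = 4 * ϵ / (q ^ 2 - 1) ∧ 0 < E ∧
      e₁ = 2 * ϵ + E ∧ e₁ ≤ 1 / 8 ∧ e₁ ≤ 7 / (2 * K₀) := by
  have hq1 : (1 : ℝ) < (8 / 7 : ℝ) ^ κ := Real.one_lt_rpow (by norm_num) hκ
  obtain ⟨q, hq⟩ : ∃ q : ℝ, q = (8 / 7 : ℝ) ^ κ := ⟨_, rfl⟩
  rw [← hq] at hq1
  have hq2 : 0 < q ^ 2 - 1 := by nlinarith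
  have hK0 : 0 < K₀ := by linarith
  obtain ⟨es, hes⟩ : ∃ es : ℝ, es = min (1 / 8) (7 / (2 * K₀)) := ⟨_, rfl⟩
  have hes0 : 0 < es := by rw [hes]; exact lt_min (by norm_num) (by positivity)
  have hD : 0 < 2 + 4 / (q ^ 2 - 1) := by positivity
  obtain ⟨ϵ, hϵ⟩ : ∃ ϵ : ℝ, ϵ = min (1 / 2) (es / (2 + 4 / (q ^ 2 - 1))) := ⟨_, rfl⟩
  have hϵ0 : 0 < ϵ := by rw [hϵ]; exact lt_min (by norm_num) (by positivity)
  have hϵ1 : ϵ ≤ 1 / 2 := by rw [hϵ]; exact min_le_left _ _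
  have hϵ2 : ϵ * (2 + 4 / (q ^ 2 - 1)) ≤ es := by
    have : ϵ ≤ es / (2 + 4 / (q ^ 2 - 1)) := by rw [hϵ]; exact min_le_right _ _
    rwa [le_div_iff₀ hD] at this
  have he : 2 * ϵ + 4 * ϵ / (q ^ 2 - 1) = ϵ * (2 + 4 / (q ^ 2 - 1)) := by ring
  refine ⟨q, ϵ, 4 * ϵ / (q ^ 2 - 1), 2 * ϵ + 4 * ϵ / (q ^ 2 - 1), hq, hq1, hϵ0, hϵ1, rfl, by positivity,
    rfl, ?_, ?_⟩
  · rw [he]; exact hϵ2.trans (by rw [hes]; exact min_le_left _ _)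
  · rw [he]; exact hϵ2.trans (by rw [hes]; exact min_le_right _ _)

/-- the bound of the bending function at the target parameter. -/
theorem s7di_bump_le (q ϵ E v : ℝ) (hq1 : 1 < q) (hϵ : 0 < ϵ) (hϵ' : ϵ ≤ 1 / 2)
    (hE : E = 4 * ϵ / (q ^ 2 - 1)) (hv : 0 < v) (ζ : ℂ) (hζ : ‖ζ‖ * q < 1) :
    ‖s7bump (ϵ * (v / 7)) (1 - ϵ) ζ‖ ≤ E * (v / 7) := by
  have hn := norm_nonneg ζ
  have hζ1 : ‖ζ‖ < 1 := by nlinarith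
  have hb := s7bump_inner (ϵ * (v / 7)) (1 - ϵ) (by positivity) (by linarith) (by linarith) ζ hζ1
  refine hb.trans ?_
  obtain ⟨x, hx⟩ : ∃ x : ℝ, x = ‖ζ‖ ^ 2 := ⟨_, rfl⟩
  rw [← hx]
  have hx0 : 0 ≤ x := by rw [hx]; positivity
  have hxq : x * q ^ 2 ≤ 1 := by
    have : x * q ^ 2 = (‖ζ‖ * q) ^ 2 := by rw [hx]; ring
    rw [this]
    exact pow_le_one₀ (by positivity) hζ.le
  have hx1 : x < 1 := by rw [hx]; exact pow_lt_one₀ hn hζ1 two_ne_zero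
  have hq2 : 0 < q ^ 2 - 1 := by nlinarith
  rw [hE, div_le_iff₀ (by linarith : 0 < 1 - x)]
  have h1 : x ≤ (1 - x) / (q ^ 2 - 1) := by
    rw [le_div_iff₀ hq2]; nlinarith
  calc 4 * (ϵ * (v / 7)) * x ≤ 4 * (ϵ * (v / 7)) * ((1 - x) / (q ^ 2 - 1)) :=
        mul_le_mul_of_nonneg_left h1 (by positivity)
    _ = 4 * ϵ / (q ^ 2 - 1) * (v / 7) * (1 - x) := by ring

/-- the radii of the step. -/
theorem s7di_radii (κ q b v ρs T : ℝ) (hκ : 0 < κ) (hq : q = (8 / 7 : ℝ) ^ κ) (hq1 : 1 < q) (hb : 0 < b)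
    (hv : 2 * b ≤ v) (hρs : 0 < ρs) (hT0 : 0 ≤ T) (hT : T < ρs * (v / b) ^ (-κ)) :
    ∃ R' : ℝ, 0 < R' ∧ T / R' * q < 1 ∧ T < R' ∧ R' < ρs ∧
      ∀ v' : ℝ, 0 < v' → v' ≤ 7 * v / 8 → R' < ρs * (v' / b) ^ (-κ) := by
  have hv0 : 0 < v := by linarith
  obtain ⟨R, hR⟩ : ∃ R : ℝ, R = ρs * (v / b) ^ (-κ) := ⟨_, rfl⟩
  rw [← hR] at hT
  have hR0 : 0 < R := lt_of_le_of_lt hT0 hT
  obtain ⟨W, hW⟩ : ∃ W : ℝ, W = 7 / 8 * (v / b) := ⟨_, rfl⟩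
  have hW1 : 1 ≤ W := by
    rw [hW, ← mul_div_assoc, le_div_iff₀ hb]; linarith
  have hqR : q * R = ρs * W ^ (-κ) := by
    rw [hR, hW, Real.mul_rpow (by norm_num) (by positivity), hq]
    have : (7 / 8 : ℝ) ^ (-κ) = (8 / 7 : ℝ) ^ κ := by
      rw [Real.rpow_neg (by norm_num), ← Real.inv_rpow (by norm_num)]; norm_num
    rw [this]; ring
  have hqRρ : q * R ≤ ρs := by
    rw [hqR]
    exact mul_le_of_le_one_right hρs.le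
      (Real.rpow_le_one_of_one_le_of_nonpos hW1 (by linarith : -κ ≤ 0))
  have hRc1 : T < (T + R) / 2 := by linarith
  have hRc2 : (T + R) / 2 < R := by linarith
  have hRc0 : 0 < (T + R) / 2 := lt_of_le_of_lt hT0 hRc1
  have hq0 : 0 < q := by linarith
  have h2 : q * ((T + R) / 2) < q * R := mul_lt_mul_of_pos_left hRc2 hq0
  have h3 : (T + R) / 2 < q * ((T + R) / 2) := by nlinarith
  refine ⟨q * ((T + R) / 2), by positivity, ?_, by linarith, by linarith, ?_⟩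
  · rw [div_mul_eq_mul_div, div_lt_one (by positivity), mul_comm]
    exact mul_lt_mul_of_pos_left hRc1 hq0
  · intro v' hv' hv'2
    have h4 : W ^ (-κ) ≤ (v' / b) ^ (-κ) := by
      apply Real.rpow_le_rpow_of_nonpos (by positivity) _ (by linarith)
      rw [hW, div_le_iff₀ hb]
      have : 7 / 8 * (v / b) * b = 7 * v / 8 := by field_simp
      rw [this]; exact hv'2
    have h5 := mul_le_mul_of_nonneg_left h4 hρs.le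
    linarith

/-- the step of the geometric induction. -/
theorem s7di_step (κ K₀ q ϵ E e₁ : ℝ) (hκ : 0 < κ) (hK₀ : 1 ≤ K₀) (hq : q = (8 / 7 : ℝ) ^ κ) (hq1 : 1 < q)
    (hϵ : 0 < ϵ) (hϵ' : ϵ ≤ 1 / 2) (hE : E = 4 * ϵ / (q ^ 2 - 1)) (hE0 : 0 < E) (he₁ : e₁ = 2 * ϵ + E)
    (he8 : e₁ ≤ 1 / 8) (heK : e₁ ≤ 7 / (2 * K₀))
    (Sh : Shape) (lo b h δs ρs : ℝ) (Ψ : ℝ → ℝ) (hb : 0 < b) (hδs : 0 < δs) (hK : h - lo ≤ K₀ * δs)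
    (hρs : 0 < ρs) (hρ : ρs ≤ Sh.ρ) (hΨ : AntitoneOn Ψ (Ioi 0))
    (hsteep : ∀ y t : ℂ, lo < y.im → δs / 2 ≤ h - y.im → ϵ / 2 * ‖t‖ < |t.im| → ‖t‖ < ρs →
      (y, t) ∈ Sh.s9Rmax ∧ ‖Sh.s9Smax (y, t) - y‖ ≤ ‖t‖ ^ 2 * Ψ (h - y.im))
    (v₁ : ℝ) (hv₁ : 2 * b ≤ v₁)
    (hAll : ∀ y t : ℂ, lo < y.im → y.im < lo + v₁ → δs ≤ h - y.im → ‖t‖ < ρs →
      ‖t‖ < ρs * ((y.im - lo) / b) ^ (-κ) →
      (y, t) ∈ Sh.s9Rmax ∧ ‖Sh.s9Smax (y, t) - y‖ ≤ ‖t‖ ^ 2 * Ψ ((h - y.im) / 2)) :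
    ∀ y t : ℂ, lo < y.im → y.im < lo + 8 / 7 * v₁ → δs ≤ h - y.im → ‖t‖ < ρs →
      ‖t‖ < ρs * ((y.im - lo) / b) ^ (-κ) →
      (y, t) ∈ Sh.s9Rmax ∧ ‖Sh.s9Smax (y, t) - y‖ ≤ ‖t‖ ^ 2 * Ψ ((h - y.im) / 2) := by
  intro yc tc h1 h2 h3 h4 h5
  rcases lt_or_ge yc.im (lo + v₁) with hlt | hge
  · exact hAll yc tc h1 hlt h3 h4 h5
  obtain ⟨v, hv⟩ : ∃ v : ℝ, v = yc.im - lo := ⟨_, rfl⟩
  obtain ⟨δ, hδ⟩ : ∃ δ : ℝ, δ = h - yc.im := ⟨_, rfl⟩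
  have hvv₁ : v₁ ≤ v := by linarith
  have hv2 : v < 8 / 7 * v₁ := by linarith
  have hv2b : 2 * b ≤ v := by linarith
  have hv0 : 0 < v := by linarith
  have hδδ : δs ≤ δ := by linarith
  have hδ0 : 0 < δ := by linarith
  have hK0 : 0 < K₀ := by linarith
  rw [← hv] at h5
  rw [← hδ]
  obtain ⟨R', hR'0, hζq, hTR', hR'ρ, hR'v⟩ :=
    s7di_radii κ q b v ρs ‖tc‖ hκ hq hq1 hb hv2b hρs (norm_nonneg _) h5
  have hζn : ‖tc / (R' : ℂ)‖ = ‖tc‖ / R' := by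
    rw [norm_div, Complex.norm_real, Real.norm_eq_abs, abs_of_pos hR'0]
  have hbE := s7di_bump_le q ϵ E v hq1 hϵ hϵ' hE hv0 (tc / (R' : ℂ)) (by rw [hζn]; exact hζq)
  obtain ⟨β, hβ⟩ : ∃ β : ℂ, β = s7bump (ϵ * (v / 7)) (1 - ϵ) (tc / (R' : ℂ)) := ⟨_, rfl⟩
  rw [← hβ] at hbE
  have hβim := abs_le.1 ((Complex.abs_im_le_norm β).trans hbE)
  have hdip : ϵ * (v / 7) / (1 - (1 - ϵ)) = v / 7 := by
    rw [sub_sub_cancel, mul_div_cancel_left₀ _ hϵ.ne']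
  have hy0 : (yc - β).im = yc.im - β.im := Complex.sub_im _ _
  -- `e₁ Δ ≤ δ/2`
  have heΔ : e₁ * (v / 7) ≤ δ / 2 := by
    have a1 : e₁ * (v / 7) ≤ 7 / (2 * K₀) * (v / 7) := mul_le_mul_of_nonneg_right heK (by positivity)
    have a2 : 7 / (2 * K₀) * (v / 7) = v / (2 * K₀) := by field_simp
    have a3 : v ≤ K₀ * δ := by
      have : K₀ * δs ≤ K₀ * δ := mul_le_mul_of_nonneg_left hδδ hK0.le
      linarith
    have a4 : v / (2 * K₀) ≤ δ / 2 := by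
      rw [div_le_div_iff₀ (by positivity) (by norm_num)]
      nlinarith
    linarith
  have he₁0 : 0 < e₁ := by rw [he₁]; positivity
  have hEe : E ≤ e₁ := by rw [he₁]; linarith
  have hEv : E * (v / 7) ≤ 1 / 8 * (v / 7) := mul_le_mul_of_nonneg_right (hEe.trans he8) (by positivity)
  have hev : e₁ * (v / 7) ≤ 1 / 8 * (v / 7) := mul_le_mul_of_nonneg_right he8 (by positivity)
  have hesum : e₁ * (v / 7) = 2 * (ϵ * (v / 7)) + E * (v / 7) := by rw [he₁]; ring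
  have hmain := Sh.s7di_disc (ϵ * (v / 7)) (1 - ϵ) R' (by positivity) (by linarith) (by linarith) hR'0
    (by linarith) (yc - β) (v / 8 + e₁ * (v / 7)) (lo + v / 4) (lo + 7 * v / 8)
    (yc.im + e₁ * (v / 7)) (Ψ (δ / 2)) (by positivity)
    (by rw [hdip, hy0]; linarith [hβim.2])
    (by rw [hy0]; linarith [hβim.1])
    (by rw [hdip, hy0]; linarith [hβim.1])
    (by rw [hy0]; linarith [hβim.1])
    (by
      intro y t ht ya yc'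
      have hv' : 0 < y.im - lo := by linarith
      obtain ⟨m1, m2⟩ := hAll y t (by linarith) (by linarith) (by linarith) (by linarith)
        (lt_of_le_of_lt ht (hR'v _ hv' (by linarith)))
      refine ⟨m1, m2.trans ?_⟩
      apply mul_le_mul_of_nonneg_left _ (by positivity)
      exact hΨ (mem_Ioi.2 (by positivity)) (mem_Ioi.2 (by linarith)) (by linarith))
    (by
      intro y t ht hst ya ye
      rw [sub_sub_cancel] at hst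
      obtain ⟨m1, m2⟩ := hsteep y t (by linarith) (by linarith) hst (by linarith)
      refine ⟨m1, m2.trans ?_⟩
      apply mul_le_mul_of_nonneg_left _ (by positivity)
      exact hΨ (mem_Ioi.2 (by positivity)) (mem_Ioi.2 (by linarith)) (by linarith))
    tc (by rw [mem_ball_zero_iff]; exact hTR')
  rw [← hβ, sub_add_cancel] at hmain
  exact hmain

/-- LEAF LF-S7-di-init: **the initializer**.  `γ` = steep cutoff (depends only on the loss exponent `κ` and on the ratio `K₀`). -/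
theorem s7di_init (κ K₀ : ℝ) (hκ : 0 < κ) (hK₀ : 1 ≤ K₀) :
    ∃ γ : ℝ, 0 < γ ∧ γ ≤ 1 ∧
      ∀ (Sh : Shape) (lo b h δs ρs : ℝ) (Ψ : ℝ → ℝ), 0 < b → 0 < δs → h - lo ≤ K₀ * δs → 0 < ρs →
        ρs ≤ Sh.ρ → AntitoneOn Ψ (Ioi 0) →
        (∀ y t : ℂ, lo < y.im → y.im < lo + 2 * b → δs ≤ h - y.im → ‖t‖ < ρs →
          (y, t) ∈ Sh.s9Rmax ∧ ‖Sh.s9Smax (y, t) - y‖ ≤ ‖t‖ ^ 2 * Ψ ((h - y.im) / 2)) →
        (∀ y t : ℂ, lo < y.im → δs / 2 ≤ h - y.im → γ * ‖t‖ < |t.im| → ‖t‖ < ρs →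
          (y, t) ∈ Sh.s9Rmax ∧ ‖Sh.s9Smax (y, t) - y‖ ≤ ‖t‖ ^ 2 * Ψ (h - y.im)) →
        ∀ y t : ℂ, lo < y.im → δs ≤ h - y.im → ‖t‖ < ρs → ‖t‖ < ρs * ((y.im - lo) / b) ^ (-κ) →
          (y, t) ∈ Sh.s9Rmax ∧ ‖Sh.s9Smax (y, t) - y‖ ≤ ‖t‖ ^ 2 * Ψ ((h - y.im) / 2) := by
  obtain ⟨q, ϵ, E, e₁, hq, hq1, hϵ, hϵ', hE, hE0, he₁, he8, heK⟩ := s7di_consts κ K₀ hκ hK₀
  refine ⟨ϵ / 2, by positivity, by linarith, ?_⟩
  intro Sh lo b h δs ρs Ψ hb hδs hK hρs hρ hΨ hbase hsteep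
  have hind : ∀ k : ℕ, ∀ y t : ℂ, lo < y.im → y.im < lo + 2 * b * (8 / 7 : ℝ) ^ k → δs ≤ h - y.im →
      ‖t‖ < ρs → ‖t‖ < ρs * ((y.im - lo) / b) ^ (-κ) →
      (y, t) ∈ Sh.s9Rmax ∧ ‖Sh.s9Smax (y, t) - y‖ ≤ ‖t‖ ^ 2 * Ψ ((h - y.im) / 2) := by
    intro k
    induction k with
    | zero =>
      intro y t a1 a2 a3 a4 _
      exact hbase y t a1 (by simpa using a2) a3 a4
    | succ k ih =>
      have hge : 2 * b ≤ 2 * b * (8 / 7 : ℝ) ^ k :=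
        le_mul_of_one_le_right (by positivity) (one_le_pow₀ (by norm_num))
      have := s7di_step κ K₀ q ϵ E e₁ hκ hK₀ hq hq1 hϵ hϵ' hE hE0 he₁ he8 heK Sh lo b h δs ρs Ψ hb hδs hK
        hρs hρ hΨ hsteep (2 * b * (8 / 7 : ℝ) ^ k) hge ih
      intro y t a1 a2 a3 a4 a5
      exact this y t a1 (by rw [pow_succ] at a2; linarith) a3 a4 a5
  intro y t a1 a3 a4 a5
  obtain ⟨k, hk⟩ := pow_unbounded_of_one_lt ((y.im - lo) / (2 * b)) (by norm_num : (1 : ℝ) < 8 / 7)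
  rw [div_lt_iff₀ (by positivity)] at hk
  exact hind k y t a1 (by linarith) a3 a4 a5

end Claimed.Agent.R269
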