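/-
Row 269, P1 Section 7, Lemma 7.2 for `H = ∞`: THE LIFT ON A COMPACT SUBSTRIP (no assumption on `H`).   LEAF PACKAGE LF-S7-di-slab (ONE FILE = ONE OWNER).   Statement: helper146.   NO PAPER READING NEEDED.
This is `Shape.s6_slab_data` (S6/Cone.lean, proved by helper159 for `H ≠ ⊤` with Borel-Caratheodory) with the bound `|Im (lift - y)| < 2 Hr` replaced by COMPACTNESS + PERIODICITY.  COPY THAT PROOF; only two things change:
 (1) tube (copy of `Shape.s6sl_tube`):  `ofReal (b + η) < hX 0 = Hs = H` (`Sh.H`, `Sh.G.Hs`, `Sh.G.hX 0` are defeq), `lsc_X` at `0`: `∃ ρ' ≤ ρ`, `(y,t) ∈ T` for `|Im y| ≤ b + η`, `‖t‖ < ρ'`.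
 (2) `∃ Mi > 0`, `‖lift (y,t) - y‖ ≤ Mi` for `|Im y| ≤ b + η`, `‖t‖ ≤ ρ'/2`:   `K = ([0,2π] ×ℂ [-(b+η), b+η]) ×ˢ closedBall 0 (ρ'/2)` is compact, `⊆ T`, `z ↦ lift z - z.1` is continuous on `T` (`lift_diff`, `s9k_T_open`):
     `IsCompact.exists_bound_of_continuousOn`.   Periodicity: `lift (y + 2π, t) - (y + 2π) = lift (y,t) - y` on `T` (`lift_per`; `T` is invariant under real translations of `y`), hence the same for `y + 2π n`, `n : ℤ`
     (induction on `n : ℕ` in both directions), and `n = -⌊Re y/(2π)⌋` moves `Re y` into `[0,2π)`.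
 Then `s6sl_even_quad` with `R = ρ'/2` (`(F t).im ≤ ‖F t‖ ≤ Mi`), `A₀ = 8 Mi/(ρ'/2)²`, valid for `‖t‖ ≤ ρ'/4`, `|Im y| ≤ b + η`;  `ρ₁ = ρ'/4`;  the step by Cauchy's estimate on the balls of radius `η` and the mean value inequality: `A₁ = A₀/η`.
PROVED by helper255 (SORRY-FREE).  Helpers: `Shape.s7ds_tube`, `Shape.s7ds_bound`.
-/
import Claimed.Agent.R269.S6.Cone

set_option autoImplicit false

namespace Claimed.Agent.R269

open Complex Filter Topology Set Metric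
open scoped ENNReal Real

/-- a uniform parameter disc over the compact substrip `|Im y| ≤ c` (copy of `Shape.s6sl_tube`). -/
theorem Shape.s7ds_tube (Sh : Shape) (c : ℝ) (hc : ENNReal.ofReal c < Sh.H) :
    ∃ ρ' : ℝ, 0 < ρ' ∧ ρ' ≤ Sh.ρ ∧ ∀ y t : ℂ, |y.im| ≤ c → ‖t‖ < ρ' → (y, t) ∈ Sh.T := by
  have hlt : ENNReal.ofReal c < Sh.G.hX 0 := hc
  have h0 : (0 : ℂ) ∈ ball (0 : ℂ) Sh.ρ := mem_ball_self Sh.ρ_pos
  have hev := Sh.lsc_X 0 h0 _ hlt
  rw [isOpen_ball.nhdsWithin_eq h0, Metric.eventually_nhds_iff_ball] at hev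
  obtain ⟨ε, hε, hball⟩ := hev
  refine ⟨min ε Sh.ρ, lt_min hε Sh.ρ_pos, min_le_right _ _, ?_⟩
  intro y t hy ht
  have hy' := abs_le.1 hy
  have ht1 : ‖t‖ < ε := lt_of_lt_of_le ht (min_le_left _ _)
  have ht2 : ‖t‖ < Sh.ρ := lt_of_lt_of_le ht (min_le_right _ _)
  refine ⟨by simpa using ht2, ?_, ?_⟩
  · refine lt_of_le_of_lt (ENNReal.ofReal_le_ofReal ?_) (hball t (by simpa using ht1))
    exact hy'.2
  · refine lt_of_le_of_lt (ENNReal.ofReal_le_ofReal ?_)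
      (hball ((starRingEnd ℂ) t) (by simpa using ht1))
    show -y.im ≤ _
    linarith [hy'.1]

/-- compactness + periodicity: `lift (y,t) - y` is bounded on a substrip times a closed disc inside the tube. -/
theorem Shape.s7ds_bound (Sh : Shape) (c r : ℝ)
    (hT : ∀ y t : ℂ, |y.im| ≤ c → ‖t‖ ≤ r → (y, t) ∈ Sh.T) :
    ∃ Mi : ℝ, 0 < Mi ∧ ∀ y t : ℂ, |y.im| ≤ c → ‖t‖ ≤ r → ‖Sh.lift (y, t) - y‖ ≤ Mi := by
  set K : Set (ℂ × ℂ) := (Set.Icc (0 : ℝ) (2 * π) ×ℂ Set.Icc (-c) c) ×ˢ closedBall (0 : ℂ) r with hK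
  have hKc : IsCompact K := (isCompact_Icc.reProdIm isCompact_Icc).prod (isCompact_closedBall 0 r)
  have hKT : K ⊆ Sh.T := by
    rintro ⟨y, t⟩ ⟨hy, ht⟩
    have hy2 : y.im ∈ Set.Icc (-c) c := hy.2
    exact hT y t (abs_le.2 hy2) (by simpa using ht)
  have hcont : ContinuousOn (fun z : ℂ × ℂ => Sh.lift z - z.1) K :=
    (Sh.lift_diff.continuousOn.mono hKT).sub continuous_fst.continuousOn
  obtain ⟨C, hC⟩ := hKc.exists_bound_of_continuousOn hcont
  refine ⟨max C 1, lt_of_lt_of_le one_pos (le_max_right _ _), ?_⟩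
  intro y t hy ht
  set g : ℝ → ℂ := fun x => Sh.lift ((x : ℂ) + y.im * I, t) - ((x : ℂ) + y.im * I) with hg
  have him : ∀ x : ℝ, ((x : ℂ) + y.im * I).im = y.im := by intro x; simp
  have hper : Function.Periodic g (2 * π) := by
    intro x
    have hm : (((x : ℂ) + y.im * I, t) : ℂ × ℂ) ∈ Sh.T := hT _ t (by rw [him]; exact hy) ht
    have h1 := Sh.lift_per _ hm
    simp only at h1
    have e : (((x + 2 * π : ℝ) : ℂ)) + y.im * I = (x : ℂ) + y.im * I + 2 * π := by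
      push_cast; ring
    simp only [hg]
    rw [e, h1]
    ring
  obtain ⟨x', hx', hgx⟩ := hper.exists_mem_Ico₀ (by positivity) y.re
  have hy0 : g y.re = Sh.lift (y, t) - y := by
    simp only [hg]
    rw [Complex.re_add_im]
  rw [← hy0, hgx]
  have hmem : (((x' : ℂ) + y.im * I, t) : ℂ × ℂ) ∈ K := by
    refine ⟨⟨?_, ?_⟩, by simpa using ht⟩
    · show ((x' : ℂ) + y.im * I).re ∈ Set.Icc (0 : ℝ) (2 * π)
      have : ((x' : ℂ) + y.im * I).re = x' := by simp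
      rw [this]
      exact ⟨hx'.1, hx'.2.le⟩
    · show ((x' : ℂ) + y.im * I).im ∈ Set.Icc (-c) c
      rw [him]
      exact abs_le.1 hy
  exact (hC _ hmem).trans (le_max_left _ _)

/-- LEAF LF-S7-di-slab: the lift on the substrip `|Im y| ≤ b`, small parameters (`H` finite or infinite). -/
theorem Shape.s7di_slab (Sh : Shape) (b η : ℝ) (hb : 0 ≤ b) (hη : 0 < η)
    (hbH : ENNReal.ofReal (b + η) < Sh.H) :
    ∃ ρ₁ A₀ A₁ : ℝ, 0 < ρ₁ ∧ ρ₁ ≤ Sh.ρ ∧ 0 ≤ A₀ ∧ 0 ≤ A₁ ∧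
      ∀ y t : ℂ, |y.im| ≤ b → ‖t‖ < ρ₁ →
        (y, t) ∈ Sh.T ∧ ‖Sh.lift (y, t) - y‖ ≤ A₀ * ‖t‖ ^ 2 ∧
          (|(y - t).im| ≤ b → ‖Sh.lift (y, t) - Sh.lift (y - t, t) - t‖ ≤ A₁ * ‖t‖ ^ 3) := by
  obtain ⟨ρ', hρ', hρ'ρ, hT⟩ := Sh.s7ds_tube (b + η) hbH
  obtain ⟨Mi, hMi, hbd⟩ := Sh.s7ds_bound (b + η) (ρ' / 2)
    (fun y t hy ht => hT y t hy (by linarith))
  have hlat : ∀ z ∈ Sh.T, DifferentiableAt ℂ Sh.lift z := fun z hz =>
    (Sh.lift_diff z hz).differentiableAt (Sh.s9k_T_open.mem_nhds hz)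
  set A₀ : ℝ := 8 * Mi / (ρ' / 2) ^ 2 with hA₀
  have hA₀0 : 0 ≤ A₀ := by positivity
  -- the quadratic bound on the larger substrip
  have hquad : ∀ y t : ℂ, |y.im| ≤ b + η → ‖t‖ ≤ ρ' / 4 →
      ‖Sh.lift (y, t) - y‖ ≤ A₀ * ‖t‖ ^ 2 := by
    intro y t hy ht
    have hyD : y ∈ Sh.D := lt_of_le_of_lt (ENNReal.ofReal_le_ofReal hy) hbH
    have hmem : ∀ t ∈ ball (0 : ℂ) (ρ' / 2), (y, t) ∈ Sh.T := fun t ht =>
      hT y t hy (by have : ‖t‖ < ρ' / 2 := by simpa using ht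
                    linarith)
    apply s6sl_even_quad (F := fun t => Sh.lift (y, t) - y) (by positivity : 0 < ρ' / 2) hMi
    · intro t ht
      have h1 : DifferentiableAt ℂ (fun t : ℂ => Sh.lift (y, t)) t :=
        (hlat _ (hmem t ht)).comp t (by fun_prop)
      exact (h1.sub_const y).differentiableWithinAt
    · simp only [Sh.lift_zero y hyD, sub_self]
    · intro t ht
      rw [Sh.lift_even (y, t) (hmem t ht)]
    · intro t ht
      have ht' : ‖t‖ < ρ' / 2 := by simpa using ht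
      exact (Complex.im_le_norm _).trans (hbd y t hy ht'.le)
    · rw [mem_closedBall_zero_iff]; linarith
  refine ⟨ρ' / 4, A₀, A₀ / η, by positivity, by linarith, hA₀0, by positivity, ?_⟩
  intro y t hy ht
  refine ⟨hT y t (by linarith) (by linarith), hquad y t (by linarith) ht.le, ?_⟩
  intro hyt
  -- the step
  set L : ℂ → ℂ := fun y' => Sh.lift (y', t) - y' with hL
  have hLat : ∀ y' : ℂ, |y'.im| ≤ b + η → DifferentiableAt ℂ L y' := by
    intro y' hy'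
    have h1 : DifferentiableAt ℂ (fun y' : ℂ => Sh.lift (y', t)) y' :=
      (hlat _ (hT y' t hy' (by linarith))).comp y' (by fun_prop)
    exact h1.sub differentiableAt_id
  have hconv : Convex ℝ {y' : ℂ | |y'.im| ≤ b} := by
    have : {y' : ℂ | |y'.im| ≤ b} = Complex.imLm ⁻¹' (Set.Icc (-b) b) := by
      ext z; simp [abs_le]
    rw [this]
    exact (convex_Icc _ _).linear_preimage _
  have hder : ∀ y' ∈ {y' : ℂ | |y'.im| ≤ b}, ‖deriv L y'‖ ≤ A₀ * ‖t‖ ^ 2 / η := by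
    intro y' hy'
    have hy'' : |y'.im| ≤ b := hy'
    have hin : ∀ z ∈ closedBall y' η, |z.im| ≤ b + η := by
      intro z hz
      rw [mem_closedBall, dist_eq_norm] at hz
      have h1 := (Complex.abs_im_le_norm (z - y')).trans hz
      rw [Complex.sub_im] at h1
      have h2 := abs_le.1 h1
      have h3 := abs_le.1 hy''
      rw [abs_le]
      constructor <;> linarith [h2.1, h2.2, h3.1, h3.2]
    apply Complex.norm_deriv_le_of_forall_mem_sphere_norm_le hη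
    · apply DifferentiableOn.diffContOnCl
      rw [closure_ball y' hη.ne']
      exact fun z hz => (hLat z (hin z hz)).differentiableWithinAt
    · intro z hz
      exact hquad z t (hin z (sphere_subset_closedBall hz)) ht.le
  have hmv := hconv.norm_image_sub_le_of_norm_deriv_le (f := L)
    (fun y' hy' => hLat y' (by have : |y'.im| ≤ b := hy'; linarith)) hder
    (show y - t ∈ _ from hyt) (show y ∈ _ from hy)
  have e1 : L y - L (y - t) = Sh.lift (y, t) - Sh.lift (y - t, t) - t := by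
    simp only [hL]; ring
  have e2 : y - (y - t) = t := by ring
  rw [e1, e2] at hmv
  refine hmv.trans (le_of_eq ?_)
  field_simp

end Claimed.Agent.R269
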