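/-
Row 269, P1 Section 7, Lemma 7.2 for `H = ∞`: THE CONE PASSAGE FOR AN ENTIRE SHAPE (physical variables, one fixed reference height `h`).   LEAF PACKAGE LF-S7-di-cone (GLUE; ONE FILE = ONE OWNER).   Statement: helper146.
NO PAPER READING NEEDED.   MODEL OF THE PROOF: `Shape.s6_cone2` (S6/Cone.lean, proved): same structure, same arithmetic lemmas `s6c_*`.
Black boxes: `s6_steep` (S6/Steep.lean), `s7di_fill` (S7/DiFill.lean), `s7di_init` (S7/DiInit.lean), `Shape.s7di_slab` (S7/DiSlab.lean), `Shape.sb_M_conj` (ShapeBasic.lean), `s9k_max_spec s9k_tube` (`Smax = lift` on `T ⊆ Rmax`).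

`α` = region exponent, `α₁ ≥ α` = field exponent, `κ` = loss exponent of the initializer.  Depth `x = h - Im y`.  The field bound is GLOBAL in `Re s`, so in every black box take `x₀ = Re (target)`; all aperture conditions are then trivial (`|Re y - x₀| = 0 < L x`).
CONSTANTS.  `(γf,C₀,D₀,m₁)` from `s7di_fill α`;  `K₀ = C₀ + D₀ + 3`;  `γi` from `s7di_init κ K₀`;  `γ = min γf γi`;  `(ε₁,c₀,Cs)` from `s6_steep α₁ γ 20`;  `(ρ₁,A₀,A₁)` from `s7di_slab 1 1` (`ofReal 2 < ⊤ = H`);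
   `L' = max (2 (m₁ + C₀) + 1) (1/γ)`;   `A = A₀ + A₁/γ`;   `c₁ = min ρ₁ (min (2/3) (min (c₀/(20 A + 1)) (c₀/(A₁ + 1))))` (and `c₁ ≤ 1` since `2/3 < 1`);   `B = 4^α₁ B₁`;   `C = Cs 16^α₁ 2^(2α₁-1)`;
   `c = min (c₁/20) (min (ε₁/(20·4^α₁·2^(α₁-α))) (min (ε₁/(2 (8K₀)^α₁)) (1/K₀)))`  (anything smaller is fine);   `N = max 15 (2 K₀)`.
GIVEN `B₁ d r h`:  `ρ₀ = c₁/(h+1)`, `σ = h - 1`, `τ = 2`, `hi = 3/2 (h+1)`, `lo = d/2`, `δt = h + 1`, `δs = (h+1)/K₀`, `ρs = r ((h+1)/d)^α (h+1)^κ`,  `An = A₀ + A₁ (h+1)/γ ≤ A (h+1)`,  `Ψ x = An + Cs B² x^(1-2α₁)` (antitone on `Ioi 0`, `≥ A₀`).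
 (1) STEEP.  Hypotheses of `s6_steep` (for every `x₀`):  all `s ∈ D` (`H = ⊤`);  `d/2 ≤ h - 1`;  `3 ρ₀ ≤ 2`;  `(A₀ + A₁ (h+1)/γ) ρ₀ 20 ≤ A c₁ 20 ≤ c₀`;  `A₁ ρ₀² ≤ A₁ c₁ ≤ c₀`;
      `S6Field h x₀ (2L'+1) (d/4) hi B α₁`:  if `0 ≤ Im s` this is `hfield` (`B₁ ≤ B`).  If `Im s < 0`:  `s' = conj s`, `M s = M s'`, `x' = h + Im s = 2h - x ≥ (h-3)/2 ≥ d/4`, `x ≤ 3(h+1)/2 ≤ 4 x'` (`h ≥ 15`), so `x'^(-α₁) ≤ 4^α₁ x^(-α₁)`.
      `S6Slab h x₀ L' (h-1) 2 ρ₀ A₀ A₁`:  depth in `[h-1,h+1]` ⇔ `|Im y| ≤ 1`;  `s7di_slab`.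
      CONCLUSION `ST`:  `d/2 < x ≤ h+1`, `γ‖t‖ < |Im t|`, `‖t‖ < ρ₀`, `‖t‖ < 20 x`, `‖t‖ B x^(-α₁) < ε₁`  ⇒  `(y,t) ∈ Rmax`, `‖Smax - y‖ ≤ ‖t‖² Ψ x`.
 (2) INITIALIZER `s7di_init` with `lo = -1`, `b = 1`, `h`, `δs`, `ρs`, `Ψ`:   `ρs ≤ ρs (h+1) = (H2-lhs) ≤ c ≤ ρ₁ ≤ Sh.ρ`.   base: `|Im y| < 1`, `‖t‖ < ρs ≤ ρ₁`: slab, `A₀ ≤ Ψ`.
      steep: `x ≥ δs/2`, `x < h + 1`, `‖t‖ < ρs`:   `ρs ≤ c/(h+1) ≤ ρ₀`;   `ρs ≤ c ≤ 1/K₀ ≤ 20 δs/2`;   `ρs B x^(-α₁) ≤ ρs 4^α₁ B₁ (2K₀)^α₁ (h+1)^(-α₁) = (8K₀)^α₁ (H3-lhs) ≤ (8K₀)^α₁ c < ε₁`;   `d/2 < δs/2` from `N d ≤ h`.   `ST`.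
 (3) FILL `s7di_fill` with `m = m₁`, `x₀ = Re y`, `r d δs δt Ψ`:   `d ≤ δs` (`N d ≤ h`, `N ≥ K₀`);   `10 r (δt/d)^α ≤ 10 c < Sh.ρ`;
      steep hypothesis, `d/2 < x < h+1`, `‖t‖ < 10 r (x/d)^α`:   `10 r (x/d)^α ≤ 10 r ((h+1)/d)^α ≤ 10 c/(h+1) ≤ ρ₀`;   `(x/d)^α ≤ 2x/d` (`s6c_rpow_le_two_mul`), `r ≤ d`: `‖t‖ < 20 x`;
          `‖t‖ B x^(-α₁) < 10 (r B d^(-α₁)) (x/d)^(α-α₁) ≤ 10·4^α₁ c 2^(α₁-α) < ε₁` (`s6c_field_id`, `s6c_rpow_nonpos`).   `ST`.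
      base hypothesis, `δs ≤ x < h+1`, `‖t‖ < r (x/d)^α ≤ r ((h+1)/d)^α = ρs (h+1)^(-κ) ≤ ρs (Im y + 1)^(-κ)` (`0 < Im y + 1 ≤ h + 1`), `≤ ρs`:   (2).
      CONCLUSION: bound `Ψ (x/2) = An + Cs B² 2^(2α₁-1) x^(1-2α₁)` (`s6c_half_rpow`), `B² = 16^α₁ B₁²`.
-/
import Claimed.Agent.R269.S7.DiSlab
import Claimed.Agent.R269.S7.DiFill
import Claimed.Agent.R269.S7.DiInit
import Claimed.Agent.R269.ShapeBasic

set_option autoImplicit false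

namespace Claimed.Agent.R269

open Complex Filter Topology Set Metric
open scoped ENNReal Real

set_option maxHeartbeats 1000000 in
/-- LEAF LF-S7-di-cone (GLUE): **cone passage for an entire shape**, reference height `h`, global field bound above the real row. -/
theorem Shape.s7di_cone (Sh : Shape) (hH : Sh.H = ⊤) (α α₁ κ : ℝ) (hα : 0 < α) (hα1 : α ≤ 1)
    (hαα₁ : α ≤ α₁) (hα₁ : 1 / 2 < α₁) (hκ : 0 < κ) :
    ∃ c N A C : ℝ, 0 < c ∧ 0 < N ∧ 0 ≤ A ∧ 0 < C ∧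
      ∀ B₁ d r h : ℝ, 0 < B₁ → 0 < d → 0 < r → r ≤ d → N ≤ h → N * d ≤ h →
        r * B₁ * d ^ (-α₁) ≤ c →
        r * ((h + 1) / d) ^ α * (h + 1) ^ (κ + 1) ≤ c →
        r * ((h + 1) / d) ^ α * (h + 1) ^ κ * B₁ * (h + 1) ^ (-α₁) ≤ c →
        (∀ s : ℂ, d / 4 ≤ h - s.im → 0 ≤ s.im → Sh.M s ≤ B₁ * (h - s.im) ^ (-α₁)) →
        ∀ y t : ℂ, d < h - y.im → -1 < y.im → ‖t‖ < r * ((h - y.im) / d) ^ α →
          (y, t) ∈ Sh.s9Rmax ∧
            ‖Sh.s9Smax (y, t) - y‖ ≤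
              ‖t‖ ^ 2 * (A * (h + 1) + C * B₁ ^ 2 * (h - y.im) ^ (1 - 2 * α₁)) := by
  obtain ⟨γf, C₀, D₀, m₁, hγf, hγf1, hC₀, hD₀, hm₁, hfill⟩ := s7di_fill α hα hα1
  obtain ⟨K₀, hK₀⟩ : ∃ K₀ : ℝ, K₀ = C₀ + D₀ + 3 := ⟨_, rfl⟩
  have hK₀4 : 4 < K₀ := by linarith
  have hK₀0 : 0 < K₀ := by linarith
  obtain ⟨γi, hγi, hγi1, hinit⟩ := s7di_init κ K₀ hκ (by linarith)
  obtain ⟨γ, hγ⟩ : ∃ γ : ℝ, γ = min γf γi := ⟨_, rfl⟩
  have hγ0 : 0 < γ := by rw [hγ]; exact lt_min hγf hγi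
  have hγγf : γ ≤ γf := by rw [hγ]; exact min_le_left _ _
  have hγγi : γ ≤ γi := by rw [hγ]; exact min_le_right _ _
  have hγ1 : γ ≤ 1 := hγγf.trans hγf1
  obtain ⟨ε₁, c₀, Cs, hε₁, hc₀, hCs, hsteep⟩ := s6_steep α₁ γ 20 hα₁ hγ0 hγ1 (by norm_num)
  obtain ⟨ρ₁, A₀, A₁, hρ₁, hρ₁ρ, hA₀, hA₁, hslab⟩ := Sh.s7di_slab 1 1 (by norm_num) (by norm_num)
    (by rw [hH]; exact ENNReal.ofReal_lt_top)
  obtain ⟨L', hL'⟩ : ∃ L' : ℝ, L' = max (2 * (m₁ + C₀) + 1) (1 / γ) := ⟨_, rfl⟩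
  have hL'γ : 1 / γ ≤ L' := by rw [hL']; exact le_max_right _ _
  have hL'0 : 0 < L' := lt_of_lt_of_le (by positivity) hL'γ
  obtain ⟨A, hA⟩ : ∃ A : ℝ, A = A₀ + A₁ / γ := ⟨_, rfl⟩
  have hA0 : 0 ≤ A := by rw [hA]; positivity
  obtain ⟨c₁, hc₁⟩ : ∃ c₁ : ℝ, c₁ = min ρ₁ (min (2 / 3) (min (c₀ / (20 * A + 1)) (c₀ / (A₁ + 1)))) :=
    ⟨_, rfl⟩
  have hc₁0 : 0 < c₁ := by
    rw [hc₁]
    exact lt_min hρ₁ (lt_min (by norm_num) (lt_min (by positivity) (by positivity)))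
  have hc₁a : c₁ ≤ ρ₁ := by rw [hc₁]; exact min_le_left _ _
  have hc₁b : c₁ ≤ 2 / 3 := by rw [hc₁]; exact (min_le_right _ _).trans (min_le_left _ _)
  have hc₁c : c₁ ≤ c₀ / (20 * A + 1) := by
    rw [hc₁]; exact (min_le_right _ _).trans ((min_le_right _ _).trans (min_le_left _ _))
  have hc₁d : c₁ ≤ c₀ / (A₁ + 1) := by
    rw [hc₁]; exact (min_le_right _ _).trans ((min_le_right _ _).trans (min_le_right _ _))
  have p4 : 0 < (4 : ℝ) ^ α₁ := Real.rpow_pos_of_pos (by norm_num) _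
  have p2 : 0 < (2 : ℝ) ^ (α₁ - α) := Real.rpow_pos_of_pos (by norm_num) _
  have p8 : 0 < (8 * K₀) ^ α₁ := Real.rpow_pos_of_pos (by positivity) _
  have p16 : 0 < (16 : ℝ) ^ α₁ := Real.rpow_pos_of_pos (by norm_num) _
  have p22 : 0 < (2 : ℝ) ^ (2 * α₁ - 1) := Real.rpow_pos_of_pos (by norm_num) _
  obtain ⟨c, hc⟩ : ∃ c : ℝ, c = min (c₁ / 20) (min (ε₁ / (20 * 4 ^ α₁ * 2 ^ (α₁ - α)))
      (min (ε₁ / (2 * (8 * K₀) ^ α₁)) (1 / K₀))) := ⟨_, rfl⟩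
  have hc0 : 0 < c := by
    rw [hc]
    exact lt_min (by positivity) (lt_min (by positivity) (lt_min (by positivity) (by positivity)))
  have hca : c ≤ c₁ / 20 := by rw [hc]; exact min_le_left _ _
  have hcb : c ≤ ε₁ / (20 * 4 ^ α₁ * 2 ^ (α₁ - α)) := by
    rw [hc]; exact (min_le_right _ _).trans (min_le_left _ _)
  have hcc : c ≤ ε₁ / (2 * (8 * K₀) ^ α₁) := by
    rw [hc]; exact (min_le_right _ _).trans ((min_le_right _ _).trans (min_le_left _ _))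
  have hcd : c ≤ 1 / K₀ := by
    rw [hc]; exact (min_le_right _ _).trans ((min_le_right _ _).trans (min_le_right _ _))
  -- the whole plane is the shape strip
  have hD : ∀ s : ℂ, s ∈ Sh.D := by
    intro s
    show ENNReal.ofReal |s.im| < Sh.G.Hs
    have : Sh.G.Hs = ⊤ := hH
    rw [this]
    exact ENNReal.ofReal_lt_top
  -- the lift on the tube is the maximal passage
  have hT : ∀ y t : ℂ, |y.im| ≤ 1 → ‖t‖ < ρ₁ →
      (y, t) ∈ Sh.s9Rmax ∧ ‖Sh.s9Smax (y, t) - y‖ ≤ A₀ * ‖t‖ ^ 2 ∧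
        (|(y - t).im| ≤ 1 →
          ‖Sh.s9Smax (y, t) - Sh.s9Smax (y - t, t) - t‖ ≤ A₁ * ‖t‖ ^ 3) := by
    intro y t hy ht
    obtain ⟨a1, a2, a3⟩ := hslab y t hy ht
    have e1 := (Sh.s9k_max_spec Sh.s9k_tube).2 a1
    refine ⟨(Sh.s9k_max_spec Sh.s9k_tube).1 a1, by rw [← e1]; exact a2, fun hy' => ?_⟩
    have e2 := (Sh.s9k_max_spec Sh.s9k_tube).2 (hslab (y - t) t hy' ht).1
    rw [← e1, ← e2]
    exact a3 hy'
  refine ⟨c, max 15 (2 * K₀), A, Cs * 16 ^ α₁ * 2 ^ (2 * α₁ - 1), hc0,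
    lt_of_lt_of_le (by norm_num) (le_max_left _ _), hA0, by positivity, ?_⟩
  intro B₁ d r h hB₁ hd hr hrd hNh hNd H1 H2 H3 hfield y t hy1 hy2 hy3
  have hh15 : 15 ≤ h := (le_max_left _ _).trans hNh
  have hd15 : 15 * d ≤ h := (mul_le_mul_of_nonneg_right (le_max_left _ _) hd.le).trans hNd
  have hdK : 2 * K₀ * d ≤ h := (mul_le_mul_of_nonneg_right (le_max_right _ _) hd.le).trans hNd
  have hh1 : 0 < h + 1 := by linarith
  have hq0 : 0 < (h + 1) / d := by positivity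
  have hQ : 0 < ((h + 1) / d) ^ α := Real.rpow_pos_of_pos hq0 _
  have hκ1 : 1 ≤ (h + 1) ^ κ := Real.one_le_rpow (by linarith) hκ.le
  obtain ⟨P, hPdef⟩ : ∃ P : ℝ, P = r * ((h + 1) / d) ^ α := ⟨_, rfl⟩
  have hP0 : 0 < P := by rw [hPdef]; positivity
  obtain ⟨ρs, hρsdef⟩ : ∃ ρs : ℝ, ρs = P * (h + 1) ^ κ := ⟨_, rfl⟩
  have hρs0 : 0 < ρs := by rw [hρsdef]; positivity
  have hPρs : P ≤ ρs := by rw [hρsdef]; exact le_mul_of_one_le_right hP0.le hκ1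
  have H2' : ρs * (h + 1) ≤ c := by
    have e : (h + 1) ^ (κ + 1) = (h + 1) ^ κ * (h + 1) := Real.rpow_add_one hh1.ne' κ
    rw [e] at H2
    rw [hρsdef, hPdef]
    linarith
  have H3' : ρs * B₁ * (h + 1) ^ (-α₁) ≤ c := by rw [hρsdef, hPdef]; exact H3
  have hρsc : ρs ≤ c := (le_mul_of_one_le_right hρs0.le (by linarith)).trans H2'
  obtain ⟨ρ₀, hρ₀def⟩ : ∃ ρ₀ : ℝ, ρ₀ = c₁ / (h + 1) := ⟨_, rfl⟩
  have hρ₀0 : 0 < ρ₀ := by rw [hρ₀def]; positivity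
  have hρ₀mul : (h + 1) * ρ₀ = c₁ := by rw [hρ₀def]; field_simp
  have hρ₀c₁ : ρ₀ ≤ c₁ := by rw [hρ₀def]; exact div_le_self hc₁0.le (by linarith)
  have hρ₀ρ₁ : ρ₀ ≤ ρ₁ := hρ₀c₁.trans hc₁a
  have hρsρ₀ : 20 * ρs ≤ ρ₀ := by
    rw [hρ₀def, le_div_iff₀ hh1]
    linarith
  obtain ⟨An, hAn⟩ : ∃ An : ℝ, An = A₀ + A₁ * (h - 1 + 2) / γ := ⟨_, rfl⟩
  have hAnA₀ : A₀ ≤ An := by
    have : 0 ≤ A₁ * (h - 1 + 2) / γ := by
      have : 0 ≤ h - 1 + 2 := by linarith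
      positivity
    rw [hAn]; linarith
  have hAnA : An ≤ A * (h + 1) := by
    have e : A * (h + 1) = A₀ * (h + 1) + A₁ * (h - 1 + 2) / γ := by rw [hA]; field_simp; ring
    rw [e, hAn]
    have := le_mul_of_one_le_right hA₀ (by linarith : 1 ≤ h + 1)
    linarith
  have hsm0 : (A₀ + A₁ * (h - 1 + 2) / γ) * ρ₀ * 20 ≤ c₀ := by
    rw [← hAn]
    rw [le_div_iff₀ (by positivity)] at hc₁c
    have : An * ρ₀ ≤ A * c₁ := by
      calc An * ρ₀ ≤ A * (h + 1) * ρ₀ := mul_le_mul_of_nonneg_right hAnA hρ₀0.le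
        _ = A * c₁ := by rw [mul_assoc, hρ₀mul]
    linarith
  have hsm1 : A₁ * ρ₀ ^ 2 ≤ c₀ := by
    rw [le_div_iff₀ (by positivity)] at hc₁d
    have h1 : ρ₀ ^ 2 ≤ c₁ := by
      calc ρ₀ ^ 2 = ρ₀ * ρ₀ := sq _
        _ ≤ c₁ * 1 := mul_le_mul hρ₀c₁ (by linarith) hρ₀0.le hc₁0.le
        _ = c₁ := mul_one _
    have h2 := mul_le_mul_of_nonneg_left h1 hA₁
    linarith
  obtain ⟨B, hB⟩ : ∃ B : ℝ, B = 4 ^ α₁ * B₁ := ⟨_, rfl⟩
  have hB0 : 0 < B := by rw [hB]; positivity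
  have h41 : 1 ≤ (4 : ℝ) ^ α₁ := Real.one_le_rpow (by norm_num) (by linarith)
  have hB₁B : B₁ ≤ B := by rw [hB]; exact le_mul_of_one_le_left hB₁.le h41
  set Ψ : ℝ → ℝ := fun x => An + Cs * B ^ 2 * x ^ (1 - 2 * α₁) with hΨ
  have hΨanti : AntitoneOn Ψ (Ioi 0) := by
    intro a ha b _ hab
    have := Real.rpow_le_rpow_of_nonpos ha hab (by linarith : 1 - 2 * α₁ ≤ 0)
    simp only [hΨ]
    gcongr
  have hΨA : ∀ x : ℝ, 0 < x → A₀ ≤ Ψ x := by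
    intro x hx
    have : 0 ≤ Cs * B ^ 2 * x ^ (1 - 2 * α₁) := by
      have := Real.rpow_pos_of_pos hx (1 - 2 * α₁)
      positivity
    simp only [hΨ]
    linarith
  -- the field bound on both sides of the real row
  have hF : ∀ x₀ : ℝ, Sh.S6Field h x₀ (2 * L' + 1) (d / 2 / 2) (3 / 2 * (h + 1)) B α₁ := by
    intro x₀ s h1 h2 _
    have hx0 : 0 < h - s.im := by linarith
    have hx : 0 < (h - s.im) ^ (-α₁) := Real.rpow_pos_of_pos hx0 _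
    rcases le_or_gt 0 s.im with hs | hs
    · exact (hfield s (by linarith) hs).trans (mul_le_mul_of_nonneg_right hB₁B hx.le)
    · have hcj := Sh.sb_M_conj (hD s)
      have him : ((starRingEnd ℂ) s).im = -s.im := Complex.conj_im s
      have h3 := hfield ((starRingEnd ℂ) s) (by rw [him]; linarith) (by rw [him]; linarith)
      rw [hcj, him] at h3
      have h4 : (h - s.im) / 4 ≤ h - -s.im := by linarith
      have h5 : (h - -s.im) ^ (-α₁) ≤ ((h - s.im) / 4) ^ (-α₁) :=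
        Real.rpow_le_rpow_of_nonpos (by positivity) h4 (by linarith)
      have h6 : ((h - s.im) / 4) ^ (-α₁) = 4 ^ α₁ * (h - s.im) ^ (-α₁) := by
        rw [Real.div_rpow hx0.le (by norm_num), Real.rpow_neg (by norm_num : (0 : ℝ) ≤ 4),
          div_inv_eq_mul, mul_comm]
      calc Sh.M s ≤ B₁ * (h - -s.im) ^ (-α₁) := h3
        _ ≤ B₁ * (4 ^ α₁ * (h - s.im) ^ (-α₁)) := by
            rw [← h6]; exact mul_le_mul_of_nonneg_left h5 hB₁.le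
        _ = B * (h - s.im) ^ (-α₁) := by rw [hB]; ring
  have him : ∀ y : ℂ, h - 1 ≤ h - y.im → h - y.im ≤ h - 1 + 2 → |y.im| ≤ 1 := by
    intro y h1 h2
    rw [abs_le]
    constructor <;> linarith
  have hSl : ∀ x₀ : ℝ, Sh.S6Slab h x₀ L' (h - 1) 2 ρ₀ A₀ A₁ := fun x₀ =>
    { mem := fun y t h1 h2 _ h4 => (hT y t (him y h1 h2) (h4.trans_le hρ₀ρ₁)).1
      pos := fun y t h1 h2 _ h4 => (hT y t (him y h1 h2) (h4.trans_le hρ₀ρ₁)).2.1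
      step := fun y t h1 h2 _ h4 h5 _ h7 =>
        (hT y t (him y h1 h2) (h7.trans_le hρ₀ρ₁)).2.2 (him (y - t) h4 h5) }
  -- (1) the steep sectors
  have ST : ∀ y t : ℂ, d / 2 < h - y.im → h - y.im ≤ h + 1 → γ * ‖t‖ < |t.im| → ‖t‖ < ρ₀ →
      ‖t‖ < 20 * (h - y.im) → ‖t‖ * B * (h - y.im) ^ (-α₁) < ε₁ →
      (y, t) ∈ Sh.s9Rmax ∧ ‖Sh.s9Smax (y, t) - y‖ ≤ ‖t‖ ^ 2 * Ψ (h - y.im) := by
    intro y t a1 a2 a3 a4 a5 a6
    have hx0 : 0 < h - y.im := by linarith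
    have := hsteep Sh h y.re L' (d / 2) (h - 1) 2 (3 / 2 * (h + 1)) B A₀ A₁ ρ₀ (fun s _ _ => hD s) hL'γ
      (by positivity) (by linarith) (by norm_num) (by linarith) hB0 hA₀ hA₁ hρ₀0 (hρ₀ρ₁.trans hρ₁ρ)
      (by linarith) hsm0 hsm1 (hF _) (hSl _) y t a1 (by linarith)
      (by rw [sub_self, abs_zero]; positivity) a3 a4 a5 a6
    rw [← hAn] at this
    exact this
  obtain ⟨δs, hδsdef⟩ : ∃ δs : ℝ, δs = (h + 1) / K₀ := ⟨_, rfl⟩
  have hδs0 : 0 < δs := by rw [hδsdef]; positivity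
  have hδsmul : K₀ * δs = h + 1 := by rw [hδsdef]; field_simp
  have hdδs : d < δs := by
    rw [hδsdef, lt_div_iff₀ hK₀0]
    have : 0 < K₀ * d := by positivity
    linarith
  -- (2) the initializer
  have IN := hinit Sh (-1) 1 h δs ρs Ψ one_pos hδs0 (by rw [hδsmul]; linarith) hρs0
    (by linarith) hΨanti
    (by
      intro y t b1 b2 b3 b4
      have hy : |y.im| ≤ 1 := by
        rw [abs_le]; constructor <;> linarith
      obtain ⟨a1, a2, -⟩ := hT y t hy (by linarith)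
      refine ⟨a1, a2.trans ?_⟩
      rw [mul_comm]
      exact mul_le_mul_of_nonneg_left (hΨA _ (by linarith)) (by positivity))
    (by
      intro y t b1 b2 b3 b4
      have hx0 : 0 < h - y.im := by linarith
      have hxα : 0 < (h - y.im) ^ (-α₁) := Real.rpow_pos_of_pos hx0 _
      refine ST y t (by linarith) (by linarith) ?_ (by linarith) ?_ ?_
      · exact lt_of_le_of_lt (mul_le_mul_of_nonneg_right hγγi (norm_nonneg _)) b3
      · have e1 : 1 / K₀ ≤ 20 * (δs / 2) := by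
          rw [hδsdef, div_le_iff₀ hK₀0]
          have : 20 * ((h + 1) / K₀ / 2) * K₀ = 10 * (h + 1) := by field_simp; ring
          rw [this]; linarith
        linarith
      · have e1 : (h - y.im) ^ (-α₁) ≤ (δs / 2) ^ (-α₁) :=
          Real.rpow_le_rpow_of_nonpos (by positivity) b2 (by linarith)
        have e2 : (δs / 2) ^ (-α₁) = (2 * K₀) ^ α₁ * (h + 1) ^ (-α₁) := by
          have : δs / 2 = (h + 1) / (2 * K₀) := by rw [hδsdef]; field_simp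
          rw [this, Real.div_rpow hh1.le (by positivity), Real.rpow_neg (by positivity : 0 ≤ 2 * K₀),
            div_inv_eq_mul, mul_comm]
        have e3 : (4 : ℝ) ^ α₁ * (2 * K₀) ^ α₁ = (8 * K₀) ^ α₁ := by
          rw [← Real.mul_rpow (by norm_num) (by positivity)]
          congr 1; ring
        have e4 : ‖t‖ * B * (h - y.im) ^ (-α₁) ≤ ρs * B * ((2 * K₀) ^ α₁ * (h + 1) ^ (-α₁)) := by
          rw [← e2]
          exact mul_le_mul (mul_le_mul_of_nonneg_right b4.le hB0.le) e1 hxα.le (by positivity)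
        have e5 : ρs * B * ((2 * K₀) ^ α₁ * (h + 1) ^ (-α₁))
            = (8 * K₀) ^ α₁ * (ρs * B₁ * (h + 1) ^ (-α₁)) := by
          rw [← e3, hB]; ring
        have e6 : (8 * K₀) ^ α₁ * (ρs * B₁ * (h + 1) ^ (-α₁)) ≤ (8 * K₀) ^ α₁ * c :=
          mul_le_mul_of_nonneg_left H3' p8.le
        have e7 : (8 * K₀) ^ α₁ * c ≤ ε₁ / 2 := by
          rw [le_div_iff₀ (by positivity)] at hcc
          linarith
        linarith)
  -- (3) filling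
  have hPle : ∀ x : ℝ, 0 < x → x ≤ h + 1 → r * (x / d) ^ α ≤ P := by
    intro x hx hxh
    rw [hPdef]
    exact mul_le_mul_of_nonneg_left
      (Real.rpow_le_rpow (by positivity) (div_le_div_of_nonneg_right hxh hd.le) hα.le) hr.le
  have hmain := hfill Sh m₁ h y.re r d δs (h + 1) Ψ le_rfl hΨanti hr hd hdδs.le
    (by rw [← hK₀, hδsmul])
    (by
      rw [mul_assoc, ← hPdef]
      linarith)
    (by
      intro y t h1 h2 _ h4 h5
      set x := h - y.im with hx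
      have hx0 : 0 < x := by linarith
      have hxd : 1 / 2 < x / d := by rw [lt_div_iff₀ hd]; linarith
      have hr1 := hPle x hx0 h2.le
      have hxα : 0 < x ^ (-α₁) := Real.rpow_pos_of_pos hx0 _
      refine ST y t h1 h2.le ?_ (by linarith) ?_ ?_
      · exact lt_of_le_of_lt (mul_le_mul_of_nonneg_right hγγf (norm_nonneg _)) h4
      · have a1 := s6c_rpow_le_two_mul hxd hα.le hα1
        have a2 : 10 * r * (x / d) ^ α ≤ 10 * d * (2 * (x / d)) := by gcongr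
        have a3 : 10 * d * (2 * (x / d)) = 20 * x := by field_simp; ring
        linarith
      · have a1 : ‖t‖ * B * x ^ (-α₁) < 10 * r * (x / d) ^ α * B * x ^ (-α₁) := by
          gcongr
        have a2 : 10 * r * (x / d) ^ α * B * x ^ (-α₁)
            = 10 * 4 ^ α₁ * (r * B₁ * d ^ (-α₁)) * (x / d) ^ (α - α₁) := by
          have := s6c_field_id (α := α) (α₁ := α₁) hx0 hd
          calc 10 * r * (x / d) ^ α * B * x ^ (-α₁)
              = 10 * r * B * ((x / d) ^ α * x ^ (-α₁)) := by ring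
            _ = _ := by rw [this, hB]; ring
        have a3 := s6c_rpow_nonpos hxd (by linarith : α - α₁ ≤ 0)
        rw [neg_sub] at a3
        have a4 : 10 * 4 ^ α₁ * (r * B₁ * d ^ (-α₁)) * (x / d) ^ (α - α₁)
            ≤ 10 * 4 ^ α₁ * c * 2 ^ (α₁ - α) := by
          have : 0 ≤ r * B₁ * d ^ (-α₁) := by
            have := Real.rpow_pos_of_pos hd (-α₁)
            positivity
          gcongr
        have a5 : 10 * 4 ^ α₁ * c * 2 ^ (α₁ - α) ≤ ε₁ / 2 := by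
          rw [le_div_iff₀ (by positivity)] at hcb
          linarith
        linarith)
    (by
      intro y t h1 h2 _ h4
      have hx0 : 0 < h - y.im := by linarith
      have hr1 := hPle _ hx0 h2.le
      have hy1 : 0 < y.im + 1 := by linarith
      have e1 : P = ρs * (h + 1) ^ (-κ) := by
        rw [hρsdef, mul_assoc, ← Real.rpow_add hh1, add_neg_cancel, Real.rpow_zero, mul_one]
      have e2 : (h + 1) ^ (-κ) ≤ (y.im + 1) ^ (-κ) :=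
        Real.rpow_le_rpow_of_nonpos hy1 (by linarith) (by linarith)
      refine IN y t (by linarith) h1 (by linarith) ?_
      have e3 : (y.im - -1) / 1 = y.im + 1 := by ring
      rw [e3]
      calc ‖t‖ < P := by linarith
        _ = ρs * (h + 1) ^ (-κ) := e1
        _ ≤ ρs * (y.im + 1) ^ (-κ) := mul_le_mul_of_nonneg_left e2 hρs0.le)
    y t hy1 (by linarith) (by rw [sub_self, abs_zero]; have : 0 < h - y.im := by linarith
                              positivity) hy3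
  refine ⟨hmain.1, hmain.2.trans ?_⟩
  apply mul_le_mul_of_nonneg_left _ (by positivity)
  simp only [hΨ]
  rw [s6c_half_rpow (by linarith : 0 < h - y.im)]
  have e1 : -(1 - 2 * α₁) = 2 * α₁ - 1 := by ring
  have e2 : B ^ 2 = 16 ^ α₁ * B₁ ^ 2 := by
    rw [hB, mul_pow, ← Real.rpow_natCast ((4 : ℝ) ^ α₁) 2, ← Real.rpow_mul (by norm_num), mul_comm α₁,
      Real.rpow_mul (by norm_num)]
    norm_num
  rw [e1, e2]
  have : Cs * (16 ^ α₁ * B₁ ^ 2) * (2 ^ (2 * α₁ - 1) * (h - y.im) ^ (1 - 2 * α₁))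
      = Cs * 16 ^ α₁ * 2 ^ (2 * α₁ - 1) * B₁ ^ 2 * (h - y.im) ^ (1 - 2 * α₁) := by ring
  rw [this]
  linarith

end Claimed.Agent.R269
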