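/-
Row 269, P1 Section 7, Lemma 7.2 for `H = ∞`: THE LIMITS (7.4) (HOST-FREE, Mathlib only).   LEAF PACKAGE LF-S7-di-lim (ONE FILE = ONE OWNER).   Statements: helper146.   NO PAPER READING NEEDED.
 * `s7di_lim`.   `m = (ℓ m)/ℓ ≥ (ℓ m)/Cℓ → ∞` (wlog `Cℓ > 0`), so `log m → ∞`.   Wlog `k > 0` (for `k ≤ 0`: `(1+h/ℓ)^k ≤ 1` eventually, as `h ≥ 0`).   Eventually `log (1 + h/ℓ)/log m ≤ 1/(2k)`, i.e. `k log (1+h/ℓ) ≤ (log m)/2`, i.e.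
      `(1+h/ℓ)^k ≤ m^(1/2)` (`Real.rpow_def_of_pos`, `Real.exp_le_exp`), so `0 ≤ (1+h/ℓ)^k/m ≤ m^(-1/2) → 0` (squeeze).
 * `s7di_event`.  Put `w = 1 + h/ℓ`.  Eventually `h ≥ 1`, and then `(h+1)/ℓ ≤ 2 w`, `h + 1 ≤ 2 h = 2 ℓ (h/ℓ) ≤ 2 Cℓ w`.
      (E1) `4 ≤ D₀ (ℓ m)`.   (E2), (E3), (E7): `h → ∞`, `ℓ ≤ Cℓ`.
      (E4) lhs `≤ 4 (2w/D₀)^(α₀/2) (2 Cℓ w)^(α₀/4+1)/m = const · w^(3α₀/4+1)/m → 0` (`s7di_lim`).
      (E5) lhs `= 4 Cf D₀^(-α₀/2) ℓ^(α₀/2) (h+1)^(-α₀/4) ≤ 4 Cf D₀^(-α₀/2) Cℓ^(α₀/2) (h+1)^(-α₀/4) → 0`.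
      (E6) `A (h+1)/(m² ℓ) = A ((h+1)/m)/(ℓ m)`, `(h+1)/m ≤ 2 Cℓ w/m → 0`, `ℓ m → ∞`.
-/
import Mathlib

set_option autoImplicit false

namespace Claimed.Agent.R269

open Filter Topology Set

theorem s7di_m_atTop {ℓ m : ℕ → ℝ} (pos : ∀ n, 0 < ℓ n ∧ 0 < m n)
    (hb : Tendsto (fun n => ℓ n * m n) atTop atTop) {C : ℝ} (hC : ∀ n, ℓ n ≤ C) :
    Tendsto m atTop atTop := by
  have hC0 : 0 < C := (pos 0).1.trans_le (hC 0)
  refine tendsto_atTop_mono (fun n => ?_) (hb.atTop_div_const hC0)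
  rw [div_le_iff₀ hC0]
  have := mul_le_mul_of_nonneg_right (hC n) (pos n).2.le
  linarith

/-- LEAF LF-S7-di-lim (a): `m` beats every power of `1 + h/ℓ`. -/
theorem s7di_lim {h ℓ m : ℕ → ℝ} (pos : ∀ n, 0 < ℓ n ∧ 0 < m n)
    (hb : Tendsto (fun n => ℓ n * m n) atTop atTop) (hh : Tendsto h atTop atTop)
    (hℓ : ∃ C : ℝ, ∀ n, ℓ n ≤ C)
    (hlog : Tendsto (fun n => Real.log (1 + h n / ℓ n) / Real.log (m n)) atTop (𝓝 0)) (k : ℝ) :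
    Tendsto (fun n => (1 + h n / ℓ n) ^ k / m n) atTop (𝓝 0) := by
  obtain ⟨C, hC⟩ := hℓ
  have hm : Tendsto m atTop atTop := s7di_m_atTop pos hb hC
  set k' : ℝ := max k 1 with hk'def
  have hk' : 0 < k' := lt_of_lt_of_le one_pos (le_max_right _ _)
  have e1 : ∀ᶠ n in atTop, Real.log (1 + h n / ℓ n) / Real.log (m n) < 1 / (2 * k') :=
    hlog.eventually (gt_mem_nhds (by positivity))
  have e2 : ∀ᶠ n in atTop, 1 < m n := hm.eventually_gt_atTop 1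
  have e3 : ∀ᶠ n in atTop, 0 ≤ h n := hh.eventually_ge_atTop 0
  have hlim : Tendsto (fun n => (m n) ^ (-(1 / 2) : ℝ)) atTop (𝓝 0) :=
    (tendsto_rpow_neg_atTop (by norm_num : (0 : ℝ) < 1 / 2)).comp hm
  refine squeeze_zero' ?_ ?_ hlim
  · filter_upwards [e3] with n h3
    have : 0 ≤ 1 + h n / ℓ n := by
      have := div_nonneg h3 (pos n).1.le
      linarith
    exact div_nonneg (Real.rpow_nonneg this _) (pos n).2.le
  · filter_upwards [e1, e2, e3] with n h1 h2 h3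
    have hw1 : 1 ≤ 1 + h n / ℓ n := by
      have := div_nonneg h3 (pos n).1.le
      linarith
    have hw0 : 0 < 1 + h n / ℓ n := by linarith
    have hlm : 0 < Real.log (m n) := Real.log_pos h2
    have hm0 := (pos n).2
    rw [div_lt_iff₀ hlm] at h1
    have h4 : (1 + h n / ℓ n) ^ k ≤ (1 + h n / ℓ n) ^ k' :=
      Real.rpow_le_rpow_of_exponent_le hw1 (le_max_left _ _)
    have h5 : (1 + h n / ℓ n) ^ k' ≤ (m n) ^ (1 / 2 : ℝ) := by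
      rw [Real.rpow_def_of_pos hw0, Real.rpow_def_of_pos hm0]
      apply Real.exp_le_exp.2
      have a := mul_le_mul_of_nonneg_right h1.le hk'.le
      have e : (1 / (2 * k') * Real.log (m n)) * k' = Real.log (m n) * (1 / 2) := by field_simp
      linarith
    have h6 : (m n) ^ (-(1 / 2) : ℝ) = (m n) ^ (1 / 2 : ℝ) / m n := by
      rw [show (-(1 / 2) : ℝ) = 1 / 2 - 1 by norm_num, Real.rpow_sub hm0, Real.rpow_one]
    rw [h6]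
    exact div_le_div_of_nonneg_right (h4.trans h5) hm0.le

/-- LEAF LF-S7-di-lim (b): the eventual inequalities used in `Shape.s7_deep_inf`. -/
theorem s7di_event {h ℓ m : ℕ → ℝ} (pos : ∀ n, 0 < ℓ n ∧ 0 < m n)
    (hb : Tendsto (fun n => ℓ n * m n) atTop atTop) (hh : Tendsto h atTop atTop)
    (hℓ : ∃ C : ℝ, ∀ n, ℓ n ≤ C)
    (hlog : Tendsto (fun n => Real.log (1 + h n / ℓ n) / Real.log (m n)) atTop (𝓝 0))
    (α₀ c c' N A D₀ D₁ Cf : ℝ) (hα₀ : 0 < α₀) (hc : 0 < c) (hc' : 0 < c') (hD₀ : 0 < D₀)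
    (hCf : 0 < Cf) :
    ∀ᶠ n in atTop, 4 / m n ≤ ℓ n * D₀ ∧ N ≤ h n ∧ N * (ℓ n * D₀) ≤ h n ∧
      4 / m n * ((h n + 1) / (ℓ n * D₀)) ^ (α₀ / 2) * (h n + 1) ^ (α₀ / 4 + 1) ≤ c ∧
      4 / m n * ((h n + 1) / (ℓ n * D₀)) ^ (α₀ / 2) * (h n + 1) ^ (α₀ / 4) * (Cf * m n * ℓ n ^ α₀)
        * (h n + 1) ^ (-α₀) ≤ c ∧
      A * (h n + 1) / (m n ^ 2 * ℓ n) ≤ c' ∧ ℓ n * D₁ < h n + 1 := by
  have hlimk := fun k => s7di_lim pos hb hh hℓ hlog k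
  obtain ⟨C, hC⟩ := hℓ
  have hC0 : 0 < C := (pos 0).1.trans_le (hC 0)
  have g1 : ∀ᶠ n in atTop, 1 ≤ h n := hh.eventually_ge_atTop 1
  have E1 : ∀ᶠ n in atTop, 4 / D₀ ≤ ℓ n * m n := hb.eventually_ge_atTop _
  have E2 : ∀ᶠ n in atTop, N ≤ h n := hh.eventually_ge_atTop _
  have E3 : ∀ᶠ n in atTop, |N| * (C * D₀) ≤ h n := hh.eventually_ge_atTop _
  have E7 : ∀ᶠ n in atTop, C * |D₁| ≤ h n := hh.eventually_ge_atTop _
  -- (E4)
  obtain ⟨K4, hK4⟩ : ∃ K4 : ℝ, K4 = 4 * (2 / D₀) ^ (α₀ / 2) * (2 * C) ^ (α₀ / 4 + 1) := ⟨_, rfl⟩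
  have T4 : Tendsto (fun n => K4 * ((1 + h n / ℓ n) ^ (3 * α₀ / 4 + 1) / m n)) atTop (𝓝 0) := by
    have := (hlimk (3 * α₀ / 4 + 1)).const_mul K4
    rwa [mul_zero] at this
  have E4 := T4.eventually_le_const hc
  -- (E5)
  obtain ⟨K5, hK5⟩ : ∃ K5 : ℝ, K5 = 4 * Cf * C ^ (α₀ / 2) / D₀ ^ (α₀ / 2) := ⟨_, rfl⟩
  have hu : Tendsto (fun n => h n + 1) atTop atTop := tendsto_atTop_add_const_right _ _ hh
  have T5 : Tendsto (fun n => K5 * (h n + 1) ^ (-(α₀ / 4))) atTop (𝓝 0) := by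
    have := ((tendsto_rpow_neg_atTop (by positivity : 0 < α₀ / 4)).comp hu).const_mul K5
    rwa [mul_zero] at this
  have E5 := T5.eventually_le_const hc
  -- (E6)
  have T6 : Tendsto (fun n => |A| * (2 * C * ((1 + h n / ℓ n) ^ (1 : ℝ) / m n)) * (ℓ n * m n)⁻¹)
      atTop (𝓝 0) := by
    have a1 := ((hlimk 1).const_mul (2 * C)).const_mul |A|
    have a2 := a1.mul (tendsto_inv_atTop_zero.comp hb)
    simpa using a2
  have E6 := T6.eventually_le_const hc'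
  filter_upwards [g1, E1, E2, E3, E7, E4, E5, E6] with n g1 E1 E2 E3 E7 E4 E5 E6
  obtain ⟨hl, hm⟩ := pos n
  have hlC := hC n
  have hu0 : 0 < h n + 1 := by linarith
  have hw : 0 < 1 + h n / ℓ n := by
    have := div_nonneg (by linarith : 0 ≤ h n) hl.le
    linarith
  -- the two comparisons
  have c1 : (h n + 1) / ℓ n ≤ 2 * (1 + h n / ℓ n) := by
    rw [div_le_iff₀ hl]
    have : 2 * (1 + h n / ℓ n) * ℓ n = 2 * ℓ n + 2 * h n := by field_simp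
    rw [this]; linarith
  have c2 : h n + 1 ≤ 2 * C * (1 + h n / ℓ n) := by
    have a1 : h n = ℓ n * (h n / ℓ n) := by field_simp
    have a2 : ℓ n * (h n / ℓ n) ≤ C * (h n / ℓ n) :=
      mul_le_mul_of_nonneg_right hlC (div_nonneg (by linarith) hl.le)
    have a3 : 2 * C * (1 + h n / ℓ n) = 2 * C + 2 * (C * (h n / ℓ n)) := by ring
    rw [a3]
    linarith
  refine ⟨?_, E2, ?_, ?_, ?_, ?_, ?_⟩
  · rw [div_le_iff₀ hm]
    rw [div_le_iff₀ hD₀] at E1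
    linarith
  · refine le_trans ?_ E3
    calc N * (ℓ n * D₀) ≤ |N| * (ℓ n * D₀) :=
          mul_le_mul_of_nonneg_right (le_abs_self N) (by positivity)
      _ ≤ |N| * (C * D₀) := by gcongr
  · refine le_trans ?_ E4
    have b1 : ((h n + 1) / (ℓ n * D₀)) ^ (α₀ / 2) ≤ (2 / D₀) ^ (α₀ / 2) * (1 + h n / ℓ n) ^ (α₀ / 2) := by
      rw [← Real.mul_rpow (by positivity) hw.le]
      apply Real.rpow_le_rpow (by positivity) _ (by positivity)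
      have : (h n + 1) / (ℓ n * D₀) = (h n + 1) / ℓ n / D₀ := by field_simp
      rw [this, div_le_iff₀ hD₀]
      have : 2 / D₀ * (1 + h n / ℓ n) * D₀ = 2 * (1 + h n / ℓ n) := by field_simp
      rw [this]; exact c1
    have b2 : (h n + 1) ^ (α₀ / 4 + 1) ≤ (2 * C) ^ (α₀ / 4 + 1) * (1 + h n / ℓ n) ^ (α₀ / 4 + 1) := by
      rw [← Real.mul_rpow (by positivity) hw.le]
      exact Real.rpow_le_rpow hu0.le c2 (by positivity)
    have b3 : (1 + h n / ℓ n) ^ (α₀ / 2) * (1 + h n / ℓ n) ^ (α₀ / 4 + 1)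
        = (1 + h n / ℓ n) ^ (3 * α₀ / 4 + 1) := by
      rw [← Real.rpow_add hw]; congr 1; ring
    calc 4 / m n * ((h n + 1) / (ℓ n * D₀)) ^ (α₀ / 2) * (h n + 1) ^ (α₀ / 4 + 1)
        ≤ 4 / m n * ((2 / D₀) ^ (α₀ / 2) * (1 + h n / ℓ n) ^ (α₀ / 2)) *
            ((2 * C) ^ (α₀ / 4 + 1) * (1 + h n / ℓ n) ^ (α₀ / 4 + 1)) := by gcongr
      _ = 4 * (2 / D₀) ^ (α₀ / 2) * (2 * C) ^ (α₀ / 4 + 1) *
            (((1 + h n / ℓ n) ^ (α₀ / 2) * (1 + h n / ℓ n) ^ (α₀ / 4 + 1)) / m n) := by ring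
      _ = K4 * ((1 + h n / ℓ n) ^ (3 * α₀ / 4 + 1) / m n) := by rw [b3, hK4]
  · refine le_trans ?_ E5
    obtain ⟨p, hp⟩ : ∃ p : ℝ, p = (h n + 1) ^ (α₀ / 4) := ⟨_, rfl⟩
    obtain ⟨L, hL⟩ : ∃ L : ℝ, L = ℓ n ^ (α₀ / 2) := ⟨_, rfl⟩
    obtain ⟨Dd, hDd⟩ : ∃ Dd : ℝ, Dd = D₀ ^ (α₀ / 2) := ⟨_, rfl⟩
    have hp0 : 0 < p := by rw [hp]; exact Real.rpow_pos_of_pos hu0 _
    have hL0 : 0 < L := by rw [hL]; exact Real.rpow_pos_of_pos hl _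
    have hDd0 : 0 < Dd := by rw [hDd]; exact Real.rpow_pos_of_pos hD₀ _
    have r1 : (h n + 1) ^ (α₀ / 2) = p ^ 2 := by
      rw [hp, ← Real.rpow_natCast, ← Real.rpow_mul hu0.le]; congr 1; push_cast; ring
    have r2 : (h n + 1) ^ (-α₀) = (p ^ 4)⁻¹ := by
      rw [Real.rpow_neg hu0.le, hp, ← Real.rpow_natCast ((h n + 1) ^ (α₀ / 4)) 4, ← Real.rpow_mul hu0.le]
      congr 2; push_cast; ring
    have r3 : ℓ n ^ α₀ = L ^ 2 := by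
      rw [hL, ← Real.rpow_natCast, ← Real.rpow_mul hl.le]; congr 1; push_cast; ring
    have r4 : ((h n + 1) / (ℓ n * D₀)) ^ (α₀ / 2) = p ^ 2 / (L * Dd) := by
      rw [Real.div_rpow hu0.le (by positivity), Real.mul_rpow hl.le hD₀.le, r1, hL, hDd]
    have r5 : (h n + 1) ^ (-(α₀ / 4)) = p⁻¹ := by rw [Real.rpow_neg hu0.le, hp]
    have r6 : L ≤ C ^ (α₀ / 2) := by rw [hL]; exact Real.rpow_le_rpow hl.le hlC (by positivity)
    rw [r4, r2, r3, r5, ← hp, hK5, ← hDd]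
    have e : 4 / m n * (p ^ 2 / (L * Dd)) * p * (Cf * m n * L ^ 2) * (p ^ 4)⁻¹ = 4 * Cf * L / Dd * p⁻¹ := by
      field_simp
    rw [e]
    gcongr
  · refine le_trans ?_ E6
    rw [Real.rpow_one]
    have e : A * (h n + 1) / (m n ^ 2 * ℓ n) = A * ((h n + 1) / m n) * (ℓ n * m n)⁻¹ := by
      field_simp
    rw [e]
    have b1 : (h n + 1) / m n ≤ 2 * C * ((1 + h n / ℓ n) / m n) := by
      rw [← mul_div_assoc]
      exact div_le_div_of_nonneg_right c2 hm.le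
    have b0 : 0 ≤ (h n + 1) / m n := by positivity
    have b2 : A * ((h n + 1) / m n) ≤ |A| * (2 * C * ((1 + h n / ℓ n) / m n)) :=
      (mul_le_mul_of_nonneg_right (le_abs_self A) b0).trans
        (mul_le_mul_of_nonneg_left b1 (abs_nonneg A))
    exact mul_le_mul_of_nonneg_right b2 (by positivity)
  · have : ℓ n * D₁ ≤ C * |D₁| :=
      (mul_le_mul_of_nonneg_left (le_abs_self D₁) hl.le).trans
        (mul_le_mul_of_nonneg_right hlC (abs_nonneg D₁))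
    linarith

end Claimed.Agent.R269
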