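/-
Row 269, P1 Section 7: LEMMA 7.2 (deep passages) for `H = ∞`.   FINAL GLUE (proved here).   Blueprint: helper146.
ROUTE (paper: 07-profiles.tex l.150-258; the initializer is REPLACED by a simpler one, see S7/DiInit.lean):
   DiSlab  `Shape.s7di_slab`   the lift near the real row (compactness + periodicity);
   DiFill  `s7di_fill`         dyadic analytic discs without assumption on `H` (copy of `s6_fill` over `Shape.s7_konti`);
   DiDisc  `Shape.s7di_disc`   one analytic disc centred at `t = 0`;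
   DiInit  `s7di_init`         all parameter directions from the real row up to depth `≥ (h+1)/K₀`, radius loss `(h+1)^(-κ)`, NO loss in the bound;
   DiCone  `Shape.s7di_cone`   = `s6_steep` + DiInit + DiFill in physical variables for one reference height;
   DiLim   `s7di_event`        the eventual inequalities from (7.4);
   this file: scaling.   `α₁ = α₀` (field exponent), `α = α₀/2` (region exponent), `κ = α₀/4`, `d = ℓ D₀`, `r = 4/m`, `B₁ = Cf m ℓ^α₀`, `4 Cf D₀^(-α₀) ≤ c`, `Cd = C Cf² + 1`.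
-/
import Claimed.Agent.R269.S7.Hyp
import Claimed.Agent.R269.S7.DiCone
import Claimed.Agent.R269.S7.DiLim

set_option autoImplicit false

namespace Claimed.Agent.R269

open Complex Filter Topology Set Metric
open scoped ENNReal Real

namespace Shape

variable (Sh : Shape)

/-- **Lemma 7.2, `H = ∞`**. -/
theorem s7_deep_inf {fst : Bool} {x h ℓ m : ℕ → ℝ} {α₀ : ℝ} (hy : S7HypInf Sh fst x h ℓ m α₀) :
    S7Deep Sh x h ℓ m := by
  obtain ⟨Cf0, hcone⟩ := hy.hcone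
  have hα₀ := hy.hα₀
  have hα₀' := hy.hα₀'
  have hα0 : 0 < α₀ := by linarith
  obtain ⟨Cf, hCfdef⟩ : ∃ Cf : ℝ, Cf = max Cf0 1 := ⟨_, rfl⟩
  have hCf1 : 1 ≤ Cf := by rw [hCfdef]; exact le_max_right _ _
  have hCf0 : Cf0 ≤ Cf := by rw [hCfdef]; exact le_max_left _ _
  have hCfpos : 0 < Cf := by linarith
  obtain ⟨c, N, A, C, hc, hN, hA, hC, hmain⟩ := Sh.s7di_cone hy.top (α₀ / 2) α₀ (α₀ / 4)
    (by linarith) (by linarith) (by linarith) hα₀ (by linarith)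
  -- the depth `D₀`
  obtain ⟨D₀, hD₀def⟩ : ∃ D₀ : ℝ, D₀ = max 4 ((4 * Cf / c) ^ (1 / α₀)) := ⟨_, rfl⟩
  have hD₀4 : 4 ≤ D₀ := by rw [hD₀def]; exact le_max_left _ _
  have hD₀pos : 0 < D₀ := by linarith
  have hX0 : 0 < 4 * Cf / c := by positivity
  have hD₀c : 4 * Cf * D₀ ^ (-α₀) ≤ c := by
    have h1 : (4 * Cf / c) ^ (1 / α₀) ≤ D₀ := by rw [hD₀def]; exact le_max_right _ _
    have h2 := Real.rpow_le_rpow (by positivity) h1 hα0.le
    rw [← Real.rpow_mul hX0.le, one_div_mul_cancel hα0.ne', Real.rpow_one] at h2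
    have h3 : 0 < D₀ ^ α₀ := Real.rpow_pos_of_pos hD₀pos _
    rw [Real.rpow_neg hD₀pos.le, ← div_eq_mul_inv, div_le_iff₀ h3]
    rw [div_le_iff₀ hc] at h2
    linarith
  refine ⟨D₀, C * Cf ^ 2 + 1, α₀, hα₀, ?_⟩
  intro _ D₁
  by_cases hD₁ : D₁ ≤ D₀
  · refine Eventually.of_forall fun n Y T h1 h2 => ?_
    exact absurd (h1.trans h2) (not_lt.2 hD₁)
  rw [not_le] at hD₁
  have hD₁0 : 0 < D₁ := by linarith
  have hc' : 0 < D₁ ^ (1 - 2 * α₀) := Real.rpow_pos_of_pos hD₁0 _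
  filter_upwards [s7di_event hy.pos hy.hb hy.hh hy.hℓ hy.hlog α₀ c (D₁ ^ (1 - 2 * α₀)) N A D₀ D₁ Cf
    hα0 hc hc' hD₀pos hCfpos, hcone] with n hn hcn
  obtain ⟨e1, e2, e3, e4, e5, e6, e7⟩ := hn
  obtain ⟨hℓ0, hm0⟩ := hy.pos n
  intro Y T hY1 hY2 _ hT
  obtain ⟨D, hDdef⟩ : ∃ D : ℝ, D = -Y.im := ⟨_, rfl⟩
  rw [← hDdef] at hY1 hY2 ⊢
  have hD0 : 0 < D := by linarith
  obtain ⟨y, hydef⟩ : ∃ y : ℂ, y = (⟨x n, h n⟩ : ℂ) + (ℓ n : ℂ) * Y := ⟨_, rfl⟩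
  rw [← hydef]
  have hdepth : h n - y.im = ℓ n * D := by
    rw [hydef, hDdef]
    simp
  have hℓα : 0 < ℓ n ^ α₀ := Real.rpow_pos_of_pos hℓ0 _
  have hd0 : 0 < ℓ n * D₀ := by positivity
  have hH1 : 4 / m n * (Cf * m n * ℓ n ^ α₀) * (ℓ n * D₀) ^ (-α₀) ≤ c := by
    have : 4 / m n * (Cf * m n * ℓ n ^ α₀) * (ℓ n * D₀) ^ (-α₀) = 4 * Cf * D₀ ^ (-α₀) := by
      rw [Real.mul_rpow hℓ0.le hD₀pos.le, Real.rpow_neg hℓ0.le]
      field_simp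
    rw [this]
    exact hD₀c
  have hfield : ∀ s : ℂ, ℓ n * D₀ / 4 ≤ h n - s.im → 0 ≤ s.im →
      Sh.M s ≤ Cf * m n * ℓ n ^ α₀ * (h n - s.im) ^ (-α₀) := by
    intro s hs1 hs2
    have hs3 : ℓ n ≤ h n - s.im := by nlinarith
    have hs4 : 0 < h n - s.im := by linarith
    refine (hcn s hs3 hs2).trans ?_
    rw [Real.div_rpow hℓ0.le hs4.le, Real.rpow_neg hs4.le, div_eq_mul_inv, ← mul_assoc]
    have : 0 ≤ ((h n - s.im) ^ α₀)⁻¹ := by positivity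
    gcongr
  have hnt : ‖T / (m n : ℂ)‖ = ‖T‖ / m n := by
    rw [norm_div, Complex.norm_real, Real.norm_eq_abs, abs_of_pos hm0]
  have hrad : ‖T / (m n : ℂ)‖ < 4 / m n * ((h n - y.im) / (ℓ n * D₀)) ^ (α₀ / 2) := by
    rw [hnt, hdepth]
    have h1 : 1 ≤ (ℓ n * D / (ℓ n * D₀)) ^ (α₀ / 2) := by
      apply Real.one_le_rpow _ (by linarith)
      rw [le_div_iff₀ hd0, one_mul]
      exact mul_le_mul_of_nonneg_left hY1.le hℓ0.le
    have h2 : ‖T‖ / m n < 4 / m n := by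
      apply div_lt_div_of_pos_right _ hm0
      linarith
    have h3 : 0 < 4 / m n := by positivity
    nlinarith
  obtain ⟨a1, a2⟩ := hmain (Cf * m n * ℓ n ^ α₀) (ℓ n * D₀) (4 / m n) (h n) (by positivity) hd0
    (by positivity) e1 e2 e3 hH1 e4 e5 hfield y (T / (m n : ℂ))
    (by rw [hdepth]; exact mul_lt_mul_of_pos_left hY1 hℓ0)
    (by
      have : ℓ n * D < ℓ n * D₁ := mul_lt_mul_of_pos_left hY2 hℓ0
      linarith)
    hrad
  refine ⟨a1, ?_⟩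
  have hℓne : (ℓ n : ℂ) ≠ 0 := by exact_mod_cast hℓ0.ne'
  have e : (Sh.s9Smax (y, T / (m n : ℂ)) - (⟨x n, h n⟩ : ℂ)) / (ℓ n : ℂ) - Y
      = (Sh.s9Smax (y, T / (m n : ℂ)) - y) / (ℓ n : ℂ) := by
    rw [hydef]
    field_simp
    ring
  rw [e, norm_div, Complex.norm_real, Real.norm_eq_abs, abs_of_pos hℓ0, div_le_iff₀ hℓ0]
  refine a2.trans ?_
  rw [hnt, hdepth]
  have hDp : 0 < D ^ (1 - 2 * α₀) := Real.rpow_pos_of_pos hD0 _
  have hDD : D₁ ^ (1 - 2 * α₀) ≤ D ^ (1 - 2 * α₀) :=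
    Real.rpow_le_rpow_of_nonpos hD0 hY2.le (by linarith)
  have k1 : A * (h n + 1) ≤ D ^ (1 - 2 * α₀) * (m n ^ 2 * ℓ n) := by
    have := e6.trans hDD
    rwa [div_le_iff₀ (by positivity)] at this
  have k2 : (Cf * m n * ℓ n ^ α₀) ^ 2 * (ℓ n * D) ^ (1 - 2 * α₀)
      = Cf ^ 2 * m n ^ 2 * ℓ n * D ^ (1 - 2 * α₀) := by
    rw [Real.mul_rpow hℓ0.le hD0.le]
    have : (ℓ n ^ α₀) ^ 2 * ℓ n ^ (1 - 2 * α₀) = ℓ n := by
      rw [← Real.rpow_natCast (ℓ n ^ α₀) 2, ← Real.rpow_mul hℓ0.le, ← Real.rpow_add hℓ0]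
      have : α₀ * ((2 : ℕ) : ℝ) + (1 - 2 * α₀) = 1 := by push_cast; ring
      rw [this, Real.rpow_one]
    calc (Cf * m n * ℓ n ^ α₀) ^ 2 * (ℓ n ^ (1 - 2 * α₀) * D ^ (1 - 2 * α₀))
        = Cf ^ 2 * m n ^ 2 * ((ℓ n ^ α₀) ^ 2 * ℓ n ^ (1 - 2 * α₀)) * D ^ (1 - 2 * α₀) := by ring
      _ = _ := by rw [this]
  have k3 : (‖T‖ / m n) ^ 2 * (A * (h n + 1) + C * (Cf * m n * ℓ n ^ α₀) ^ 2 * (ℓ n * D) ^ (1 - 2 * α₀))
      ≤ (‖T‖ / m n) ^ 2 * (D ^ (1 - 2 * α₀) * (m n ^ 2 * ℓ n)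
        + C * (Cf ^ 2 * m n ^ 2 * ℓ n * D ^ (1 - 2 * α₀))) := by
    apply mul_le_mul_of_nonneg_left _ (by positivity)
    rw [mul_assoc C, k2]
    linarith
  refine k3.trans (le_of_eq ?_)
  field_simp
  ring

end Shape

end Claimed.Agent.R269
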