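/-
Row 269, P1 Section 7: THE STATEMENT OF THEOREM 7.1 (exponential-profile obstruction), 07-profiles.tex l.15-62.     Author: helper161 (captain memo #8a).
DEFINITIONS ONLY + one proved corollary; no `sorry`.  Everybody in Section 7 imports this file.

* `Shape.S7Lim x h ℓ m c₀`          (7.2): the rescaled fields `F_n(S) = f(s_n + ℓ_n S)/m_n`, `Q_n(S) = q(s_n + ℓ_n S)/m_n²`, `s_n = x_n + i h_n`, converge locally uniformly on `ℂ`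
                                    to `(c₀ e^{-iS}, 0)` or to `(0, c₀² e^{-2iS})`.   (Outside the strip `f`, `q` have junk values; locally uniform convergence only sees large `n`,
                                    for which a given compact set is inside `(D_H - s_n)/ℓ_n`.)
* `Shape.S7Profile x h ℓ m c₀ α₀`   the hypotheses common to both cases: `c₀ ≠ 0`, `ℓ_n, m_n > 0`, `b_n = ℓ_n m_n → ∞`, (7.2), `1/2 < α₀ < 1`.
* `Shape.S7Fin x h ℓ m α₀ δb`       case (i), `H < ∞`: `|h_n| < H`, `h_n → H`, `ℓ_n → 0`, `(H - h_n)/ℓ_n → ∞` (exhaustion), `0 < δ_b < H/2`, and the coarser cone bound (7.3):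
                                    for every aperture `L` there is `C_L` with, eventually, `M(s) ≤ C_L m_n (ℓ_n/δ)^{α₀}` for `ℓ_n ≤ δ = h_n - Im s ≤ δ_b`, `|Re s - x_n| ≤ L δ`.
* `Shape.S7Top x h ℓ m α₀`          case (ii), `H = ∞`: `h_n → ∞`, `ℓ_n ≤ C`, (7.3) with ONE constant, all horizontal positions, `ℓ_n ≤ δ ≤ h_n`, and (7.4) `log (1 + h_n/ℓ_n) = o(log m_n)`.
* `Shape.S7NoFin`, `Shape.S7NoTop`  THEOREM 7.1 in the two cases, as `Prop`s.   PROVED in `S7/Contract.lean`/`S7/Main.lean` (helper194) from Lemmas 7.2-7.5; CONSUMED by Theorem 7.7 (`S7NoFin`, `S7NoTop`,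
                                    first profile only) and by Section 9 (`S7NoFin`, both profiles).
* `Shape.s7_obstruction_of`         `S7NoFin` ⇒ the statement `s9i_exp_obstruction` of `S9/Imports.lean`, VERBATIM.
-/
import Claimed.Agent.R269.ShapeBasic

set_option autoImplicit false

namespace Claimed.Agent.R269

open Complex Filter Topology
open scoped ENNReal Real

namespace Shape

variable (Sh : Shape)

/-- (7.1)-(7.2): the two exponential limit profiles. -/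
def S7Lim (x h ℓ m : ℕ → ℝ) (c₀ : ℂ) : Prop :=
  (TendstoLocallyUniformly (fun n S => Sh.f (⟨x n, h n⟩ + (ℓ n : ℂ) * S) / (m n : ℂ))
      (fun S => c₀ * Complex.exp (-(I * S))) atTop ∧
    TendstoLocallyUniformly (fun n S => Sh.q (⟨x n, h n⟩ + (ℓ n : ℂ) * S) / (m n : ℂ) ^ 2)
      (fun _ => 0) atTop) ∨
  (TendstoLocallyUniformly (fun n S => Sh.f (⟨x n, h n⟩ + (ℓ n : ℂ) * S) / (m n : ℂ))
      (fun _ => 0) atTop ∧
    TendstoLocallyUniformly (fun n S => Sh.q (⟨x n, h n⟩ + (ℓ n : ℂ) * S) / (m n : ℂ) ^ 2)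
      (fun S => c₀ ^ 2 * Complex.exp (-(2 * I * S))) atTop)

/-- the hypotheses of Theorem 7.1 common to both cases. -/
structure S7Profile (x h ℓ m : ℕ → ℝ) (c₀ : ℂ) (α₀ : ℝ) : Prop where
  c₀_ne : c₀ ≠ 0
  ℓ_pos : ∀ n, 0 < ℓ n
  m_pos : ∀ n, 0 < m n
  b_top : Tendsto (fun n => ℓ n * m n) atTop atTop
  lim : Sh.S7Lim x h ℓ m c₀
  α₀_gt : 1 / 2 < α₀
  α₀_lt : α₀ < 1

/-- case (i) of Theorem 7.1 (`H < ∞`). -/
structure S7Fin (x h ℓ m : ℕ → ℝ) (α₀ δb : ℝ) : Prop where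
  h_lt : ∀ n, |h n| < Sh.Hr
  h_lim : Tendsto h atTop (𝓝 Sh.Hr)
  ℓ_lim : Tendsto ℓ atTop (𝓝 0)
  exhaust : Tendsto (fun n => (Sh.Hr - h n) / ℓ n) atTop atTop
  δb_pos : 0 < δb
  δb_lt : δb < Sh.Hr / 2
  cone : ∀ L : ℝ, ∃ C : ℝ, ∀ᶠ n in atTop, ∀ s : ℂ, ℓ n ≤ h n - s.im → h n - s.im ≤ δb →
    |s.re - x n| ≤ L * (h n - s.im) → Sh.M s ≤ C * m n * (ℓ n / (h n - s.im)) ^ α₀

/-- case (ii) of Theorem 7.1 (`H = ∞`). -/
structure S7Top (x h ℓ m : ℕ → ℝ) (α₀ : ℝ) : Prop where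
  h_lim : Tendsto h atTop atTop
  ℓ_le : ∃ C : ℝ, ∀ n, ℓ n ≤ C
  cone : ∃ C : ℝ, ∀ᶠ n in atTop, ∀ s : ℂ, ℓ n ≤ h n - s.im → h n - s.im ≤ h n →
    Sh.M s ≤ C * m n * (ℓ n / (h n - s.im)) ^ α₀
  log : Tendsto (fun n => Real.log (1 + h n / ℓ n) / Real.log (m n)) atTop (𝓝 0)

/-- **Theorem 7.1, case `H < ∞`.** -/
def S7NoFin : Prop :=
  Sh.H ≠ ⊤ → ∀ (x h ℓ m : ℕ → ℝ) (c₀ : ℂ) (α₀ δb : ℝ),
    Sh.S7Profile x h ℓ m c₀ α₀ → Sh.S7Fin x h ℓ m α₀ δb → False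

/-- **Theorem 7.1, case `H = ∞`.** -/
def S7NoTop : Prop :=
  Sh.H = ⊤ → ∀ (x h ℓ m : ℕ → ℝ) (c₀ : ℂ) (α₀ : ℝ),
    Sh.S7Profile x h ℓ m c₀ α₀ → Sh.S7Top x h ℓ m α₀ → False

/-- `S7NoFin` gives `s9i_exp_obstruction` (S9/Imports.lean) verbatim. -/
theorem s7_obstruction_of (hno : Sh.S7NoFin) (hH : Sh.H ≠ ⊤) (x h ℓ m : ℕ → ℝ) (c₀ : ℂ)
    (hc₀ : c₀ ≠ 0) (α₀ δb : ℝ)
    (hpos : ∀ n, 0 < ℓ n ∧ 0 < m n ∧ |h n| < Sh.Hr)
    (hb : Tendsto (fun n => ℓ n * m n) atTop atTop)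
    (hh : Tendsto h atTop (𝓝 Sh.Hr)) (hℓ : Tendsto ℓ atTop (𝓝 0))
    (hex : Tendsto (fun n => (Sh.Hr - h n) / ℓ n) atTop atTop)
    (hlim :
      (TendstoLocallyUniformly (fun n S => Sh.f (⟨x n, h n⟩ + (ℓ n : ℂ) * S) / (m n : ℂ))
          (fun S => c₀ * Complex.exp (-(I * S))) atTop ∧
        TendstoLocallyUniformly (fun n S => Sh.q (⟨x n, h n⟩ + (ℓ n : ℂ) * S) / (m n : ℂ) ^ 2)
          (fun _ => 0) atTop) ∨
      (TendstoLocallyUniformly (fun n S => Sh.f (⟨x n, h n⟩ + (ℓ n : ℂ) * S) / (m n : ℂ))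
          (fun _ => 0) atTop ∧
        TendstoLocallyUniformly (fun n S => Sh.q (⟨x n, h n⟩ + (ℓ n : ℂ) * S) / (m n : ℂ) ^ 2)
          (fun S => c₀ ^ 2 * Complex.exp (-(2 * I * S))) atTop))
    (hα₀ : 1 / 2 < α₀) (hα₀' : α₀ < 1) (hδb : 0 < δb) (hδb' : δb < Sh.Hr / 2)
    (hcone : ∀ L : ℝ, ∃ C : ℝ, ∀ᶠ n in atTop, ∀ s : ℂ, ℓ n ≤ h n - s.im → h n - s.im ≤ δb →
      |s.re - x n| ≤ L * (h n - s.im) → Sh.M s ≤ C * m n * (ℓ n / (h n - s.im)) ^ α₀) : False :=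
  hno hH x h ℓ m c₀ α₀ δb
    ⟨hc₀, fun n => (hpos n).1, fun n => (hpos n).2.1, hb, hlim, hα₀, hα₀'⟩
    ⟨fun n => (hpos n).2.2, hh, hℓ, hex, hδb, hδb', hcone⟩

end Shape

end Claimed.Agent.R269
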