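/-
Row 269, P1 Section 7: REDUCTION OF THEOREM 7.1 (i) TO `c₀ = 1`.   LEAF PACKAGE LF-S7-normalise (ONE FILE = ONE OWNER).   Statements: helper146.
* `Shape.s7_normalise_fin`  : `x' = x + ℓ arg c₀`, `m' = |c₀| m`.   `F'_n(S) = F_n(S + β)/|c₀| → c₀ e^{-i(S+β)}/|c₀| = e^{-iS}` (`β = arg c₀`), `Q'_n(S) = Q_n(S+β)/|c₀|² → e^{-2iS}`  (`TendstoLocallyUniformly.comp` with the translation).
                              Cone: `|Re s - x'| ≤ L δ` and `δ ≥ ℓ` imply `|Re s - x| ≤ (L + π) δ`; the constant becomes `C_{L+π}/|c₀|`·...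
-/
import Claimed.Agent.R269.S7.Hyp
import Claimed.Agent.R269.S7.Stmt

set_option autoImplicit false

namespace Claimed.Agent.R269

open Complex Filter Topology Set Metric
open scoped ENNReal Real

/-- translation by `β` and division by a constant `k` in a rescaled locally uniform limit. -/
theorem s7n_lim (G : ℂ → ℂ) (x h ℓ : ℕ → ℝ) (μ : ℕ → ℂ) (P : ℂ → ℂ) (β : ℝ) (k : ℂ)
    (H : TendstoLocallyUniformly (fun n S => G ((⟨x n, h n⟩ : ℂ) + (ℓ n : ℂ) * S) / μ n) P atTop) :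
    TendstoLocallyUniformly
      (fun n S => G ((⟨x n + ℓ n * β, h n⟩ : ℂ) + (ℓ n : ℂ) * S) / (k * μ n))
      (fun S => P (S + β) / k) atTop := by
  have h1 := H.comp (fun S : ℂ => S + (β : ℂ)) (by fun_prop)
  have h2 := (uniformContinuous_const_smul (k⁻¹ : ℂ)).comp_tendstoLocallyUniformly h1
  refine (h2.congr ?_).congr_right ?_
  · intro n S
    simp only [Function.comp, smul_eq_mul]
    have e : (⟨x n + ℓ n * β, h n⟩ : ℂ) + (ℓ n : ℂ) * S
        = (⟨x n, h n⟩ : ℂ) + (ℓ n : ℂ) * (S + (β : ℂ)) := by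
      apply Complex.ext <;> simp <;> ring
    rw [e, div_mul_eq_div_div_swap, div_eq_mul_inv _ k, mul_comm]
  · intro S
    simp only [Function.comp, smul_eq_mul]
    rw [div_eq_mul_inv, mul_comm]

/-- the normalised limits (both profiles). -/
theorem s7n_profiles (f q : ℂ → ℂ) (x h ℓ m : ℕ → ℝ) (c₀ : ℂ) (hc₀ : c₀ ≠ 0)
    (hlim :
      (TendstoLocallyUniformly (fun n S => f (⟨x n, h n⟩ + (ℓ n : ℂ) * S) / (m n : ℂ))
          (fun S => c₀ * Complex.exp (-(I * S))) atTop ∧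
        TendstoLocallyUniformly (fun n S => q (⟨x n, h n⟩ + (ℓ n : ℂ) * S) / (m n : ℂ) ^ 2)
          (fun _ => 0) atTop) ∨
      (TendstoLocallyUniformly (fun n S => f (⟨x n, h n⟩ + (ℓ n : ℂ) * S) / (m n : ℂ))
          (fun _ => 0) atTop ∧
        TendstoLocallyUniformly (fun n S => q (⟨x n, h n⟩ + (ℓ n : ℂ) * S) / (m n : ℂ) ^ 2)
          (fun S => c₀ ^ 2 * Complex.exp (-(2 * I * S))) atTop)) :
    ∃ fst : Bool,
      TendstoLocallyUniformly (fun n S => f ((⟨x n + ℓ n * Complex.arg c₀, h n⟩ : ℂ) + (ℓ n : ℂ) * S)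
        / ((‖c₀‖ * m n : ℝ) : ℂ)) (s7pF fst) atTop ∧
      TendstoLocallyUniformly (fun n S => q ((⟨x n + ℓ n * Complex.arg c₀, h n⟩ : ℂ) + (ℓ n : ℂ) * S)
        / ((‖c₀‖ * m n : ℝ) : ℂ) ^ 2) (s7pQ fst) atTop := by
  have hk : (‖c₀‖ : ℂ) ≠ 0 := by
    exact_mod_cast (norm_pos_iff.2 hc₀).ne'
  have hpol := Complex.norm_mul_exp_arg_mul_I c₀
  have hex : Complex.exp (Complex.arg c₀ * I) * Complex.exp (-(Complex.arg c₀ * I)) = 1 := by
    rw [← Complex.exp_add, add_neg_cancel, Complex.exp_zero]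
  rcases hlim with ⟨hF, hQ⟩ | ⟨hF, hQ⟩
  · refine ⟨true, ?_, ?_⟩
    · have := s7n_lim f x h ℓ (fun n => (m n : ℂ)) _ (Complex.arg c₀) (‖c₀‖ : ℂ) hF
      refine (this.congr ?_).congr_right ?_
      · intro n S
        push_cast
        rfl
      · intro S
        simp only [s7pF, if_true]
        rw [div_eq_iff hk]
        have e1 : Complex.exp (-(I * (S + (Complex.arg c₀ : ℂ))))
            = Complex.exp (-(I * S)) * Complex.exp (-(Complex.arg c₀ * I)) := by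
          rw [← Complex.exp_add]
          congr 1
          ring
        rw [e1]
        calc c₀ * (Complex.exp (-(I * S)) * Complex.exp (-(Complex.arg c₀ * I)))
            = (‖c₀‖ * Complex.exp (Complex.arg c₀ * I))
                * (Complex.exp (-(I * S)) * Complex.exp (-(Complex.arg c₀ * I))) := by rw [hpol]
          _ = Complex.exp (-(I * S)) * ‖c₀‖
                * (Complex.exp (Complex.arg c₀ * I) * Complex.exp (-(Complex.arg c₀ * I))) := by ring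
          _ = Complex.exp (-(I * S)) * ‖c₀‖ := by rw [hex, mul_one]
    · have := s7n_lim q x h ℓ (fun n => (m n : ℂ) ^ 2) _ (Complex.arg c₀) ((‖c₀‖ : ℂ) ^ 2) hQ
      refine (this.congr ?_).congr_right ?_
      · intro n S
        push_cast
        rw [mul_pow]
      · intro S
        simp [s7pQ]
  · refine ⟨false, ?_, ?_⟩
    · have := s7n_lim f x h ℓ (fun n => (m n : ℂ)) _ (Complex.arg c₀) (‖c₀‖ : ℂ) hF
      refine (this.congr ?_).congr_right ?_
      · intro n S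
        push_cast
        rfl
      · intro S
        simp [s7pF]
    · have := s7n_lim q x h ℓ (fun n => (m n : ℂ) ^ 2) _ (Complex.arg c₀) ((‖c₀‖ : ℂ) ^ 2) hQ
      refine (this.congr ?_).congr_right ?_
      · intro n S
        push_cast
        rw [mul_pow]
      · intro S
        simp only [s7pQ, Bool.false_eq_true, if_false]
        rw [div_eq_iff (pow_ne_zero 2 hk)]
        have e1 : Complex.exp (-(2 * I * (S + (Complex.arg c₀ : ℂ))))
            = Complex.exp (-(2 * I * S)) * Complex.exp (-(Complex.arg c₀ * I)) ^ 2 := by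
          rw [← Complex.exp_nat_mul, ← Complex.exp_add]
          congr 1
          push_cast
          ring
        rw [e1]
        calc c₀ ^ 2 * (Complex.exp (-(2 * I * S)) * Complex.exp (-(Complex.arg c₀ * I)) ^ 2)
            = (‖c₀‖ * Complex.exp (Complex.arg c₀ * I)) ^ 2
                * (Complex.exp (-(2 * I * S)) * Complex.exp (-(Complex.arg c₀ * I)) ^ 2) := by
              rw [hpol]
          _ = Complex.exp (-(2 * I * S)) * (‖c₀‖ : ℂ) ^ 2
                * (Complex.exp (Complex.arg c₀ * I) * Complex.exp (-(Complex.arg c₀ * I))) ^ 2 := by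
              ring
          _ = Complex.exp (-(2 * I * S)) * (‖c₀‖ : ℂ) ^ 2 := by rw [hex, one_pow, mul_one]

namespace Shape

variable (Sh : Shape)

/-- LEAF LF-S7-normalise: reduction to `c₀ = 1`. -/
theorem s7_normalise_fin (hH : Sh.H ≠ ⊤) (x h ℓ m : ℕ → ℝ) (c₀ : ℂ) (hc₀ : c₀ ≠ 0) (α₀ δb : ℝ)
    (hpos : ∀ n, 0 < ℓ n ∧ 0 < m n ∧ |h n| < Sh.Hr)
    (hb : Tendsto (fun n => ℓ n * m n) atTop atTop)
    (hh : Tendsto h atTop (𝓝 Sh.Hr)) (hℓ : Tendsto ℓ atTop (𝓝 0))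
    (hex : Tendsto (fun n => (Sh.Hr - h n) / ℓ n) atTop atTop)
    (hlim :
      (TendstoLocallyUniformly (fun n S => Sh.f (⟨x n, h n⟩ + (ℓ n : ℂ) * S) / (m n : ℂ))
          (fun S => c₀ * Complex.exp (-(I * S))) atTop ∧
        TendstoLocallyUniformly (fun n S => Sh.q (⟨x n, h n⟩ + (ℓ n : ℂ) * S) / (m n : ℂ) ^ 2)
          (fun _ => 0) atTop) ∨
      (TendstoLocallyUniformly (fun n S => Sh.f (⟨x n, h n⟩ + (ℓ n : ℂ) * S) / (m n : ℂ))
          (fun _ => 0) atTop ∧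
        TendstoLocallyUniformly (fun n S => Sh.q (⟨x n, h n⟩ + (ℓ n : ℂ) * S) / (m n : ℂ) ^ 2)
          (fun S => c₀ ^ 2 * Complex.exp (-(2 * I * S))) atTop))
    (hα₀ : 1 / 2 < α₀) (hα₀' : α₀ < 1) (hδb : 0 < δb) (hδb' : δb < Sh.Hr / 2)
    (hcone : ∀ L : ℝ, ∃ C : ℝ, ∀ᶠ n in atTop, ∀ s : ℂ, ℓ n ≤ h n - s.im → h n - s.im ≤ δb →
      |s.re - x n| ≤ L * (h n - s.im) → Sh.M s ≤ C * m n * (ℓ n / (h n - s.im)) ^ α₀) :
    ∃ fst : Bool, S7HypFin Sh fst (fun n => x n + ℓ n * Complex.arg c₀) h ℓ (fun n => ‖c₀‖ * m n) α₀ δb := by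
  have hk : 0 < ‖c₀‖ := norm_pos_iff.2 hc₀
  obtain ⟨fst, hF, hQ⟩ := s7n_profiles Sh.f Sh.q x h ℓ m c₀ hc₀ hlim
  refine ⟨fst, ⟨hH, fun n => ⟨(hpos n).1, mul_pos hk (hpos n).2.1, (hpos n).2.2⟩, ?_, hh, hℓ, hex,
    hF, hQ, hα₀, hα₀', hδb, hδb', ?_⟩⟩
  · refine (hb.const_mul_atTop hk).congr fun n => ?_
    ring
  · intro L
    obtain ⟨C, hC⟩ := hcone (L + π)
    refine ⟨C / ‖c₀‖, ?_⟩
    filter_upwards [hC] with n hn s h1 h2 h3
    have h4 : |s.re - x n| ≤ (L + π) * (h n - s.im) := by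
      have e1 : s.re - x n = (s.re - (x n + ℓ n * Complex.arg c₀)) + ℓ n * Complex.arg c₀ := by ring
      have e2 : |ℓ n * Complex.arg c₀| ≤ (h n - s.im) * π := by
        rw [abs_mul, abs_of_pos (hpos n).1]
        exact mul_le_mul h1 (Complex.abs_arg_le_pi c₀) (abs_nonneg _)
          ((hpos n).1.le.trans h1)
      rw [e1]
      refine (abs_add_le _ _).trans ?_
      linarith
    have := hn s h1 h2 h4
    rw [show C / ‖c₀‖ * (‖c₀‖ * m n) = C * m n by field_simp]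
    exact this

/-- reduction to `c₀ = 1`, case `H = ∞`. -/
theorem s7_normalise_inf (hH : Sh.H = ⊤) (x h ℓ m : ℕ → ℝ) (c₀ : ℂ) (α₀ : ℝ)
    (hp : Sh.S7Profile x h ℓ m c₀ α₀) (ht : Sh.S7Top x h ℓ m α₀) :
    ∃ fst : Bool, S7HypInf Sh fst (fun n => x n + ℓ n * Complex.arg c₀) h ℓ (fun n => ‖c₀‖ * m n) α₀ := by
  have hk : 0 < ‖c₀‖ := norm_pos_iff.2 hp.c₀_ne
  obtain ⟨fst, hF, hQ⟩ := s7n_profiles Sh.f Sh.q x h ℓ m c₀ hp.c₀_ne hp.lim
  refine ⟨fst, ⟨hH, fun n => ⟨hp.ℓ_pos n, mul_pos hk (hp.m_pos n)⟩, ?_, ht.h_lim, ht.ℓ_le,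
    hF, hQ, hp.α₀_gt, hp.α₀_lt, ?_, ?_⟩⟩
  · refine (hp.b_top.const_mul_atTop hk).congr fun n => ?_
    ring
  · obtain ⟨C, hC⟩ := ht.cone
    refine ⟨C / ‖c₀‖, ?_⟩
    filter_upwards [hC] with n hn s h1 h2
    have := hn s h1 (by linarith)
    rw [show C / ‖c₀‖ * (‖c₀‖ * m n) = C * m n by field_simp]
    exact this
  · -- `m → ∞`
    obtain ⟨C, hC⟩ := ht.ℓ_le
    have hm : Tendsto m atTop atTop := by
      have hC' : (0 : ℝ) < max C 1 := lt_of_lt_of_le one_pos (le_max_right _ _)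
      have h1 : Tendsto (fun n => (max C 1)⁻¹ * (ℓ n * m n)) atTop atTop :=
        hp.b_top.const_mul_atTop (inv_pos.2 hC')
      refine tendsto_atTop_mono (fun n => ?_) h1
      rw [inv_mul_le_iff₀ hC']
      exact mul_le_mul_of_nonneg_right ((hC n).trans (le_max_left _ _)) (hp.m_pos n).le
    have hlm : Tendsto (fun n => Real.log (m n)) atTop atTop := Real.tendsto_log_atTop.comp hm
    have h2 : Tendsto (fun n => Real.log ‖c₀‖ / (Real.log ‖c₀‖ + Real.log (m n))) atTop (𝓝 0) :=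
      tendsto_const_nhds.div_atTop (tendsto_atTop_add_const_left _ _ hlm)
    have h3 : Tendsto (fun n => Real.log (1 + h n / ℓ n) / Real.log (m n)
        * (1 - Real.log ‖c₀‖ / (Real.log ‖c₀‖ + Real.log (m n)))) atTop (𝓝 (0 * (1 - 0))) :=
      ht.log.mul (tendsto_const_nhds.sub h2)
    rw [zero_mul] at h3
    refine h3.congr' ?_
    filter_upwards [hlm.eventually_gt_atTop 0,
      (tendsto_atTop_add_const_left _ (Real.log ‖c₀‖) hlm).eventually_gt_atTop 0] with n g1 g2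
    rw [Real.log_mul hk.ne' (hp.m_pos n).ne']
    field_simp
    ring

end Shape

end Claimed.Agent.R269
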