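/-
Row 269, P1 Section 7: **THEOREM 7.1 (exponential-profile obstruction)** from the core `S7Sys.false`, the models and Lemma 7.2.   Owner: helper146.   (GLUE, no `sorry` in this file.)
* `Shape.s7_fin_false : S7HypFin .. → False`,  `Shape.s7_inf_false : S7HypInf .. → False`   (normalised forms, used by Theorem 7.7);
* `Shape.s7_exp_obstruction` : verbatim the statement `s9i_exp_obstruction` of S9/Imports.lean.
-/
import Claimed.Agent.R269.S7.Core
import Claimed.Agent.R269.S7.ModelStmt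
import Claimed.Agent.R269.S7.DeepFin
import Claimed.Agent.R269.S7.DeepInf
import Claimed.Agent.R269.S7.Normalise

set_option autoImplicit false

namespace Claimed.Agent.R269

open Complex Filter Topology Set Metric
open scoped ENNReal Real

namespace Shape

variable (Sh : Shape)

/-- Theorem 7.1 (i), normalised. -/
theorem s7_fin_false {fst : Bool} {x h ℓ m : ℕ → ℝ} {α₀ δb : ℝ} (hy : S7HypFin Sh fst x h ℓ m α₀ δb) :
    False := by
  obtain ⟨h1, h2, h3⟩ := Sh.s7_sys_fin hy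
  let Y : S7Sys Sh :=
    { fst := fst, x := x, h := h, ℓ := ℓ, m := m
      ℓ_pos := fun n => (hy.pos n).1
      m_pos := fun n => (hy.pos n).2.1
      b_tendsto := hy.hb
      m_tendsto := h1
      height := h2
      exhaust := h3
      limF := hy.limF
      limQ := hy.limQ
      deep := Sh.s7_deep_fin hy }
  obtain ⟨M⟩ := s7_model fst
  exact Y.false M

/-- Theorem 7.1 (ii), normalised. -/
theorem s7_inf_false {fst : Bool} {x h ℓ m : ℕ → ℝ} {α₀ : ℝ} (hy : S7HypInf Sh fst x h ℓ m α₀) : False := by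
  obtain ⟨h1, h2, h3⟩ := Sh.s7_sys_inf hy
  let Y : S7Sys Sh :=
    { fst := fst, x := x, h := h, ℓ := ℓ, m := m
      ℓ_pos := fun n => (hy.pos n).1
      m_pos := fun n => (hy.pos n).2
      b_tendsto := hy.hb
      m_tendsto := h1
      height := h2
      exhaust := h3
      limF := hy.limF
      limQ := hy.limQ
      deep := Sh.s7_deep_inf hy }
  obtain ⟨M⟩ := s7_model fst
  exact Y.false M

/-- **Theorem 7.1, case `H < ∞`** (verbatim the statement `s9i_exp_obstruction` of S9/Imports.lean). -/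
theorem s7_exp_obstruction (hH : Sh.H ≠ ⊤) (x h ℓ m : ℕ → ℝ) (c₀ : ℂ) (hc₀ : c₀ ≠ 0) (α₀ δb : ℝ)
    (hpos : ∀ n, 0 < ℓ n ∧ 0 < m n ∧ |h n| < Sh.Hr)
    (hb : Tendsto (fun n => ℓ n * m n) atTop atTop)
    (hh : Tendsto h atTop (𝓝 Sh.Hr)) (hℓ : Tendsto ℓ atTop (𝓝 0))
    (hex : Tendsto (fun n => (Sh.Hr - h n) / ℓ n) atTop atTop)
    (hlim :
      (TendstoLocallyUniformly (fun n S => Sh.f (⟨x n, h n⟩ + (ℓ n : ℂ) * S) / (m n : ℂ))
          (fun S => c₀ * Complex.exp (-(I * S))) atTop ∧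
        TendstoLocallyUniformly (fun n S => Sh.q (⟨x n, h n⟩ + (ℓ n : ℂ) * S) / (m n : ℂ) ^ 2)
          (fun _ => 0) atTop) ∨
      (TendstoLocallyUniformly (fun n S => Sh.f (⟨x n, h n⟩ + (ℓ n : ℂ) * S) / (m n : ℂ))
          (fun _ => 0) atTop ∧
        TendstoLocallyUniformly (fun n S => Sh.q (⟨x n, h n⟩ + (ℓ n : ℂ) * S) / (m n : ℂ) ^ 2)
          (fun S => c₀ ^ 2 * Complex.exp (-(2 * I * S))) atTop))
    (hα₀ : 1 / 2 < α₀) (hα₀' : α₀ < 1) (hδb : 0 < δb) (hδb' : δb < Sh.Hr / 2)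
    (hcone : ∀ L : ℝ, ∃ C : ℝ, ∀ᶠ n in atTop, ∀ s : ℂ, ℓ n ≤ h n - s.im → h n - s.im ≤ δb →
      |s.re - x n| ≤ L * (h n - s.im) → Sh.M s ≤ C * m n * (ℓ n / (h n - s.im)) ^ α₀) : False := by
  obtain ⟨fst, hy⟩ := Sh.s7_normalise_fin hH x h ℓ m c₀ hc₀ α₀ δb hpos hb hh hℓ hex hlim hα₀ hα₀' hδb
    hδb' hcone
  exact Sh.s7_fin_false hy

end Shape

end Claimed.Agent.R269
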