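/-
Row 269, P1 Section 7: **Lemma 7.6 (log-deficit estimate)**.   HOST-FREE (Mathlib, `s8_polar` of S8/LibMean.lean, `Chn.cyl_jensen` of Lib/Cyl.lean).
Blueprint + glue: helper251.   Export: `s7_log_deficit` (verbatim the statement `s8i_log_deficit` of S8/Imports.lean).

ROUTE (differs from the paper: no distributions, no Jensen formula, no harmonic functions).
 (0) affine normalisation + good centre `z₀` (`s7ld_good_centre`): `F ζ = e^{-K} f (z₀ + (15 r/16) ζ)` on the unit disc, `|F| ≤ 1`, `a := log (1/|F 0|) ≤ 256 I + 1`.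
 (A) `s7ld_factor`: `F = ∏_{j<N} (z - w_j) * h` on the unit disc, `|w_j| ≤ R`, `N log (1/R) ≤ a`, `h ≠ 0` on `closedBall 0 R`, `|h| ≤ (1-R)^{-N}`, `|h 0| ≥ |F 0|`.
     Induction with the Blaschke step `s7ld_blaschke_step`.
 (B) `s7ld_logder`: `L = h'/h` and `L'` are `O(B)` on `ball 0 (1/2)` if `|h| ≤ e^B |h 0|` on `ball 0 (7/8)` (primitive of `h'/h`, Borel-Caratheodory, Cauchy estimates).
 (C) `s7ld_pointwise`: `q = (σ₁ + L)² - σ₂ + L'`, `σ_k = ∑ (z - w_j)^{-k}`, hence `√|q| ≤ 2 ∑ |z - w_j|⁻¹ + |L| + √|L'|`.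
 (D) `s7ld_lintegral_inv`: `∫_{B(c,s)} |z - w|⁻¹ ≤ 3 π s`.
 (E) `s7ld_submean`: `√|q|` has the sub-mean value property on discs (`cyl_jensen` + convexity of `exp` + polar coordinates).
 GLUE (proved below): `s7ld_centred` from (A)-(E); `s7_log_deficit` from `s7ld_centred` + `s7ld_good_centre`.

LEAVES (fill the `sorry` IN PLACE, auxiliary lemmas directly above with prefix `s7ld_`, statements verbatim; doubts: msg helper251):
  LF-S7-ld-A1 `s7ld_blaschke_step`   LF-S7-ld-A2 `s7ld_factor`   LF-S7-ld-B `s7ld_logder`   LF-S7-ld-C `s7ld_pointwise`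
  LF-S7-ld-D `s7ld_lintegral_inv`    LF-S7-ld-E1 `s7ld_submean_circle`   LF-S7-ld-E2 `s7ld_submean_ball`   LF-S7-ld-F `s7ld_good_centre`
-/
import Claimed.Agent.R269.S8.LibMean
import Claimed.Agent.R269.Lib.Cyl

set_option autoImplicit false

namespace Claimed.Agent.R269

open Complex ComplexConjugate MeasureTheory Set Metric Filter Topology
open scoped ENNReal Real

/-! ### (A) zeros -/

theorem s7ld_blaschke_id (z w : ℂ) :
    ‖1 - conj w * z‖ ^ 2 = ‖z - w‖ ^ 2 + (1 - ‖z‖ ^ 2) * (1 - ‖w‖ ^ 2) := by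
  simp only [Complex.sq_norm, Complex.normSq_apply]
  simp
  ring

/-- LEAF A1.  **Blaschke step** (Schwarz-Pick): a zero `w` of a holomorphic `F : 𝔻 → closed 𝔻` can be divided out by the Blaschke factor.
PROOF.  `F₁ z := dslope F w z * (1 - conj w * z)`: differentiable on the ball (`differentiableOn_dslope`, the ball is a nbhd of `w`), and
`(z - w) * dslope F w z = F z - F w = F z` (`sub_smul_dslope`), which is the identity.   Bound: fix `z₁` in the ball and `ρ` with `max ‖z₁‖ ‖w‖ < ρ < 1`.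
On the sphere `‖z‖ = ρ`: `‖F₁ z‖ = ‖F z‖ ‖1 - conj w z‖ / ‖z - w‖ ≤ ‖1 - conj w z‖ / ‖z - w‖`, and
`‖1 - conj w z‖² - ‖z - w‖² = (1 - ‖z‖²)(1 - ‖w‖²)`, `‖z - w‖ ≥ ρ - ‖w‖`, so `‖F₁ z‖² ≤ 1 + (1 - ρ²)/(ρ - ‖w‖)²`.
Maximum principle on `closedBall 0 ρ` (`Complex.norm_le_of_forall_mem_frontier_norm_le`, `frontier_ball`/`frontier_closedBall`): the same bound at `z₁`.
Let `ρ → 1` (`ge_of_tendsto` / `le_of_forall_pos_le_add`). -/
theorem s7ld_blaschke_step (F : ℂ → ℂ) (hF : DifferentiableOn ℂ F (ball 0 1))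
    (hb : ∀ z ∈ ball (0 : ℂ) 1, ‖F z‖ ≤ 1) (w : ℂ) (hw : ‖w‖ < 1) (hFw : F w = 0) :
    ∃ F₁ : ℂ → ℂ, DifferentiableOn ℂ F₁ (ball 0 1) ∧ (∀ z ∈ ball (0 : ℂ) 1, ‖F₁ z‖ ≤ 1) ∧
      ∀ z ∈ ball (0 : ℂ) 1, F z * (1 - conj w * z) = (z - w) * F₁ z := by
  have hwb : w ∈ ball (0 : ℂ) 1 := by simpa using hw
  have hds : DifferentiableOn ℂ (dslope F w) (ball 0 1) :=
    (differentiableOn_dslope (isOpen_ball.mem_nhds hwb)).2 hF
  have hd : DifferentiableOn ℂ (fun z => dslope F w z * (1 - conj w * z)) (ball 0 1) := by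
    refine hds.mul ?_
    fun_prop
  have hid : ∀ z : ℂ, F z * (1 - conj w * z) = (z - w) * (dslope F w z * (1 - conj w * z)) := by
    intro z
    have h1 := sub_smul_dslope F w z
    rw [hFw, sub_zero, smul_eq_mul] at h1
    rw [← h1]; ring
  refine ⟨fun z => dslope F w z * (1 - conj w * z), hd, ?_, fun z _ => hid z⟩
  intro z₁ hz₁
  have hz₁' : ‖z₁‖ < 1 := by simpa using hz₁
  set F₁ : ℂ → ℂ := fun z => dslope F w z * (1 - conj w * z) with hF₁
  -- bound for each ρ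
  have key : ∀ ρ ∈ Ioo (max ‖z₁‖ ‖w‖) 1, ‖F₁ z₁‖ ^ 2 ≤ 1 + (1 - ρ ^ 2) / (ρ - ‖w‖) ^ 2 := by
    intro ρ hρ
    have hρz : ‖z₁‖ < ρ := lt_of_le_of_lt (le_max_left _ _) hρ.1
    have hρw : ‖w‖ < ρ := lt_of_le_of_lt (le_max_right _ _) hρ.1
    have hρ0 : 0 < ρ := lt_of_le_of_lt (norm_nonneg _) hρz
    have hρ1 : ρ < 1 := hρ.2
    have hsub : closedBall (0 : ℂ) ρ ⊆ ball 0 1 := closedBall_subset_ball hρ1
    have hC0 : 0 ≤ 1 + (1 - ρ ^ 2) / (ρ - ‖w‖) ^ 2 := by
      have : 0 ≤ (1 - ρ ^ 2) / (ρ - ‖w‖) ^ 2 := by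
        apply div_nonneg _ (sq_nonneg _)
        nlinarith
      linarith
    have hfr : ∀ z ∈ frontier (ball (0 : ℂ) ρ), ‖F₁ z‖ ≤ Real.sqrt (1 + (1 - ρ ^ 2) / (ρ - ‖w‖) ^ 2) := by
      intro z hz
      rw [frontier_ball _ hρ0.ne'] at hz
      have hzn : ‖z‖ = ρ := by simpa using hz
      have hzb : z ∈ ball (0 : ℂ) 1 := by simpa [hzn] using hρ1
      apply Real.le_sqrt_of_sq_le
      have hzw : ρ - ‖w‖ ≤ ‖z - w‖ := by
        have := norm_sub_norm_le z w
        rwa [hzn] at this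
      have hpos : 0 < ρ - ‖w‖ := by linarith
      have hzw0 : 0 < ‖z - w‖ := lt_of_lt_of_le hpos hzw
      have h1 : ‖z - w‖ * ‖F₁ z‖ = ‖F z‖ * ‖1 - conj w * z‖ := by
        rw [← norm_mul, ← norm_mul, hid z]
      have h2 : ‖z - w‖ * ‖F₁ z‖ ≤ ‖1 - conj w * z‖ := by
        rw [h1]
        calc ‖F z‖ * ‖1 - conj w * z‖ ≤ 1 * ‖1 - conj w * z‖ :=
              mul_le_mul_of_nonneg_right (hb z hzb) (norm_nonneg _)
          _ = _ := one_mul _
      have h3 : (‖z - w‖ * ‖F₁ z‖) ^ 2 ≤ ‖z - w‖ ^ 2 + (1 - ρ ^ 2) * (1 - ‖w‖ ^ 2) := by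
        rw [← hzn, ← s7ld_blaschke_id]
        exact pow_le_pow_left₀ (by positivity) h2 2
      have h4 : ‖F₁ z‖ ^ 2 ≤ 1 + (1 - ρ ^ 2) * (1 - ‖w‖ ^ 2) / ‖z - w‖ ^ 2 := by
        have hp : 0 < ‖z - w‖ ^ 2 := by positivity
        rw [show (1 : ℝ) + (1 - ρ ^ 2) * (1 - ‖w‖ ^ 2) / ‖z - w‖ ^ 2
          = (‖z - w‖ ^ 2 + (1 - ρ ^ 2) * (1 - ‖w‖ ^ 2)) / ‖z - w‖ ^ 2 by field_simp]
        rw [le_div_iff₀ hp]
        nlinarith [h3]
      refine h4.trans ?_
      have h5 : (1 - ρ ^ 2) * (1 - ‖w‖ ^ 2) / ‖z - w‖ ^ 2 ≤ (1 - ρ ^ 2) / (ρ - ‖w‖) ^ 2 := by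
        apply div_le_div₀
        · nlinarith
        · have : 0 ≤ 1 - ρ ^ 2 := by nlinarith
          have h6 : 1 - ‖w‖ ^ 2 ≤ 1 := by nlinarith [sq_nonneg ‖w‖]
          nlinarith
        · positivity
        · exact pow_le_pow_left₀ hpos.le hzw 2
      linarith
    have hmax := Complex.norm_le_of_forall_mem_frontier_norm_le (isBounded_ball (x := (0 : ℂ)) (r := ρ))
      (hd.diffContOnCl_ball hsub) hfr
      (subset_closure (show z₁ ∈ ball (0 : ℂ) ρ by simpa using hρz))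
    calc ‖F₁ z₁‖ ^ 2 ≤ (Real.sqrt (1 + (1 - ρ ^ 2) / (ρ - ‖w‖) ^ 2)) ^ 2 :=
          pow_le_pow_left₀ (norm_nonneg _) hmax 2
      _ = _ := Real.sq_sqrt hC0
  have hlim : Tendsto (fun ρ : ℝ => 1 + (1 - ρ ^ 2) / (ρ - ‖w‖) ^ 2) (𝓝[<] 1) (𝓝 1) := by
    have hc : ContinuousAt (fun ρ : ℝ => 1 + (1 - ρ ^ 2) / (ρ - ‖w‖) ^ 2) 1 := by
      have : ((1 : ℝ) - ‖w‖) ^ 2 ≠ 0 := by
        have : 0 < 1 - ‖w‖ := by linarith
        positivity
      fun_prop (disch := assumption)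
    have := hc.tendsto
    simp only [one_pow, sub_self, zero_div, add_zero] at this
    exact this.mono_left nhdsWithin_le_nhds
  have hsq : ‖F₁ z₁‖ ^ 2 ≤ 1 := by
    refine ge_of_tendsto hlim ?_
    filter_upwards [Ioo_mem_nhdsLT (max_lt hz₁' hw)] with ρ hρ using key ρ hρ
  exact (sq_le_one_iff₀ (norm_nonneg _)).1 hsq

theorem s7ld_factor_aux (R : ℝ) (hR0 : 0 < R) (hR1 : R < 1) (n : ℕ) :
    ∀ F : ℂ → ℂ, DifferentiableOn ℂ F (ball 0 1) → (∀ z ∈ ball (0 : ℂ) 1, ‖F z‖ ≤ 1) →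
      R ^ n < ‖F 0‖ →
    ∃ (N : ℕ) (w : Fin N → ℂ) (G : ℂ → ℂ), (∀ j, ‖w j‖ ≤ R) ∧ DifferentiableOn ℂ G (ball 0 1) ∧
      (∀ z ∈ ball (0 : ℂ) 1, ‖G z‖ ≤ 1) ∧ (∀ z ∈ closedBall (0 : ℂ) R, G z ≠ 0) ∧
      ‖F 0‖ ≤ ‖G 0‖ * R ^ N ∧
      ∀ z ∈ ball (0 : ℂ) 1, F z * ∏ j, (1 - conj (w j) * z) = (∏ j, (z - w j)) * G z := by
  induction n with
  | zero =>
    intro F hF hb h
    exfalso
    have := hb 0 (by simp)
    simp only [pow_zero] at h
    linarith
  | succ n ih =>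
    intro F hF hb h
    by_cases hz : ∀ z ∈ closedBall (0 : ℂ) R, F z ≠ 0
    · exact ⟨0, Fin.elim0, F, fun j => j.elim0, hF, hb, hz, by simp, by intro z _; simp⟩
    · push Not at hz
      obtain ⟨w₀, hw₀, hFw⟩ := hz
      have hw₀R : ‖w₀‖ ≤ R := by simpa using hw₀
      obtain ⟨F₁, hF₁, hb₁, hid⟩ := s7ld_blaschke_step F hF hb w₀ (lt_of_le_of_lt hw₀R hR1) hFw
      have h00 := hid 0 (by simp)
      have hn : ‖F 0‖ = ‖w₀‖ * ‖F₁ 0‖ := by
        have : F 0 = -w₀ * F₁ 0 := by simpa using h00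
        rw [this, norm_mul, norm_neg]
      have hle : ‖F 0‖ ≤ R * ‖F₁ 0‖ := by
        rw [hn]; exact mul_le_mul_of_nonneg_right hw₀R (norm_nonneg _)
      have hlt : R ^ n < ‖F₁ 0‖ := by
        have : R ^ (n + 1) < R * ‖F₁ 0‖ := lt_of_lt_of_le h hle
        rw [pow_succ'] at this
        exact lt_of_mul_lt_mul_left this hR0.le
      obtain ⟨N, w, G, hw, hG, hGb, hGne, hG0, hGid⟩ := ih F₁ hF₁ hb₁ hlt
      refine ⟨N + 1, Fin.cons w₀ w, G, ?_, hG, hGb, hGne, ?_, ?_⟩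
      · intro j
        refine Fin.cases ?_ ?_ j
        · simpa using hw₀R
        · intro i; simpa using hw i
      · calc ‖F 0‖ ≤ R * ‖F₁ 0‖ := hle
          _ ≤ R * (‖G 0‖ * R ^ N) := mul_le_mul_of_nonneg_left hG0 hR0.le
          _ = _ := by ring
      · intro z hz
        rw [Fin.prod_univ_succ, Fin.prod_univ_succ]
        simp only [Fin.cons_zero, Fin.cons_succ]
        calc F z * ((1 - conj w₀ * z) * ∏ j, (1 - conj (w j) * z))
            = (F z * (1 - conj w₀ * z)) * ∏ j, (1 - conj (w j) * z) := by ring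
          _ = (z - w₀) * (F₁ z * ∏ j, (1 - conj (w j) * z)) := by rw [hid z hz]; ring
          _ = _ := by rw [hGid z hz]; ring

/-- LEAF A2.  **Factorisation with zero count.**
PROOF.  Claim `P n`: for all `F` as below with `R ^ n < ‖F 0‖` there are `N < n` (for `n = 0` the hypothesis is absurd: `‖F 0‖ ≤ 1`), `w : Fin N → ℂ`, `G` differentiable on the ball with `‖G‖ ≤ 1`,
`G ≠ 0` on `closedBall 0 R`, `‖w j‖ ≤ R`, `‖F 0‖ ≤ ‖G 0‖ * R ^ N` and `F z * ∏ j, (1 - conj (w j) * z) = (∏ j, (z - w j)) * G z`.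
Induction on `n`: if `F` has no zero in `closedBall 0 R` take `N = 0`, `G = F`.  Otherwise take a zero `w₀` (`w₀ ≠ 0`), `F₁` from `s7ld_blaschke_step`; at `z = 0`: `‖F 0‖ = ‖w₀‖ ‖F₁ 0‖ ≤ R ‖F₁ 0‖`,
so `R ^ n < ‖F₁ 0‖`; apply `P n` to `F₁`, and `Fin.cons w₀ w` (`Fin.prod_univ_succ`).
Then choose `n` with `R ^ n < ‖F 0‖` (`exists_pow_lt_of_lt_one`) and put `h z = G z / ∏ j, (1 - conj (w j) * z)`; `‖1 - conj (w j) z‖ ≥ 1 - R`.
`‖F 0‖ ≤ ‖G 0‖ R^N ≤ R^N` gives `N log (1/R) ≤ log (1/‖F 0‖)`; `h 0 = G 0`. -/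
theorem s7ld_factor (R : ℝ) (hR0 : 0 < R) (hR1 : R < 1) (F : ℂ → ℂ) (hF : DifferentiableOn ℂ F (ball 0 1))
    (hb : ∀ z ∈ ball (0 : ℂ) 1, ‖F z‖ ≤ 1) (h0 : F 0 ≠ 0) :
    ∃ (N : ℕ) (w : Fin N → ℂ) (h : ℂ → ℂ), (∀ j, ‖w j‖ ≤ R) ∧
      (N : ℝ) * Real.log (1 / R) ≤ Real.log (1 / ‖F 0‖) ∧
      DifferentiableOn ℂ h (ball 0 1) ∧ (∀ z ∈ closedBall (0 : ℂ) R, h z ≠ 0) ∧
      (∀ z ∈ ball (0 : ℂ) 1, ‖h z‖ ≤ (1 / (1 - R)) ^ N) ∧ ‖F 0‖ ≤ ‖h 0‖ ∧
      ∀ z ∈ ball (0 : ℂ) 1, F z = (∏ j, (z - w j)) * h z := by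
  have hF0 : 0 < ‖F 0‖ := norm_pos_iff.2 h0
  obtain ⟨n, hn⟩ := exists_pow_lt_of_lt_one hF0 hR1
  obtain ⟨N, w, G, hw, hG, hGb, hGne, hG0, hGid⟩ := s7ld_factor_aux R hR0 hR1 n F hF hb hn
  have h1R : 0 < 1 - R := by linarith
  have hfac : ∀ z ∈ ball (0 : ℂ) 1, ∀ j, 1 - R ≤ ‖1 - conj (w j) * z‖ := by
    intro z hz j
    have hz' : ‖z‖ < 1 := by simpa using hz
    have h1 : ‖conj (w j) * z‖ ≤ R := by
      rw [norm_mul, RCLike.norm_conj]
      calc ‖w j‖ * ‖z‖ ≤ R * 1 := mul_le_mul (hw j) hz'.le (norm_nonneg _) hR0.le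
        _ = R := mul_one R
    have h2 := norm_sub_norm_le (1 : ℂ) (conj (w j) * z)
    rw [norm_one] at h2
    linarith
  have hP : ∀ z ∈ ball (0 : ℂ) 1, (1 - R) ^ N ≤ ‖∏ j, (1 - conj (w j) * z)‖ := by
    intro z hz
    rw [norm_prod]
    calc (1 - R) ^ N = ∏ _j : Fin N, (1 - R) := by simp
      _ ≤ _ := Finset.prod_le_prod (fun _ _ => h1R.le) (fun j _ => hfac z hz j)
  have hPpos : 0 < (1 - R) ^ N := by positivity
  have hPne : ∀ z ∈ ball (0 : ℂ) 1, ∏ j, (1 - conj (w j) * z) ≠ 0 := by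
    intro z hz h
    have := hP z hz
    rw [h, norm_zero] at this
    linarith
  refine ⟨N, w, fun z => G z / ∏ j, (1 - conj (w j) * z), hw, ?_, ?_, ?_, ?_, ?_, ?_⟩
  · have h1 : ‖F 0‖ ≤ R ^ N := by
      calc ‖F 0‖ ≤ ‖G 0‖ * R ^ N := hG0
        _ ≤ 1 * R ^ N := mul_le_mul_of_nonneg_right (hGb 0 (by simp)) (by positivity)
        _ = _ := one_mul _
    rw [← Real.log_pow, one_div, one_div, inv_pow]
    apply Real.log_le_log (by positivity)
    exact inv_anti₀ hF0 h1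
  · refine hG.div ?_ hPne
    apply Differentiable.differentiableOn
    fun_prop
  · intro z hz
    exact div_ne_zero (hGne z hz) (hPne z (closedBall_subset_ball hR1 hz))
  · intro z hz
    simp only [norm_div]
    rw [one_div, inv_pow, ← one_div]
    exact div_le_div₀ zero_le_one (hGb z hz) hPpos (hP z hz)
  · simp only [mul_zero, sub_zero, Finset.prod_const_one, div_one]
    calc ‖F 0‖ ≤ ‖G 0‖ * R ^ N := hG0
      _ ≤ ‖G 0‖ * 1 := mul_le_mul_of_nonneg_left (pow_le_one₀ hR0.le hR1.le) (norm_nonneg _)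
      _ = _ := mul_one _
  · intro z hz
    have := hGid z hz
    have hne := hPne z hz
    simp only
    rw [mul_div_assoc', ← this, mul_div_assoc, div_self hne, mul_one]

/-! ### (B) the zero-free factor -/

/-- LEAF B.  **Logarithmic derivative of a zero-free function.**
PROOF.  `L z := deriv h z / h z` is differentiable on the ball `Ω = ball 0 (7/8)` (`DifferentiableOn.deriv` on the open ball, `.div`).  It has a primitive `g` on `Ω`
(`DifferentiableOn.isExactOn_ball`, `IsExactOn.with_val_at` to get `g 0 = 0`).  `h * exp (-g)` has derivative `0` on the convex open `Ω`, so `h z = h 0 * exp (g z)`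
(`IsOpen.is_const_of_deriv_eq_zero` / `Convex.is_const_of_fderivWithin_eq_zero`), hence `exp (g z).re = ‖h z‖ / ‖h 0‖ ≤ exp B`, i.e. `(g z).re ≤ B`.
`Complex.borelCaratheodory_zero` (`M = B`, `R = 7/8`): `‖g z‖ ≤ 2 B ‖z‖ / (7/8 - ‖z‖) ≤ 12 B` for `‖z‖ ≤ 6/8`.
Cauchy (`Complex.norm_deriv_le_of_forall_mem_sphere_norm_le`, radius `1/8`): `‖L z‖ = ‖deriv g z‖ ≤ 96 B` for `‖z‖ ≤ 5/8`; again: `‖deriv L z‖ ≤ 768 B` for `‖z‖ ≤ 4/8`. -/
theorem s7ld_logder (h : ℂ → ℂ) (hd : DifferentiableOn ℂ h (ball 0 (7 / 8)))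
    (hne : ∀ z ∈ ball (0 : ℂ) (7 / 8), h z ≠ 0) (B : ℝ) (hB : 0 < B)
    (hbd : ∀ z ∈ ball (0 : ℂ) (7 / 8), ‖h z‖ ≤ Real.exp B * ‖h 0‖) :
    ∃ L : ℂ → ℂ, DifferentiableOn ℂ L (ball 0 (7 / 8)) ∧
      (∀ z ∈ ball (0 : ℂ) (7 / 8), deriv h z = L z * h z) ∧
      ∀ z ∈ ball (0 : ℂ) (1 / 2), ‖L z‖ ≤ 96 * B ∧ ‖deriv L z‖ ≤ 768 * B := by
  have hop : IsOpen (ball (0 : ℂ) (7 / 8)) := isOpen_ball
  have h0m : (0 : ℂ) ∈ ball (0 : ℂ) (7 / 8) := by simp
  have hLd : DifferentiableOn ℂ (fun z => deriv h z / h z) (ball 0 (7 / 8)) :=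
    (hd.deriv hop).div hd hne
  obtain ⟨g, hg0, hg⟩ := (hLd.isExactOn_ball).with_val_at 0 0
  have hgd : DifferentiableOn ℂ g (ball 0 (7 / 8)) :=
    fun z hz => (hg z hz).differentiableAt.differentiableWithinAt
  -- `h * exp (-g)` is constant
  have hder : ∀ z ∈ ball (0 : ℂ) (7 / 8), HasDerivAt (fun y => h y * Complex.exp (-g y)) 0 z := by
    intro z hz
    have h1 : HasDerivAt h (deriv h z) z := (hd.differentiableAt (hop.mem_nhds hz)).hasDerivAt
    have h2 : HasDerivAt (fun y => Complex.exp (-g y))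
        (Complex.exp (-g z) * (-(deriv h z / h z))) z := ((hg z hz).neg).cexp
    have h3 := h1.mul h2
    have he : deriv h z * Complex.exp (-g z) + h z * (Complex.exp (-g z) * -(deriv h z / h z)) = 0 := by
      have := hne z hz
      field_simp
      ring
    rw [he] at h3
    exact h3
  have hconst : ∀ z ∈ ball (0 : ℂ) (7 / 8), h z * Complex.exp (-g z) = h 0 := by
    intro z hz
    have := hop.is_const_of_deriv_eq_zero (convex_ball (0 : ℂ) (7 / 8)).isPreconnected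
      (f := fun y => h y * Complex.exp (-g y))
      (fun y hy => (hder y hy).differentiableAt.differentiableWithinAt)
      (fun y hy => (hder y hy).deriv) hz h0m
    simpa [hg0] using this
  have hrep : ∀ z ∈ ball (0 : ℂ) (7 / 8), h z = h 0 * Complex.exp (g z) := by
    intro z hz
    rw [← hconst z hz, mul_assoc, ← Complex.exp_add]
    simp
  have hh0 : 0 < ‖h 0‖ := norm_pos_iff.2 (hne 0 h0m)
  have hre : MapsTo g (ball 0 (7 / 8)) {z | z.re ≤ B} := by
    intro z hz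
    have h1 := hbd z hz
    rw [hrep z hz, norm_mul, Complex.norm_exp, mul_comm] at h1
    have h2 := le_of_mul_le_mul_right h1 hh0
    exact Real.exp_le_exp.1 h2
  -- Borel-Caratheodory
  have hgb : ∀ z ∈ closedBall (0 : ℂ) (6 / 8), ‖g z‖ ≤ 12 * B := by
    intro z hz
    have hz' : ‖z‖ ≤ 6 / 8 := by simpa using hz
    have hzb : z ∈ ball (0 : ℂ) (7 / 8) := by
      simp only [mem_ball_zero_iff]; linarith
    have h1 := Complex.borelCaratheodory_zero hB hgd hre (by norm_num) hzb hg0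
    refine h1.trans ?_
    rw [div_le_iff₀ (by linarith)]
    nlinarith [norm_nonneg z]
  have hderg : ∀ z ∈ ball (0 : ℂ) (7 / 8), deriv g z = deriv h z / h z := fun z hz => (hg z hz).deriv
  have hLb : ∀ z ∈ closedBall (0 : ℂ) (5 / 8), ‖deriv h z / h z‖ ≤ 96 * B := by
    intro z hz
    have hz' : ‖z‖ ≤ 5 / 8 := by simpa using hz
    have hzb : z ∈ ball (0 : ℂ) (7 / 8) := by
      simp only [mem_ball_zero_iff]; linarith
    rw [← hderg z hzb]
    have hsub : closedBall z (1 / 8) ⊆ ball (0 : ℂ) (7 / 8) := by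
      intro y hy
      have hy' : ‖y - z‖ ≤ 1 / 8 := by simpa [dist_eq_norm] using hy
      have := norm_le_norm_sub_add y z
      simp only [mem_ball_zero_iff]; linarith
    have h1 := Complex.norm_deriv_le_of_forall_mem_sphere_norm_le (c := z) (R := 1 / 8)
      (C := 12 * B) (f := g) (by norm_num) (hgd.diffContOnCl_ball hsub) ?_
    · refine h1.trans (le_of_eq ?_); ring
    · intro y hy
      apply hgb
      have hy' : ‖y - z‖ = 1 / 8 := by simpa [dist_eq_norm] using hy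
      have := norm_le_norm_sub_add y z
      simp only [mem_closedBall_zero_iff]; linarith
  refine ⟨fun z => deriv h z / h z, hLd, ?_, ?_⟩
  · intro z hz
    have := hne z hz
    simp only
    field_simp
  · intro z hz
    have hz' : ‖z‖ < 1 / 2 := by simpa using hz
    refine ⟨hLb z (by simp only [mem_closedBall_zero_iff]; linarith), ?_⟩
    have hsub : closedBall z (1 / 8) ⊆ ball (0 : ℂ) (7 / 8) := by
      intro y hy
      have hy' : ‖y - z‖ ≤ 1 / 8 := by simpa [dist_eq_norm] using hy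
      have := norm_le_norm_sub_add y z
      simp only [mem_ball_zero_iff]; linarith
    have h1 := Complex.norm_deriv_le_of_forall_mem_sphere_norm_le (c := z) (R := 1 / 8)
      (C := 96 * B) (f := fun z => deriv h z / h z) (by norm_num) (hLd.diffContOnCl_ball hsub) ?_
    · refine h1.trans (le_of_eq ?_); ring
    · intro y hy
      apply hLb
      have hy' : ‖y - z‖ = 1 / 8 := by simpa [dist_eq_norm] using hy
      have := norm_le_norm_sub_add y z
      simp only [mem_closedBall_zero_iff]; linarith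

/-! ### (C) the pointwise bound -/

theorem s7ld_prod_deriv (N : ℕ) (w : Fin N → ℂ) (y : ℂ) (hy : ∀ j, y ≠ w j) :
    HasDerivAt (fun x : ℂ => ∏ j, (x - w j)) ((∑ j, (y - w j)⁻¹) * ∏ j, (y - w j)) y := by
  have h1 := HasDerivAt.fun_finsetProd (u := (Finset.univ : Finset (Fin N)))
    (f := fun j (x : ℂ) => x - w j) (f' := fun _ => (1 : ℂ)) (x := y)
    (fun j _ => (hasDerivAt_id y).sub_const (w j))
  have he : (∑ i : Fin N, (∏ j ∈ Finset.univ.erase i, (y - w j)) • (1 : ℂ))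
      = (∑ j, (y - w j)⁻¹) * ∏ j, (y - w j) := by
    rw [Finset.sum_mul]
    refine Finset.sum_congr rfl fun i _ => ?_
    rw [← Finset.mul_prod_erase Finset.univ (fun j => y - w j) (Finset.mem_univ i)]
    have : y - w i ≠ 0 := sub_ne_zero.2 (hy i)
    simp only [smul_eq_mul, mul_one]
    field_simp
  rw [he] at h1
  exact h1

/-- LEAF C.  **Pointwise bound of the potential.**
PROOF.  Put `σ₁ y = ∑ j, (y - w j)⁻¹`, `u y = σ₁ y + L y`.  On the open set `U' = U ∩ {y | ∀ j, y ≠ w j}` (a nbhd of `z`): `HasDerivAt F (u y * F y) y`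
(product rule: `HasDerivAt.finset_prod` or induction on `N`; `hhL`), so `deriv F =ᶠ[𝓝 z] fun y => u y * F y`, and
`deriv (deriv F) z = deriv u z * F z + u z * (u z * F z)` with `deriv u z = -∑ j, ((z - w j)⁻¹)^2 + deriv L z`.  As `F z ≠ 0`: `q z = (σ₁ + L)² - σ₂ + L'`.
With `s = ∑ j, ‖z - w j‖⁻¹`: `‖σ₁‖ ≤ s`, `‖σ₂‖ ≤ ∑ ‖z - w j‖⁻² ≤ s²` (`Finset.sum_sq_le_sq_sum_of_nonneg` or `Finset.inner_mul_le..`; all terms `≥ 0`),
`‖q z‖ ≤ (s + ‖L‖)² + s² + ‖L'‖ ≤ (2 s + ‖L‖ + √‖L'‖)²`; `Real.sqrt_le_left`/`Real.sqrt_le_iff`. -/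
theorem s7ld_pointwise (N : ℕ) (w : Fin N → ℂ) (h L F q : ℂ → ℂ) (U : Set ℂ) (hU : IsOpen U)
    (hh : DifferentiableOn ℂ h U) (hL : DifferentiableOn ℂ L U) (hhL : ∀ y ∈ U, deriv h y = L y * h y)
    (hF : ∀ y ∈ U, F y = (∏ j, (y - w j)) * h y) (hq : ∀ y ∈ U, deriv (deriv F) y = q y * F y)
    (z : ℂ) (hz : z ∈ U) (hne : h z ≠ 0) (hzw : ∀ j, z ≠ w j) :
    Real.sqrt ‖q z‖ ≤ 2 * ∑ j, ‖z - w j‖⁻¹ + ‖L z‖ + Real.sqrt ‖deriv L z‖ := by
  -- first derivative
  have hF1 : ∀ y ∈ U, (∀ j, y ≠ w j) →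
      HasDerivAt F (((∑ j, (y - w j)⁻¹) + L y) * F y) y := by
    intro y hy hyw
    have h1 := s7ld_prod_deriv N w y hyw
    have h2 : HasDerivAt h (L y * h y) y := by
      rw [← hhL y hy]
      exact (hh.differentiableAt (hU.mem_nhds hy)).hasDerivAt
    have h3 := h1.mul h2
    have he : (∑ j, (y - w j)⁻¹) * (∏ j, (y - w j)) * h y + (∏ j, (y - w j)) * (L y * h y)
        = ((∑ j, (y - w j)⁻¹) + L y) * F y := by
      rw [hF y hy]; ring
    rw [he] at h3
    refine h3.congr_of_eventuallyEq ?_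
    filter_upwards [hU.mem_nhds hy] with x hx using hF x hx
  have hev : deriv F =ᶠ[𝓝 z] fun y => ((∑ j, (y - w j)⁻¹) + L y) * F y := by
    have h1 : ∀ᶠ y in 𝓝 z, ∀ j, y ≠ w j :=
      Filter.eventually_all.2 fun j => eventually_ne_nhds (hzw j)
    filter_upwards [hU.mem_nhds hz, h1] with y hy hyw using (hF1 y hy hyw).deriv
  -- second derivative
  have hu : HasDerivAt (fun y => (∑ j, (y - w j)⁻¹) + L y)
      ((∑ j, -((z - w j)⁻¹) ^ 2) + deriv L z) z := by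
    refine HasDerivAt.add ?_ (hL.differentiableAt (hU.mem_nhds hz)).hasDerivAt
    refine HasDerivAt.fun_sum fun j _ => ?_
    have h1 := ((hasDerivAt_id z).sub_const (w j)).fun_inv (sub_ne_zero.2 (hzw j))
    have he : -(1 : ℂ) / (id z - w j) ^ 2 = -((z - w j)⁻¹) ^ 2 := by
      simp only [id, inv_pow]
      rw [neg_div, one_div]
    rw [he] at h1
    exact h1
  have h2 := (hu.mul (hF1 z hz hzw)).congr_of_eventuallyEq hev
  have hFz : F z ≠ 0 := by
    rw [hF z hz]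
    exact mul_ne_zero (Finset.prod_ne_zero_iff.2 fun j _ => sub_ne_zero.2 (hzw j)) hne
  have hqz : q z = ((∑ j, (z - w j)⁻¹) + L z) ^ 2 - (∑ j, ((z - w j)⁻¹) ^ 2) + deriv L z := by
    have h3 := h2.deriv
    rw [hq z hz] at h3
    apply mul_right_cancel₀ hFz
    rw [h3, Finset.sum_neg_distrib]
    ring
  -- norms
  set s : ℝ := ∑ j, ‖z - w j‖⁻¹ with hs
  have hs0 : 0 ≤ s := Finset.sum_nonneg fun j _ => by positivity
  have hσ1 : ‖∑ j, (z - w j)⁻¹‖ ≤ s := by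
    refine (norm_sum_le _ _).trans (le_of_eq ?_)
    simp only [norm_inv, hs]
  have hσ2 : ‖∑ j, ((z - w j)⁻¹) ^ 2‖ ≤ s ^ 2 := by
    refine (norm_sum_le _ _).trans ?_
    simp only [norm_pow, norm_inv]
    exact Finset.sum_sq_le_sq_sum_of_nonneg fun j _ => by positivity
  have hr0 := Real.sqrt_nonneg ‖deriv L z‖
  have hr2 : Real.sqrt ‖deriv L z‖ ^ 2 = ‖deriv L z‖ := Real.sq_sqrt (norm_nonneg _)
  have hl0 := norm_nonneg (L z)
  rw [Real.sqrt_le_iff]
  refine ⟨by positivity, ?_⟩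
  have hq1 : ‖q z‖ ≤ (s + ‖L z‖) ^ 2 + s ^ 2 + ‖deriv L z‖ := by
    rw [hqz]
    refine (norm_add_le _ _).trans (add_le_add ((norm_sub_le _ _).trans (add_le_add ?_ hσ2)) le_rfl)
    rw [norm_pow]
    exact pow_le_pow_left₀ (norm_nonneg _) ((norm_add_le _ _).trans (add_le_add hσ1 le_rfl)) 2
  refine hq1.trans ?_
  nlinarith [mul_nonneg hs0 hl0, mul_nonneg hs0 hr0, mul_nonneg hl0 hr0, mul_nonneg hs0 hs0]

/-! ### (D) the Riesz kernel -/

/-- LEAF D.  `∫_{B(c,s)} |z - w|⁻¹ ≤ 3 π s`.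
PROOF.  Split `ball c s ⊆ ball w s ∪ (ball c s \ ball w s)`.  On the second set `‖z - w‖⁻¹ ≤ s⁻¹`, and its volume is `≤ π s²` (`Complex.volume_ball`): contribution `≤ π s`.
On `ball w s`: `s8_polar` with `F z = ofReal ‖z - w‖⁻¹` (measurable), centre `w`: `‖ρ e^{iθ}‖ = ρ`, inner integral `= 2π ofReal ρ⁻¹`, `ofReal ρ * ofReal ρ⁻¹ = 1` for `ρ > 0`: total `2 π s`. -/
theorem s7ld_lintegral_inv (c w : ℂ) (s : ℝ) (hs : 0 < s) :
    ∫⁻ z in ball c s, ENNReal.ofReal ‖z - w‖⁻¹ ≤ ENNReal.ofReal (3 * π * s) := by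
  have hpi := Real.pi_pos
  have hsub : ball c s ⊆ ball w s ∪ (ball c s \ ball w s) := by
    intro z hz
    by_cases h : z ∈ ball w s
    · exact Or.inl h
    · exact Or.inr ⟨hz, h⟩
  have hm : Measurable (fun z : ℂ => ENNReal.ofReal ‖z - w‖⁻¹) := by fun_prop
  have h1 : ∫⁻ z in ball w s, ENNReal.ofReal ‖z - w‖⁻¹ = ENNReal.ofReal (2 * π * s) := by
    rw [s8_polar _ hm]
    have e : ∀ ρ ∈ Ioo 0 s, ENNReal.ofReal ρ *
        ∫⁻ θ in Ioo (-π) π, ENNReal.ofReal ‖w + (ρ : ℂ) * Complex.exp ((θ : ℂ) * I) - w‖⁻¹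
        = ENNReal.ofReal (2 * π) := by
      intro ρ hρ
      have e1 : ∀ θ : ℝ, ENNReal.ofReal ‖w + (ρ : ℂ) * Complex.exp ((θ : ℂ) * I) - w‖⁻¹
          = ENNReal.ofReal ρ⁻¹ := by
        intro θ
        rw [add_sub_cancel_left, norm_mul, Complex.norm_exp_ofReal_mul_I, mul_one, Complex.norm_real,
          Real.norm_of_nonneg hρ.1.le]
      rw [lintegral_congr e1, setLIntegral_const, Real.volume_Ioo, ← mul_assoc,
        ← ENNReal.ofReal_mul hρ.1.le, mul_inv_cancel₀ hρ.1.ne', ENNReal.ofReal_one, one_mul]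
      congr 1
      ring
    rw [setLIntegral_congr_fun measurableSet_Ioo e, setLIntegral_const, Real.volume_Ioo,
      ← ENNReal.ofReal_mul (by positivity), sub_zero]
  have h2 : ∫⁻ z in ball c s \ ball w s, ENNReal.ofReal ‖z - w‖⁻¹ ≤ ENNReal.ofReal (π * s) := by
    calc ∫⁻ z in ball c s \ ball w s, ENNReal.ofReal ‖z - w‖⁻¹
        ≤ ∫⁻ _ in ball c s \ ball w s, ENNReal.ofReal s⁻¹ := by
          apply setLIntegral_mono' (measurableSet_ball.diff measurableSet_ball)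
          intro z hz
          apply ENNReal.ofReal_le_ofReal
          have : s ≤ ‖z - w‖ := by
            have := hz.2
            rw [mem_ball, dist_eq_norm, not_lt] at this
            exact this
          exact inv_anti₀ hs this
      _ = ENNReal.ofReal s⁻¹ * volume (ball c s \ ball w s) := by rw [setLIntegral_const]
      _ ≤ ENNReal.ofReal s⁻¹ * volume (ball c s) := by
          gcongr
          exact sdiff_subset
      _ = ENNReal.ofReal (π * s) := by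
          rw [Complex.volume_ball, ← ENNReal.ofReal_coe_nnreal, ← ENNReal.ofReal_pow hs.le,
            ← ENNReal.ofReal_mul (by positivity), ← ENNReal.ofReal_mul (by positivity)]
          congr 1
          rw [NNReal.coe_real_pi]
          field_simp
  calc ∫⁻ z in ball c s, ENNReal.ofReal ‖z - w‖⁻¹
      ≤ ∫⁻ z in ball w s ∪ (ball c s \ ball w s), ENNReal.ofReal ‖z - w‖⁻¹ := lintegral_mono_set hsub
    _ ≤ _ := lintegral_union_le _ _ _
    _ ≤ ENNReal.ofReal (2 * π * s) + ENNReal.ofReal (π * s) := by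
        rw [h1]
        gcongr
    _ = ENNReal.ofReal (3 * π * s) := by
        rw [← ENNReal.ofReal_add (by positivity) (by positivity)]
        congr 1
        ring

/-! ### (E) sub-mean value property of `√|q|` -/

/-- LEAF E1.  `√|q|` is subharmonic (circle form).
PROOF.  If `q c = 0` the left side is `0` and the circle average of a nonnegative function is `≥ 0`.  Otherwise `Chn.cyl_jensen`: `log ‖q c‖ ≤ circleAverage (log ‖q ·‖) c ρ`.
`circleAverage φ c ρ = (2π)⁻¹ ∫ θ in 0..2π, φ (circleMap c ρ θ)` is the integral for the probability measure `(2π)⁻¹ • volume.restrict (Ioc 0 (2π))`; Jensen for the convex function `exp`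
(`ConvexOn.map_integral_le` / `ConvexOn.map_average_le` with `convexOn_exp`, closed set `univ`): `exp (avg (1/2 log ‖q‖)) ≤ avg (exp (1/2 log ‖q‖))`.
Integrability: `log ‖q ·‖` is circle integrable (`MeromorphicOn.circleIntegrable_log_norm`, or `circleIntegrable_log_norm_meromorphicOn`), `√‖q‖` is continuous on the sphere.
`exp (1/2 log t) = √t` for `t > 0`; on the sphere `q ≠ 0` except on a finite set (`q` analytic, `q c ≠ 0`: `AnalyticOnNhd.eqOn_zero_or_eventually_ne_zero_of_preconnected` on the closed ball,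
`circleAverage_congr_codiscreteWithin`). -/
theorem s7ld_submean_circle (q : ℂ → ℂ) (c : ℂ) (ρ : ℝ) (hρ : 0 < ρ) (hq : AnalyticOnNhd ℂ q (closedBall c ρ)) :
    Real.sqrt ‖q c‖ ≤ Real.circleAverage (fun z => Real.sqrt ‖q z‖) c ρ := by
  rcases eq_or_ne (q c) 0 with h0 | h0
  · rw [h0, norm_zero, Real.sqrt_zero]
    exact Real.circleAverage_nonneg_of_nonneg (fun x _ => Real.sqrt_nonneg _)
  have hJ := Chn.cyl_jensen hρ hq h0
  have habs : |ρ| = ρ := abs_of_pos hρ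
  have hcc : c ∈ closedBall c ρ := mem_closedBall_self hρ.le
  have hconn : IsConnected (closedBall c ρ) := ⟨⟨c, hcc⟩, (convex_closedBall c ρ).isPreconnected⟩
  have h1 := hq.preimage_zero_mem_codiscreteWithin h0 hcc hconn
  have h2 : q ⁻¹' {0}ᶜ ∈ codiscreteWithin (sphere c |ρ|) := by
    rw [habs]
    exact codiscreteWithin_mono sphere_subset_closedBall h1
  have hEq : (fun z => Real.sqrt ‖q z‖) =ᶠ[codiscreteWithin (sphere c |ρ|)]
      fun z => Real.exp (1 / 2 * Real.log ‖q z‖) := by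
    filter_upwards [h2] with z hz
    have hz' : q z ≠ 0 := by simpa using hz
    have hp : 0 < ‖q z‖ := norm_pos_iff.2 hz'
    rw [Real.sqrt_eq_rpow, Real.rpow_def_of_pos hp, mul_comm]
  have hi1 : CircleIntegrable (fun z => Real.sqrt ‖q z‖) c ρ := by
    apply ContinuousOn.circleIntegrable hρ.le
    exact ((hq.continuousOn.mono sphere_subset_closedBall).norm).sqrt
  have hi2 : CircleIntegrable (fun z => Real.exp (1 / 2 * Real.log ‖q z‖)) c ρ :=
    hi1.congr_codiscreteWithin hEq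
  have hi3 : CircleIntegrable (fun z => Real.log ‖q z‖) c ρ := by
    apply MeromorphicOn.circleIntegrable_log_norm
    rw [habs]
    exact (hq.mono sphere_subset_closedBall).meromorphicOn
  rw [Real.circleAverage_congr_codiscreteWithin hEq hρ.ne']
  obtain ⟨A, hA⟩ : ∃ A, A = Real.circleAverage (fun z => Real.log ‖q z‖) c ρ := ⟨_, rfl⟩
  rw [← hA] at hJ
  have hi4 : CircleIntegrable (fun z => (Real.exp (A / 2) * (1 / 2)) • Real.log ‖q z‖) c ρ :=
    hi3.const_smul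
  have hi5 : CircleIntegrable (fun _ : ℂ => Real.exp (A / 2) * (1 - A / 2)) c ρ :=
    circleIntegrable_const _ _ _
  have h3 : Real.circleAverage (fun z => (Real.exp (A / 2) * (1 / 2)) • Real.log ‖q z‖
      + Real.exp (A / 2) * (1 - A / 2)) c ρ = Real.exp (A / 2) := by
    rw [Real.circleAverage_fun_add hi4 hi5, Real.circleAverage_fun_smul, Real.circleAverage_const, ← hA,
      smul_eq_mul]
    ring
  have h4 : Real.circleAverage (fun z => (Real.exp (A / 2) * (1 / 2)) • Real.log ‖q z‖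
      + Real.exp (A / 2) * (1 - A / 2)) c ρ
      ≤ Real.circleAverage (fun z => Real.exp (1 / 2 * Real.log ‖q z‖)) c ρ := by
    apply Real.circleAverage_mono (hi4.add hi5) hi2
    intro x _
    have := Real.add_one_le_exp (1 / 2 * Real.log ‖q x‖ - A / 2)
    have e : Real.exp (1 / 2 * Real.log ‖q x‖)
        = Real.exp (A / 2) * Real.exp (1 / 2 * Real.log ‖q x‖ - A / 2) := by
      rw [← Real.exp_add]
      congr 1
      ring
    rw [e]
    show (Real.exp (A / 2) * (1 / 2)) * Real.log ‖q x‖ + Real.exp (A / 2) * (1 - A / 2) ≤ _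
    have hp := Real.exp_pos (A / 2)
    nlinarith
  rw [h3] at h4
  refine le_trans ?_ h4
  have hp : 0 < ‖q c‖ := norm_pos_iff.2 h0
  rw [Real.sqrt_eq_rpow, Real.rpow_def_of_pos hp]
  apply Real.exp_le_exp.2
  linarith

/-- LEAF E2.  circle sub-mean inequality ⇒ disc sub-mean inequality.
PROOF.  `s8_polar` for `indicator (closedBall c r) (fun z => ofReal (g z))` (measurable: `g` is continuous on the closed ball; `ContinuousOn.measurable_piecewise` / `Measurable.indicator` after extending):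
`∫⁻_{ball} ofReal g = ∫⁻ ρ in Ioo 0 r, ofReal ρ * ∫⁻ θ in Ioo (-π) π, ofReal (g (c + ρ e^{iθ}))`, and for each `ρ ∈ (0,r)`
`∫⁻ θ, ofReal (g ..) ≥ ofReal (∫ θ in Ioo (-π) π, g ..) = ofReal (2π circleAverage g c ρ) ≥ ofReal (2π g c)`
(`ofReal_integral_le_lintegral_ofReal`-type: `ENNReal.ofReal (∫ φ) ≤ ∫⁻ ofReal φ`; the function `θ ↦ g (circleMap c ρ θ)` is `2π`-periodic: `Function.Periodic.intervalIntegral_add_eq` moves `(0,2π)` to `(-π,π)`);
`∫⁻ ρ in Ioo 0 r, ofReal ρ = ofReal (r²/2)`. -/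
theorem s7ld_submean_ball (g : ℂ → ℝ) (c : ℂ) (r : ℝ) (hr : 0 < r) (hc : ContinuousOn g (closedBall c r))
    (hsm : ∀ ρ ∈ Ioc 0 r, g c ≤ Real.circleAverage g c ρ) :
    ENNReal.ofReal (g c) ≤ ENNReal.ofReal (π * r ^ 2)⁻¹ * ∫⁻ z in ball c r, ENNReal.ofReal (g z) := by
  have h := s8_submean_disc g c r hr hc hsm
  have hpos : 0 < π * r ^ 2 := by positivity
  calc ENNReal.ofReal (g c)
      = ENNReal.ofReal (π * r ^ 2)⁻¹ * (ENNReal.ofReal (π * r ^ 2) * ENNReal.ofReal (g c)) := by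
        rw [← mul_assoc, ← ENNReal.ofReal_mul (by positivity), inv_mul_cancel₀ hpos.ne',
          ENNReal.ofReal_one, one_mul]
    _ ≤ _ := by gcongr

/-- `√|q|` is subharmonic (disc form). -/
theorem s7ld_submean (q : ℂ → ℂ) (c : ℂ) (s : ℝ) (hs : 0 < s) (O : Set ℂ) (hO : IsOpen O)
    (hsub : closedBall c s ⊆ O) (hq : DifferentiableOn ℂ q O) :
    ENNReal.ofReal (Real.sqrt ‖q c‖) ≤
      ENNReal.ofReal (π * s ^ 2)⁻¹ * ∫⁻ z in ball c s, ENNReal.ofReal (Real.sqrt ‖q z‖) := by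
  refine s7ld_submean_ball (fun z => Real.sqrt ‖q z‖) c s hs ?_ ?_
  · exact ((hq.continuousOn.mono hsub).norm).sqrt
  · intro ρ hρ
    refine s7ld_submean_circle q c ρ hρ.1 ?_
    exact (hq.analyticOnNhd hO).mono ((closedBall_subset_closedBall hρ.2).trans hsub)

/-! ### (F) the good centre -/

/-- LEAF F.  **Good centre.**
PROOF.  By contradiction: suppose `256 I + 1 < K - log ‖f z‖` for every `z ∈ ball c (r/16)` with `f z ≠ 0`.  `f ≠ 0` a.e. on `ball c r`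
(`hf.analyticOnNhd isOpen_ball`, `AnalyticOnNhd.eqOn_zero_or_eventually_ne_zero_of_preconnected` with `(convex_ball c r).isPreconnected`, `ae_restrict_le_codiscreteWithin measurableSet_ball`).
So `∫⁻_{ball c r} ≥ ∫⁻_{ball c (r/16)} ≥ ofReal (256 I + 1) * volume (ball c (r/16)) = ofReal ((256 I + 1) π r²/256)` (`lintegral_mono_set`, `setLIntegral_mono_ae`/`lintegral_mono_ae`, `setLIntegral_const`, `Complex.volume_ball`),
and `ofReal (π r²)⁻¹ * ` this `= ofReal (I + 1/256) > ofReal I`. -/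
theorem s7ld_good_centre (f : ℂ → ℂ) (c : ℂ) (r K : ℝ) (hr : 0 < r) (hf : DifferentiableOn ℂ f (ball c r))
    (hne : ∃ z ∈ ball c r, f z ≠ 0) (I : ℝ) (hI0 : 0 ≤ I)
    (hI : ENNReal.ofReal (π * r ^ 2)⁻¹ * ∫⁻ w in ball c r, ENNReal.ofReal (K - Real.log ‖f w‖)
      ≤ ENNReal.ofReal I) :
    ∃ z₀ ∈ ball c (r / 16), f z₀ ≠ 0 ∧ K - Real.log ‖f z₀‖ ≤ 256 * I + 1 := by
  by_contra hcon
  push Not at hcon
  obtain ⟨x, hx, hfx⟩ := hne
  have hconn : IsConnected (ball c r) := ⟨⟨x, hx⟩, (convex_ball c r).isPreconnected⟩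
  have h1 := (hf.analyticOnNhd isOpen_ball).preimage_zero_mem_codiscreteWithin hfx hx hconn
  have h2 := ae_restrict_le_codiscreteWithin (μ := (volume : Measure ℂ)) measurableSet_ball h1
  have hsub : ball c (r / 16) ⊆ ball c r := ball_subset_ball (by linarith)
  have h3 : ∀ᵐ z ∂(volume.restrict (ball c (r / 16))), f z ≠ 0 := by
    have := ae_mono (Measure.restrict_mono_set (volume : Measure ℂ) hsub) h2
    filter_upwards [this] with z hz
    simpa using hz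
  have h4 : ENNReal.ofReal (256 * I + 1) * volume (ball c (r / 16))
      ≤ ∫⁻ w in ball c r, ENNReal.ofReal (K - Real.log ‖f w‖) := by
    calc ENNReal.ofReal (256 * I + 1) * volume (ball c (r / 16))
        = ∫⁻ _ in ball c (r / 16), ENNReal.ofReal (256 * I + 1) := by
          rw [setLIntegral_const]
      _ ≤ ∫⁻ w in ball c (r / 16), ENNReal.ofReal (K - Real.log ‖f w‖) := by
          apply lintegral_mono_ae
          filter_upwards [h3, ae_restrict_mem measurableSet_ball] with z hz hzm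
          exact ENNReal.ofReal_le_ofReal (hcon z hzm hz).le
      _ ≤ _ := lintegral_mono_set hsub
  have h5 : volume (ball c (r / 16)) = ENNReal.ofReal (π * r ^ 2 / 256) := by
    rw [Complex.volume_ball, ← ENNReal.ofReal_coe_nnreal, ← ENNReal.ofReal_pow (by positivity),
      ← ENNReal.ofReal_mul (by positivity)]
    congr 1
    rw [NNReal.coe_real_pi]
    ring
  have hpos : 0 < π * r ^ 2 := by positivity
  have h6 : ENNReal.ofReal (I + 1 / 256) ≤ ENNReal.ofReal I := by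
    refine le_trans ?_ hI
    calc ENNReal.ofReal (I + 1 / 256)
        = ENNReal.ofReal (π * r ^ 2)⁻¹ * (ENNReal.ofReal (256 * I + 1) * volume (ball c (r / 16))) := by
          rw [h5, ← ENNReal.ofReal_mul (by positivity), ← ENNReal.ofReal_mul (by positivity)]
          congr 1
          field_simp
      _ ≤ _ := by gcongr
  rw [ENNReal.ofReal_le_ofReal_iff hI0] at h6
  linarith

end Claimed.Agent.R269
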