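/-
Row 269, P1 Section 7: **Lemma 7.6 (log-deficit estimate)**, GLUE.   Owner: helper251.
`s7ld_centred` (unit disc, centre with `F 0 ≠ 0`) from the leaves (A)-(E) of S7/LogDef.lean; `s7_log_deficit` = verbatim `s8i_log_deficit` of S8/Imports.lean.
-/
import Claimed.Agent.R269.S7.LogDef

set_option autoImplicit false

namespace Claimed.Agent.R269

open Complex ComplexConjugate MeasureTheory Set Metric Filter Topology
open scoped ENNReal Real

theorem s7ld_sqrt_le_add_one (x : ℝ) (hx : 0 ≤ x) : Real.sqrt x ≤ x + 1 := by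
  nlinarith [Real.sq_sqrt hx, Real.sqrt_nonneg x, sq_nonneg (Real.sqrt x - 1 / 2)]

/-- the centred form on the unit disc. -/
theorem s7ld_centred (F Q : ℂ → ℂ) (hF : DifferentiableOn ℂ F (ball 0 1))
    (hQ : DifferentiableOn ℂ Q (ball 0 1))
    (hFQ : ∀ z ∈ ball (0 : ℂ) 1, deriv (deriv F) z = Q z * F z) (h0 : F 0 ≠ 0)
    (hb : ∀ z ∈ ball (0 : ℂ) 1, ‖F z‖ ≤ 1) (ζ : ℂ) (hζ : ζ ∈ ball (0 : ℂ) (1 / 3)) :
    Real.sqrt ‖Q ζ‖ ≤ 60000 * (1 + Real.log (1 / ‖F 0‖)) := by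
  have hF0pos : 0 < ‖F 0‖ := norm_pos_iff.2 h0
  have hF0le : ‖F 0‖ ≤ 1 := hb 0 (by simp)
  set a : ℝ := Real.log (1 / ‖F 0‖) with ha
  have ha0 : 0 ≤ a := Real.log_nonneg (by rw [le_div_iff₀ hF0pos]; linarith)
  have hexpa : Real.exp (-a) = ‖F 0‖ := by
    rw [ha, one_div, Real.log_inv, neg_neg, Real.exp_log hF0pos]
  obtain ⟨N, w, h, hw, hN, hh, hhne, hhb, hh0, hFh⟩ :=
    s7ld_factor (7 / 8) (by norm_num) (by norm_num) F hF hb h0
  -- the number of zeros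
  have hlog : (1 : ℝ) / 8 ≤ Real.log (1 / (7 / 8)) := by
    have h1 := Real.log_le_sub_one_of_pos (show (0 : ℝ) < 7 / 8 by norm_num)
    have h2 : Real.log (1 / (7 / 8)) = -Real.log (7 / 8) := by
      rw [one_div (7 / 8 : ℝ), Real.log_inv]
    rw [h2]
    linarith
  have hN8 : (N : ℝ) ≤ 8 * a := by
    have : (N : ℝ) * (1 / 8) ≤ a := le_trans (mul_le_mul_of_nonneg_left hlog (Nat.cast_nonneg N)) hN
    linarith
  -- the bound of `h`
  set B : ℝ := 7 * N + a + 1 with hB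
  have hBpos : 0 < B := by positivity
  have h8 : ((1 : ℝ) / (1 - 7 / 8)) ^ N ≤ Real.exp (7 * N) := by
    have h1 : ((1 : ℝ) / (1 - 7 / 8)) = 8 := by norm_num
    have h2 : (8 : ℝ) ≤ Real.exp 7 := by
      have := Real.add_one_le_exp (7 : ℝ)
      linarith
    rw [h1, mul_comm, Real.exp_nat_mul]
    exact pow_le_pow_left₀ (by norm_num) h2 N
  have hsub78 : ball (0 : ℂ) (7 / 8) ⊆ ball (0 : ℂ) 1 := ball_subset_ball (by norm_num)
  have hbd : ∀ z ∈ ball (0 : ℂ) (7 / 8), ‖h z‖ ≤ Real.exp B * ‖h 0‖ := by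
    intro z hz
    calc ‖h z‖ ≤ Real.exp (7 * N) := (hhb z (hsub78 hz)).trans h8
      _ ≤ Real.exp (7 * N + 1) := Real.exp_le_exp.2 (by linarith)
      _ = Real.exp B * Real.exp (-a) := by rw [← Real.exp_add, hB]; congr 1; ring
      _ ≤ Real.exp B * ‖h 0‖ := by rw [hexpa]; gcongr
  obtain ⟨L, hL, hhL, hLb⟩ := s7ld_logder h (hh.mono hsub78)
    (fun z hz => hhne z (ball_subset_closedBall hz)) B hBpos hbd
  -- the pointwise bound
  set c₁ : ℝ := 864 * B + 1 with hc₁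
  have hc₁0 : 0 ≤ c₁ := by positivity
  have hpt : ∀ z ∈ ball (0 : ℂ) (1 / 2), (∀ j, z ≠ w j) →
      Real.sqrt ‖Q z‖ ≤ c₁ + ∑ j, 2 * ‖z - w j‖⁻¹ := by
    intro z hz hzw
    have hz78 : z ∈ ball (0 : ℂ) (7 / 8) := ball_subset_ball (by norm_num) hz
    have h1 := s7ld_pointwise N w h L F Q (ball 0 (7 / 8)) isOpen_ball (hh.mono hsub78) hL hhL
      (fun y hy => hFh y (hsub78 hy)) (fun y hy => hFQ y (hsub78 hy)) z hz78
      (hhne z (ball_subset_closedBall hz78)) hzw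
    have h2 := hLb z hz
    have h3 := s7ld_sqrt_le_add_one ‖deriv L z‖ (norm_nonneg _)
    rw [← Finset.mul_sum]
    linarith [h2.1, h2.2]
  -- sub-mean value inequality
  have hζ' : ‖ζ‖ < 1 / 3 := by simpa using hζ
  have hball : ball ζ (1 / 6) ⊆ ball (0 : ℂ) (1 / 2) := by
    intro z hz
    rw [mem_ball, dist_eq_norm] at hz
    rw [mem_ball_zero_iff]
    calc ‖z‖ = ‖(z - ζ) + ζ‖ := by ring_nf
      _ ≤ ‖z - ζ‖ + ‖ζ‖ := norm_add_le _ _
      _ < 1 / 2 := by linarith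
  have hcball : closedBall ζ (1 / 6) ⊆ ball (0 : ℂ) 1 := by
    intro z hz
    rw [mem_closedBall, dist_eq_norm] at hz
    rw [mem_ball_zero_iff]
    calc ‖z‖ = ‖(z - ζ) + ζ‖ := by ring_nf
      _ ≤ ‖z - ζ‖ + ‖ζ‖ := norm_add_le _ _
      _ < 1 := by linarith
  have hsm := s7ld_submean Q ζ (1 / 6) (by norm_num) (ball 0 1) isOpen_ball hcball hQ
  -- the `L¹` bound
  have hnull : ∀ᵐ z ∂(volume : Measure ℂ), z ∉ Set.range w :=
    measure_eq_zero_iff_ae_notMem.1 ((Set.finite_range w).measure_zero _)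
  have hae : ∀ᵐ z ∂(volume.restrict (ball ζ (1 / 6))), ENNReal.ofReal (Real.sqrt ‖Q z‖) ≤
      ENNReal.ofReal c₁ + ∑ j, 2 * ENNReal.ofReal ‖z - w j‖⁻¹ := by
    rw [ae_restrict_iff' measurableSet_ball]
    filter_upwards [hnull] with z hz hzb
    have h1 := hpt z (hball hzb) (fun j hj => hz ⟨j, hj.symm⟩)
    refine (ENNReal.ofReal_le_ofReal h1).trans ?_
    rw [ENNReal.ofReal_add hc₁0 (Finset.sum_nonneg fun j _ => by positivity),
      ENNReal.ofReal_sum_of_nonneg (fun j _ => by positivity)]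
    gcongr with j _
    rw [ENNReal.ofReal_mul (by norm_num)]
    simp
  have hvol : volume (ball ζ (1 / 6)) = ENNReal.ofReal (π * (1 / 6) ^ 2) := by
    rw [Complex.volume_ball, ← ENNReal.ofReal_pow (by norm_num), mul_comm π,
      ENNReal.ofReal_mul (by positivity)]
    congr 1
    rw [ENNReal.ofReal, Real.toNNReal_of_nonneg Real.pi_pos.le]
    rfl
  have hint : ∫⁻ z in ball ζ (1 / 6), ENNReal.ofReal (Real.sqrt ‖Q z‖) ≤
      ENNReal.ofReal (c₁ * (π * (1 / 6) ^ 2) + N * (2 * (3 * π * (1 / 6)))) := by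
    calc ∫⁻ z in ball ζ (1 / 6), ENNReal.ofReal (Real.sqrt ‖Q z‖)
        ≤ ∫⁻ z in ball ζ (1 / 6), (ENNReal.ofReal c₁ + ∑ j, 2 * ENNReal.ofReal ‖z - w j‖⁻¹) :=
          lintegral_mono_ae hae
      _ = ENNReal.ofReal c₁ * volume (ball ζ (1 / 6)) +
          ∑ j, 2 * ∫⁻ z in ball ζ (1 / 6), ENNReal.ofReal ‖z - w j‖⁻¹ := by
          rw [lintegral_add_left measurable_const, setLIntegral_const,
            lintegral_finsetSum _ (fun j _ => by fun_prop)]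
          congr 1
          refine Finset.sum_congr rfl fun j _ => ?_
          rw [lintegral_const_mul _ (by fun_prop)]
      _ ≤ ENNReal.ofReal c₁ * ENNReal.ofReal (π * (1 / 6) ^ 2) +
          ∑ _j : Fin N, 2 * ENNReal.ofReal (3 * π * (1 / 6)) := by
          rw [hvol]
          gcongr with j _
          exact s7ld_lintegral_inv ζ (w j) (1 / 6) (by norm_num)
      _ = ENNReal.ofReal (c₁ * (π * (1 / 6) ^ 2) + N * (2 * (3 * π * (1 / 6)))) := by
          have e1 : ENNReal.ofReal (c₁ * (π * (1 / 6) ^ 2) + N * (2 * (3 * π * (1 / 6)))) =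
              ENNReal.ofReal (c₁ * (π * (1 / 6) ^ 2)) + ENNReal.ofReal (N * (2 * (3 * π * (1 / 6)))) :=
            ENNReal.ofReal_add (by positivity) (by positivity)
          rw [e1, ENNReal.ofReal_mul hc₁0,
            ENNReal.ofReal_mul (Nat.cast_nonneg N), ENNReal.ofReal_mul (p := 2) (by norm_num)]
          simp
  have hfin : ENNReal.ofReal (Real.sqrt ‖Q ζ‖) ≤ ENNReal.ofReal (c₁ + 36 * N) := by
    have hmul : ENNReal.ofReal (π * (1 / 6) ^ 2)⁻¹ *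
        ∫⁻ z in ball ζ (1 / 6), ENNReal.ofReal (Real.sqrt ‖Q z‖) ≤
        ENNReal.ofReal (π * (1 / 6) ^ 2)⁻¹ *
          ENNReal.ofReal (c₁ * (π * (1 / 6) ^ 2) + N * (2 * (3 * π * (1 / 6)))) := by
      gcongr
    refine hsm.trans (hmul.trans (le_of_eq ?_))
    rw [← ENNReal.ofReal_mul (by positivity)]
    congr 1
    have := Real.pi_pos
    field_simp
    ring
  have hreal : Real.sqrt ‖Q ζ‖ ≤ c₁ + 36 * N :=
    (ENNReal.ofReal_le_ofReal_iff (by positivity)).1 hfin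
  rw [hc₁, hB] at hreal
  nlinarith

/-- derivative of an affine substitution (no differentiability hypothesis). -/
theorem s7ld_deriv_affine (f : ℂ → ℂ) (z₀ a : ℂ) :
    deriv (fun ζ => f (z₀ + a * ζ)) = fun ζ => a * deriv f (z₀ + a * ζ) := by
  funext ζ
  have h1 := deriv_comp_mul_left a (fun y => f (z₀ + y)) ζ
  rw [h1, deriv_comp_const_add, smul_eq_mul]

/-- **Lemma 7.6 (log-deficit estimate)** on a disc of radius `r`. -/
theorem s7_log_deficit : ∃ C : ℝ, 0 < C ∧ ∀ (f q : ℂ → ℂ) (c : ℂ) (r K : ℝ), 0 < r →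
    DifferentiableOn ℂ f (ball c r) → DifferentiableOn ℂ q (ball c r) →
    (∀ z ∈ ball c r, deriv (deriv f) z = q z * f z) → (∃ z ∈ ball c r, f z ≠ 0) →
    (∀ z ∈ ball c r, ‖f z‖ ≤ Real.exp K) →
    ∀ z ∈ ball c (r / 4), ENNReal.ofReal (r * Real.sqrt ‖q z‖) ≤
      ENNReal.ofReal C * (1 + ENNReal.ofReal (π * r ^ 2)⁻¹ *
        ∫⁻ w in ball c r, ENNReal.ofReal (K - Real.log ‖f w‖)) := by
  refine ⟨16384000, by norm_num, ?_⟩
  intro f q c r K hr hf hq hfq hne hK z hz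
  set J : ℝ≥0∞ := ENNReal.ofReal (π * r ^ 2)⁻¹ *
    ∫⁻ w in ball c r, ENNReal.ofReal (K - Real.log ‖f w‖) with hJ
  by_cases hJtop : J = ⊤
  · rw [hJtop]
    simp [ENNReal.mul_top]
  set I : ℝ := J.toReal with hI
  have hI0 : 0 ≤ I := ENNReal.toReal_nonneg
  have hJI : J = ENNReal.ofReal I := (ENNReal.ofReal_toReal hJtop).symm
  obtain ⟨z₀, hz₀, hfz₀, hdef⟩ := s7ld_good_centre f c r K hr hf hne I hI0 (le_of_eq hJI)
  set a : ℝ := 15 * r / 16 with ha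
  have ha0 : 0 < a := by positivity
  set E : ℝ := Real.exp (-K) with hE
  have hE0 : 0 < E := Real.exp_pos _
  set F : ℂ → ℂ := fun ζ => (E : ℂ) * f (z₀ + (a : ℂ) * ζ) with hFdef
  set Q : ℂ → ℂ := fun ζ => (a : ℂ) ^ 2 * q (z₀ + (a : ℂ) * ζ) with hQdef
  have hz₀' : ‖z₀ - c‖ < r / 16 := by simpa [dist_eq_norm] using hz₀
  have hmaps : ∀ ζ ∈ ball (0 : ℂ) 1, z₀ + (a : ℂ) * ζ ∈ ball c r := by
    intro ζ hζ
    rw [mem_ball_zero_iff] at hζ
    rw [mem_ball, dist_eq_norm]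
    calc ‖z₀ + (a : ℂ) * ζ - c‖ = ‖(z₀ - c) + (a : ℂ) * ζ‖ := by ring_nf
      _ ≤ ‖z₀ - c‖ + ‖(a : ℂ) * ζ‖ := norm_add_le _ _
      _ = ‖z₀ - c‖ + a * ‖ζ‖ := by rw [norm_mul, Complex.norm_real, Real.norm_of_nonneg ha0.le]
      _ < r / 16 + a * 1 := by gcongr
      _ = r := by rw [ha]; ring
  have haff : DifferentiableOn ℂ (fun ζ : ℂ => z₀ + (a : ℂ) * ζ) (ball 0 1) := by fun_prop
  have hFd : DifferentiableOn ℂ F (ball 0 1) := (hf.comp haff hmaps).const_mul _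
  have hQd : DifferentiableOn ℂ Q (ball 0 1) := (hq.comp haff hmaps).const_mul _
  have hF1 : deriv F = fun ζ => (E : ℂ) * ((a : ℂ) * deriv f (z₀ + (a : ℂ) * ζ)) := by
    funext ζ
    rw [hFdef, deriv_const_mul_field, s7ld_deriv_affine]
  have hF2 : ∀ ζ, deriv (deriv F) ζ =
      (E : ℂ) * ((a : ℂ) * ((a : ℂ) * deriv (deriv f) (z₀ + (a : ℂ) * ζ))) := by
    intro ζ
    rw [hF1, deriv_const_mul_field, deriv_const_mul_field, s7ld_deriv_affine]
  have hFQ : ∀ ζ ∈ ball (0 : ℂ) 1, deriv (deriv F) ζ = Q ζ * F ζ := by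
    intro ζ hζ
    rw [hF2, hfq _ (hmaps ζ hζ)]
    simp only [hFdef, hQdef]
    ring
  have hF0 : F 0 = (E : ℂ) * f z₀ := by simp [hFdef]
  have hF0ne : F 0 ≠ 0 := by
    rw [hF0]
    exact mul_ne_zero (by exact_mod_cast hE0.ne') hfz₀
  have hFb : ∀ ζ ∈ ball (0 : ℂ) 1, ‖F ζ‖ ≤ 1 := by
    intro ζ hζ
    simp only [hFdef, norm_mul, Complex.norm_real, Real.norm_of_nonneg hE0.le]
    calc E * ‖f (z₀ + (a : ℂ) * ζ)‖ ≤ E * Real.exp K := by gcongr; exact hK _ (hmaps ζ hζ)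
      _ = 1 := by rw [hE, ← Real.exp_add]; simp
  have hlogF0 : Real.log (1 / ‖F 0‖) = K - Real.log ‖f z₀‖ := by
    rw [hF0, norm_mul, Complex.norm_real, Real.norm_of_nonneg hE0.le, one_div, Real.log_inv,
      Real.log_mul hE0.ne' (norm_ne_zero_iff.2 hfz₀), hE, Real.log_exp]
    ring
  -- the point
  set ζ : ℂ := (z - z₀) / (a : ℂ) with hζdef
  have haC : (a : ℂ) ≠ 0 := by exact_mod_cast ha0.ne'
  have hzζ : z₀ + (a : ℂ) * ζ = z := by
    rw [hζdef]; field_simp; ring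
  have hz' : ‖z - c‖ < r / 4 := by simpa [dist_eq_norm] using hz
  have hζmem : ζ ∈ ball (0 : ℂ) (1 / 3) := by
    rw [mem_ball_zero_iff, hζdef, norm_div, Complex.norm_real, Real.norm_of_nonneg ha0.le,
      div_lt_iff₀ ha0]
    calc ‖z - z₀‖ = ‖(z - c) - (z₀ - c)‖ := by ring_nf
      _ ≤ ‖z - c‖ + ‖z₀ - c‖ := norm_sub_le _ _
      _ < r / 4 + r / 16 := by linarith
      _ = 1 / 3 * a := by rw [ha]; ring
  have hmain := s7ld_centred F Q hFd hQd hFQ hF0ne hFb ζ hζmem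
  have hQζ : Real.sqrt ‖Q ζ‖ = a * Real.sqrt ‖q z‖ := by
    simp only [hQdef]
    rw [hzζ, norm_mul, norm_pow, Complex.norm_real, Real.norm_of_nonneg ha0.le,
      Real.sqrt_mul (by positivity), Real.sqrt_sq ha0.le]
  rw [hQζ, hlogF0] at hmain
  have hreal : r * Real.sqrt ‖q z‖ ≤ 16384000 * (1 + I) := by
    have h1 : r * Real.sqrt ‖q z‖ = 16 / 15 * (a * Real.sqrt ‖q z‖) := by rw [ha]; ring
    rw [h1]
    nlinarith
  rw [hJI]
  calc ENNReal.ofReal (r * Real.sqrt ‖q z‖) ≤ ENNReal.ofReal (16384000 * (1 + I)) :=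
        ENNReal.ofReal_le_ofReal hreal
    _ = ENNReal.ofReal 16384000 * (1 + ENNReal.ofReal I) := by
        rw [ENNReal.ofReal_mul (by norm_num), ENNReal.ofReal_add (by norm_num) hI0]
        simp

end Claimed.Agent.R269
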