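/-
Row 269, P1 Section 7: THE BRIDGE from Theorem 7.1 in the form of `S7/Thm71.lean` (helper146) to the `Prop`s `Shape.S7NoFin`, `Shape.S7NoTop` of `S7/Stmt.lean` (helper161), which Theorem 7.7 (`S7/GrowthMain.lean`) and Section 9 consume.
GLUE, no hole in this file.   Author: helper45.
   `Shape.s7_noFin : Sh.S7NoFin`,   `Shape.s7_noTop : Sh.S7NoTop`.
-/
import Claimed.Agent.R269.S7.Thm71
import Claimed.Agent.R269.S7.Stmt

set_option autoImplicit false

namespace Claimed.Agent.R269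

open Complex Filter Topology Set Metric
open scoped ENNReal Real

namespace Shape

variable (Sh : Shape)

/-- **Theorem 7.1, case `H < ∞`.** -/
theorem s7_noFin : Sh.S7NoFin := fun hH x h ℓ m c₀ α₀ δb hp hf =>
  Sh.s7_exp_obstruction hH x h ℓ m c₀ hp.c₀_ne α₀ δb
    (fun n => ⟨hp.ℓ_pos n, hp.m_pos n, hf.h_lt n⟩) hp.b_top hf.h_lim hf.ℓ_lim hf.exhaust hp.lim
    hp.α₀_gt hp.α₀_lt hf.δb_pos hf.δb_lt hf.cone

/-- **Theorem 7.1, case `H = ∞`.** -/
theorem s7_noTop : Sh.S7NoTop := fun hH x h ℓ m c₀ α₀ hp ht => by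
  obtain ⟨fst, hy⟩ := Sh.s7_normalise_inf hH x h ℓ m c₀ α₀ hp ht
  exact Sh.s7_inf_false hy

end Shape

end Claimed.Agent.R269
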