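/-
Row 269, P1 Section 7: FROZEN FUNCTIONS AND FIRST VARIATIONS (HOST-FREE, explicit calculus).   LEAF PACKAGE LF-S7-frozen (ONE FILE = ONE OWNER).   Statements: helper146.   Proofs: helper175.
The formulas are explained in the header of `S7/OneStep.lean`; they were checked numerically.  `x = λ u`.
   first profile :  C₀ = (1 - cos x)/λ²,  C₀' = D₀ = sin x/λ,   D₀' = cos x;      second profile:  C₀ = (cosh x - 1)/λ², C₀' = D₀ = sinh x/λ,  D₀' = cosh x.
   Wedge: `Δ₀(J) = D₀'(J) C₀(J) - D₀(J)² = (cos x - 1)/λ² = -2 sin²(x/2)/λ²` (resp. `(1 - cosh x)/λ² = -2 sinh²(x/2)/λ²`), `x = λ J = 2 z`.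
   For `s7_frozen_wedge` write everything in terms of `sin z, cos z` (half angle: `sin x = 2 sin z cos z`, `cos x = 1 - 2 sin² z`), clear denominators (`λ = exp(-iσ) ≠ 0`, `exp(2iσ) = λ⁻²`), `ring_nf`/`linear_combination` with `sin² + cos² = 1`.
-/
import Claimed.Agent.R269.S7.Defs

set_option autoImplicit false

namespace Claimed.Agent.R269

open Complex Filter Topology Set Metric

/-! ### frozen functions and first variations -/

/-- `C₀`. -/
noncomputable def s7C0 (fst : Bool) (lam u : ℂ) : ℂ :=
  if fst then (1 - Complex.cos (lam * u)) / lam ^ 2 else (Complex.cosh (lam * u) - 1) / lam ^ 2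
/-- `C₀' = D₀`. -/
noncomputable def s7D0 (fst : Bool) (lam u : ℂ) : ℂ :=
  if fst then Complex.sin (lam * u) / lam else Complex.sinh (lam * u) / lam
/-- `D₀'`. -/
noncomputable def s7D0' (fst : Bool) (lam u : ℂ) : ℂ :=
  if fst then Complex.cos (lam * u) else Complex.cosh (lam * u)
/-- `δC`. -/
noncomputable def s7dC (fst : Bool) (lam u : ℂ) : ℂ :=
  if fst then I / 2 / lam ^ 3 * (-(lam * u) ^ 2 * Complex.sin (lam * u) - 4 * (lam * u) * Complex.cos (lam * u)
      + 6 * Complex.sin (lam * u) - 2 * (lam * u))
  else -(I / (2 * lam)) * u ^ 2 * Complex.sinh (lam * u) + I / (2 * lam ^ 2) * u * Complex.cosh (lam * u)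
      - 2 * I * u / lam ^ 2 + 3 * I / (2 * lam ^ 3) * Complex.sinh (lam * u)
/-- `δC'`. -/
noncomputable def s7dC' (fst : Bool) (lam u : ℂ) : ℂ :=
  if fst then I / 2 / lam ^ 2 * (2 * (lam * u) * Complex.sin (lam * u) - (lam * u) ^ 2 * Complex.cos (lam * u)
      + 2 * Complex.cos (lam * u) - 2)
  else -(I / (2 * lam)) * u * Complex.sinh (lam * u) - I / 2 * u ^ 2 * Complex.cosh (lam * u)
      + 2 * I / lam ^ 2 * (Complex.cosh (lam * u) - 1)
/-- `δD`. -/
noncomputable def s7dD (fst : Bool) (lam u : ℂ) : ℂ :=
  if fst then I / 2 / lam ^ 2 * (-(lam * u) ^ 2 * Complex.cos (lam * u) + 4 * (lam * u) * Complex.sin (lam * u)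
      + 6 * Complex.cos (lam * u) - 6)
  else -(I / 2) * u ^ 2 * Complex.cosh (lam * u) + I / (2 * lam) * u * Complex.sinh (lam * u)
/-- `δD'`. -/
noncomputable def s7dD' (fst : Bool) (lam u : ℂ) : ℂ :=
  if fst then I / 2 / lam * (2 * (lam * u) * Complex.cos (lam * u) + (lam * u) ^ 2 * Complex.sin (lam * u)
      - 2 * Complex.sin (lam * u))
  else -(I / 2) * u * Complex.cosh (lam * u) - I * lam / 2 * u ^ 2 * Complex.sinh (lam * u)
      + I / (2 * lam) * Complex.sinh (lam * u)

theorem s7fz_lin (lam u : ℂ) : HasDerivAt (fun u : ℂ => lam * u) lam u := by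
  simpa using (hasDerivAt_id u).const_mul lam

/-- LEAF LF-S7-frozen (a): the frozen functions are the fast functions of the constant fields. -/
theorem s7_frozen_isFast (fst : Bool) (lam : ℂ) (hl : lam ≠ 0) :
    IsFast univ (fun _ => if fst then lam else 0) (fun _ => if fst then 0 else lam ^ 2)
      (fun u => if fst then lam * u else 0) (s7C0 fst lam) (s7D0 fst lam) (s7D0 fst lam)
      (s7D0' fst lam) := by
  cases fst
  · have eC : s7C0 false lam = fun u => (Complex.cosh (lam * u) - 1) / lam ^ 2 := by
      funext u; simp [s7C0]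
    have eD : s7D0 false lam = fun u => Complex.sinh (lam * u) / lam := by
      funext u; simp [s7D0]
    have eD' : s7D0' false lam = fun u => Complex.cosh (lam * u) := by
      funext u; simp [s7D0']
    rw [eC, eD, eD']
    simp only [Bool.false_eq_true, if_false]
    refine ⟨rfl, by simp, by simp, by simp, by simp, fun u _ => hasDerivAt_const _ _,
      fun u _ => ?_, fun u _ => ?_, fun u _ => ?_, fun u _ => ?_⟩
    · exact (((s7fz_lin lam u).ccosh.sub_const 1).div_const (lam ^ 2)).congr_deriv (by field_simp)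
    · exact ((s7fz_lin lam u).csinh.div_const lam).congr_deriv (by
        rw [Complex.cos_zero]; field_simp; ring)
    · exact ((s7fz_lin lam u).csinh.div_const lam).congr_deriv (by field_simp)
    · exact ((s7fz_lin lam u).ccosh).congr_deriv (by field_simp; ring)
  · have eC : s7C0 true lam = fun u => (1 - Complex.cos (lam * u)) / lam ^ 2 := by
      funext u; simp [s7C0]
    have eD : s7D0 true lam = fun u => Complex.sin (lam * u) / lam := by
      funext u; simp [s7D0]
    have eD' : s7D0' true lam = fun u => Complex.cos (lam * u) := by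
      funext u; simp [s7D0']
    rw [eC, eD, eD']
    simp only [if_true]
    refine ⟨by simp, by simp, by simp, by simp, by simp, fun u _ => s7fz_lin lam u,
      fun u _ => ?_, fun u _ => ?_, fun u _ => ?_, fun u _ => ?_⟩
    · exact (((s7fz_lin lam u).ccos.const_sub 1).div_const (lam ^ 2)).congr_deriv (by field_simp)
    · exact ((s7fz_lin lam u).csin.div_const lam).congr_deriv (by field_simp; ring)
    · exact ((s7fz_lin lam u).csin.div_const lam).congr_deriv (by field_simp)
    · exact ((s7fz_lin lam u).ccos).congr_deriv (by ring)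

/-- LEAF LF-S7-frozen (b): the variational equations. -/
theorem s7_frozen_var (fst : Bool) (lam : ℂ) (hl : lam ≠ 0) :
    s7dC fst lam 0 = 0 ∧ s7dC' fst lam 0 = 0 ∧ s7dD fst lam 0 = 0 ∧ s7dD' fst lam 0 = 0 ∧
    (∀ u, HasDerivAt (s7dC fst lam) (s7dC' fst lam u) u) ∧
    (∀ u, HasDerivAt (s7dD fst lam) (s7dD' fst lam u) u) ∧
    (∀ u, HasDerivAt (s7dC' fst lam)
      (if fst then Complex.sin (lam * u) * (I * lam * u ^ 2 / 2)
        else lam ^ 2 * s7dC fst lam u - 2 * I * lam ^ 2 * u * s7C0 fst lam u) u) ∧
    (∀ u, HasDerivAt (s7dD' fst lam)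
      (if fst then lam * Complex.cos (lam * u) * (I * lam * u ^ 2 / 2)
        else lam ^ 2 * s7dD fst lam u - 2 * I * lam ^ 2 * u * s7D0 fst lam u) u) := by
  cases fst
  · have eC0 : s7C0 false lam = fun u => (Complex.cosh (lam * u) - 1) / lam ^ 2 := by
      funext u; simp [s7C0]
    have eD0 : s7D0 false lam = fun u => Complex.sinh (lam * u) / lam := by
      funext u; simp [s7D0]
    have eC : s7dC false lam = fun u => -(I / (2 * lam)) * u ^ 2 * Complex.sinh (lam * u) +
        I / (2 * lam ^ 2) * u * Complex.cosh (lam * u) - 2 * I * u / lam ^ 2 +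
        3 * I / (2 * lam ^ 3) * Complex.sinh (lam * u) := by
      funext u; simp [s7dC]
    have eC' : s7dC' false lam = fun u => -(I / (2 * lam)) * u * Complex.sinh (lam * u) -
        I / 2 * u ^ 2 * Complex.cosh (lam * u) + 2 * I / lam ^ 2 * (Complex.cosh (lam * u) - 1) := by
      funext u; simp [s7dC']
    have eD : s7dD false lam = fun u => -(I / 2) * u ^ 2 * Complex.cosh (lam * u) +
        I / (2 * lam) * u * Complex.sinh (lam * u) := by
      funext u; simp [s7dD]
    have eD' : s7dD' false lam = fun u => -(I / 2) * u * Complex.cosh (lam * u) -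
        I * lam / 2 * u ^ 2 * Complex.sinh (lam * u) + I / (2 * lam) * Complex.sinh (lam * u) := by
      funext u; simp [s7dD']
    rw [eC0, eD0, eC, eC', eD, eD']
    simp only [Bool.false_eq_true, if_false]
    refine ⟨by simp, by simp, by simp, by simp, fun u => ?_, fun u => ?_, fun u => ?_, fun u => ?_⟩
    · have hs := (s7fz_lin lam u).csinh
      have hc := (s7fz_lin lam u).ccosh
      have hi := hasDerivAt_id u
      have h := ((((hi.pow 2).const_mul (-(I / (2 * lam)))).mul hs).add
        ((hi.const_mul (I / (2 * lam ^ 2))).mul hc)).sub ((hi.const_mul (2 * I)).div_const (lam ^ 2))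
      have h' := h.add (hs.const_mul (3 * I / (2 * lam ^ 3)))
      refine h'.congr_deriv ?_
      simp only [id, Pi.pow_apply]
      field_simp
      ring
    · have hs := (s7fz_lin lam u).csinh
      have hc := (s7fz_lin lam u).ccosh
      have hi := hasDerivAt_id u
      have h := (((hi.pow 2).const_mul (-(I / 2))).mul hc).add
        ((hi.const_mul (I / (2 * lam))).mul hs)
      refine h.congr_deriv ?_
      simp only [id, Pi.pow_apply]
      field_simp
      ring
    · have hs := (s7fz_lin lam u).csinh
      have hc := (s7fz_lin lam u).ccosh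
      have hi := hasDerivAt_id u
      have h := (((hi.const_mul (-(I / (2 * lam)))).mul hs).sub
        (((hi.pow 2).const_mul (I / 2)).mul hc)).add ((hc.sub_const 1).const_mul (2 * I / lam ^ 2))
      refine h.congr_deriv ?_
      simp only [id, Pi.pow_apply]
      field_simp
      ring
    · have hs := (s7fz_lin lam u).csinh
      have hc := (s7fz_lin lam u).ccosh
      have hi := hasDerivAt_id u
      have h := (((hi.const_mul (-(I / 2))).mul hc).sub
        (((hi.pow 2).const_mul (I * lam / 2)).mul hs)).add (hs.const_mul (I / (2 * lam)))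
      refine h.congr_deriv ?_
      simp only [id, Pi.pow_apply]
      field_simp
      ring
  · have eC : s7dC true lam = fun u => I / 2 / lam ^ 3 * (-(lam * u) ^ 2 * Complex.sin (lam * u) -
        4 * (lam * u) * Complex.cos (lam * u) + 6 * Complex.sin (lam * u) - 2 * (lam * u)) := by
      funext u; simp [s7dC]
    have eC' : s7dC' true lam = fun u => I / 2 / lam ^ 2 * (2 * (lam * u) * Complex.sin (lam * u) -
        (lam * u) ^ 2 * Complex.cos (lam * u) + 2 * Complex.cos (lam * u) - 2) := by
      funext u; simp [s7dC']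
    have eD : s7dD true lam = fun u => I / 2 / lam ^ 2 * (-(lam * u) ^ 2 * Complex.cos (lam * u) +
        4 * (lam * u) * Complex.sin (lam * u) + 6 * Complex.cos (lam * u) - 6) := by
      funext u; simp [s7dD]
    have eD' : s7dD' true lam = fun u => I / 2 / lam * (2 * (lam * u) * Complex.cos (lam * u) +
        (lam * u) ^ 2 * Complex.sin (lam * u) - 2 * Complex.sin (lam * u)) := by
      funext u; simp [s7dD']
    rw [eC, eC', eD, eD']
    simp only [if_true]
    refine ⟨by simp, by simp, by simp, by simp, fun u => ?_, fun u => ?_, fun u => ?_, fun u => ?_⟩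
    · have hx := s7fz_lin lam u
      have hs := hx.csin
      have hc := hx.ccos
      have h := (((((hx.pow 2).neg.mul hs).sub ((hx.const_mul 4).mul hc)).add (hs.const_mul 6)).sub
        (hx.const_mul 2)).const_mul (I / 2 / lam ^ 3)
      refine h.congr_deriv ?_
      simp only [Pi.neg_apply, Pi.pow_apply]
      field_simp
      ring
    · have hx := s7fz_lin lam u
      have hs := hx.csin
      have hc := hx.ccos
      have h := (((((hx.pow 2).neg.mul hc).add ((hx.const_mul 4).mul hs)).add (hc.const_mul 6)).sub_const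
        6).const_mul (I / 2 / lam ^ 2)
      refine h.congr_deriv ?_
      simp only [Pi.neg_apply, Pi.pow_apply]
      field_simp
      ring
    · have hx := s7fz_lin lam u
      have hs := hx.csin
      have hc := hx.ccos
      have h := (((((hx.const_mul 2).mul hs).sub ((hx.pow 2).mul hc)).add (hc.const_mul 2)).sub_const
        2).const_mul (I / 2 / lam ^ 2)
      refine h.congr_deriv ?_
      simp only [Pi.neg_apply, Pi.pow_apply]
      field_simp
      ring
    · have hx := s7fz_lin lam u
      have hs := hx.csin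
      have hc := hx.ccos
      have h := ((((hx.const_mul 2).mul hc).add ((hx.pow 2).mul hs)).sub
        (hs.const_mul 2)).const_mul (I / 2 / lam)
      refine h.congr_deriv ?_
      simp only [Pi.neg_apply, Pi.pow_apply]
      field_simp
      ring

/-- LEAF LF-S7-frozen (c): the wedge identities. -/
theorem s7_frozen_wedge (fst : Bool) (σ J : ℂ) (h : (σ, J) ∈ s7Reg fst) :
    s7D0' fst (Complex.exp (-(I * σ))) J * s7C0 fst (Complex.exp (-(I * σ))) J
        - s7D0 fst (Complex.exp (-(I * σ))) J * s7D0 fst (Complex.exp (-(I * σ))) J ≠ 0 ∧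
    s7X fst σ J = -2 * (s7dD fst (Complex.exp (-(I * σ))) J * s7C0 fst (Complex.exp (-(I * σ))) J
        - s7D0 fst (Complex.exp (-(I * σ))) J * s7dC fst (Complex.exp (-(I * σ))) J) /
      (s7D0' fst (Complex.exp (-(I * σ))) J * s7C0 fst (Complex.exp (-(I * σ))) J
        - s7D0 fst (Complex.exp (-(I * σ))) J * s7D0 fst (Complex.exp (-(I * σ))) J) := by
  obtain ⟨lam, hlam⟩ : ∃ lam : ℂ, lam = Complex.exp (-(I * σ)) := ⟨_, rfl⟩
  have hl : lam ≠ 0 := by rw [hlam]; exact Complex.exp_ne_zero _
  have hE : Complex.exp (2 * I * σ) = 1 / lam ^ 2 := by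
    rw [hlam, ← Complex.exp_nat_mul, one_div, ← Complex.exp_neg]
    congr 1
    push_cast
    ring
  obtain ⟨z, hz⟩ : ∃ z : ℂ, z = s7z σ J := ⟨_, rfl⟩
  have hzJ : lam * J = 2 * z := by rw [hz, s7z, ← hlam]; ring
  have hJ : J = 2 * z / lam := by
    rw [← hzJ]; field_simp
  rw [← hlam]
  cases fst
  · have hreg : Complex.sinh z ≠ 0 := by
      have : Complex.sinh (s7z σ J) ≠ 0 := by simpa [s7Reg] using h
      rwa [← hz] at this
    have hrel := Complex.cosh_sq_sub_sinh_sq z
    have hS : Complex.sinh (2 * z) = 2 * Complex.sinh z * Complex.cosh z := by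
      rw [Complex.sinh_two_mul]
    have hC : Complex.cosh (2 * z) = 1 + 2 * Complex.sinh z ^ 2 := by
      rw [Complex.cosh_two_mul]; linear_combination hrel
    simp only [s7D0', s7C0, s7D0, s7dD, s7dC, s7X, Bool.false_eq_true, if_false, ← hz, hzJ, hS, hC, hE]
    have hW : (1 + 2 * Complex.sinh z ^ 2) * ((1 + 2 * Complex.sinh z ^ 2 - 1) / lam ^ 2) -
        2 * Complex.sinh z * Complex.cosh z / lam * (2 * Complex.sinh z * Complex.cosh z / lam) =
        -2 * Complex.sinh z ^ 2 / lam ^ 2 := by
      field_simp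
      linear_combination (-4 * Complex.sinh z ^ 2) * hrel
    rw [hW]
    refine ⟨by
      apply div_ne_zero _ (pow_ne_zero 2 hl)
      exact mul_ne_zero (by norm_num) (pow_ne_zero 2 hreg), ?_⟩
    rw [hJ]
    field_simp
    linear_combination (-4 * Complex.sinh z ^ 2 * z ^ 2) * hrel
  · have hreg : Complex.sin z ≠ 0 := by
      have : Complex.sin (s7z σ J) ≠ 0 := by simpa [s7Reg] using h
      rwa [← hz] at this
    have hrel := Complex.sin_sq_add_cos_sq z
    have hS : Complex.sin (2 * z) = 2 * Complex.sin z * Complex.cos z := by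
      rw [Complex.sin_two_mul]
    have hC : Complex.cos (2 * z) = 1 - 2 * Complex.sin z ^ 2 := by
      rw [Complex.cos_two_mul]; linear_combination 2 * hrel
    simp only [s7D0', s7C0, s7D0, s7dD, s7dC, s7X, if_true, ← hz, hzJ, hS, hC, hE]
    have hW : (1 - 2 * Complex.sin z ^ 2) * ((1 - (1 - 2 * Complex.sin z ^ 2)) / lam ^ 2) -
        2 * Complex.sin z * Complex.cos z / lam * (2 * Complex.sin z * Complex.cos z / lam) =
        -2 * Complex.sin z ^ 2 / lam ^ 2 := by
      field_simp
      linear_combination (-4 * Complex.sin z ^ 2) * hrel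
    rw [hW]
    refine ⟨by
      apply div_ne_zero _ (pow_ne_zero 2 hl)
      exact mul_ne_zero (by norm_num) (pow_ne_zero 2 hreg), ?_⟩
    field_simp
    linear_combination (24 * Complex.sin z ^ 2 - 16 * Complex.sin z ^ 2 * z ^ 2) * hrel

end Claimed.Agent.R269
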