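/-
Row 269, P1 Section 7: three HOST-FREE tools for the one-step lemma.   LEAF PACKAGE LF-S7-ode2stab (ONE FILE = ONE OWNER).   Statements: helper146.   Proofs: helper175.
* `ca_ode2_stab`  : along the ray `r ↦ r u`: `E(r) = ‖w‖ + ‖w'‖` satisfies `E' ≤ ϱ (1 + B) E + ϱ η`, `E(0) = 0`  (`norm_le_gronwallBound_of_norm_deriv_right_le` for the pair `(w,w')`).
* `ca_root_near`  : `N(J) = J - G J/Δ` is a `1/2`-contraction of `closedBall c r` into itself (`‖N J - N J'‖ ≤ (κ/‖Δ‖) ‖J - J'‖` by the mean value inequality on the convex ball, `‖N c - c‖ ≤ r/2`);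
                    `ContractingWith.exists_fixedPoint'` on the complete set `closedBall c r`.  Estimates: `-G c = Δ (Jp - c) + E`, `‖E‖ ≤ κ ‖Jp - c‖`.   `G' Jp ≠ 0` since `‖G' Jp - Δ‖ ≤ ‖Δ‖/2`.
* `S7StepEq.symm` : `IsFast.refl` (Lib/Chord.lean): `C̃(u) = C(-u)`, `D̃d(u) = -Dd(-u)` are the fast functions for the step `-a`; the equation changes sign.
-/
import Claimed.Agent.R269.S7.Defs

set_option autoImplicit false

namespace Claimed.Agent.R269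

open Complex Filter Topology Set Metric

/-- LEAF LF-S7-ode2stab (Gronwall along rays): `w'' = Q w + r`, zero data, `|Q| ≤ B`, `|r| ≤ η` on a set star shaped about `0` inside `ball 0 ϱ`. -/
theorem ca_ode2_stab (ϱ B : ℝ) (hϱ : 0 < ϱ) (hB : 0 ≤ B) :
    ∃ K : ℝ, 0 < K ∧ ∀ (V : Set ℂ), V ⊆ ball (0 : ℂ) ϱ →
      (∀ u ∈ V, ∀ r ∈ Icc (0 : ℝ) 1, (r : ℂ) * u ∈ V) →
      ∀ (Q w w' r : ℂ → ℂ) (η : ℝ), w 0 = 0 → w' 0 = 0 → (∀ u ∈ V, HasDerivAt w (w' u) u) →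
        (∀ u ∈ V, HasDerivAt w' (Q u * w u + r u) u) → (∀ u ∈ V, ‖Q u‖ ≤ B) → (∀ u ∈ V, ‖r u‖ ≤ η) →
        ∀ u ∈ V, ‖w u‖ ≤ K * η ∧ ‖w' u‖ ≤ K * η := by
  have hK1 : 0 < ϱ * (1 + B) := by positivity
  refine ⟨Real.exp (ϱ * (1 + B)), Real.exp_pos _, ?_⟩
  intro V hV hstar Q w w' r η hw0 hw'0 hw hw' hQ hr u hu
  have hη : 0 ≤ η := (norm_nonneg _).trans (hr u hu)
  have hu' : ‖u‖ ≤ ϱ := by
    have := hV hu
    rw [mem_ball_zero_iff] at this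
    exact this.le
  have hγ : ∀ t : ℝ, HasDerivAt (fun t : ℝ => (t : ℂ) * u) u t := by
    intro t
    have := ((hasDerivAt_id t).ofReal_comp).mul_const u
    simpa using this
  have hmem : ∀ t ∈ Icc (0 : ℝ) 1, (t : ℂ) * u ∈ V := fun t ht => hstar u hu t ht
  have hy : ∀ t ∈ Icc (0 : ℝ) 1, HasDerivAt (fun t : ℝ => (w ((t : ℂ) * u), w' ((t : ℂ) * u)))
      (u • w' ((t : ℂ) * u), u • (Q ((t : ℂ) * u) * w ((t : ℂ) * u) + r ((t : ℂ) * u))) t := by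
    intro t ht
    exact ((hw _ (hmem t ht)).scomp t (hγ t)).prodMk ((hw' _ (hmem t ht)).scomp t (hγ t))
  have hbound := norm_le_gronwallBound_of_norm_deriv_right_le
    (f := fun t : ℝ => (w ((t : ℂ) * u), w' ((t : ℂ) * u)))
    (f' := fun t : ℝ => (u • w' ((t : ℂ) * u),
      u • (Q ((t : ℂ) * u) * w ((t : ℂ) * u) + r ((t : ℂ) * u))))
    (δ := 0) (K := ϱ * (1 + B)) (ε := ϱ * η) (a := 0) (b := 1)
    (fun t ht => (hy t ht).continuousAt.continuousWithinAt)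
    (fun t ht => (hy t ⟨ht.1, ht.2.le⟩).hasDerivWithinAt)
    (by simp [hw0, hw'0])
    (fun t ht => by
      have htm := hmem t ⟨ht.1, ht.2.le⟩
      set z := (t : ℂ) * u with hz
      have n1 : ‖w z‖ ≤ ‖(w z, w' z)‖ := norm_fst_le (w z, w' z)
      have n2 : ‖w' z‖ ≤ ‖(w z, w' z)‖ := norm_snd_le (w z, w' z)
      have hN : 0 ≤ ‖(w z, w' z)‖ := norm_nonneg _
      have hBN : 0 ≤ B * ‖(w z, w' z)‖ := mul_nonneg hB hN
      rw [Prod.norm_def]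
      apply max_le
      · show ‖u • w' z‖ ≤ _
        rw [norm_smul]
        calc ‖u‖ * ‖w' z‖ ≤ ϱ * ‖(w z, w' z)‖ := mul_le_mul hu' n2 (norm_nonneg _) hϱ.le
          _ ≤ ϱ * (1 + B) * ‖(w z, w' z)‖ + ϱ * η := by nlinarith
      · show ‖u • (Q z * w z + r z)‖ ≤ _
        rw [norm_smul]
        have h1 : ‖Q z * w z + r z‖ ≤ B * ‖(w z, w' z)‖ + η := by
          calc ‖Q z * w z + r z‖ ≤ ‖Q z‖ * ‖w z‖ + ‖r z‖ := by
                rw [← norm_mul]; exact norm_add_le _ _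
            _ ≤ B * ‖(w z, w' z)‖ + η :=
                add_le_add (mul_le_mul (hQ z htm) n1 (norm_nonneg _) hB) (hr z htm)
        calc ‖u‖ * ‖Q z * w z + r z‖ ≤ ϱ * (B * ‖(w z, w' z)‖ + η) :=
              mul_le_mul hu' h1 (norm_nonneg _) hϱ.le
          _ ≤ ϱ * (1 + B) * ‖(w z, w' z)‖ + ϱ * η := by nlinarith)
    1 ⟨zero_le_one, le_rfl⟩
  rw [gronwallBound_of_K_ne_0 hK1.ne'] at hbound
  simp only [Complex.ofReal_one, one_mul, zero_mul, sub_zero, mul_one, zero_add] at hbound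
  have hfin : ϱ * η / (ϱ * (1 + B)) * (Real.exp (ϱ * (1 + B)) - 1) ≤ Real.exp (ϱ * (1 + B)) * η := by
    have e1 : ϱ * η / (ϱ * (1 + B)) = η / (1 + B) := by field_simp
    have e2 : η / (1 + B) ≤ η := div_le_self hη (by linarith)
    have e3 : 0 ≤ Real.exp (ϱ * (1 + B)) - 1 := by
      have := Real.add_one_le_exp (ϱ * (1 + B))
      linarith
    rw [e1]
    calc η / (1 + B) * (Real.exp (ϱ * (1 + B)) - 1) ≤ η * (Real.exp (ϱ * (1 + B)) - 1) :=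
          mul_le_mul_of_nonneg_right e2 e3
      _ ≤ Real.exp (ϱ * (1 + B)) * η := by nlinarith
  exact ⟨(norm_fst_le (w u, w' u)).trans (hbound.trans hfin),
    (norm_snd_le (w u, w' u)).trans (hbound.trans hfin)⟩

/-- LEAF LF-S7-rootnear (Banach fixed point for `J ↦ J - G J/Δ`): quantitative one-variable inverse function theorem. -/
theorem ca_root_near {G G' : ℂ → ℂ} {c Δ : ℂ} {r κ : ℝ} (hr : 0 < r)
    (hG : ∀ J ∈ closedBall c r, HasDerivAt G (G' J) J) (hκ : ∀ J ∈ closedBall c r, ‖G' J - Δ‖ ≤ κ)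
    (hκΔ : 2 * κ ≤ ‖Δ‖) (hΔ : Δ ≠ 0) (hc : 2 * ‖G c‖ ≤ r * ‖Δ‖) :
    ∃ Jp ∈ closedBall c r, G Jp = 0 ∧ G' Jp ≠ 0 ∧ (∀ J ∈ closedBall c r, G J = 0 → J = Jp) ∧
      ‖Jp - c‖ ≤ 2 * ‖G c‖ / ‖Δ‖ ∧ ‖Jp - c + G c / Δ‖ ≤ 2 * κ * ‖G c‖ / ‖Δ‖ ^ 2 := by
  have hΔ0 : 0 < ‖Δ‖ := norm_pos_iff.2 hΔ
  have hcmem : c ∈ closedBall c r := mem_closedBall_self hr.le
  have hκ0 : 0 ≤ κ := (norm_nonneg _).trans (hκ c hcmem)
  have hq : κ / ‖Δ‖ ≤ 1 / 2 := by
    rw [div_le_iff₀ hΔ0]; linarith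
  have hq0 : 0 ≤ κ / ‖Δ‖ := by positivity
  -- the Newton map
  obtain ⟨N, hN⟩ : ∃ N : ℂ → ℂ, N = fun J => J - G J / Δ := ⟨_, rfl⟩
  have hNd : ∀ J ∈ closedBall c r, HasDerivWithinAt N (1 - G' J / Δ) (closedBall c r) J := by
    intro J hJ
    rw [hN]
    exact ((hasDerivAt_id J).sub ((hG J hJ).div_const Δ)).hasDerivWithinAt
  have hNb : ∀ J ∈ closedBall c r, ‖1 - G' J / Δ‖ ≤ κ / ‖Δ‖ := by
    intro J hJ
    have e : 1 - G' J / Δ = -(G' J - Δ) / Δ := by field_simp; ring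
    rw [e, norm_div, norm_neg]
    exact div_le_div_of_nonneg_right (hκ J hJ) hΔ0.le
  have hlip : ∀ J ∈ closedBall c r, ∀ J' ∈ closedBall c r, ‖N J' - N J‖ ≤ κ / ‖Δ‖ * ‖J' - J‖ :=
    fun J hJ J' hJ' => Convex.norm_image_sub_le_of_norm_hasDerivWithin_le hNd hNb
      (convex_closedBall c r) hJ hJ'
  have hNc : ‖N c - c‖ = ‖G c‖ / ‖Δ‖ := by
    rw [hN]; simp only [sub_sub_cancel_left, norm_neg, norm_div]
  have hNc' : ‖N c - c‖ ≤ r / 2 := by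
    rw [hNc, div_le_iff₀ hΔ0]; linarith
  have hmaps : MapsTo N (closedBall c r) (closedBall c r) := by
    intro J hJ
    have h1 := hlip c hcmem J hJ
    have h2 : ‖J - c‖ ≤ r := by simpa [dist_eq_norm] using hJ
    rw [mem_closedBall, dist_eq_norm]
    calc ‖N J - c‖ = ‖(N J - N c) + (N c - c)‖ := by congr 1; ring
      _ ≤ ‖N J - N c‖ + ‖N c - c‖ := norm_add_le _ _
      _ ≤ 1 / 2 * r + r / 2 := by
          refine add_le_add (h1.trans ?_) hNc'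
          exact mul_le_mul hq h2 (norm_nonneg _) (by norm_num)
      _ = r := by ring
  have hcontr : ContractingWith (1 / 2 : NNReal) (hmaps.restrict N (closedBall c r) (closedBall c r)) := by
    refine ⟨by norm_num, LipschitzWith.of_dist_le_mul fun x y => ?_⟩
    rw [Subtype.dist_eq, Subtype.dist_eq, dist_eq_norm, dist_eq_norm]
    simp only [MapsTo.val_restrict_apply]
    have := hlip y y.2 x x.2
    refine this.trans ?_
    have e : ((1 / 2 : NNReal) : ℝ) = 1 / 2 := by norm_num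
    rw [e]
    exact mul_le_mul_of_nonneg_right hq (norm_nonneg _)
  obtain ⟨Jp, hJp, hfix, -, -⟩ := hcontr.exists_fixedPoint' (isClosed_closedBall.isComplete) hmaps
    hcmem (edist_ne_top _ _)
  have hfix' : N Jp = Jp := hfix
  have hGJp : G Jp = 0 := by
    rw [hN] at hfix'
    have : G Jp / Δ = 0 := by
      have h2 : Jp - G Jp / Δ = Jp := hfix'
      linear_combination -h2
    rcases div_eq_zero_iff.1 this with h | h
    · exact h
    · exact absurd h hΔ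
  have hdist : ‖Jp - c‖ ≤ 2 * ‖G c‖ / ‖Δ‖ := by
    have h1 := hlip c hcmem Jp hJp
    rw [hfix'] at h1
    have h2 : ‖Jp - c‖ ≤ ‖Jp - N c‖ + ‖N c - c‖ := by
      have := norm_add_le (Jp - N c) (N c - c)
      rwa [sub_add_sub_cancel] at this
    have h3 : κ / ‖Δ‖ * ‖Jp - c‖ ≤ 1 / 2 * ‖Jp - c‖ :=
      mul_le_mul_of_nonneg_right hq (norm_nonneg _)
    rw [hNc] at h2
    have e : 2 * ‖G c‖ / ‖Δ‖ = 2 * (‖G c‖ / ‖Δ‖) := by ring
    rw [e]
    linarith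
  refine ⟨Jp, hJp, hGJp, ?_, ?_, hdist, ?_⟩
  · intro h0
    have := hκ Jp hJp
    rw [h0, zero_sub, norm_neg] at this
    linarith
  · intro J hJ hGJ
    have hNJ : N J = J := by rw [hN]; simp [hGJ]
    have h1 := hlip Jp hJp J hJ
    rw [hNJ, hfix'] at h1
    have h3 : κ / ‖Δ‖ * ‖J - Jp‖ ≤ 1 / 2 * ‖J - Jp‖ :=
      mul_le_mul_of_nonneg_right hq (norm_nonneg _)
    have h4 : ‖J - Jp‖ ≤ 0 := by linarith
    exact sub_eq_zero.1 (norm_le_zero_iff.1 h4)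
  · have h1 := hlip c hcmem Jp hJp
    rw [hfix'] at h1
    have e : Jp - c + G c / Δ = Jp - N c := by rw [hN]; ring
    rw [e]
    refine h1.trans ?_
    calc κ / ‖Δ‖ * ‖Jp - c‖ ≤ κ / ‖Δ‖ * (2 * ‖G c‖ / ‖Δ‖) := mul_le_mul_of_nonneg_left hdist hq0
      _ = 2 * κ * ‖G c‖ / ‖Δ‖ ^ 2 := by field_simp

/-- LEAF LF-S7-stepsymm: the step equation read backwards (`IsFast.refl`). -/
theorem S7StepEq.symm {Ff Qf : ℂ → ℂ} {W : Set ℂ} {a σ Jm Jp : ℂ} (h : S7StepEq Ff Qf W a σ Jm Jp) :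
    S7StepEq Ff Qf W (-a) σ Jp Jm := by
  obtain ⟨θ, C, C', Dd, Dd', hf, heq⟩ := h
  refine ⟨fun u => -θ (-u), fun u => C (-u), fun u => -C' (-u), fun u => -Dd (-u),
    fun u => Dd' (-u), ?_, ?_⟩
  · have := hf.refl
    have e : ∀ u : ℂ, σ + a * -u = σ + -a * u := fun u => by ring
    simp only [Set.mem_ofPred_eq, e] at this
    exact this
  · simp only [neg_neg]
    linear_combination -heq

end Claimed.Agent.R269
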