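/-
Row 269, P1 Section 7: THE ONE-STEP LEMMA NEAR AN EXPONENTIAL PROFILE (HOST-FREE).   Owner of the statements: helper146.

`s7_onestep` (OS): for states `(σ,Jm)` in a compact set `𝒦` of regular states, fields `η₀`-close to the profile on `closedBall σ 1` and a step `0 < |a| ≤ η₀`, the step equation
      G(J) := Dd J * C (-Jm) + Dd (-Jm) * C J = 0
has a root `Jp` with `|Jp - Jm - a X(σ,Jm)| ≤ ε |a|`; the root is simple and is the only one in `closedBall Jm r₁`, `r₁ = r₁(𝒦)`.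

NOTATION.  `λ = e^{-iσ}`, `F(u) = Ff(σ+au)`, `Q(u) = Qf(σ+au)`.  `Φ⁺ = (θ,C,C',Dd,Dd')` the given fast functions, `Φ⁻ = ` the reflected ones (`IsFast.refl`): `C⁻(u) = C(-u)`, `Dd⁻(u) = -Dd(-u)`, fields `F⁻(u) = F(-u)`, `Q⁻(u) = Q(-u)`.
      G(J) = Dd⁺(J) C⁻(Jm) - Dd⁻(Jm) C⁺(J),      G'(J) = Dd⁺'(J) C⁻(Jm) - Dd⁻(Jm) C⁺'(J).
FROZEN FUNCTIONS (constant fields `F ≡ λ, Q ≡ 0`, resp. `F ≡ 0, Q ≡ λ²`), `x = λ u`:
      first profile :  θ₀ = x,  C₀ = (1 - cos x)/λ²,  C₀' = sin x/λ,   D₀ = sin x/λ,   D₀' = cos x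
      second profile:  θ₀ = 0,  C₀ = (cosh x - 1)/λ², C₀' = sinh x/λ,  D₀ = sinh x/λ,  D₀' = cosh x.
FIRST VARIATION `δΦ = lim (Φ⁺ - Φ⁻)/(2a)`:   `(F⁺ - F⁻)/(2a) → u ∂_σ pF(σ) = -iλu` (first), `(Q⁺ - Q⁻)/(2a) → u ∂_σ pQ(σ) = -2iλ²u` (second);  zero initial data;
      first :  δθ = -iλu²/2,  δC'' = -sin(λu) δθ,   δD'' = -λ cos(λu) δθ:
               δC = (i/2) λ⁻³ (-x² sin x - 4x cos x + 6 sin x - 2x),      δC' = (i/2) λ⁻² (2x sin x - x² cos x + 2 cos x - 2),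
               δD = (i/2) λ⁻² (-x² cos x + 4x sin x + 6 cos x - 6),       δD' = (i/2) λ⁻¹ (2x cos x + x² sin x - 2 sin x);
      second:  δθ = 0,  δC'' = λ² δC - 2iλ²u C₀,   δD'' = λ² δD - 2iλ²u D₀:
               δC = -(i/(2λ)) u² sinh x + (i/(2λ²)) u cosh x - 2iu/λ² + (3i/(2λ³)) sinh x,   δC' = -(i/(2λ)) u sinh x - (i/2) u² cosh x + (2i/λ²)(cosh x - 1),
               δD = -(i/2) u² cosh x + (i/(2λ)) u sinh x,                                     δD' = -(i/2) u cosh x - (iλ/2) u² sinh x + (i/(2λ)) sinh x.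
WEDGE IDENTITIES (`z = λJ/2`):   Δ₀(J) := D₀'(J) C₀(J) - D₀(J) C₀'(J) = -2 sin² z/λ²  (resp. -2 sinh² z/λ²);      -2 (δD(J) C₀(J) - D₀(J) δC(J)) / Δ₀(J) = s7X fst σ J.     [checked numerically]

PROOF OF OS.
 1. Compactness: on `𝒦`: `|λ|, |λ|⁻¹, |Jm| ≤ B₀`, `|Δ₀(Jm)| ≥ 4κ₀ > 0`.  `R_u = B₀ + 2`.  Choose `r₁ ≤ 1` with `|D₀'(J) C₀(Jm) - D₀(Jm) C₀'(J) - Δ₀(Jm)| ≤ κ₀` for `|J - Jm| ≤ r₁` (uniform continuity / explicit Lipschitz bound).
    For `|a| R_u ≤ 1/2` the ball `ball 0 R_u` lies in `{u | σ + a u ∈ W}` and `σ ± a u ∈ closedBall σ (1/2)`.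
 2. `|F^± - λ| ≤ η₀ + C|a|` etc. on `ball 0 R_u` (profile is Lipschitz), so by `isFast_stab`:  `|Φ^± - Φ₀| ≤ K (η₀ + |a|)` (all five components).
 3. `Ψ = (Φ⁺ - Φ⁻)/(2a)`.  `w = Ψ_C - δC` solves `w'' = Q⁺ w + r`, `w(0) = w'(0) = 0`,
       r = (Q⁺ - Q₀) δC + [(Q⁺ - Q⁻)/(2a)] C⁻ - δQ C₀ + (cos θ⁺ - cos θ⁻)/(2a) + sin θ₀ δθ,        and similarly for `Ψ_D - δD`.
    Cauchy estimate for `E = Ff - pF` (`|E| ≤ η₀` on `closedBall σ 1` ⇒ `|E'| ≤ 2η₀` on `closedBall σ (1/2)`): `|(F⁺ - F⁻)/(2a) - δF| ≤ K(η₀ + |a|²)`; integrate: `|(θ⁺ - θ⁻)/(2a) - δθ| ≤ K(η₀ + |a|)`;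
    `cos θ⁺ - cos θ⁻ = -2 sin((θ⁺+θ⁻)/2) sin((θ⁺-θ⁻)/2)`.  Hence `|r| ≤ K(η₀ + |a|)`; `ca_ode2_stab`: `|Ψ - δΦ| ≤ K(η₀ + |a|)`.
 4. `G(Jm) = 2a [Ψ_D(Jm) C⁻(Jm) - Dd⁻(Jm) Ψ_C(Jm)] = 2a [δD C₀ - D₀ δC](Jm) + O(|a| (η₀ + |a|))`;   `|G'(J) - (D₀'(J) C₀(Jm) - D₀(Jm) C₀'(J))| ≤ K(η₀+|a|)`.
 5. `ca_root_near` on `closedBall Jm r₁` (`κ = 2κ₀`): existence, uniqueness, simplicity.  `ca_root_near` on `closedBall Jm (K|a|)` (`κ = K(η₀+|a|)`): the estimate.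
-/
import Claimed.Agent.R269.S7.OdeStab
import Claimed.Agent.R269.S7.Frozen

set_option autoImplicit false

namespace Claimed.Agent.R269

open Complex Filter Topology Set Metric

/-- the linearised (antisymmetric) system about constant fields. -/
structure S7osLin (V : Set ℂ) (lam mu lam' mu' : ℂ) (θ0 C0 D0 Ch Ch' Dh Dh' : ℂ → ℂ) : Prop where
  Ch_zero : Ch 0 = 0
  Ch'_zero : Ch' 0 = 0
  Dh_zero : Dh 0 = 0
  Dh'_zero : Dh' 0 = 0
  Ch_deriv : ∀ u ∈ V, HasDerivAt Ch (Ch' u) u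
  Ch'_deriv : ∀ u ∈ V, HasDerivAt Ch'
    (mu * Ch u + (2 * mu' * u * C0 u - lam' * u ^ 2 * Complex.sin (θ0 u))) u
  Dh_deriv : ∀ u ∈ V, HasDerivAt Dh (Dh' u) u
  Dh'_deriv : ∀ u ∈ V, HasDerivAt Dh'
    (mu * Dh u + (2 * mu' * u * D0 u - lam * lam' * u ^ 2 * Complex.cos (θ0 u))) u

theorem s7os_cos_lin {x y c : ℂ} {R δ : ℝ} (hx : ‖x - c‖ ≤ δ) (hy : ‖y - c‖ ≤ δ) (hc : ‖c‖ + δ ≤ R) :
    ‖Complex.cos x - Complex.cos y + (x - y) * Complex.sin c‖ ≤ Real.exp R * δ * ‖x - y‖ := by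
  have hδ : 0 ≤ δ := (norm_nonneg _).trans hx
  have key := Convex.norm_image_sub_le_of_norm_hasDerivWithin_le (s := closedBall c δ)
    (f := fun t => Complex.cos t + t * Complex.sin c)
    (f' := fun t => -Complex.sin t + 1 * Complex.sin c) (C := Real.exp R * δ)
    (fun t _ => ((Complex.hasDerivAt_cos t).add
      ((hasDerivAt_id t).mul_const (Complex.sin c))).hasDerivWithinAt)
    (fun t ht => by
      have ht' : ‖t - c‖ ≤ δ := by simpa [dist_eq_norm] using ht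
      have h1 : ‖t‖ ≤ R := by
        have : ‖t‖ ≤ ‖t - c‖ + ‖c‖ := by simpa using norm_add_le (t - c) c
        linarith
      have h2 : ‖c‖ ≤ R := by linarith
      have h3 := ch_sin_lip h2 h1
      have h4 : -Complex.sin t + 1 * Complex.sin c = Complex.sin c - Complex.sin t := by ring
      rw [h4]
      refine h3.trans ?_
      rw [norm_sub_rev]
      exact mul_le_mul_of_nonneg_left ht' (Real.exp_pos _).le)
    (convex_closedBall _ _) (x := y) (y := x) (by simpa [dist_eq_norm] using hy)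
    (by simpa [dist_eq_norm] using hx)
  have h5 : Complex.cos x - Complex.cos y + (x - y) * Complex.sin c
      = (Complex.cos x + x * Complex.sin c) - (Complex.cos y + y * Complex.sin c) := by ring
  rw [h5]
  exact key

theorem s7os_sin_lin {x y c : ℂ} {R δ : ℝ} (hx : ‖x - c‖ ≤ δ) (hy : ‖y - c‖ ≤ δ) (hc : ‖c‖ + δ ≤ R) :
    ‖Complex.sin x - Complex.sin y - (x - y) * Complex.cos c‖ ≤ Real.exp R * δ * ‖x - y‖ := by
  have hδ : 0 ≤ δ := (norm_nonneg _).trans hx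
  have key := Convex.norm_image_sub_le_of_norm_hasDerivWithin_le (s := closedBall c δ)
    (f := fun t => Complex.sin t - t * Complex.cos c)
    (f' := fun t => Complex.cos t - 1 * Complex.cos c) (C := Real.exp R * δ)
    (fun t _ => ((Complex.hasDerivAt_sin t).sub
      ((hasDerivAt_id t).mul_const (Complex.cos c))).hasDerivWithinAt)
    (fun t ht => by
      have ht' : ‖t - c‖ ≤ δ := by simpa [dist_eq_norm] using ht
      have h1 : ‖t‖ ≤ R := by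
        have : ‖t‖ ≤ ‖t - c‖ + ‖c‖ := by simpa using norm_add_le (t - c) c
        linarith
      have h2 : ‖c‖ ≤ R := by linarith
      have h3 := ch_cos_lip h1 h2
      rw [one_mul]
      exact h3.trans (mul_le_mul_of_nonneg_left ht' (Real.exp_pos _).le))
    (convex_closedBall _ _) (x := y) (y := x) (by simpa [dist_eq_norm] using hy)
    (by simpa [dist_eq_norm] using hx)
  have h5 : Complex.sin x - Complex.sin y - (x - y) * Complex.cos c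
      = (Complex.sin x - x * Complex.cos c) - (Complex.sin y - y * Complex.cos c) := by ring
  rw [h5]
  exact key

theorem s7os_isFast_mono {V V' : Set ℂ} {F Q θ C C' Dd Dd' : ℂ → ℂ}
    (h : IsFast V F Q θ C C' Dd Dd') (hV : V' ⊆ V) : IsFast V' F Q θ C C' Dd Dd' :=
  ⟨h.θ_zero, h.C_zero, h.C'_zero, h.Dd_zero, h.Dd'_zero, fun u hu => h.θ_deriv u (hV hu),
    fun u hu => h.C_deriv u (hV hu), fun u hu => h.C'_deriv u (hV hu),
    fun u hu => h.Dd_deriv u (hV hu), fun u hu => h.Dd'_deriv u (hV hu)⟩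

theorem s7os_antisym (ϱ B : ℝ) (hϱ : 0 < ϱ) (hB : 0 ≤ B) :
    ∃ K : ℝ, 0 < K ∧ ∀ (η : ℝ) (a lam mu lam' mu' : ℂ)
      (F Q θ C C' Dd Dd' θ0 C0 C0' D0 D0' Ch Ch' Dh Dh' : ℂ → ℂ),
      η ≤ 1 → ‖lam‖ ≤ B → ‖mu‖ ≤ B → ‖lam'‖ ≤ B → ‖mu'‖ ≤ B →
      (∀ u ∈ ball (0 : ℂ) ϱ, ‖F u - lam‖ ≤ η ∧ ‖Q u - mu‖ ≤ η) →
      (∀ u ∈ ball (0 : ℂ) ϱ, ‖F u - F (-u) - 2 * a * lam' * u‖ ≤ ‖a‖ * η ∧
        ‖Q u - Q (-u) - 2 * a * mu' * u‖ ≤ ‖a‖ * η) →
      IsFast (ball 0 ϱ) F Q θ C C' Dd Dd' →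
      IsFast (ball 0 ϱ) (fun _ => lam) (fun _ => mu) θ0 C0 C0' D0 D0' →
      S7osLin (ball 0 ϱ) lam mu lam' mu' θ0 C0 D0 Ch Ch' Dh Dh' →
      ∀ u ∈ ball (0 : ℂ) ϱ, ‖Ch u‖ ≤ K ∧ ‖Dh u‖ ≤ K ∧ ‖C u - C (-u) - a * Ch u‖ ≤ K * (‖a‖ * η) ∧
        ‖Dd u + Dd (-u) - a * Dh u‖ ≤ K * (‖a‖ * η) := by
  obtain ⟨K₁, hK₁, stab⟩ := isFast_stab ϱ (B + 1) hϱ (by positivity)
  obtain ⟨K₂, hK₂, ode⟩ := ca_ode2_stab ϱ (B + 1) hϱ (by positivity)
  set E : ℝ := Real.exp (3 * K₁) with hE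
  have hE0 : 0 < E := Real.exp_pos _
  set Rh : ℝ := 2 * B * ϱ * K₁ + B * ϱ ^ 2 * E with hRh
  set Rd : ℝ := 2 * B * ϱ * K₁ + B * B * ϱ ^ 2 * E with hRd
  have hRh0 : 0 ≤ Rh := by positivity
  have hRd0 : 0 ≤ Rd := by positivity
  set Kh : ℝ := K₂ * (Rh + Rd) with hKh
  have hKh0 : 0 ≤ Kh := by positivity
  set Θ : ℝ := B * ϱ ^ 2 + ϱ with hΘ
  have hΘ0 : 0 ≤ Θ := by positivity
  set RC : ℝ := Kh + K₁ + 2 * B * ϱ * K₁ + (E * K₁ * Θ + ϱ * E) with hRC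
  set RD : ℝ := Kh + K₁ + 2 * B * ϱ * K₁ + (E * Θ + B * (E * K₁ * Θ) + B * (ϱ * E)) with hRD
  have hRC0 : 0 ≤ RC := by positivity
  have hRD0 : 0 ≤ RD := by positivity
  refine ⟨K₂ * (RC + RD) + Kh + 1, by positivity, ?_⟩
  intro η a lam mu lam' mu' F Q θ C C' Dd Dd' θ0 C0 C0' D0 D0' Ch Ch' Dh Dh' hη1 hlam hmu hlam' hmu'
    hnear hodd h h0 lin
  set V : Set ℂ := ball (0 : ℂ) ϱ with hV
  have hVsub : V ⊆ ball (0 : ℂ) ϱ := le_rfl
  have h0V : (0 : ℂ) ∈ V := mem_ball_self hϱ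
  have hη0 : 0 ≤ η := (norm_nonneg _).trans (hnear 0 h0V).1
  have hstar : ∀ u ∈ V, ∀ r ∈ Icc (0 : ℝ) 1, (r : ℂ) * u ∈ V := by
    intro u hu r hr
    rw [hV, mem_ball_zero_iff] at hu ⊢
    rw [norm_mul, Complex.norm_real, Real.norm_eq_abs, abs_of_nonneg hr.1]
    calc r * ‖u‖ ≤ 1 * ‖u‖ := by gcongr; exact hr.2
      _ < ϱ := by simpa using hu
  have hneg : ∀ u ∈ V, -u ∈ V := by
    intro u hu
    rw [hV, mem_ball_zero_iff] at hu ⊢
    simpa using hu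
  have hun : ∀ u ∈ V, ‖u‖ ≤ ϱ := fun u hu => (mem_ball_zero_iff.1 hu).le
  -- the reflected system
  have hR : IsFast V (fun u => F (-u)) (fun u => Q (-u)) (fun u => -θ (-u)) (fun u => C (-u))
      (fun u => -C' (-u)) (fun u => -Dd (-u)) (fun u => Dd' (-u)) :=
    s7os_isFast_mono h.refl (fun u hu => hneg u hu)
  -- field bounds
  have hFb : ∀ u ∈ V, ‖F u‖ ≤ B + 1 := fun u hu => by
    have h1 : ‖F u‖ ≤ ‖F u - lam‖ + ‖lam‖ := by simpa using norm_add_le (F u - lam) lam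
    linarith [(hnear u hu).1]
  have hQb : ∀ u ∈ V, ‖Q u‖ ≤ B + 1 := fun u hu => by
    have h1 : ‖Q u‖ ≤ ‖Q u - mu‖ + ‖mu‖ := by simpa using norm_add_le (Q u - mu) mu
    linarith [(hnear u hu).2]
  have hlamb : ‖lam‖ ≤ B + 1 := by linarith
  have hmub : ‖mu‖ ≤ B + 1 := by linarith
  -- stability
  have sA := stab V hVsub hstar F Q θ C C' Dd Dd' (fun _ => lam) (fun _ => mu) θ0 C0 C0' D0 D0' η h h0
    (fun u hu => ⟨hFb u hu, hQb u hu, hlamb, hmub⟩) hnear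
  have sR := stab V hVsub hstar (fun u => F (-u)) (fun u => Q (-u)) (fun u => -θ (-u))
    (fun u => C (-u)) (fun u => -C' (-u)) (fun u => -Dd (-u)) (fun u => Dd' (-u))
    (fun _ => lam) (fun _ => mu) θ0 C0 C0' D0 D0' η hR h0
    (fun u hu => ⟨hFb _ (hneg u hu), hQb _ (hneg u hu), hlamb, hmub⟩)
    (fun u hu => hnear _ (hneg u hu))
  have sF := stab V hVsub hstar (fun _ => lam) (fun _ => mu) θ0 C0 C0' D0 D0'
    (fun _ => lam) (fun _ => mu) θ0 C0 C0' D0 D0' 0 h0 h0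
    (fun u _ => ⟨hlamb, hmub, hlamb, hmub⟩) (fun u _ => by simp)
  have hsin0 : ∀ u ∈ V, ‖Complex.sin (θ0 u)‖ ≤ E := fun u hu =>
    (ch_norm_sin_le _).trans (Real.exp_le_exp.2 (by linarith [(sF u hu).1.1]))
  have hcos0 : ∀ u ∈ V, ‖Complex.cos (θ0 u)‖ ≤ E := fun u hu =>
    (ch_norm_cos_le _).trans (Real.exp_le_exp.2 (by linarith [(sF u hu).1.1]))
  -- bounds of the linearised system
  have hCh : ∀ u ∈ V, ‖Ch u‖ ≤ Kh := by
    intro u hu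
    have := (ode V hVsub hstar (fun _ => mu) Ch Ch'
      (fun u => 2 * mu' * u * C0 u - lam' * u ^ 2 * Complex.sin (θ0 u)) Rh lin.Ch_zero lin.Ch'_zero
      lin.Ch_deriv lin.Ch'_deriv (fun _ _ => hmub) (fun u hu => by
        refine (norm_sub_le _ _).trans (add_le_add ?_ ?_)
        · refine norm_mul_le_of_le (norm_mul_le_of_le (norm_mul_le_of_le (by simp) hmu') (hun u hu))
            (sF u hu).1.2.1
        · refine norm_mul_le_of_le (norm_mul_le_of_le hlam' ?_) (hsin0 u hu)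
          rw [norm_pow]
          exact pow_le_pow_left₀ (norm_nonneg _) (hun u hu) 2) u hu).1
    refine this.trans ?_
    rw [hKh]
    exact mul_le_mul_of_nonneg_left (by linarith) hK₂.le
  have hDh : ∀ u ∈ V, ‖Dh u‖ ≤ Kh := by
    intro u hu
    have := (ode V hVsub hstar (fun _ => mu) Dh Dh'
      (fun u => 2 * mu' * u * D0 u - lam * lam' * u ^ 2 * Complex.cos (θ0 u)) Rd lin.Dh_zero
      lin.Dh'_zero lin.Dh_deriv lin.Dh'_deriv (fun _ _ => hmub) (fun u hu => by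
        refine (norm_sub_le _ _).trans (add_le_add ?_ ?_)
        · refine norm_mul_le_of_le (norm_mul_le_of_le (norm_mul_le_of_le (by simp) hmu') (hun u hu))
            (sF u hu).1.2.2.2.1
        · refine norm_mul_le_of_le (norm_mul_le_of_le (norm_mul_le_of_le hlam hlam') ?_) (hcos0 u hu)
          rw [norm_pow]
          exact pow_le_pow_left₀ (norm_nonneg _) (hun u hu) 2) u hu).1
    refine this.trans ?_
    rw [hKh]
    exact mul_le_mul_of_nonneg_left (by linarith) hK₂.le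
  -- the phase
  have heθ : ∀ u ∈ V, ‖θ u - -θ (-u) - a * lam' * u ^ 2‖ ≤ ϱ * (‖a‖ * η) := by
    intro u hu
    have h1 := ch_ray_bound (h := fun v => θ v - -θ (-v) - a * lam' * v ^ 2)
      (h' := fun v => F v - F (-v) - 2 * a * lam' * v) (u := u) (C := ‖a‖ * η)
      (fun r hr => by
        have hr' := hstar u hu r hr
        refine (((h.θ_deriv _ hr').sub (hR.θ_deriv _ hr')).sub
          (((hasDerivAt_id ((r : ℂ) * u)).pow 2).const_mul (a * lam'))).congr_deriv ?_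
        simp only [id]
        ring)
      (fun r hr => (hodd _ (hstar u hu r hr)).1)
    simp only [h.θ_zero, neg_zero, sub_zero] at h1
    have h2 : θ u - -θ (-u) - a * lam' * u ^ 2 - (0 - a * lam' * 0 ^ 2)
        = θ u - -θ (-u) - a * lam' * u ^ 2 := by ring
    simp only [ne_eq, OfNat.ofNat_ne_zero, not_false_eq_true, zero_pow, mul_zero, sub_zero] at h1
    exact h1.trans (mul_le_mul_of_nonneg_right (hun u hu) (by positivity))
  have hdθ : ∀ u ∈ V, ‖θ u - -θ (-u)‖ ≤ ‖a‖ * Θ := by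
    intro u hu
    have h1 : θ u - -θ (-u) = (θ u - -θ (-u) - a * lam' * u ^ 2) + a * lam' * u ^ 2 := by ring
    rw [h1]
    refine (norm_add_le _ _).trans ?_
    have h2 : ‖a * lam' * u ^ 2‖ ≤ ‖a‖ * B * ϱ ^ 2 := by
      refine norm_mul_le_of_le (norm_mul_le_of_le le_rfl hlam') ?_
      rw [norm_pow]
      exact pow_le_pow_left₀ (norm_nonneg _) (hun u hu) 2
    have h3 : ϱ * (‖a‖ * η) ≤ ϱ * (‖a‖ * 1) := by gcongr
    have := heθ u hu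
    have e3 : ‖a‖ * Θ = ϱ * (‖a‖ * 1) + ‖a‖ * B * ϱ ^ 2 := by rw [hΘ]; ring
    rw [e3]
    linarith
  have haη : 0 ≤ ‖a‖ * η := by positivity
  -- closeness of the phases to the frozen phase
  have hθc : ∀ u ∈ V, ‖θ u - θ0 u‖ ≤ K₁ * η := fun u hu => (sA u hu).2.1
  have hθtc : ∀ u ∈ V, ‖-θ (-u) - θ0 u‖ ≤ K₁ * η := fun u hu => (sR u hu).2.1
  have hK₁η : K₁ * η ≤ K₁ := by nlinarith
  have hRbd : ∀ u ∈ V, ‖θ0 u‖ + K₁ * η ≤ 3 * K₁ := fun u hu => by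
    linarith [(sF u hu).1.1]
  -- the function `C`
  have hwC : ∀ u ∈ V, ‖C u - C (-u) - a * Ch u‖ ≤ K₂ * (RC * (‖a‖ * η)) := by
    intro u hu
    refine (ode V hVsub hstar Q (fun u => C u - C (-u) - a * Ch u)
      (fun u => C' u - -C' (-u) - a * Ch' u)
      (fun u => a * (Q u - mu) * Ch u + (Q u - Q (-u) - 2 * a * mu' * u) * C (-u)
        + 2 * a * mu' * u * (C (-u) - C0 u)
        + (Complex.cos (θ u) - Complex.cos (-θ (-u)) + a * lam' * u ^ 2 * Complex.sin (θ0 u)))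
      (RC * (‖a‖ * η)) (by simp [h.C_zero, lin.Ch_zero]) (by simp [h.C'_zero, lin.Ch'_zero])
      (fun u hu => ((h.C_deriv u hu).sub (hR.C_deriv u hu)).sub ((lin.Ch_deriv u hu).const_mul a))
      (fun u hu => by
        refine (((h.C'_deriv u hu).sub (hR.C'_deriv u hu)).sub
          ((lin.Ch'_deriv u hu).const_mul a)).congr_deriv ?_
        ring)
      hQb (fun u hu => ?_) u hu).1
    have t1 : ‖a * (Q u - mu) * Ch u‖ ≤ ‖a‖ * η * Kh :=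
      norm_mul_le_of_le (norm_mul_le_of_le le_rfl (hnear u hu).2) (hCh u hu)
    have t2 : ‖(Q u - Q (-u) - 2 * a * mu' * u) * C (-u)‖ ≤ ‖a‖ * η * K₁ :=
      norm_mul_le_of_le (hodd u hu).2 (sR u hu).1.2.1
    have t3 : ‖2 * a * mu' * u * (C (-u) - C0 u)‖ ≤ 2 * ‖a‖ * B * ϱ * (K₁ * η) :=
      norm_mul_le_of_le (norm_mul_le_of_le (norm_mul_le_of_le (norm_mul_le_of_le (by simp) le_rfl)
        hmu') (hun u hu)) (sR u hu).2.2.1
    have t4 : ‖Complex.cos (θ u) - Complex.cos (-θ (-u)) + a * lam' * u ^ 2 * Complex.sin (θ0 u)‖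
        ≤ E * (K₁ * η) * (‖a‖ * Θ) + ϱ * (‖a‖ * η) * E := by
      have e1 : Complex.cos (θ u) - Complex.cos (-θ (-u)) + a * lam' * u ^ 2 * Complex.sin (θ0 u)
          = (Complex.cos (θ u) - Complex.cos (-θ (-u)) + (θ u - -θ (-u)) * Complex.sin (θ0 u))
            - (θ u - -θ (-u) - a * lam' * u ^ 2) * Complex.sin (θ0 u) := by ring
      rw [e1]
      refine (norm_sub_le _ _).trans (add_le_add ?_ ?_)
      · refine (s7os_cos_lin (hθc u hu) (hθtc u hu) (hRbd u hu)).trans ?_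
        exact mul_le_mul_of_nonneg_left (hdθ u hu) (by positivity)
      · exact norm_mul_le_of_le (heθ u hu) (hsin0 u hu)
    refine (norm_add₄_le).trans ?_
    have e2 : RC * (‖a‖ * η) = ‖a‖ * η * Kh + ‖a‖ * η * K₁ + 2 * ‖a‖ * B * ϱ * (K₁ * η)
        + (E * (K₁ * η) * (‖a‖ * Θ) + ϱ * (‖a‖ * η) * E) := by rw [hRC]; ring
    rw [e2]
    linarith [t1, t2, t3, t4]
  -- the function `Dd`
  have hwD : ∀ u ∈ V, ‖Dd u - -Dd (-u) - a * Dh u‖ ≤ K₂ * (RD * (‖a‖ * η)) := by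
    intro u hu
    refine (ode V hVsub hstar Q (fun u => Dd u - -Dd (-u) - a * Dh u)
      (fun u => Dd' u - Dd' (-u) - a * Dh' u)
      (fun u => a * (Q u - mu) * Dh u + (Q u - Q (-u) - 2 * a * mu' * u) * (-Dd (-u))
        + 2 * a * mu' * u * (-Dd (-u) - D0 u)
        - (F 0 * (Complex.sin (θ u) - Complex.sin (-θ (-u)))
            - a * lam * lam' * u ^ 2 * Complex.cos (θ0 u)))
      (RD * (‖a‖ * η)) (by simp [h.Dd_zero, lin.Dh_zero]) (by simp [h.Dd'_zero, lin.Dh'_zero])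
      (fun u hu => ((h.Dd_deriv u hu).sub (hR.Dd_deriv u hu)).sub ((lin.Dh_deriv u hu).const_mul a))
      (fun u hu => by
        refine (((h.Dd'_deriv u hu).sub (hR.Dd'_deriv u hu)).sub
          ((lin.Dh'_deriv u hu).const_mul a)).congr_deriv ?_
        simp only [neg_zero]
        ring)
      hQb (fun u hu => ?_) u hu).1
    have t1 : ‖a * (Q u - mu) * Dh u‖ ≤ ‖a‖ * η * Kh :=
      norm_mul_le_of_le (norm_mul_le_of_le le_rfl (hnear u hu).2) (hDh u hu)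
    have t2 : ‖(Q u - Q (-u) - 2 * a * mu' * u) * (-Dd (-u))‖ ≤ ‖a‖ * η * K₁ :=
      norm_mul_le_of_le (hodd u hu).2 (sR u hu).1.2.2.2.1
    have t3 : ‖2 * a * mu' * u * (-Dd (-u) - D0 u)‖ ≤ 2 * ‖a‖ * B * ϱ * (K₁ * η) :=
      norm_mul_le_of_le (norm_mul_le_of_le (norm_mul_le_of_le (norm_mul_le_of_le (by simp) le_rfl)
        hmu') (hun u hu)) (sR u hu).2.2.2.2.1
    have hθb : ‖θ u‖ ≤ 3 * K₁ := by linarith [(sA u hu).1.1]
    have hθtb : ‖-θ (-u)‖ ≤ 3 * K₁ := by linarith [(sR u hu).1.1]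
    have t4 : ‖F 0 * (Complex.sin (θ u) - Complex.sin (-θ (-u)))
            - a * lam * lam' * u ^ 2 * Complex.cos (θ0 u)‖
        ≤ η * (E * (‖a‖ * Θ)) + B * (E * (K₁ * η) * (‖a‖ * Θ)) + B * (ϱ * (‖a‖ * η) * E) := by
      have e1 : F 0 * (Complex.sin (θ u) - Complex.sin (-θ (-u)))
            - a * lam * lam' * u ^ 2 * Complex.cos (θ0 u)
          = (F 0 - lam) * (Complex.sin (θ u) - Complex.sin (-θ (-u)))
            + lam * (Complex.sin (θ u) - Complex.sin (-θ (-u))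
                - (θ u - -θ (-u)) * Complex.cos (θ0 u))
            + lam * ((θ u - -θ (-u) - a * lam' * u ^ 2) * Complex.cos (θ0 u)) := by ring
      rw [e1]
      refine (norm_add₃_le).trans (add_le_add (add_le_add ?_ ?_) ?_)
      · refine norm_mul_le_of_le (hnear 0 h0V).1 ?_
        exact (ch_sin_lip hθb hθtb).trans (mul_le_mul_of_nonneg_left (hdθ u hu) hE0.le)
      · refine norm_mul_le_of_le hlam ?_
        refine (s7os_sin_lin (hθc u hu) (hθtc u hu) (hRbd u hu)).trans ?_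
        exact mul_le_mul_of_nonneg_left (hdθ u hu) (by positivity)
      · exact norm_mul_le_of_le hlam (norm_mul_le_of_le (heθ u hu) (hcos0 u hu))
    refine (norm_sub_le _ _).trans ?_
    have := norm_add₃_le (a := a * (Q u - mu) * Dh u)
      (b := (Q u - Q (-u) - 2 * a * mu' * u) * (-Dd (-u)))
      (c := 2 * a * mu' * u * (-Dd (-u) - D0 u))
    have e2 : RD * (‖a‖ * η) = ‖a‖ * η * Kh + ‖a‖ * η * K₁ + 2 * ‖a‖ * B * ϱ * (K₁ * η)
        + (η * (E * (‖a‖ * Θ)) + B * (E * (K₁ * η) * (‖a‖ * Θ)) + B * (ϱ * (‖a‖ * η) * E)) := by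
      rw [hRD]; ring
    rw [e2]
    linarith [t1, t2, t3, t4]
  intro u hu
  have hKK : 0 ≤ K₂ * (RC + RD) := by positivity
  refine ⟨by linarith [hCh u hu], by linarith [hDh u hu], ?_, ?_⟩
  · refine (hwC u hu).trans ?_
    have : K₂ * (RC * (‖a‖ * η)) = K₂ * RC * (‖a‖ * η) := by ring
    rw [this]
    refine mul_le_mul_of_nonneg_right ?_ haη
    have : 0 ≤ K₂ * RD := by positivity
    rw [mul_add]
    linarith
  · have e : Dd u + Dd (-u) - a * Dh u = Dd u - -Dd (-u) - a * Dh u := by ring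
    rw [e]
    refine (hwD u hu).trans ?_
    have : K₂ * (RD * (‖a‖ * η)) = K₂ * RD * (‖a‖ * η) := by ring
    rw [this]
    refine mul_le_mul_of_nonneg_right ?_ haη
    have : 0 ≤ K₂ * RC := by positivity
    rw [mul_add]
    linarith

/-- one field near an exponential profile `p (σ + h) = p σ * exp (-(k I h))`, `|k| ≤ 2`. -/
theorem s7os_field1 {g p : ℂ → ℂ} {σ a k : ℂ} {η₀ ϱ P : ℝ} (hk : ‖k‖ ≤ 2)
    (hg : DifferentiableOn ℂ g (ball σ 1))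
    (hp : ∀ h, p (σ + h) = p σ * Complex.exp (-(k * I * h)))
    (hclose : ∀ s ∈ closedBall σ 1, ‖g s - p s‖ ≤ η₀) (hP : ‖p σ‖ ≤ P) (ha : ‖a‖ * ϱ ≤ 1 / 2) :
    ∀ u ∈ ball (0 : ℂ) ϱ, ‖g (σ + a * u) - p σ‖ ≤ η₀ + P * (4 * ϱ * ‖a‖) ∧
      ‖g (σ + a * u) - g (σ + a * (-u)) - 2 * a * (-(k * I * p σ)) * u‖
        ≤ ‖a‖ * (8 * ϱ * η₀ + P * (8 * ϱ ^ 2 * ‖a‖)) := by
  intro u hu
  have hP0 : 0 ≤ P := (norm_nonneg _).trans hP
  have hη₀ : 0 ≤ η₀ := (norm_nonneg _).trans (hclose σ (mem_closedBall_self zero_le_one))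
  have hun : ‖u‖ ≤ ϱ := (mem_ball_zero_iff.1 hu).le
  have hϱ : 0 ≤ ϱ := (norm_nonneg _).trans hun
  set h : ℂ := a * u with hh
  have hhn : ‖h‖ ≤ ‖a‖ * ϱ := by rw [hh, norm_mul]; gcongr
  have hh2 : ‖h‖ ≤ 1 / 2 := hhn.trans ha
  set z : ℂ := -(k * I * h) with hz
  have hzn : ‖z‖ ≤ 2 * ‖h‖ := by
    rw [hz, norm_neg, norm_mul, norm_mul, Complex.norm_I, mul_one]; gcongr
  have hz1 : ‖z‖ ≤ 1 := by linarith
  have hmem : ∀ t : ℂ, ‖t‖ ≤ 1 / 2 → σ + t ∈ closedBall σ (1 / 2) := fun t ht => by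
    simpa [dist_eq_norm] using ht
  have hsub : closedBall σ (1 / 2) ⊆ ball σ 1 := closedBall_subset_ball (by norm_num)
  have hsub' : closedBall σ (1 / 2) ⊆ closedBall σ 1 := closedBall_subset_closedBall (by norm_num)
  -- the profile is entire
  have hpd : Differentiable ℂ p := by
    have : p = fun s => p σ * Complex.exp (-(k * I * (s - σ))) := by
      funext s
      have := hp (s - σ)
      simpa using this
    rw [this]
    fun_prop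
  constructor
  · have e1 : g (σ + h) - p σ = (g (σ + h) - p (σ + h)) + p σ * (Complex.exp z - 1) := by
      rw [hp h]; ring
    rw [e1]
    refine (norm_add_le _ _).trans (add_le_add (hclose _ (hsub' (hmem h hh2))) ?_)
    refine norm_mul_le_of_le hP ?_
    refine (Complex.norm_exp_sub_one_le hz1).trans ?_
    nlinarith
  · set Er : ℂ → ℂ := fun s => g s - p s with hEr
    have hErd : DifferentiableOn ℂ Er (ball σ 1) := hg.sub hpd.differentiableOn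
    have hder : ∀ t ∈ closedBall σ (1 / 2), ‖deriv Er t‖ ≤ 4 * η₀ := by
      intro t ht
      have ht' : ‖t - σ‖ ≤ 1 / 2 := by simpa [dist_eq_norm] using ht
      have hcb : closedBall t (1 / 4) ⊆ ball σ 1 := by
        intro s hs
        have hs' : ‖s - t‖ ≤ 1 / 4 := by simpa [dist_eq_norm] using hs
        rw [mem_ball, dist_eq_norm]
        have : ‖s - σ‖ ≤ ‖s - t‖ + ‖t - σ‖ := by simpa using norm_add_le (s - t) (t - σ)
        linarith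
      have := Complex.norm_deriv_le_of_forall_mem_sphere_norm_le (c := t) (R := 1 / 4) (C := η₀)
        (by norm_num) (hErd.diffContOnCl_ball hcb)
        (fun s hs => hclose s (ball_subset_closedBall (hcb (sphere_subset_closedBall hs))))
      refine this.trans (le_of_eq ?_)
      ring
    have hmv := Convex.norm_image_sub_le_of_norm_deriv_le (f := Er) (C := 4 * η₀)
      (s := closedBall σ (1 / 2)) (x := σ + -h) (y := σ + h)
      (fun t ht => hErd.differentiableAt (isOpen_ball.mem_nhds (hsub ht))) hder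
      (convex_closedBall _ _) (hmem _ (by simpa using hh2)) (hmem _ hh2)
    have e0 : a * -u = -h := by rw [hh]; ring
    rw [e0]
    have e1 : g (σ + h) - g (σ + -h) - 2 * a * (-(k * I * p σ)) * u
        = (Er (σ + h) - Er (σ + -h))
          + p σ * ((Complex.exp z - 1 - z) - (Complex.exp (-z) - 1 - -z)) := by
      have h1 := hp h
      have h2 := hp (-h)
      have h3 : -(k * I * -h) = -z := by rw [hz]; ring
      rw [h3] at h2
      simp only [hEr]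
      rw [h1, h2, hz, hh]
      ring
    rw [e1]
    have b1 : ‖Er (σ + h) - Er (σ + -h)‖ ≤ 4 * η₀ * (2 * (‖a‖ * ϱ)) := by
      refine hmv.trans (mul_le_mul_of_nonneg_left ?_ (by positivity))
      have : σ + h - (σ + -h) = 2 * h := by ring
      rw [this, norm_mul]
      simp only [Complex.norm_ofNat]
      linarith
    have b2 : ‖Complex.exp z - 1 - z‖ ≤ ‖z‖ ^ 2 := Complex.norm_exp_sub_one_sub_id_le hz1
    have b3 : ‖Complex.exp (-z) - 1 - -z‖ ≤ ‖z‖ ^ 2 := by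
      have := Complex.norm_exp_sub_one_sub_id_le (x := -z) (by simpa using hz1)
      simpa using this
    have b4 : ‖z‖ ^ 2 ≤ 4 * (‖a‖ * ϱ) ^ 2 := by
      have : ‖z‖ ≤ 2 * (‖a‖ * ϱ) := by linarith
      calc ‖z‖ ^ 2 ≤ (2 * (‖a‖ * ϱ)) ^ 2 := pow_le_pow_left₀ (norm_nonneg _) this 2
        _ = 4 * (‖a‖ * ϱ) ^ 2 := by ring
    have b5 : ‖p σ * ((Complex.exp z - 1 - z) - (Complex.exp (-z) - 1 - -z))‖
        ≤ P * (8 * (‖a‖ * ϱ) ^ 2) := by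
      refine norm_mul_le_of_le hP ((norm_sub_le _ _).trans ?_)
      linarith
    refine (norm_add_le _ _).trans ?_
    have e2 : ‖a‖ * (8 * ϱ * η₀ + P * (8 * ϱ ^ 2 * ‖a‖))
        = 4 * η₀ * (2 * (‖a‖ * ϱ)) + P * (8 * (‖a‖ * ϱ) ^ 2) := by ring
    rw [e2]
    linarith

theorem s7os_pF_add (fst : Bool) (σ h : ℂ) :
    s7pF fst (σ + h) = s7pF fst σ * Complex.exp (-(1 * I * h)) := by
  cases fst
  · simp [s7pF]
  · simp only [s7pF, if_true, ← Complex.exp_add]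
    congr 1; ring

theorem s7os_pQ_add (fst : Bool) (σ h : ℂ) :
    s7pQ fst (σ + h) = s7pQ fst σ * Complex.exp (-(2 * I * h)) := by
  cases fst
  · simp only [s7pQ, Bool.false_eq_true, if_false, ← Complex.exp_add]
    congr 1; ring
  · simp [s7pQ]

theorem s7os_pF_le (fst : Bool) (σ : ℂ) : ‖s7pF fst σ‖ ≤ ‖Complex.exp (-(I * σ))‖ := by
  cases fst <;> simp [s7pF]

theorem s7os_pQ_eq (fst : Bool) (σ : ℂ) :
    s7pQ fst σ = if fst then 0 else Complex.exp (-(I * σ)) ^ 2 := by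
  cases fst
  · simp only [s7pQ, Bool.false_eq_true, if_false, ← Complex.exp_nat_mul]
    congr 1; push_cast; ring
  · simp [s7pQ]

theorem s7os_pQ_le (fst : Bool) (σ : ℂ) : ‖s7pQ fst σ‖ ≤ ‖Complex.exp (-(I * σ))‖ ^ 2 := by
  rw [s7os_pQ_eq]
  cases fst <;> simp

/-- the fast fields near the frozen constants. -/
theorem s7os_fields (fst : Bool) (ϱ B₀ : ℝ) (hϱ : 0 < ϱ) (hB₀ : 0 ≤ B₀) :
    ∃ K : ℝ, 0 < K ∧ ∀ (Ff Qf : ℂ → ℂ) (W : Set ℂ) (a σ : ℂ) (η₀ : ℝ), S7Fld Ff Qf W →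
      S7Close fst Ff Qf W (closedBall σ 1) η₀ → ‖a‖ * ϱ ≤ 1 / 2 → ‖Complex.exp (-(I * σ))‖ ≤ B₀ →
      (∀ u ∈ ball (0 : ℂ) ϱ, σ + a * u ∈ W) ∧
      (∀ u ∈ ball (0 : ℂ) ϱ, ‖Ff (σ + a * u) - s7pF fst σ‖ ≤ K * (η₀ + ‖a‖) ∧
        ‖Qf (σ + a * u) - s7pQ fst σ‖ ≤ K * (η₀ + ‖a‖)) ∧
      (∀ u ∈ ball (0 : ℂ) ϱ,
        ‖Ff (σ + a * u) - Ff (σ + a * (-u)) - 2 * a * (-(I * s7pF fst σ)) * u‖
          ≤ ‖a‖ * (K * (η₀ + ‖a‖)) ∧
        ‖Qf (σ + a * u) - Qf (σ + a * (-u)) - 2 * a * (-(2 * I * s7pQ fst σ)) * u‖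
          ≤ ‖a‖ * (K * (η₀ + ‖a‖))) := by
  set P : ℝ := B₀ + B₀ ^ 2 with hP
  have hP0 : 0 ≤ P := by positivity
  refine ⟨1 + 8 * ϱ + P * (4 * ϱ) + P * (8 * ϱ ^ 2), by positivity, ?_⟩
  intro Ff Qf W a σ η₀ hfld hclose ha hσ
  have hη₀ : 0 ≤ η₀ := (norm_nonneg _).trans (hclose σ (mem_closedBall_self zero_le_one)).2.1
  have hsubW : ball σ 1 ⊆ W := fun s hs => (hclose s (ball_subset_closedBall hs)).1
  have hPF : ‖s7pF fst σ‖ ≤ P := (s7os_pF_le fst σ).trans (by rw [hP]; nlinarith [sq_nonneg B₀])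
  have hPQ : ‖s7pQ fst σ‖ ≤ P := (s7os_pQ_le fst σ).trans (by
    have : ‖Complex.exp (-(I * σ))‖ ^ 2 ≤ B₀ ^ 2 := pow_le_pow_left₀ (norm_nonneg _) hσ 2
    rw [hP]; linarith)
  have kF := s7os_field1 (g := Ff) (p := s7pF fst) (σ := σ) (a := a) (k := 1) (η₀ := η₀) (ϱ := ϱ)
    (P := P) (by simp) (hfld.diffF.mono hsubW) (s7os_pF_add fst σ)
    (fun s hs => (hclose s hs).2.1) hPF ha
  have kQ := s7os_field1 (g := Qf) (p := s7pQ fst) (σ := σ) (a := a) (k := 2) (η₀ := η₀) (ϱ := ϱ)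
    (P := P) (by simp) (hfld.diffQ.mono hsubW) (s7os_pQ_add fst σ)
    (fun s hs => (hclose s hs).2.2) hPQ ha
  have han : 0 ≤ ‖a‖ := norm_nonneg _
  have c1 : η₀ + P * (4 * ϱ * ‖a‖) ≤ (1 + 8 * ϱ + P * (4 * ϱ) + P * (8 * ϱ ^ 2)) * (η₀ + ‖a‖) := by
    have p1 : 0 ≤ ϱ * η₀ := by positivity
    have p2 : 0 ≤ P * ϱ * η₀ := by positivity
    have p3 : 0 ≤ P * ϱ ^ 2 * η₀ := by positivity
    have p4 : 0 ≤ ϱ * ‖a‖ := by positivity
    have p5 : 0 ≤ P * ϱ ^ 2 * ‖a‖ := by positivity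
    nlinarith
  have c2 : 8 * ϱ * η₀ + P * (8 * ϱ ^ 2 * ‖a‖)
      ≤ (1 + 8 * ϱ + P * (4 * ϱ) + P * (8 * ϱ ^ 2)) * (η₀ + ‖a‖) := by
    have p2 : 0 ≤ P * ϱ * η₀ := by positivity
    have p3 : 0 ≤ P * ϱ ^ 2 * η₀ := by positivity
    have p4 : 0 ≤ ϱ * ‖a‖ := by positivity
    have p5 : 0 ≤ P * ϱ * ‖a‖ := by positivity
    nlinarith
  refine ⟨fun u hu => ?_, fun u hu => ⟨(kF u hu).1.trans c1, (kQ u hu).1.trans c1⟩,
    fun u hu => ⟨?_, ?_⟩⟩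
  · refine hsubW ?_
    rw [mem_ball, dist_eq_norm]
    have : ‖σ + a * u - σ‖ ≤ ‖a‖ * ϱ := by
      have e : σ + a * u - σ = a * u := by ring
      rw [e, norm_mul]
      have := (mem_ball_zero_iff.1 hu).le
      gcongr
    linarith
  · have := (kF u hu).2
    rw [one_mul] at this
    exact this.trans (mul_le_mul_of_nonneg_left c2 han)
  · exact (kQ u hu).2.trans (mul_le_mul_of_nonneg_left c2 han)

theorem s7os_C0_neg (fst : Bool) (lam u : ℂ) : s7C0 fst lam (-u) = s7C0 fst lam u := by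
  cases fst <;> simp [s7C0]

theorem s7os_D0_neg (fst : Bool) (lam u : ℂ) : s7D0 fst lam (-u) = -s7D0 fst lam u := by
  cases fst <;> simp [s7D0, neg_div]

/-- the linearised system of the frozen functions (`Ch = 2 δC`, `Dh = 2 δD`). -/
theorem s7os_lin (fst : Bool) (σ : ℂ) :
    S7osLin univ (s7pF fst σ) (s7pQ fst σ) (-(I * s7pF fst σ)) (-(2 * I * s7pQ fst σ))
      (fun u => if fst then Complex.exp (-(I * σ)) * u else 0) (s7C0 fst (Complex.exp (-(I * σ))))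
      (s7D0 fst (Complex.exp (-(I * σ)))) (fun u => 2 * s7dC fst (Complex.exp (-(I * σ))) u)
      (fun u => 2 * s7dC' fst (Complex.exp (-(I * σ))) u)
      (fun u => 2 * s7dD fst (Complex.exp (-(I * σ))) u)
      (fun u => 2 * s7dD' fst (Complex.exp (-(I * σ))) u) := by
  obtain ⟨z1, z2, z3, z4, d1, d2, d3, d4⟩ :=
    s7_frozen_var fst (Complex.exp (-(I * σ))) (Complex.exp_ne_zero _)
  refine ⟨by rw [z1, mul_zero], by rw [z2, mul_zero], by rw [z3, mul_zero], by rw [z4, mul_zero],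
    fun u _ => (d1 u).const_mul 2, fun u _ => ?_, fun u _ => (d2 u).const_mul 2, fun u _ => ?_⟩
  · refine ((d3 u).const_mul 2).congr_deriv ?_
    rw [s7os_pQ_eq]
    cases fst
    · simp only [s7pF, Bool.false_eq_true, if_false]
      ring
    · simp only [s7pF, if_true]
      ring
  · refine ((d4 u).const_mul 2).congr_deriv ?_
    rw [s7os_pQ_eq]
    cases fst
    · simp only [s7pF, Bool.false_eq_true, if_false]
      ring
    · simp only [s7pF, if_true]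
      ring

theorem s7os_frozen (fst : Bool) (σ : ℂ) :
    IsFast univ (fun _ => s7pF fst σ) (fun _ => s7pQ fst σ)
      (fun u => if fst then Complex.exp (-(I * σ)) * u else 0) (s7C0 fst (Complex.exp (-(I * σ))))
      (s7D0 fst (Complex.exp (-(I * σ)))) (s7D0 fst (Complex.exp (-(I * σ))))
      (s7D0' fst (Complex.exp (-(I * σ)))) := by
  have := s7_frozen_isFast fst (Complex.exp (-(I * σ))) (Complex.exp_ne_zero _)
  rw [s7os_pQ_eq]
  exact this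

/-- the derivative of the frozen step function. -/
noncomputable def s7osXi (fst : Bool) (σ Jm J : ℂ) : ℂ :=
  s7D0' fst (Complex.exp (-(I * σ))) J * s7C0 fst (Complex.exp (-(I * σ))) (-Jm)
    + s7D0 fst (Complex.exp (-(I * σ))) (-Jm) * s7D0 fst (Complex.exp (-(I * σ))) J

theorem s7os_Xi_cont (fst : Bool) :
    Continuous (fun p : ℂ × ℂ × ℂ => s7osXi fst p.1 p.2.1 p.2.2) := by
  have hne : ∀ p : ℂ × ℂ × ℂ, Complex.exp (-(I * p.1)) ≠ 0 := fun p => Complex.exp_ne_zero _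
  have hne2 : ∀ p : ℂ × ℂ × ℂ, Complex.exp (-(I * p.1)) ^ 2 ≠ 0 := fun p => pow_ne_zero _ (hne p)
  cases fst
  · simp only [s7osXi, s7D0', s7C0, s7D0, Bool.false_eq_true, if_false]
    refine Continuous.add (Continuous.mul (by fun_prop) (Continuous.div (by fun_prop) (by fun_prop) hne2))
      (Continuous.mul (Continuous.div (by fun_prop) (by fun_prop) hne)
        (Continuous.div (by fun_prop) (by fun_prop) hne))
  · simp only [s7osXi, s7D0', s7C0, s7D0, if_true]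
    refine Continuous.add (Continuous.mul (by fun_prop) (Continuous.div (by fun_prop) (by fun_prop) hne2))
      (Continuous.mul (Continuous.div (by fun_prop) (by fun_prop) hne)
        (Continuous.div (by fun_prop) (by fun_prop) hne))

theorem s7os_compact (fst : Bool) (𝒦 : Set (ℂ × ℂ)) (h𝒦 : IsCompact 𝒦) (hreg : 𝒦 ⊆ s7Reg fst)
    (hne : 𝒦.Nonempty) :
    ∃ B₀ κ₀ : ℝ, 0 ≤ B₀ ∧ 0 < κ₀ ∧
      (∀ p ∈ 𝒦, ‖Complex.exp (-(I * p.1))‖ ≤ B₀ ∧ ‖p.2‖ ≤ B₀ ∧ 4 * κ₀ ≤ ‖s7osXi fst p.1 p.2 p.2‖) ∧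
      ∀ κ > 0, ∃ r > 0, r ≤ 1 ∧ ∀ p ∈ 𝒦, ∀ J : ℂ, ‖J - p.2‖ ≤ r →
        ‖s7osXi fst p.1 p.2 J - s7osXi fst p.1 p.2 p.2‖ ≤ κ := by
  obtain ⟨b1, hb1⟩ := h𝒦.exists_bound_of_continuousOn
    (f := fun p : ℂ × ℂ => Complex.exp (-(I * p.1))) (by fun_prop)
  obtain ⟨b2, hb2⟩ := h𝒦.exists_bound_of_continuousOn (f := fun p : ℂ × ℂ => p.2) (by fun_prop)
  have hXc : Continuous (fun p : ℂ × ℂ => ‖s7osXi fst p.1 p.2 p.2‖) :=
    ((s7os_Xi_cont fst).comp (by fun_prop : Continuous fun p : ℂ × ℂ => (p.1, p.2, p.2))).norm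
  obtain ⟨p₀, hp₀, hmin⟩ := h𝒦.exists_isMinOn hne hXc.continuousOn
  have hpos : 0 < ‖s7osXi fst p₀.1 p₀.2 p₀.2‖ := by
    rw [norm_pos_iff]
    have := (s7_frozen_wedge fst p₀.1 p₀.2 (hreg hp₀)).1
    rw [s7osXi, s7os_C0_neg, s7os_D0_neg]
    intro h
    apply this
    rw [← h]; ring
  refine ⟨max (max b1 b2) 0, ‖s7osXi fst p₀.1 p₀.2 p₀.2‖ / 4, le_max_right _ _, by positivity,
    fun p hp => ⟨(hb1 p hp).trans ((le_max_left _ _).trans (le_max_left _ _)),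
      (hb2 p hp).trans ((le_max_right _ _).trans (le_max_left _ _)), ?_⟩, ?_⟩
  · have := hmin hp
    have h4 : ‖s7osXi fst p₀.1 p₀.2 p₀.2‖ ≤ ‖s7osXi fst p.1 p.2 p.2‖ := this
    linarith
  · intro κ hκ
    have hg : Continuous fun q : (ℂ × ℂ) × ℂ => ((q.1.1, q.1.2, q.1.2 + q.2) : ℂ × ℂ × ℂ) := by
      fun_prop
    have hΦc : Continuous (fun q : (ℂ × ℂ) × ℂ => s7osXi fst q.1.1 q.1.2 (q.1.2 + q.2)) := by
      have := (s7os_Xi_cont fst).comp hg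
      simpa only [Function.comp_def] using this
    have hS : IsCompact (𝒦 ×ˢ closedBall (0 : ℂ) 1) := h𝒦.prod (isCompact_closedBall _ _)
    have hu := hS.uniformContinuousOn_of_continuous hΦc.continuousOn
    obtain ⟨δ, hδ, hδ'⟩ := Metric.uniformContinuousOn_iff.1 hu κ hκ
    refine ⟨min (δ / 2) 1, by positivity, min_le_right _ _, fun p hp J hJ => ?_⟩
    have hJ1 : ‖J - p.2‖ ≤ 1 := hJ.trans (min_le_right _ _)
    have hJ2 : ‖J - p.2‖ < δ := lt_of_le_of_lt (hJ.trans (min_le_left _ _)) (by linarith)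
    have := hδ' (p, J - p.2) ⟨hp, by simpa using hJ1⟩ (p, 0) ⟨hp, by simp⟩ (by
      rw [Prod.dist_eq]
      simpa using hJ2)
    simp only [add_sub_cancel, add_zero, dist_eq_norm] at this
    exact this.le

/-- the analytic core of the one-step lemma: the step function and its derivative near the frozen ones. -/
theorem s7os_core (fst : Bool) (B₀ : ℝ) (hB₀ : 0 ≤ B₀) :
    ∃ K : ℝ, 0 < K ∧ ∀ (Ff Qf : ℂ → ℂ) (W : Set ℂ) (a σ Jm : ℂ) (θ C C' Dd Dd' : ℂ → ℂ) (η₀ : ℝ),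
      S7Fld Ff Qf W → S7Close fst Ff Qf W (closedBall σ 1) η₀ → ‖Complex.exp (-(I * σ))‖ ≤ B₀ →
      ‖Jm‖ ≤ B₀ → ‖a‖ ≤ η₀ → K * η₀ ≤ 1 →
      IsFast {u | σ + a * u ∈ W} (fun u => Ff (σ + a * u)) (fun u => Qf (σ + a * u)) θ C C' Dd Dd' →
      (∀ J ∈ closedBall Jm 1, HasDerivAt (fun J => Dd J * C (-Jm) + Dd (-Jm) * C J)
        (Dd' J * C (-Jm) + Dd (-Jm) * C' J) J) ∧
      (∀ J ∈ closedBall Jm 1,
        ‖Dd' J * C (-Jm) + Dd (-Jm) * C' J - s7osXi fst σ Jm J‖ ≤ K * η₀) ∧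
      ‖Dd Jm * C (-Jm) + Dd (-Jm) * C Jm
        - a * (2 * (s7dD fst (Complex.exp (-(I * σ))) Jm * s7C0 fst (Complex.exp (-(I * σ))) Jm
          - s7D0 fst (Complex.exp (-(I * σ))) Jm * s7dC fst (Complex.exp (-(I * σ))) Jm))‖
        ≤ K * η₀ * ‖a‖ ∧
      ‖2 * (s7dD fst (Complex.exp (-(I * σ))) Jm * s7C0 fst (Complex.exp (-(I * σ))) Jm
          - s7D0 fst (Complex.exp (-(I * σ))) Jm * s7dC fst (Complex.exp (-(I * σ))) Jm)‖ ≤ K := by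
  set ϱ : ℝ := B₀ + 2 with hϱdef
  have hϱ : 0 < ϱ := by positivity
  set B : ℝ := B₀ + 2 * B₀ ^ 2 with hBdef
  have hB : 0 ≤ B := by positivity
  obtain ⟨KA, hKA, anti⟩ := s7os_antisym ϱ B hϱ hB
  obtain ⟨KS, hKS, stab⟩ := isFast_stab ϱ (B + 1) hϱ (by positivity)
  obtain ⟨KF, hKF, fields⟩ := s7os_fields fst ϱ B₀ hϱ hB₀
  refine ⟨2 * KF + 2 * ϱ + 8 * KS ^ 2 * KF + 8 * KA * KS * KF + 2 * KA * KS + 1, by positivity, ?_⟩
  intro Ff Qf W a σ Jm θ C C' Dd Dd' η₀ hfld hclose hσ hJm ha hKη hfast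
  set K : ℝ := 2 * KF + 2 * ϱ + 8 * KS ^ 2 * KF + 8 * KA * KS * KF + 2 * KA * KS + 1 with hK
  have hη₀ : 0 ≤ η₀ := (norm_nonneg _).trans ha
  have q1 : 0 ≤ KF * η₀ := by positivity
  have q2 : 0 ≤ ϱ * η₀ := by positivity
  have q3 : 0 ≤ KS ^ 2 * KF * η₀ := by positivity
  have q4 : 0 ≤ KA * KS * KF * η₀ := by positivity
  have q5 : 0 ≤ KA * KS * η₀ := by positivity
  have hKexp : K * η₀ = 2 * (KF * η₀) + 2 * (ϱ * η₀) + 8 * (KS ^ 2 * KF * η₀)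
      + 8 * (KA * KS * KF * η₀) + 2 * (KA * KS * η₀) + η₀ := by rw [hK]; ring
  have ha' : ‖a‖ * ϱ ≤ 1 / 2 := by
    have : ‖a‖ * ϱ ≤ η₀ * ϱ := by gcongr
    linarith
  obtain ⟨hW, hnear, hodd⟩ := fields Ff Qf W a σ η₀ hfld hclose ha' hσ
  set η : ℝ := KF * (η₀ + ‖a‖) with hη
  have hη2 : η ≤ 2 * (KF * η₀) := by
    rw [hη]
    have : KF * ‖a‖ ≤ KF * η₀ := by gcongr
    linarith
  have hη1 : η ≤ 1 := by linarith
  have hη0 : 0 ≤ η := by positivity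
  set lam : ℂ := Complex.exp (-(I * σ)) with hlam
  set V : Set ℂ := ball (0 : ℂ) ϱ with hV
  have hf : IsFast V (fun u => Ff (σ + a * u)) (fun u => Qf (σ + a * u)) θ C C' Dd Dd' :=
    s7os_isFast_mono hfast (fun u hu => hW u hu)
  have h0 := s7os_isFast_mono (s7os_frozen fst σ) (subset_univ V)
  have lin : S7osLin V (s7pF fst σ) (s7pQ fst σ) (-(I * s7pF fst σ)) (-(2 * I * s7pQ fst σ))
      (fun u => if fst then lam * u else 0) (s7C0 fst lam) (s7D0 fst lam)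
      (fun u => 2 * s7dC fst lam u) (fun u => 2 * s7dC' fst lam u) (fun u => 2 * s7dD fst lam u)
      (fun u => 2 * s7dD' fst lam u) := by
    have l := s7os_lin fst σ
    exact ⟨l.Ch_zero, l.Ch'_zero, l.Dh_zero, l.Dh'_zero, fun u _ => l.Ch_deriv u trivial,
      fun u _ => l.Ch'_deriv u trivial, fun u _ => l.Dh_deriv u trivial,
      fun u _ => l.Dh'_deriv u trivial⟩
  have hpF : ‖s7pF fst σ‖ ≤ B₀ := (s7os_pF_le fst σ).trans hσ
  have hpQ : ‖s7pQ fst σ‖ ≤ B₀ ^ 2 :=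
    (s7os_pQ_le fst σ).trans (pow_le_pow_left₀ (norm_nonneg _) hσ 2)
  have hsq : 0 ≤ B₀ ^ 2 := by positivity
  have b1 : ‖s7pF fst σ‖ ≤ B := by rw [hBdef]; linarith
  have b2 : ‖s7pQ fst σ‖ ≤ B := by rw [hBdef]; linarith
  have b3 : ‖-(I * s7pF fst σ)‖ ≤ B := by
    rw [norm_neg, norm_mul, Complex.norm_I, one_mul]; exact b1
  have b4 : ‖-(2 * I * s7pQ fst σ)‖ ≤ B := by
    rw [norm_neg, norm_mul, norm_mul, Complex.norm_I, mul_one, Complex.norm_ofNat, hBdef]; linarith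
  have hanti := anti η a (s7pF fst σ) (s7pQ fst σ) (-(I * s7pF fst σ)) (-(2 * I * s7pQ fst σ))
    (fun u => Ff (σ + a * u)) (fun u => Qf (σ + a * u)) θ C C' Dd Dd'
    (fun u => if fst then lam * u else 0) (s7C0 fst lam) (s7D0 fst lam) (s7D0 fst lam)
    (s7D0' fst lam) (fun u => 2 * s7dC fst lam u) (fun u => 2 * s7dC' fst lam u)
    (fun u => 2 * s7dD fst lam u) (fun u => 2 * s7dD' fst lam u) hη1 b1 b2 b3 b4 hnear hodd hf h0 lin
  have hstar : ∀ u ∈ V, ∀ r ∈ Icc (0 : ℝ) 1, (r : ℂ) * u ∈ V := by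
    intro u hu r hr
    rw [hV, mem_ball_zero_iff] at hu ⊢
    rw [norm_mul, Complex.norm_real, Real.norm_eq_abs, abs_of_nonneg hr.1]
    calc r * ‖u‖ ≤ 1 * ‖u‖ := by gcongr; exact hr.2
      _ < ϱ := by simpa using hu
  have hFb : ∀ u ∈ V, ‖Ff (σ + a * u)‖ ≤ B + 1 := fun u hu => by
    have h1 : ‖Ff (σ + a * u)‖ ≤ ‖Ff (σ + a * u) - s7pF fst σ‖ + ‖s7pF fst σ‖ := by
      simpa using norm_add_le (Ff (σ + a * u) - s7pF fst σ) (s7pF fst σ)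
    linarith [(hnear u hu).1]
  have hQb : ∀ u ∈ V, ‖Qf (σ + a * u)‖ ≤ B + 1 := fun u hu => by
    have h1 : ‖Qf (σ + a * u)‖ ≤ ‖Qf (σ + a * u) - s7pQ fst σ‖ + ‖s7pQ fst σ‖ := by
      simpa using norm_add_le (Qf (σ + a * u) - s7pQ fst σ) (s7pQ fst σ)
    linarith [(hnear u hu).2]
  have sA := stab V le_rfl hstar (fun u => Ff (σ + a * u)) (fun u => Qf (σ + a * u)) θ C C' Dd Dd'
    (fun _ => s7pF fst σ) (fun _ => s7pQ fst σ) (fun u => if fst then lam * u else 0)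
    (s7C0 fst lam) (s7D0 fst lam) (s7D0 fst lam) (s7D0' fst lam) η hf h0
    (fun u hu => ⟨hFb u hu, hQb u hu, by linarith, by linarith⟩) hnear
  have sF := stab V le_rfl hstar (fun _ => s7pF fst σ) (fun _ => s7pQ fst σ)
    (fun u => if fst then lam * u else 0) (s7C0 fst lam) (s7D0 fst lam) (s7D0 fst lam)
    (s7D0' fst lam) (fun _ => s7pF fst σ) (fun _ => s7pQ fst σ)
    (fun u => if fst then lam * u else 0) (s7C0 fst lam) (s7D0 fst lam) (s7D0 fst lam)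
    (s7D0' fst lam) 0 h0 h0 (fun u _ => ⟨by linarith, by linarith, by linarith, by linarith⟩)
    (fun u _ => by simp)
  have hJmV : Jm ∈ V := by rw [hV, mem_ball_zero_iff, hϱdef]; linarith
  have hnJmV : -Jm ∈ V := by rw [hV, mem_ball_zero_iff, norm_neg, hϱdef]; linarith
  have hJV : ∀ J ∈ closedBall Jm 1, J ∈ V := by
    intro J hJ
    have hJ' : ‖J - Jm‖ ≤ 1 := by simpa [dist_eq_norm] using hJ
    have : ‖J‖ ≤ ‖J - Jm‖ + ‖Jm‖ := by simpa using norm_add_le (J - Jm) Jm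
    rw [hV, mem_ball_zero_iff, hϱdef]; linarith
  refine ⟨fun J hJ => ?_, fun J hJ => ?_, ?_, ?_⟩
  · exact ((hf.Dd_deriv J (hJV J hJ)).mul_const (C (-Jm))).add
      ((hf.C_deriv J (hJV J hJ)).const_mul (Dd (-Jm)))
  · have hJ' := hJV J hJ
    have e : Dd' J * C (-Jm) + Dd (-Jm) * C' J - s7osXi fst σ Jm J
        = (Dd' J - s7D0' fst lam J) * C (-Jm) + s7D0' fst lam J * (C (-Jm) - s7C0 fst lam (-Jm))
          + (Dd (-Jm) - s7D0 fst lam (-Jm)) * C' J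
          + s7D0 fst lam (-Jm) * (C' J - s7D0 fst lam J) := by
      rw [s7osXi]; ring
    rw [e]
    refine (norm_add₄_le).trans ?_
    have t1 : ‖(Dd' J - s7D0' fst lam J) * C (-Jm)‖ ≤ KS * η * KS :=
      norm_mul_le_of_le (sA J hJ').2.2.2.2.2 (sA _ hnJmV).1.2.1
    have t2 : ‖s7D0' fst lam J * (C (-Jm) - s7C0 fst lam (-Jm))‖ ≤ KS * (KS * η) :=
      norm_mul_le_of_le (sF J hJ').1.2.2.2.2 (sA _ hnJmV).2.2.1
    have t3 : ‖(Dd (-Jm) - s7D0 fst lam (-Jm)) * C' J‖ ≤ KS * η * KS :=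
      norm_mul_le_of_le (sA _ hnJmV).2.2.2.2.1 (sA J hJ').1.2.2.1
    have t4 : ‖s7D0 fst lam (-Jm) * (C' J - s7D0 fst lam J)‖ ≤ KS * (KS * η) :=
      norm_mul_le_of_le (sF _ hnJmV).1.2.2.2.1 (sA J hJ').2.2.2.1
    have h5 : KS ^ 2 * η ≤ KS ^ 2 * (2 * (KF * η₀)) := by gcongr
    have h6 : KS * η * KS + KS * (KS * η) + KS * η * KS + KS * (KS * η) = 4 * (KS ^ 2 * η) := by ring
    have h7 : KS ^ 2 * (2 * (KF * η₀)) = 2 * (KS ^ 2 * KF * η₀) := by ring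
    linarith
  · obtain ⟨cCh, cDh, e1, e2⟩ := hanti Jm hJmV
    have e : Dd Jm * C (-Jm) + Dd (-Jm) * C Jm
        - a * (2 * (s7dD fst lam Jm * s7C0 fst lam Jm - s7D0 fst lam Jm * s7dC fst lam Jm))
        = a * ((2 * s7dD fst lam Jm) * (C Jm - s7C0 fst lam Jm))
          - a * ((Dd Jm - s7D0 fst lam Jm) * (2 * s7dC fst lam Jm))
          - Dd Jm * (C Jm - C (-Jm) - a * (2 * s7dC fst lam Jm))
          + (Dd Jm + Dd (-Jm) - a * (2 * s7dD fst lam Jm)) * C Jm := by ring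
    rw [e]
    have t1 : ‖a * ((2 * s7dD fst lam Jm) * (C Jm - s7C0 fst lam Jm))‖ ≤ ‖a‖ * (KA * (KS * η)) :=
      norm_mul_le_of_le le_rfl (norm_mul_le_of_le cDh (sA Jm hJmV).2.2.1)
    have t2 : ‖a * ((Dd Jm - s7D0 fst lam Jm) * (2 * s7dC fst lam Jm))‖ ≤ ‖a‖ * (KS * η * KA) :=
      norm_mul_le_of_le le_rfl (norm_mul_le_of_le (sA Jm hJmV).2.2.2.2.1 cCh)
    have t3 : ‖Dd Jm * (C Jm - C (-Jm) - a * (2 * s7dC fst lam Jm))‖ ≤ KS * (KA * (‖a‖ * η)) :=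
      norm_mul_le_of_le (sA Jm hJmV).1.2.2.2.1 e1
    have t4 : ‖(Dd Jm + Dd (-Jm) - a * (2 * s7dD fst lam Jm)) * C Jm‖ ≤ KA * (‖a‖ * η) * KS :=
      norm_mul_le_of_le e2 (sA Jm hJmV).1.2.1
    have n1 := norm_add_le (a * ((2 * s7dD fst lam Jm) * (C Jm - s7C0 fst lam Jm))
          - a * ((Dd Jm - s7D0 fst lam Jm) * (2 * s7dC fst lam Jm))
          - Dd Jm * (C Jm - C (-Jm) - a * (2 * s7dC fst lam Jm)))
          ((Dd Jm + Dd (-Jm) - a * (2 * s7dD fst lam Jm)) * C Jm)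
    have n2 := norm_sub_le (a * ((2 * s7dD fst lam Jm) * (C Jm - s7C0 fst lam Jm))
          - a * ((Dd Jm - s7D0 fst lam Jm) * (2 * s7dC fst lam Jm)))
          (Dd Jm * (C Jm - C (-Jm) - a * (2 * s7dC fst lam Jm)))
    have n3 := norm_sub_le (a * ((2 * s7dD fst lam Jm) * (C Jm - s7C0 fst lam Jm)))
          (a * ((Dd Jm - s7D0 fst lam Jm) * (2 * s7dC fst lam Jm)))
    have hfin : 4 * (KA * KS * η) * ‖a‖ ≤ K * η₀ * ‖a‖ := by
      refine mul_le_mul_of_nonneg_right ?_ (norm_nonneg _)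
      have h5 : KA * KS * η ≤ KA * KS * (2 * (KF * η₀)) := by gcongr
      have h7 : KA * KS * (2 * (KF * η₀)) = 2 * (KA * KS * KF * η₀) := by ring
      linarith
    have hsum : ‖a‖ * (KA * (KS * η)) + ‖a‖ * (KS * η * KA) + KS * (KA * (‖a‖ * η))
        + KA * (‖a‖ * η) * KS = 4 * (KA * KS * η) * ‖a‖ := by ring
    linarith
  · obtain ⟨cCh, cDh, -, -⟩ := hanti Jm hJmV
    have e : 2 * (s7dD fst lam Jm * s7C0 fst lam Jm - s7D0 fst lam Jm * s7dC fst lam Jm)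
        = (2 * s7dD fst lam Jm) * s7C0 fst lam Jm - s7D0 fst lam Jm * (2 * s7dC fst lam Jm) := by
      ring
    rw [e]
    refine (norm_sub_le _ _).trans ?_
    have t1 : ‖(2 * s7dD fst lam Jm) * s7C0 fst lam Jm‖ ≤ KA * KS :=
      norm_mul_le_of_le cDh (sF Jm hJmV).1.2.1
    have t2 : ‖s7D0 fst lam Jm * (2 * s7dC fst lam Jm)‖ ≤ KS * KA :=
      norm_mul_le_of_le (sF Jm hJmV).1.2.2.2.1 cCh
    have p1 : 0 ≤ KF := hKF.le
    have p2 : 0 ≤ KS ^ 2 * KF := by positivity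
    have p3 : 0 ≤ KA * KS * KF := by positivity
    rw [hK]
    linarith [t1, t2, p1, p2, p3, hϱ]

/-- LEAF LF-S7-OS: **the one-step lemma**. -/
theorem s7_onestep (fst : Bool) (𝒦 : Set (ℂ × ℂ)) (h𝒦 : IsCompact 𝒦) (hreg : 𝒦 ⊆ s7Reg fst) :
    ∃ r₁ : ℝ, 0 < r₁ ∧ ∀ ε > 0, ∃ η₀ > 0, ∀ (Ff Qf : ℂ → ℂ) (W : Set ℂ) (a σ Jm : ℂ)
      (θ C C' Dd Dd' : ℂ → ℂ), S7Fld Ff Qf W → (σ, Jm) ∈ 𝒦 → S7Close fst Ff Qf W (closedBall σ 1) η₀ →
      a ≠ 0 → ‖a‖ ≤ η₀ →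
      IsFast {u | σ + a * u ∈ W} (fun u => Ff (σ + a * u)) (fun u => Qf (σ + a * u)) θ C C' Dd Dd' →
      ∃ Jp : ℂ, ‖Jp - Jm‖ < r₁ ∧ Dd Jp * C (-Jm) + Dd (-Jm) * C Jp = 0 ∧
        Dd' Jp * C (-Jm) + Dd (-Jm) * C' Jp ≠ 0 ∧
        (∀ J : ℂ, ‖J - Jm‖ ≤ r₁ → Dd J * C (-Jm) + Dd (-Jm) * C J = 0 → J = Jp) ∧
        ‖Jp - Jm - a * s7X fst σ Jm‖ ≤ ε * ‖a‖ := by
  rcases 𝒦.eq_empty_or_nonempty with rfl | hne
  · exact ⟨1, one_pos, fun ε _ => ⟨1, one_pos, fun _ _ _ _ _ _ _ _ _ _ _ _ h => absurd h (by simp)⟩⟩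
  obtain ⟨B₀, κ₀, hB₀, hκ₀, hbd, hmod⟩ := s7os_compact fst 𝒦 h𝒦 hreg hne
  obtain ⟨K, hK, core⟩ := s7os_core fst B₀ hB₀
  obtain ⟨r₁, hr₁, hr₁1, hmod₁⟩ := hmod κ₀ hκ₀
  refine ⟨r₁, hr₁, fun ε hε => ?_⟩
  set κ' : ℝ := min κ₀ (4 * ε * κ₀ ^ 2 / (K + 1)) with hκ'
  have hκ'0 : 0 < κ' := by positivity
  have hκ'1 : κ' ≤ κ₀ := min_le_left _ _
  have hκ'2 : κ' * (K + 1) ≤ 4 * ε * κ₀ ^ 2 := by
    have : κ' ≤ 4 * ε * κ₀ ^ 2 / (K + 1) := min_le_right _ _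
    rwa [le_div_iff₀ (by positivity)] at this
  obtain ⟨r₂', hr₂', hr₂'1, hmod₂⟩ := hmod (κ' / 2) (by positivity)
  set r₂ : ℝ := min r₂' r₁ with hr₂
  have hr₂0 : 0 < r₂ := by positivity
  have hr₂1 : r₂ ≤ r₁ := min_le_right _ _
  have hr₂2 : r₂ ≤ r₂' := min_le_left _ _
  refine ⟨min (1 / K) (min (κ' / (2 * K)) (min (r₂ * κ₀ / (K + 1)) (2 * ε * κ₀ / K))),
    by positivity, ?_⟩
  intro Ff Qf W a σ Jm θ C C' Dd Dd' hfld hmem hclose ha0 ha hfast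
  set η₀ : ℝ := min (1 / K) (min (κ' / (2 * K)) (min (r₂ * κ₀ / (K + 1)) (2 * ε * κ₀ / K))) with hη₀
  have c1 : K * η₀ ≤ 1 := by
    have : η₀ ≤ 1 / K := min_le_left _ _
    rw [le_div_iff₀ hK] at this; linarith
  have c2 : K * η₀ ≤ κ' / 2 := by
    have : η₀ ≤ κ' / (2 * K) := (min_le_right _ _).trans (min_le_left _ _)
    rw [le_div_iff₀ (by positivity)] at this; linarith
  have c3 : (K + 1) * η₀ ≤ r₂ * κ₀ := by
    have : η₀ ≤ r₂ * κ₀ / (K + 1) :=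
      (min_le_right _ _).trans ((min_le_right _ _).trans (min_le_left _ _))
    rw [le_div_iff₀ (by positivity)] at this; linarith
  have c4 : K * η₀ ≤ 2 * ε * κ₀ := by
    have : η₀ ≤ 2 * ε * κ₀ / K :=
      (min_le_right _ _).trans ((min_le_right _ _).trans (min_le_right _ _))
    rw [le_div_iff₀ hK] at this; linarith
  obtain ⟨hσ, hJm, hΔ4⟩ := hbd (σ, Jm) hmem
  simp only at hσ hJm hΔ4
  obtain ⟨hG, hG', hG0, hg1⟩ := core Ff Qf W a σ Jm θ C C' Dd Dd' η₀ hfld hclose hσ hJm ha c1 hfast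
  set lam : ℂ := Complex.exp (-(I * σ)) with hlam
  set g1 : ℂ := 2 * (s7dD fst lam Jm * s7C0 fst lam Jm - s7D0 fst lam Jm * s7dC fst lam Jm) with hg1d
  set Δ : ℂ := s7osXi fst σ Jm Jm with hΔ
  set G : ℂ → ℂ := fun J => Dd J * C (-Jm) + Dd (-Jm) * C J with hGd
  set G' : ℂ → ℂ := fun J => Dd' J * C (-Jm) + Dd (-Jm) * C' J with hG'd
  have han : 0 < ‖a‖ := norm_pos_iff.2 ha0
  have hΔpos : 0 < ‖Δ‖ := by linarith
  have hΔne : Δ ≠ 0 := norm_pos_iff.1 hΔpos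
  have hGJm : ‖G Jm‖ ≤ (K + 1) * ‖a‖ := by
    have e : G Jm = (G Jm - a * g1) + a * g1 := by ring
    rw [e]
    refine (norm_add_le _ _).trans ?_
    have t1 : ‖a * g1‖ ≤ ‖a‖ * K := norm_mul_le_of_le le_rfl hg1
    have t2 : K * η₀ * ‖a‖ ≤ 1 * ‖a‖ := by gcongr
    have t3 : ‖G Jm - a * g1‖ ≤ K * η₀ * ‖a‖ := hG0
    linarith
  have hGJm2 : ‖G Jm‖ ≤ r₂ * κ₀ := by
    have : (K + 1) * ‖a‖ ≤ (K + 1) * η₀ := by gcongr
    linarith
  have hsub1 : closedBall Jm r₁ ⊆ closedBall Jm 1 := closedBall_subset_closedBall hr₁1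
  have hsub2 : closedBall Jm r₂ ⊆ closedBall Jm r₁ := closedBall_subset_closedBall hr₂1
  obtain ⟨Jp₁, -, -, -, huniq₁, -, -⟩ := ca_root_near (G := G) (G' := G') (c := Jm) (Δ := Δ)
    (r := r₁) (κ := 2 * κ₀) hr₁ (fun J hJ => hG J (hsub1 hJ))
    (fun J hJ => by
      have hJ' : ‖J - Jm‖ ≤ r₁ := by simpa [dist_eq_norm] using hJ
      have e : G' J - Δ = (G' J - s7osXi fst σ Jm J) + (s7osXi fst σ Jm J - Δ) := by ring
      rw [e]
      refine (norm_add_le _ _).trans ?_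
      have t1 : ‖G' J - s7osXi fst σ Jm J‖ ≤ K * η₀ := hG' J (hsub1 hJ)
      have t2 := hmod₁ (σ, Jm) hmem J hJ'
      simp only at t2
      linarith)
    (by linarith) hΔne (by nlinarith)
  obtain ⟨Jp, hJpm, hroot, hsimple, -, hdist, hest⟩ := ca_root_near (G := G) (G' := G') (c := Jm)
    (Δ := Δ) (r := r₂) (κ := κ') hr₂0 (fun J hJ => hG J (hsub1 (hsub2 hJ)))
    (fun J hJ => by
      have hJ' : ‖J - Jm‖ ≤ r₂' := by
        have : ‖J - Jm‖ ≤ r₂ := by simpa [dist_eq_norm] using hJ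
        linarith
      have e : G' J - Δ = (G' J - s7osXi fst σ Jm J) + (s7osXi fst σ Jm J - Δ) := by ring
      rw [e]
      refine (norm_add_le _ _).trans ?_
      have t1 : ‖G' J - s7osXi fst σ Jm J‖ ≤ K * η₀ := hG' J (hsub1 (hsub2 hJ))
      have t2 := hmod₂ (σ, Jm) hmem J hJ'
      simp only at t2
      linarith)
    (by linarith) hΔne (by nlinarith)
  have hJp1 : Jp = Jp₁ := huniq₁ Jp (hsub2 hJpm) hroot
  refine ⟨Jp, ?_, hroot, hsimple, fun J hJ hJr => ?_, ?_⟩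
  · refine lt_of_le_of_lt hdist ?_
    rw [div_lt_iff₀ hΔpos]
    nlinarith
  · rw [hJp1]
    exact huniq₁ J (by simpa [dist_eq_norm] using hJ) hJr
  · have hX : s7X fst σ Jm = -g1 / Δ := by
      have hw := (s7_frozen_wedge fst σ Jm (hreg hmem)).2
      rw [hw, hΔ, s7osXi, s7os_C0_neg, s7os_D0_neg, hg1d]
      congr 1 <;> ring
    have e : Jp - Jm - a * s7X fst σ Jm = (Jp - Jm + G Jm / Δ) - (G Jm - a * g1) / Δ := by
      rw [hX]; field_simp; ring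
    rw [e]
    refine (norm_sub_le _ _).trans ?_
    have t1 : ‖Jp - Jm + G Jm / Δ‖ ≤ ε / 2 * ‖a‖ := by
      refine hest.trans ?_
      rw [div_le_iff₀ (by positivity)]
      have h1 : 2 * κ' * ‖G Jm‖ ≤ 2 * κ' * ((K + 1) * ‖a‖) := by gcongr
      have h2 : (4 * κ₀) ^ 2 ≤ ‖Δ‖ ^ 2 := pow_le_pow_left₀ (by positivity) hΔ4 2
      have h3 : ε / 2 * ‖a‖ * (4 * κ₀) ^ 2 ≤ ε / 2 * ‖a‖ * ‖Δ‖ ^ 2 := by gcongr
      have h4 : 2 * κ' * ((K + 1) * ‖a‖) = 2 * ‖a‖ * (κ' * (K + 1)) := by ring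
      have h5 : 2 * ‖a‖ * (κ' * (K + 1)) ≤ 2 * ‖a‖ * (4 * ε * κ₀ ^ 2) := by gcongr
      have h6 : ε / 2 * ‖a‖ * (4 * κ₀) ^ 2 = 2 * ‖a‖ * (4 * ε * κ₀ ^ 2) := by ring
      linarith
    have t2 : ‖(G Jm - a * g1) / Δ‖ ≤ ε / 2 * ‖a‖ := by
      rw [norm_div, div_le_iff₀ hΔpos]
      have h1 : ‖G Jm - a * g1‖ ≤ K * η₀ * ‖a‖ := hG0
      have h2 : K * η₀ * ‖a‖ ≤ 2 * ε * κ₀ * ‖a‖ := by gcongr
      have h3 : ε / 2 * ‖a‖ * (4 * κ₀) ≤ ε / 2 * ‖a‖ * ‖Δ‖ := by gcongr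
      have h4 : ε / 2 * ‖a‖ * (4 * κ₀) = 2 * ε * κ₀ * ‖a‖ := by ring
      linarith
    linarith

end Claimed.Agent.R269
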