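/-
Row 269, P1 Section 7: analytic toolbox for the tracking lemmas (Mathlib only).   Owner: helper164.
`s7t_cauchy`, `s7t_mvt`, `s7t_taylor`, `s7t_quot` (difference quotients with Cauchy bounds), `s7t_lip2`, `s7t_lip_compact` (uniform Lipschitz bound near a compact subset of the domain).
-/
import Mathlib
set_option autoImplicit false
namespace Claimed.Agent.R269
open Complex Filter Topology Set Metric

/-- Cauchy estimate for the derivative from a bound on a closed ball contained in the domain. -/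
theorem s7t_cauchy {f : ℂ → ℂ} {U : Set ℂ} (_hU : IsOpen U) (hf : DifferentiableOn ℂ f U) {w : ℂ}
    {R M : ℝ} (hR : 0 < R) (hsub : closedBall w R ⊆ U) (hM : ∀ z ∈ closedBall w R, ‖f z‖ ≤ M) :
    ‖deriv f w‖ ≤ M / R := by
  refine Complex.norm_deriv_le_of_forall_mem_sphere_norm_le hR ?_
    (fun z hz => hM z (sphere_subset_closedBall hz))
  exact (hf.mono hsub).diffContOnCl_ball subset_rfl

/-- mean value inequality on a closed ball about the base point. -/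
theorem s7t_mvt {f f' : ℂ → ℂ} {c : ℂ} {R M : ℝ}
    (hf : ∀ z ∈ closedBall c R, HasDerivAt f (f' z) z) (hM : ∀ z ∈ closedBall c R, ‖f' z‖ ≤ M)
    {w : ℂ} (hw : w ∈ closedBall c R) : ‖f w - f c‖ ≤ M * ‖w - c‖ := by
  have hc : c ∈ closedBall c R := by
    have : 0 ≤ R := le_trans dist_nonneg (mem_closedBall.1 hw)
    simpa using this
  exact Convex.norm_image_sub_le_of_norm_hasDerivWithin_le
    (fun z hz => (hf z hz).hasDerivWithinAt) hM (convex_closedBall c R) hc hw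

/-- **Taylor expansion of order two with Cauchy bounds.** -/
theorem s7t_taylor {g : ℂ → ℂ} {y₀ : ℂ} {r B : ℝ} (hr : 0 < r)
    (hg : DifferentiableOn ℂ g (ball y₀ r)) (hB : ∀ y ∈ ball y₀ r, ‖g y - g y₀‖ ≤ B) :
    ‖deriv g y₀‖ ≤ 5 * B / r ∧ ‖deriv (deriv g) y₀‖ ≤ 20 * B / r ^ 2 ∧
    ∀ a : ℂ, ‖a‖ ≤ r / 4 →
      ‖g (y₀ + a) - g y₀ - a * deriv g y₀ - a ^ 2 / 2 * deriv (deriv g) y₀‖
        ≤ 80 * B / r ^ 3 * ‖a‖ ^ 3 := by
  have hU : IsOpen (ball y₀ r) := isOpen_ball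
  have hB0 : 0 ≤ B := (norm_nonneg _).trans (hB y₀ (mem_ball_self hr))
  have hg1 : DifferentiableOn ℂ (deriv g) (ball y₀ r) := hg.deriv hU
  have hg2 : DifferentiableOn ℂ (deriv (deriv g)) (ball y₀ r) := hg1.deriv hU
  have hsub : ∀ {w : ℂ} {ρ₁ ρ₂ : ℝ}, ‖w - y₀‖ ≤ ρ₁ → closedBall w ρ₂ ⊆ closedBall y₀ (ρ₁ + ρ₂) := by
    intro w ρ₁ ρ₂ hw z hz
    rw [mem_closedBall, dist_eq_norm] at *
    calc ‖z - y₀‖ = ‖(z - w) + (w - y₀)‖ := by ring_nf
      _ ≤ ‖z - w‖ + ‖w - y₀‖ := norm_add_le _ _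
      _ ≤ ρ₁ + ρ₂ := by linarith
  have hcb : ∀ {ρ : ℝ}, ρ < r → closedBall y₀ ρ ⊆ ball y₀ r := fun h => closedBall_subset_ball h
  -- first derivative
  have e1 : ∀ w, ‖w - y₀‖ ≤ 3 * r / 4 → ‖deriv g w‖ ≤ 5 * B / r := by
    intro w hw
    have hs : closedBall w (r / 5) ⊆ ball y₀ r := (hsub hw).trans (hcb (by linarith))
    have h1 := s7t_cauchy (f := fun z => g z - g y₀) hU (hg.sub_const _) (by positivity : 0 < r / 5)
      hs (fun z hz => hB z (hs hz))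
    rw [deriv_sub_const] at h1
    calc ‖deriv g w‖ ≤ B / (r / 5) := h1
      _ = 5 * B / r := by field_simp
  have e2 : ∀ w, ‖w - y₀‖ ≤ r / 2 → ‖deriv (deriv g) w‖ ≤ 20 * B / r ^ 2 := by
    intro w hw
    have hs' : closedBall w (r / 4) ⊆ closedBall y₀ (r / 2 + r / 4) := hsub hw
    have hs : closedBall w (r / 4) ⊆ ball y₀ r := hs'.trans (hcb (by linarith))
    have h1 := s7t_cauchy hU hg1 (by positivity : 0 < r / 4) hs (fun z hz => e1 z (by
      have := hs' hz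
      rw [mem_closedBall, dist_eq_norm] at this
      linarith))
    calc ‖deriv (deriv g) w‖ ≤ 5 * B / r / (r / 4) := h1
      _ = 20 * B / r ^ 2 := by field_simp; ring
  have e3 : ∀ w, ‖w - y₀‖ ≤ r / 4 → ‖deriv (deriv (deriv g)) w‖ ≤ 80 * B / r ^ 3 := by
    intro w hw
    have hs' : closedBall w (r / 4) ⊆ closedBall y₀ (r / 4 + r / 4) := hsub hw
    have hs : closedBall w (r / 4) ⊆ ball y₀ r := hs'.trans (hcb (by linarith))
    have h1 := s7t_cauchy hU hg2 (by positivity : 0 < r / 4) hs (fun z hz => e2 z (by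
      have := hs' hz
      rw [mem_closedBall, dist_eq_norm] at this
      linarith))
    calc ‖deriv (deriv (deriv g)) w‖ ≤ 20 * B / r ^ 2 / (r / 4) := h1
      _ = 80 * B / r ^ 3 := by field_simp; ring
  refine ⟨e1 y₀ (by simp; positivity), e2 y₀ (by simp; positivity), fun a ha => ?_⟩
  set M : ℝ := 80 * B / r ^ 3 with hM
  have hM0 : 0 ≤ M := by positivity
  set ρ : ℝ := ‖a‖ with hρ
  have hρ0 : 0 ≤ ρ := norm_nonneg _
  have hin : ∀ z ∈ closedBall y₀ ρ, z ∈ ball y₀ r := fun z hz =>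
    hcb (by linarith : ρ < r) hz
  have hz4 : ∀ z ∈ closedBall y₀ ρ, ‖z - y₀‖ ≤ r / 4 := fun z hz => by
    rw [mem_closedBall, dist_eq_norm] at hz; linarith
  have hzρ : ∀ z ∈ closedBall y₀ ρ, ‖z - y₀‖ ≤ ρ := fun z hz => by
    rwa [mem_closedBall, dist_eq_norm] at hz
  have d0 : ∀ z ∈ closedBall y₀ ρ, HasDerivAt g (deriv g z) z := fun z hz =>
    (hg.differentiableAt (hU.mem_nhds (hin z hz))).hasDerivAt
  have d1 : ∀ z ∈ closedBall y₀ ρ, HasDerivAt (deriv g) (deriv (deriv g) z) z := fun z hz =>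
    (hg1.differentiableAt (hU.mem_nhds (hin z hz))).hasDerivAt
  have d2 : ∀ z ∈ closedBall y₀ ρ, HasDerivAt (deriv (deriv g)) (deriv (deriv (deriv g)) z) z :=
    fun z hz => (hg2.differentiableAt (hU.mem_nhds (hin z hz))).hasDerivAt
  -- third level
  have b3 : ∀ z ∈ closedBall y₀ ρ, ‖deriv (deriv g) z - deriv (deriv g) y₀‖ ≤ M * ρ := by
    intro z hz
    have := s7t_mvt d2 (fun w hw => e3 w (hz4 w hw)) hz
    exact this.trans (mul_le_mul_of_nonneg_left (hzρ z hz) hM0)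
  have b2 : ∀ z ∈ closedBall y₀ ρ,
      ‖deriv g z - deriv g y₀ - (z - y₀) * deriv (deriv g) y₀‖ ≤ M * ρ * ρ := by
    intro z hz
    have hd : ∀ w ∈ closedBall y₀ ρ, HasDerivAt
        (fun w => deriv g w - deriv g y₀ - (w - y₀) * deriv (deriv g) y₀)
        (deriv (deriv g) w - deriv (deriv g) y₀) w := by
      intro w hw
      have h1 := ((d1 w hw).sub_const (deriv g y₀)).sub
        (((hasDerivAt_id w).sub_const y₀).mul_const (deriv (deriv g) y₀))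
      refine (h1.congr_deriv ?_)
      simp
    have := s7t_mvt hd b3 hz
    simp only [sub_self, zero_mul, sub_zero] at this
    exact this.trans (mul_le_mul_of_nonneg_left (hzρ z hz) (by positivity))
  have hd : ∀ w ∈ closedBall y₀ ρ, HasDerivAt
      (fun w => g w - g y₀ - (w - y₀) * deriv g y₀ - (w - y₀) ^ 2 / 2 * deriv (deriv g) y₀)
      (deriv g w - deriv g y₀ - (w - y₀) * deriv (deriv g) y₀) w := by
    intro w hw
    have h1 := (((d0 w hw).sub_const (g y₀)).sub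
      (((hasDerivAt_id w).sub_const y₀).mul_const (deriv g y₀))).sub
      (((((hasDerivAt_id w).sub_const y₀).pow 2).div_const 2).mul_const (deriv (deriv g) y₀))
    refine h1.congr_deriv ?_
    simp
  have hmem : y₀ + a ∈ closedBall y₀ ρ := by simp [hρ]
  have := s7t_mvt hd b2 hmem
  simp only [sub_self, zero_mul, add_sub_cancel_left] at this
  have h0 : ((0 : ℂ) ^ 2 / 2 * deriv (deriv g) y₀) = 0 := by simp
  rw [h0, sub_zero, sub_zero] at this
  calc _ ≤ M * ρ * ρ * ‖a‖ := this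
    _ = M * ρ ^ 3 := by rw [← hρ]; ring

/-- **difference quotients** of a holomorphic function with Cauchy bounds. -/
theorem s7t_quot {g : ℂ → ℂ} {y₀ : ℂ} {r B : ℝ} (hr : 0 < r)
    (hg : DifferentiableOn ℂ g (ball y₀ r)) (hB : ∀ y ∈ ball y₀ r, ‖g y - g y₀‖ ≤ B) {a : ℂ}
    (ha0 : a ≠ 0) (ha : ‖a‖ ≤ r / 4) :
    ‖(g y₀ - g (y₀ - a)) / a - deriv g y₀‖ ≤ 30 * B / r ^ 2 * ‖a‖ ∧
    ‖(g (y₀ + a) - g y₀) / a - deriv g y₀‖ ≤ 30 * B / r ^ 2 * ‖a‖ ∧
    ‖(g (y₀ + a) - g y₀) / a - (g y₀ - g (y₀ - a)) / a - a * deriv (deriv g) y₀‖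
      ≤ 160 * B / r ^ 3 * ‖a‖ ^ 2 := by
  obtain ⟨-, h2, h3⟩ := s7t_taylor hr hg hB
  have hB0 : 0 ≤ B := (norm_nonneg _).trans (hB y₀ (mem_ball_self hr))
  have hp := h3 a ha
  have hm := h3 (-a) (by rwa [norm_neg])
  rw [norm_neg] at hm
  have hna : 0 < ‖a‖ := norm_pos_iff.2 ha0
  set Rp : ℂ := g (y₀ + a) - g y₀ - a * deriv g y₀ - a ^ 2 / 2 * deriv (deriv g) y₀ with hRp
  set Rm : ℂ := g (y₀ + -a) - g y₀ - -a * deriv g y₀ - (-a) ^ 2 / 2 * deriv (deriv g) y₀ with hRm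
  set M : ℝ := 80 * B / r ^ 3 with hM
  have hM0 : 0 ≤ M := by positivity
  have hdiv : ∀ R : ℂ, ‖R‖ ≤ M * ‖a‖ ^ 3 → ‖R / a‖ ≤ M * ‖a‖ ^ 2 := by
    intro R hR
    rw [norm_div, div_le_iff₀ hna]
    calc ‖R‖ ≤ M * ‖a‖ ^ 3 := hR
      _ = M * ‖a‖ ^ 2 * ‖a‖ := by ring
  have hMa : M * ‖a‖ ^ 2 ≤ 20 * B / r ^ 2 * ‖a‖ := by
    have : M * ‖a‖ ^ 2 = (80 * B / r ^ 3 * ‖a‖) * ‖a‖ := by rw [hM]; ring
    rw [this]
    refine mul_le_mul_of_nonneg_right ?_ hna.le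
    calc 80 * B / r ^ 3 * ‖a‖ ≤ 80 * B / r ^ 3 * (r / 4) := by gcongr
      _ = 20 * B / r ^ 2 := by field_simp; ring
  have h2a : ‖a / 2 * deriv (deriv g) y₀‖ ≤ 10 * B / r ^ 2 * ‖a‖ := by
    rw [norm_mul, norm_div]
    simp only [Complex.norm_ofNat]
    calc ‖a‖ / 2 * ‖deriv (deriv g) y₀‖ ≤ ‖a‖ / 2 * (20 * B / r ^ 2) := by gcongr
      _ = 10 * B / r ^ 2 * ‖a‖ := by ring
  refine ⟨?_, ?_, ?_⟩
  · have e : (g y₀ - g (y₀ - a)) / a - deriv g y₀ = -(Rm / a) - a / 2 * deriv (deriv g) y₀ := by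
      rw [hRm, ← sub_eq_add_neg]; field_simp; ring
    rw [e]
    calc _ ≤ ‖-(Rm / a)‖ + ‖a / 2 * deriv (deriv g) y₀‖ := norm_sub_le _ _
      _ ≤ M * ‖a‖ ^ 2 + 10 * B / r ^ 2 * ‖a‖ := by
          rw [norm_neg]; exact add_le_add (hdiv _ hm) h2a
      _ ≤ 30 * B / r ^ 2 * ‖a‖ := by
          have : 30 * B / r ^ 2 * ‖a‖ = 20 * B / r ^ 2 * ‖a‖ + 10 * B / r ^ 2 * ‖a‖ := by ring
          linarith
  · have e : (g (y₀ + a) - g y₀) / a - deriv g y₀ = Rp / a + a / 2 * deriv (deriv g) y₀ := by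
      rw [hRp]; field_simp; ring
    rw [e]
    calc _ ≤ ‖Rp / a‖ + ‖a / 2 * deriv (deriv g) y₀‖ := norm_add_le _ _
      _ ≤ M * ‖a‖ ^ 2 + 10 * B / r ^ 2 * ‖a‖ := add_le_add (hdiv _ hp) h2a
      _ ≤ 30 * B / r ^ 2 * ‖a‖ := by
          have : 30 * B / r ^ 2 * ‖a‖ = 20 * B / r ^ 2 * ‖a‖ + 10 * B / r ^ 2 * ‖a‖ := by ring
          linarith
  · have e : (g (y₀ + a) - g y₀) / a - (g y₀ - g (y₀ - a)) / a - a * deriv (deriv g) y₀
        = Rp / a + Rm / a := by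
      rw [hRp, hRm, ← sub_eq_add_neg]; field_simp; ring
    rw [e]
    calc _ ≤ ‖Rp / a‖ + ‖Rm / a‖ := norm_add_le _ _
      _ ≤ M * ‖a‖ ^ 2 + M * ‖a‖ ^ 2 := add_le_add (hdiv _ hp) (hdiv _ hm)
      _ = 160 * B / r ^ 3 * ‖a‖ ^ 2 := by rw [hM]; ring

/-- **Lipschitz estimate on a bidisc by Cauchy estimates in each variable.** -/
theorem s7t_lip2 {f : ℂ × ℂ → ℂ} {𝒪 : Set (ℂ × ℂ)} (h𝒪 : IsOpen 𝒪) (hf : DifferentiableOn ℂ f 𝒪)
    {σ₀ J₀ : ℂ} {δ M : ℝ} (hδ : 0 < δ)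
    (hsub : closedBall σ₀ (2 * δ) ×ˢ closedBall J₀ (2 * δ) ⊆ 𝒪)
    (hM : ∀ p ∈ closedBall σ₀ (2 * δ) ×ˢ closedBall J₀ (2 * δ), ‖f p‖ ≤ M) {σ σ' J J' : ℂ}
    (hσ : σ ∈ closedBall σ₀ δ) (hσ' : σ' ∈ closedBall σ₀ δ) (hJ : J ∈ closedBall J₀ δ)
    (hJ' : J' ∈ closedBall J₀ δ) :
    ‖f (σ, J) - f (σ', J')‖ ≤ M / δ * (‖σ - σ'‖ + ‖J - J'‖) := by
  have hsubb : ∀ {c w : ℂ}, w ∈ closedBall c δ → closedBall w δ ⊆ closedBall c (2 * δ) := by
    intro c w hw z hz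
    rw [mem_closedBall] at *
    calc dist z c ≤ dist z w + dist w c := dist_triangle _ _ _
      _ ≤ 2 * δ := by linarith
  have hbig : ∀ {c w : ℂ}, w ∈ closedBall c δ → w ∈ closedBall c (2 * δ) := fun hw =>
    closedBall_subset_closedBall (by linarith) hw
  -- first variable
  have h1 : ‖f (σ, J) - f (σ', J)‖ ≤ M / δ * ‖σ - σ'‖ := by
    set U : Set ℂ := (fun s => (s, J)) ⁻¹' 𝒪 with hU
    have hUo : IsOpen U := h𝒪.preimage (by fun_prop)
    have hfU : DifferentiableOn ℂ (fun s => f (s, J)) U :=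
      hf.comp (by fun_prop) (fun s hs => hs)
    have hUs : closedBall σ₀ (2 * δ) ⊆ U := fun s hs => hsub ⟨hs, hbig hJ⟩
    have hd : ∀ s ∈ closedBall σ₀ δ, HasDerivAt (fun s => f (s, J)) (deriv (fun s => f (s, J)) s) s :=
      fun s hs => (hfU.differentiableAt (hUo.mem_nhds (hUs (hbig hs)))).hasDerivAt
    have hb : ∀ s ∈ closedBall σ₀ δ, ‖deriv (fun s => f (s, J)) s‖ ≤ M / δ := fun s hs =>
      s7t_cauchy hUo hfU hδ ((hsubb hs).trans hUs) (fun z hz => hM _ ⟨hsubb hs hz, hbig hJ⟩)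
    exact Convex.norm_image_sub_le_of_norm_hasDerivWithin_le
      (fun z hz => (hd z hz).hasDerivWithinAt) hb (convex_closedBall σ₀ δ) hσ' hσ
  have h2 : ‖f (σ', J) - f (σ', J')‖ ≤ M / δ * ‖J - J'‖ := by
    set U : Set ℂ := (fun s => (σ', s)) ⁻¹' 𝒪 with hU
    have hUo : IsOpen U := h𝒪.preimage (by fun_prop)
    have hfU : DifferentiableOn ℂ (fun s => f (σ', s)) U :=
      hf.comp (by fun_prop) (fun s hs => hs)
    have hUs : closedBall J₀ (2 * δ) ⊆ U := fun s hs => hsub ⟨hbig hσ', hs⟩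
    have hd : ∀ s ∈ closedBall J₀ δ, HasDerivAt (fun s => f (σ', s)) (deriv (fun s => f (σ', s)) s) s :=
      fun s hs => (hfU.differentiableAt (hUo.mem_nhds (hUs (hbig hs)))).hasDerivAt
    have hb : ∀ s ∈ closedBall J₀ δ, ‖deriv (fun s => f (σ', s)) s‖ ≤ M / δ := fun s hs =>
      s7t_cauchy hUo hfU hδ ((hsubb hs).trans hUs) (fun z hz => hM _ ⟨hbig hσ', hsubb hs hz⟩)
    exact Convex.norm_image_sub_le_of_norm_hasDerivWithin_le
      (fun z hz => (hd z hz).hasDerivWithinAt) hb (convex_closedBall J₀ δ) hJ' hJ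
  calc ‖f (σ, J) - f (σ', J')‖ = ‖(f (σ, J) - f (σ', J)) + (f (σ', J) - f (σ', J'))‖ := by ring_nf
    _ ≤ ‖f (σ, J) - f (σ', J)‖ + ‖f (σ', J) - f (σ', J')‖ := norm_add_le _ _
    _ ≤ M / δ * (‖σ - σ'‖ + ‖J - J'‖) := by rw [mul_add]; exact add_le_add h1 h2

/-- a holomorphic function of two variables is uniformly Lipschitz near a compact subset of its domain. -/
theorem s7t_lip_compact {f : ℂ × ℂ → ℂ} {𝒪 : Set (ℂ × ℂ)} (h𝒪 : IsOpen 𝒪)
    (hf : DifferentiableOn ℂ f 𝒪) {𝒦 : Set (ℂ × ℂ)} (h𝒦 : IsCompact 𝒦) (hsub : 𝒦 ⊆ 𝒪) :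
    ∃ δ L : ℝ, 0 < δ ∧ 0 ≤ L ∧ cthickening (2 * δ) 𝒦 ⊆ 𝒪 ∧
      ∀ p₀ ∈ 𝒦, ∀ σ σ' J J' : ℂ, ‖σ - p₀.1‖ ≤ δ → ‖σ' - p₀.1‖ ≤ δ → ‖J - p₀.2‖ ≤ δ →
        ‖J' - p₀.2‖ ≤ δ → ‖f (σ, J) - f (σ', J')‖ ≤ L * (‖σ - σ'‖ + ‖J - J'‖) := by
  obtain ⟨δ₁, hδ₁, hth⟩ := h𝒦.exists_cthickening_subset_open h𝒪 hsub
  have hcomp : IsCompact (cthickening δ₁ 𝒦) := h𝒦.cthickening
  obtain ⟨M, hM⟩ := hcomp.exists_bound_of_continuousOn (hf.continuousOn.mono hth)
  have hprod : ∀ p₀ ∈ 𝒦, closedBall p₀.1 (2 * (δ₁ / 2)) ×ˢ closedBall p₀.2 (2 * (δ₁ / 2))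
      ⊆ cthickening δ₁ 𝒦 := by
    intro p₀ hp₀ p hp
    have e : 2 * (δ₁ / 2) = δ₁ := by ring
    rw [e] at hp
    have h1 : p ∈ closedBall p₀ δ₁ := by
      rw [← Prod.mk.eta (p := p₀), ← closedBall_prod_same]
      exact hp
    exact closedBall_subset_cthickening hp₀ δ₁ h1
  refine ⟨δ₁ / 2, |M| / (δ₁ / 2), by positivity, by positivity, by
    rw [show 2 * (δ₁ / 2) = δ₁ by ring]; exact hth, ?_⟩
  intro p₀ hp₀ σ σ' J J' h1 h2 h3 h4
  exact s7t_lip2 h𝒪 hf (by positivity : 0 < δ₁ / 2) ((hprod p₀ hp₀).trans hth)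
    (fun p hp => (hM p (hprod p₀ hp₀ hp)).trans (le_abs_self M))
    (by rwa [mem_closedBall, dist_eq_norm]) (by rwa [mem_closedBall, dist_eq_norm])
    (by rwa [mem_closedBall, dist_eq_norm]) (by rwa [mem_closedBall, dist_eq_norm])

/-- uniform Cauchy data of a holomorphic function near a compact subset of its domain. -/
theorem s7t_unif_ball {Ω : Set ℂ} {g : ℂ → ℂ} (hΩ : IsOpen Ω) (hg : DifferentiableOn ℂ g Ω) {K : Set ℂ}
    (hK : IsCompact K) (hKΩ : K ⊆ Ω) :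
    ∃ r B : ℝ, 0 < r ∧ 0 ≤ B ∧ ∀ y ∈ K, ball y r ⊆ Ω ∧ ∀ z ∈ ball y r, ‖g z - g y‖ ≤ B := by
  obtain ⟨r, hr, hth⟩ := hK.exists_cthickening_subset_open hΩ hKΩ
  obtain ⟨M, hM⟩ := hK.cthickening.exists_bound_of_continuousOn (hg.continuousOn.mono hth)
  have hsub : ∀ y ∈ K, ball y r ⊆ cthickening r K := fun y hy =>
    ball_subset_closedBall.trans (closedBall_subset_cthickening hy r)
  refine ⟨r, 2 * |M|, hr, by positivity, fun y hy => ⟨(hsub y hy).trans hth, fun z hz => ?_⟩⟩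
  have h1 := (hM z (hsub y hy hz)).trans (le_abs_self M)
  have h2 := (hM y (hsub y hy (mem_ball_self hr))).trans (le_abs_self M)
  calc ‖g z - g y‖ ≤ ‖g z‖ + ‖g y‖ := norm_sub_le _ _
    _ ≤ 2 * |M| := by linarith

/-- continuous induction, strong form. -/
theorem s7t_cont_induction {a b : ℝ} {T : Set ℝ} (hT : IsClosed (T ∩ Icc a b)) (ha : a ∈ T)
    (hstep : ∀ x ∈ Ico a b, Icc a x ⊆ T → ∃ κ > 0, ∀ y ∈ Ioo x (x + κ), y ≤ b → y ∈ T) :
    Icc a b ⊆ T := by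
  set s : Set ℝ := {x | Icc a x ⊆ T} with hsdef
  have hs : IsClosed (s ∩ Icc a b) := by
    apply IsSeqClosed.isClosed
    intro xs x hxs hlim
    have hxI : x ∈ Icc a b :=
      isClosed_Icc.mem_of_tendsto hlim (Eventually.of_forall fun n => (hxs n).2)
    refine ⟨fun y hy => ?_, hxI⟩
    rcases hy.2.lt_or_eq with hlt | heq
    · obtain ⟨n, hn⟩ := (hlim.eventually (lt_mem_nhds hlt)).exists
      exact (hxs n).1 ⟨hy.1, hn.le⟩
    · subst heq
      have : y ∈ T ∩ Icc a b := hT.mem_of_tendsto hlim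
        (Eventually.of_forall fun n => ⟨(hxs n).1 ⟨(hxs n).2.1, le_rfl⟩, (hxs n).2⟩)
      exact this.1
  have key : Icc a b ⊆ s := by
    refine IsClosed.Icc_subset_of_forall_mem_nhdsWithin hs ?_ ?_
    · intro y hy
      have : y = a := le_antisymm hy.2 hy.1
      rwa [this]
    · rintro x ⟨hxs, hx⟩
      obtain ⟨κ, hκ, h⟩ := hstep x hx hxs
      have hmem : Ioo x (min (x + κ) b) ∈ 𝓝[>] x := Ioo_mem_nhdsGT (lt_min (by linarith) hx.2)
      filter_upwards [hmem] with y hy z hz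
      by_cases hzx : z ≤ x
      · exact hxs ⟨hz.1, hzx⟩
      · exact h z ⟨not_le.1 hzx, lt_of_le_of_lt hz.2 (hy.2.trans_le (min_le_left _ _))⟩
          (hz.2.trans (hy.2.le.trans (min_le_right _ _)))
  intro x hx
  exact key hx ⟨hx.1, le_rfl⟩

/-- the real-variable core of the tracking along a row. -/
theorem s7t_row_abs {p q ri a L δ β r₁ : ℝ} {e j D : ℝ → ℝ} (ha0 : 0 < a) (ha1 : a ≤ 1)
    (hari : 2 * a ≤ ri) (_hpq : p + ri ≤ q) (hL : 0 ≤ L) (hδ : 0 < δ) (hr₁ : 0 < r₁)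
    (hβr : β ≤ r₁ / 8) (hδβ : 3 * δ * Real.exp ((2 * L + 2) * (q - p)) ≤ β)
    (he0 : ∀ x, 0 ≤ e x) (hj0 : ∀ x, 0 ≤ j x)
    (hec : ContinuousOn e (Icc (p + a) q)) (hjc : ContinuousOn j (Icc (p + a) q))
    (hDc : ContinuousOn D (Icc (p + 2 * a) q))
    (H0 : ∀ x ∈ Icc (p + a) (p + ri), e x + j x ≤ 2 * δ)
    (H1 : ∀ x ∈ Icc (p + 2 * a) q, e x ≤ e (x - a) + a * j x)
    (H2 : ∀ x ∈ Icc (p + 2 * a) q, e (x - a) + j (x - a) ≤ β → D x ≤ r₁ →
      j x ≤ j (x - a) + a * (L * (e (x - a) + j (x - a)) + δ))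
    (H3 : ∀ x ∈ Icc (p + 2 * a) q, D x ≤ j x + j (x - a) + r₁ / 4) :
    ∀ x ∈ Icc (p + a) q, e x + j x ≤ β := by
  set c : ℝ := 2 * L + 2 with hc
  have hc2 : 2 ≤ c := by rw [hc]; linarith
  set Bd : ℝ → ℝ := fun x => 3 * δ * Real.exp (c * (x - p)) - δ with hBd
  have hBdc : Continuous Bd := by rw [hBd]; fun_prop
  have hBd_lo : ∀ x, p ≤ x → 2 * δ ≤ Bd x := by
    intro x hx
    have : 1 ≤ Real.exp (c * (x - p)) := Real.one_le_exp (mul_nonneg (by linarith) (by linarith))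
    simp only [hBd]
    nlinarith
  have hBd_hi : ∀ x, x ≤ q → Bd x ≤ β := by
    intro x hx
    have : Real.exp (c * (x - p)) ≤ Real.exp (c * (q - p)) :=
      Real.exp_le_exp.2 (mul_le_mul_of_nonneg_left (by linarith) (by linarith))
    simp only [hBd]
    nlinarith
  set T : Set ℝ := {x | e x + j x ≤ Bd x} with hT
  have hclosed : IsClosed (T ∩ Icc (p + ri) q) := by
    have hsub : Icc (p + ri) q ⊆ Icc (p + a) q := Icc_subset_Icc (by linarith) le_rfl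
    have h := isClosed_Icc.isClosed_le ((hec.add hjc).mono hsub) (hBdc.continuousOn (s := Icc (p + ri) q))
    have e1 : T ∩ Icc (p + ri) q = {x | x ∈ Icc (p + ri) q ∧ (e x + j x) ≤ Bd x} := by
      ext x; simp only [hT, mem_inter_iff, mem_ofPred_eq]; tauto
    rw [e1]; exact h
  have hmain : Icc (p + ri) q ⊆ T := by
    refine s7t_cont_induction hclosed ?_ ?_
    · exact (H0 _ ⟨by linarith, le_rfl⟩).trans (hBd_lo _ (by linarith))
    · intro x hx hxT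
      have hall : ∀ y ∈ Icc (p + a) x, e y + j y ≤ Bd y := by
        intro y hy
        by_cases hyr : y ≤ p + ri
        · exact (H0 y ⟨hy.1, hyr⟩).trans (hBd_lo y (by linarith [hy.1]))
        · exact hxT ⟨(not_le.1 hyr).le, hy.2⟩
      have hallβ : ∀ y ∈ Icc (p + a) x, e y + j y ≤ β := fun y hy =>
        (hall y hy).trans (hBd_hi y (hy.2.trans hx.2.le))
      have hx2 : x ∈ Icc (p + 2 * a) q := ⟨by linarith [hx.1], hx.2.le⟩
      have hDx : D x < r₁ := by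
        have h1 := H3 x hx2
        have h2 := hallβ x ⟨by linarith [hx.1], le_rfl⟩
        have h3 := hallβ (x - a) ⟨by linarith [hx.1], by linarith⟩
        have := he0 x; have := he0 (x - a)
        linarith
      have hev : ∀ᶠ y in 𝓝[Icc (p + 2 * a) q] x, D y < r₁ := (hDc x hx2).eventually (gt_mem_nhds hDx)
      rw [eventually_iff, Metric.mem_nhdsWithin_iff] at hev
      obtain ⟨κ, hκ, hκs⟩ := hev
      refine ⟨min κ a, lt_min hκ ha0, fun y hy hyq => ?_⟩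
      have hy1 : y < x + κ := hy.2.trans_le (by linarith [min_le_left κ a])
      have hy2 : y < x + a := hy.2.trans_le (by linarith [min_le_right κ a])
      have hyI : y ∈ Icc (p + 2 * a) q := ⟨by linarith [hx.1, hy.1], hyq⟩
      have hDy : D y < r₁ := hκs ⟨by
        rw [mem_ball, Real.dist_eq, abs_lt]; constructor <;> linarith [hy.1], hyI⟩
      have hya : y - a ∈ Icc (p + a) x := ⟨by linarith [hyI.1], by linarith⟩
      have hE := hall _ hya
      have h2 := H2 y hyI (hallβ _ hya) hDy.le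
      have h1 := H1 y hyI
      set E' : ℝ := e (y - a) + j (y - a) with hE'
      have hE'0 : 0 ≤ E' := add_nonneg (he0 _) (hj0 _)
      set X : ℝ := Real.exp (c * (y - a - p)) with hX
      have hXpos : 0 < X := Real.exp_pos _
      have hBy : Bd y = 3 * δ * (Real.exp (a * c) * X) - δ := by
        simp only [hBd, hX]
        rw [← Real.exp_add]
        congr 3; ring
      have hBya : Bd (y - a) = 3 * δ * X - δ := rfl
      have hexp : a * c + 1 ≤ Real.exp (a * c) := Real.add_one_le_exp _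
      -- the algebra
      have s1 : e y + j y ≤ e (y - a) + (1 + a) * j y := by linarith
      have s2 : (1 + a) * j y ≤ (1 + a) * (j (y - a) + a * (L * E' + δ)) :=
        mul_le_mul_of_nonneg_left h2 (by linarith)
      have s3 : e (y - a) + (1 + a) * (j (y - a) + a * (L * E' + δ))
          ≤ (1 + a * c) * E' + 2 * a * δ := by
        have t1 : e (y - a) ≤ (1 + a) * e (y - a) := by nlinarith [he0 (y - a)]
        have t2 : (1 + a) * e (y - a) + (1 + a) * (j (y - a) + a * (L * E' + δ))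
            = (1 + a) * (1 + a * L) * E' + (1 + a) * a * δ := by rw [hE']; ring
        have t3 : (1 + a) * (1 + a * L) ≤ 1 + a * c := by
          rw [hc]; nlinarith [mul_nonneg ha0.le hL, mul_nonneg (mul_nonneg ha0.le hL) (sub_nonneg.2 ha1)]
        have t4 : (1 + a) * a * δ ≤ 2 * a * δ := by
          have : (1 + a) * a ≤ 2 * a := by nlinarith
          exact mul_le_mul_of_nonneg_right this hδ.le
        have t5 := mul_le_mul_of_nonneg_right t3 hE'0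
        linarith
      have s4 : (1 + a * c) * E' ≤ (1 + a * c) * (3 * δ * X - δ) :=
        mul_le_mul_of_nonneg_left (hBya ▸ hE) (by nlinarith)
      have s5 : (1 + a * c) * (3 * δ * X - δ) + 2 * a * δ ≤ 3 * δ * (Real.exp (a * c) * X) - δ := by
        have t1 : (a * c + 1) * (3 * δ * X) ≤ Real.exp (a * c) * (3 * δ * X) :=
          mul_le_mul_of_nonneg_right hexp (by positivity)
        have t2 : 2 * a * δ ≤ a * c * δ := by
          have : 2 * a ≤ a * c := by nlinarith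
          exact mul_le_mul_of_nonneg_right this hδ.le
        nlinarith
      show e y + j y ≤ Bd y
      rw [hBy]; linarith
  intro x hx
  by_cases hxr : x ≤ p + ri
  · exact ((H0 x ⟨hx.1, hxr⟩).trans (hBd_lo x (by linarith [hx.1]))).trans (hBd_hi x hx.2)
  · exact (hmain ⟨(not_le.1 hxr).le, hx.2⟩).trans (hBd_hi x hx.2)

end Claimed.Agent.R269
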