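/-
Row 269, P1 Section 7: Taylor remainders of sin, cos, sinh, cosh and the brackets of `s7X` near `z = 0` (Mathlib only).   Owner: helper164.
-/
import Mathlib
set_option autoImplicit false
namespace Claimed.Agent.R269
open Complex Filter Topology Set Metric

theorem s7t_exp3 {x : ℂ} (hx : ‖x‖ ≤ 1) : ‖exp x - (1 + x + x ^ 2 / 2)‖ ≤ 2 / 9 * ‖x‖ ^ 3 := by
  have h := Complex.exp_bound hx (n := 3) (by norm_num)
  have e1 : ∑ m ∈ Finset.range 3, x ^ m / (m.factorial : ℂ) = 1 + x + x ^ 2 / 2 := by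
    simp [Finset.sum_range_succ, Nat.factorial]
  rw [e1] at h
  refine h.trans (le_of_eq ?_)
  norm_num [Nat.factorial]; ring

theorem s7t_exp4 {x : ℂ} (hx : ‖x‖ ≤ 1) :
    ‖exp x - (1 + x + x ^ 2 / 2 + x ^ 3 / 6)‖ ≤ 5 / 96 * ‖x‖ ^ 4 := by
  have h := Complex.exp_bound hx (n := 4) (by norm_num)
  have e1 : ∑ m ∈ Finset.range 4, x ^ m / (m.factorial : ℂ) = 1 + x + x ^ 2 / 2 + x ^ 3 / 6 := by
    simp [Finset.sum_range_succ, Nat.factorial]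
  rw [e1] at h
  refine h.trans (le_of_eq ?_)
  norm_num [Nat.factorial]; ring

theorem s7t_exp5 {x : ℂ} (hx : ‖x‖ ≤ 1) :
    ‖exp x - (1 + x + x ^ 2 / 2 + x ^ 3 / 6 + x ^ 4 / 24)‖ ≤ 1 / 100 * ‖x‖ ^ 5 := by
  have h := Complex.exp_bound hx (n := 5) (by norm_num)
  have e1 : ∑ m ∈ Finset.range 5, x ^ m / (m.factorial : ℂ)
      = 1 + x + x ^ 2 / 2 + x ^ 3 / 6 + x ^ 4 / 24 := by
    simp [Finset.sum_range_succ, Nat.factorial]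
  rw [e1] at h
  refine h.trans (le_of_eq ?_)
  norm_num [Nat.factorial]; ring

theorem s7t_half {A B' : ℂ} {c : ℝ} (hA : ‖A‖ ≤ c) (hB : ‖B'‖ ≤ c) : ‖(A - B') / 2‖ ≤ c ∧ ‖(A + B') / 2‖ ≤ c := by
  constructor
  · rw [norm_div]; simp only [Complex.norm_ofNat]
    have := norm_sub_le A B'; linarith
  · rw [norm_div]; simp only [Complex.norm_ofNat]
    have := norm_add_le A B'; linarith

theorem s7t_sinh3 {z : ℂ} (hz : ‖z‖ ≤ 1) : ‖Complex.sinh z - z‖ ≤ 2 / 9 * ‖z‖ ^ 3 := by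
  have h1 := s7t_exp3 hz
  have h2 := s7t_exp3 (x := -z) (by rwa [norm_neg])
  rw [norm_neg] at h2
  have e : Complex.sinh z - z
      = ((exp z - (1 + z + z ^ 2 / 2)) - (exp (-z) - (1 + -z + (-z) ^ 2 / 2))) / 2 := by
    rw [Complex.sinh]; ring
  rw [e]; exact (s7t_half h1 h2).1

theorem s7t_sinh5 {z : ℂ} (hz : ‖z‖ ≤ 1) : ‖Complex.sinh z - z - z ^ 3 / 6‖ ≤ 1 / 100 * ‖z‖ ^ 5 := by
  have h1 := s7t_exp5 hz
  have h2 := s7t_exp5 (x := -z) (by rwa [norm_neg])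
  rw [norm_neg] at h2
  have e : Complex.sinh z - z - z ^ 3 / 6
      = ((exp z - (1 + z + z ^ 2 / 2 + z ^ 3 / 6 + z ^ 4 / 24))
        - (exp (-z) - (1 + -z + (-z) ^ 2 / 2 + (-z) ^ 3 / 6 + (-z) ^ 4 / 24))) / 2 := by
    rw [Complex.sinh]; ring
  rw [e]; exact (s7t_half h1 h2).1

theorem s7t_cosh4 {z : ℂ} (hz : ‖z‖ ≤ 1) : ‖Complex.cosh z - 1 - z ^ 2 / 2‖ ≤ 5 / 96 * ‖z‖ ^ 4 := by
  have h1 := s7t_exp4 hz
  have h2 := s7t_exp4 (x := -z) (by rwa [norm_neg])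
  rw [norm_neg] at h2
  have e : Complex.cosh z - 1 - z ^ 2 / 2
      = ((exp z - (1 + z + z ^ 2 / 2 + z ^ 3 / 6))
        + (exp (-z) - (1 + -z + (-z) ^ 2 / 2 + (-z) ^ 3 / 6))) / 2 := by
    rw [Complex.cosh]; ring
  rw [e]; exact (s7t_half h1 h2).2

theorem s7t_sin3 {z : ℂ} (hz : ‖z‖ ≤ 1) : ‖Complex.sin z - z‖ ≤ 2 / 9 * ‖z‖ ^ 3 := by
  have h := s7t_sinh3 (z := z * I) (by simpa using hz)
  rw [Complex.sinh_mul_I, ← sub_mul, norm_mul, norm_mul] at h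
  simpa using h

theorem s7t_sin5 {z : ℂ} (hz : ‖z‖ ≤ 1) : ‖Complex.sin z - z + z ^ 3 / 6‖ ≤ 1 / 100 * ‖z‖ ^ 5 := by
  have h := s7t_sinh5 (z := z * I) (by simpa using hz)
  have e : Complex.sinh (z * I) - z * I - (z * I) ^ 3 / 6 = (Complex.sin z - z + z ^ 3 / 6) * I := by
    rw [Complex.sinh_mul_I, mul_pow]
    have : (I : ℂ) ^ 3 = -I := by rw [pow_succ, I_sq]; ring
    rw [this]; ring
  rw [e, norm_mul, norm_mul] at h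
  simpa using h

theorem s7t_cos4 {z : ℂ} (hz : ‖z‖ ≤ 1) : ‖Complex.cos z - 1 + z ^ 2 / 2‖ ≤ 5 / 96 * ‖z‖ ^ 4 := by
  have h := s7t_cosh4 (z := z * I) (by simpa using hz)
  have e : Complex.cosh (z * I) - 1 - (z * I) ^ 2 / 2 = Complex.cos z - 1 + z ^ 2 / 2 := by
    rw [Complex.cosh_mul_I, mul_pow, I_sq]; ring
  rw [e, norm_mul] at h
  simpa using h


/-- the bracket of the first profile. -/
theorem s7t_brF {z : ℂ} (hz0 : z ≠ 0) (hz : ‖z‖ ≤ 1) :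
    Complex.sin z ≠ 0 ∧
      ‖2 * z ^ 2 - 6 + 6 * z * Complex.cos z / Complex.sin z‖ ≤ 6 * ‖z‖ ^ 4 := by
  have hpos : 0 < ‖z‖ := norm_pos_iff.2 hz0
  have h3 := s7t_sin3 hz
  have h5 := s7t_sin5 hz
  have h4 := s7t_cos4 hz
  have hz3 : ‖z‖ ^ 3 ≤ ‖z‖ := by
    calc ‖z‖ ^ 3 = ‖z‖ * ‖z‖ ^ 2 := by ring
      _ ≤ ‖z‖ * 1 := by gcongr; exact pow_le_one₀ hpos.le hz
      _ = ‖z‖ := mul_one _
  have hs : ‖z‖ / 2 ≤ ‖Complex.sin z‖ := by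
    have : ‖z‖ - ‖Complex.sin z‖ ≤ ‖Complex.sin z - z‖ := by
      rw [norm_sub_rev]; exact norm_sub_norm_le _ _
    linarith
  have hs0 : Complex.sin z ≠ 0 := by
    intro h; rw [h, norm_zero] at hs; linarith
  refine ⟨hs0, ?_⟩
  have e : 2 * z ^ 2 - 6 + 6 * z * Complex.cos z / Complex.sin z
      = (-(z ^ 5 / 3) + (2 * z ^ 2 - 6) * (Complex.sin z - z + z ^ 3 / 6)
        + 6 * z * (Complex.cos z - 1 + z ^ 2 / 2)) / Complex.sin z := by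
    field_simp; ring
  rw [e, norm_div, div_le_iff₀ (norm_pos_iff.2 hs0)]
  have n1 : ‖-(z ^ 5 / 3)‖ = ‖z‖ ^ 5 / 3 := by simp
  have n2 : ‖(2 * z ^ 2 - 6) * (Complex.sin z - z + z ^ 3 / 6)‖ ≤ 8 * (1 / 100 * ‖z‖ ^ 5) := by
    rw [norm_mul]
    have : ‖2 * z ^ 2 - 6‖ ≤ 8 := by
      calc ‖2 * z ^ 2 - 6‖ ≤ ‖2 * z ^ 2‖ + ‖(6 : ℂ)‖ := norm_sub_le _ _
        _ = 2 * ‖z‖ ^ 2 + 6 := by simp
        _ ≤ 8 := by nlinarith [pow_le_one₀ hpos.le hz (n := 2)]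
    gcongr
  have n3 : ‖6 * z * (Complex.cos z - 1 + z ^ 2 / 2)‖ ≤ 6 * ‖z‖ * (5 / 96 * ‖z‖ ^ 4) := by
    rw [norm_mul]
    have : ‖6 * z‖ = 6 * ‖z‖ := by simp
    rw [this]; gcongr
  have hp5 : 0 ≤ ‖z‖ ^ 5 := by positivity
  calc _ ≤ ‖-(z ^ 5 / 3)‖ + ‖(2 * z ^ 2 - 6) * (Complex.sin z - z + z ^ 3 / 6)‖
        + ‖6 * z * (Complex.cos z - 1 + z ^ 2 / 2)‖ :=
        (norm_add_le _ _).trans (add_le_add_left (norm_add_le _ _) _)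
    _ ≤ ‖z‖ ^ 5 / 3 + 8 * (1 / 100 * ‖z‖ ^ 5) + 6 * ‖z‖ * (5 / 96 * ‖z‖ ^ 4) := by
        rw [n1]; gcongr
    _ ≤ 6 * ‖z‖ ^ 4 * (‖z‖ / 2) := by nlinarith
    _ ≤ 6 * ‖z‖ ^ 4 * ‖Complex.sin z‖ := by gcongr

/-- the bracket of the second profile. -/
theorem s7t_brQ {z : ℂ} (hz0 : z ≠ 0) (hz : ‖z‖ ≤ 1 / 3) :
    Complex.sinh z ≠ 0 ∧
      ‖2 * z ^ 2 - 3 * Complex.cosh z ^ 2 + 3 * z * Complex.cosh z / Complex.sinh z‖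
        ≤ 6 * ‖z‖ ^ 4 := by
  have hpos : 0 < ‖z‖ := norm_pos_iff.2 hz0
  have hz1 : ‖z‖ ≤ 1 := by linarith
  have h3 := s7t_sinh3 hz1
  have h5 := s7t_sinh5 hz1
  have h4 := s7t_cosh4 hz1
  have hn3 : ‖3 * z‖ = 3 * ‖z‖ := by simp
  have h53 := s7t_sinh5 (z := 3 * z) (by rw [hn3]; linarith)
  rw [hn3] at h53
  have hz3 : ‖z‖ ^ 3 ≤ ‖z‖ := by
    calc ‖z‖ ^ 3 = ‖z‖ * ‖z‖ ^ 2 := by ring
      _ ≤ ‖z‖ * 1 := by gcongr; exact pow_le_one₀ hpos.le hz1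
      _ = ‖z‖ := mul_one _
  have hs : ‖z‖ / 2 ≤ ‖Complex.sinh z‖ := by
    have : ‖z‖ - ‖Complex.sinh z‖ ≤ ‖Complex.sinh z - z‖ := by
      rw [norm_sub_rev]; exact norm_sub_norm_le _ _
    linarith
  have hs0 : Complex.sinh z ≠ 0 := by
    intro h; rw [h, norm_zero] at hs; linarith
  refine ⟨hs0, ?_⟩
  have e0 : (2 * z ^ 2 - 3 * Complex.cosh z ^ 2) * Complex.sinh z + 3 * z * Complex.cosh z
      = 2 * z ^ 2 * (Complex.sinh z - z)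
        - 3 / 4 * ((Complex.sinh (3 * z) - 3 * z - (3 * z) ^ 3 / 6) + (Complex.sinh z - z - z ^ 3 / 6))
        + 3 * z * (Complex.cosh z - 1 - z ^ 2 / 2) := by
    rw [Complex.sinh_three_mul, Complex.cosh_sq]; ring
  have e : 2 * z ^ 2 - 3 * Complex.cosh z ^ 2 + 3 * z * Complex.cosh z / Complex.sinh z
      = (2 * z ^ 2 * (Complex.sinh z - z)
        - 3 / 4 * ((Complex.sinh (3 * z) - 3 * z - (3 * z) ^ 3 / 6) + (Complex.sinh z - z - z ^ 3 / 6))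
        + 3 * z * (Complex.cosh z - 1 - z ^ 2 / 2)) / Complex.sinh z := by
    rw [← e0]; field_simp
  rw [e, norm_div, div_le_iff₀ (norm_pos_iff.2 hs0)]
  have n1 : ‖2 * z ^ 2 * (Complex.sinh z - z)‖ ≤ 2 * ‖z‖ ^ 2 * (2 / 9 * ‖z‖ ^ 3) := by
    rw [norm_mul]
    have : ‖2 * z ^ 2‖ = 2 * ‖z‖ ^ 2 := by simp
    rw [this]; gcongr
  have n2 : ‖(3 / 4 : ℂ) * ((Complex.sinh (3 * z) - 3 * z - (3 * z) ^ 3 / 6)
      + (Complex.sinh z - z - z ^ 3 / 6))‖ ≤ 3 / 4 * (1 / 100 * (3 * ‖z‖) ^ 5 + 1 / 100 * ‖z‖ ^ 5) := by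
    rw [norm_mul]
    have : ‖(3 / 4 : ℂ)‖ = 3 / 4 := by simp
    rw [this]
    gcongr
    exact (norm_add_le _ _).trans (add_le_add h53 h5)
  have n3 : ‖3 * z * (Complex.cosh z - 1 - z ^ 2 / 2)‖ ≤ 3 * ‖z‖ * (5 / 96 * ‖z‖ ^ 4) := by
    rw [norm_mul]
    have : ‖3 * z‖ = 3 * ‖z‖ := by simp
    rw [this]; gcongr
  have hp5 : 0 ≤ ‖z‖ ^ 5 := by positivity
  calc _ ≤ ‖2 * z ^ 2 * (Complex.sinh z - z)‖ + ‖(3 / 4 : ℂ) * ((Complex.sinh (3 * z) - 3 * z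
          - (3 * z) ^ 3 / 6) + (Complex.sinh z - z - z ^ 3 / 6))‖
        + ‖3 * z * (Complex.cosh z - 1 - z ^ 2 / 2)‖ :=
        (norm_add_le _ _).trans (add_le_add_left (norm_sub_le _ _) _)
    _ ≤ 2 * ‖z‖ ^ 2 * (2 / 9 * ‖z‖ ^ 3) + 3 / 4 * (1 / 100 * (3 * ‖z‖) ^ 5 + 1 / 100 * ‖z‖ ^ 5)
        + 3 * ‖z‖ * (5 / 96 * ‖z‖ ^ 4) := by gcongr
    _ ≤ 6 * ‖z‖ ^ 4 * (‖z‖ / 2) := by nlinarith
    _ ≤ 6 * ‖z‖ ^ 4 * ‖Complex.sinh z‖ := by gcongr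

end Claimed.Agent.R269
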