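/-
Row 269, P1 Section 7: THE RIGHT-HAND SIDE `X` OF THE LIMIT EQUATION (HOST-FREE).   LEAF PACKAGE LF-S7-X (ONE FILE = ONE OWNER).   Statements: helper146.
* `s7Reg_isOpen`, `s7X_diff`   : `X` is holomorphic on the open set of regular states (compositions of `exp, sin, cos, sinh, cosh`; division by a nonvanishing function).
* `s7X_deep`                   : `X = O(|λ|²)`, Lipschitz constant `O(|λ|²)`, `λ = e^{-iσ}`, for `|J - 1| ≤ 1/2`, `Im σ ≤ u₀`.
      PROOF.  `N_F(z) = (2z²-6) sin z + 6 z cos z = z⁵ n_F(z)`, `sin z = z s(z)`, so `2z² - 6 + 6z cot z = z⁴ n_F(z)/s(z)`;  `N_Q(z) = (2z² - 3cosh²z) sinh z + 3 z cosh z = z⁵ n_Q(z)`  (Taylor: the coefficients of `z, z³` vanish).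
      Hence `X = (i/8) λ² J⁴ ψ(λJ/2)`, `ψ = n/s` holomorphic and bounded on `|z| ≤ 1` (e.g. iterate `dslope`, or bound the power series tails); Lipschitz by Cauchy / mean value; `|e^{-2iσ} - e^{-2iσ'}| ≤ 2 e^{2 max Im} |σ - σ'|`.
      Regularity: `0 < |z| ≤ (3/4) e^{u₀} < 1` and `sin z = 0`, `|z| < π` force `z = 0` (same for `sinh`).
-/
import Claimed.Agent.R269.S7.Defs
import Claimed.Agent.R269.S7.TrackLib
import Claimed.Agent.R269.S7.XLib

set_option autoImplicit false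

namespace Claimed.Agent.R269

open Complex Filter Topology Set Metric

theorem S7Close.s7t_mono {fst : Bool} {Ff Qf : ℂ → ℂ} {W K K' : Set ℂ} {η η' : ℝ}
    (h : S7Close fst Ff Qf W K η) (hK : K' ⊆ K) (hη : η ≤ η') : S7Close fst Ff Qf W K' η' :=
  fun σ hσ => ⟨(h σ (hK hσ)).1, (h σ (hK hσ)).2.1.trans hη, (h σ (hK hσ)).2.2.trans hη⟩

theorem s7t_z_cont : Continuous (fun p : ℂ × ℂ => s7z p.1 p.2) := by
  unfold s7z; fun_prop

theorem s7t_z_diff : Differentiable ℂ (fun p : ℂ × ℂ => s7z p.1 p.2) := by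
  unfold s7z; fun_prop

/-- LEAF LF-S7-X (a). -/
theorem s7Reg_isOpen (fst : Bool) : IsOpen (s7Reg fst) := by
  cases fst
  · have : s7Reg false = {p : ℂ × ℂ | Complex.sinh (s7z p.1 p.2) ≠ 0} := by
      ext p; simp [s7Reg]
    rw [this]
    exact isOpen_ne_fun (Complex.continuous_sinh.comp s7t_z_cont) continuous_const
  · have : s7Reg true = {p : ℂ × ℂ | Complex.sin (s7z p.1 p.2) ≠ 0} := by
      ext p; simp [s7Reg]
    rw [this]
    exact isOpen_ne_fun (Complex.continuous_sin.comp s7t_z_cont) continuous_const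

/-- LEAF LF-S7-X (b). -/
theorem s7X_diff (fst : Bool) : DifferentiableOn ℂ (fun p : ℂ × ℂ => s7X fst p.1 p.2) (s7Reg fst) := by
  intro p hp
  have hzp : DifferentiableAt ℂ (fun p : ℂ × ℂ => s7z p.1 p.2) p := s7t_z_diff p
  have he : DifferentiableAt ℂ (fun p : ℂ × ℂ => 2 * I * Complex.exp (2 * I * p.1)) p := by fun_prop
  apply DifferentiableAt.differentiableWithinAt
  cases fst
  · have hp' : Complex.sinh (s7z p.1 p.2) ≠ 0 := by simpa [s7Reg] using hp
    simp only [s7X, Bool.false_eq_true, if_false]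
    have hd : DifferentiableAt ℂ (fun p : ℂ × ℂ => 3 * s7z p.1 p.2 * Complex.cosh (s7z p.1 p.2)
        / Complex.sinh (s7z p.1 p.2)) p :=
      by
      simp only [div_eq_mul_inv]
      exact ((hzp.const_mul 3).mul hzp.ccosh).mul (hzp.csinh.inv hp')
    exact he.mul ((((hzp.pow 2).const_mul 2).sub ((hzp.ccosh.pow 2).const_mul 3)).add hd)
  · have hp' : Complex.sin (s7z p.1 p.2) ≠ 0 := by simpa [s7Reg] using hp
    simp only [s7X, if_true]
    have hd : DifferentiableAt ℂ (fun p : ℂ × ℂ => 6 * s7z p.1 p.2 * Complex.cos (s7z p.1 p.2)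
        / Complex.sin (s7z p.1 p.2)) p :=
      by
      simp only [div_eq_mul_inv]
      exact ((hzp.const_mul 6).mul hzp.ccos).mul (hzp.csin.inv hp')
    exact he.mul ((((hzp.pow 2).const_mul 2).sub_const 6).add hd)

theorem s7t_X_bound (fst : Bool) {σ J : ℂ} (hσ : σ.im ≤ -2) (hJ : ‖J - 1‖ ≤ 3 / 4) :
    (σ, J) ∈ s7Reg fst ∧ ‖s7X fst σ J‖ ≤ 12 * Real.exp (2 * σ.im) := by
  have hJ1 : ‖J‖ ≤ 7 / 4 := by
    calc ‖J‖ = ‖(J - 1) + 1‖ := by ring_nf
      _ ≤ ‖J - 1‖ + ‖(1 : ℂ)‖ := norm_add_le _ _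
      _ ≤ 7 / 4 := by rw [norm_one]; linarith
  have hJ2 : 1 / 4 ≤ ‖J‖ := by
    have : ‖(1 : ℂ)‖ - ‖J‖ ≤ ‖J - 1‖ := by rw [norm_sub_rev]; exact norm_sub_norm_le _ _
    rw [norm_one] at this; linarith
  have hJ0 : J ≠ 0 := by intro h; rw [h, norm_zero] at hJ2; linarith
  set t : ℝ := Real.exp σ.im with ht
  have htpos : 0 < t := Real.exp_pos _
  have ht3 : t ≤ 1 / 3 := by
    have h1 : t ≤ Real.exp (-2) := Real.exp_le_exp.2 hσ
    have h2 : (3 : ℝ) ≤ Real.exp 2 := by have := Real.add_one_le_exp (2 : ℝ); linarith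
    have h3 : Real.exp (-2) ≤ 1 / 3 := by
      rw [Real.exp_neg, one_div]; exact inv_anti₀ (by norm_num) h2
    linarith
  have hlam : ‖Complex.exp (-(I * σ))‖ = t := by
    rw [Complex.norm_exp]; simp [ht]
  have hz0 : s7z σ J ≠ 0 := by
    unfold s7z
    exact div_ne_zero (mul_ne_zero (Complex.exp_ne_zero _) hJ0) (by norm_num)
  have hzn : ‖s7z σ J‖ ≤ t := by
    unfold s7z
    rw [norm_div, norm_mul, hlam]
    simp only [Complex.norm_ofNat]
    nlinarith
  have hz3 : ‖s7z σ J‖ ≤ 1 / 3 := hzn.trans ht3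
  have hpre : ‖2 * I * Complex.exp (2 * I * σ)‖ = 2 * Real.exp (-(2 * σ.im)) := by
    rw [norm_mul, Complex.norm_exp]; simp
  have hz4 : ‖s7z σ J‖ ^ 4 ≤ t ^ 4 := by gcongr
  have hfin : 2 * Real.exp (-(2 * σ.im)) * (6 * t ^ 4) = 12 * Real.exp (2 * σ.im) := by
    have : t ^ 4 = Real.exp (4 * σ.im) := by
      rw [ht, ← Real.exp_nat_mul]; norm_num
    rw [this]
    have : Real.exp (-(2 * σ.im)) * Real.exp (4 * σ.im) = Real.exp (2 * σ.im) := by
      rw [← Real.exp_add]; congr 1; ring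
    linear_combination 12 * this
  cases fst
  · obtain ⟨h1, h2⟩ := s7t_brQ hz0 hz3
    refine ⟨by simpa [s7Reg] using h1, ?_⟩
    simp only [s7X, Bool.false_eq_true, if_false]
    rw [norm_mul, hpre, ← hfin]
    gcongr
    exact h2.trans (by gcongr)
  · obtain ⟨h1, h2⟩ := s7t_brF hz0 (by linarith)
    refine ⟨by simpa [s7Reg] using h1, ?_⟩
    simp only [s7X, if_true]
    rw [norm_mul, hpre, ← hfin]
    gcongr
    exact h2.trans (by gcongr)

/-- LEAF LF-S7-Xdeep. -/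
theorem s7X_deep (fst : Bool) : ∃ C u₀ : ℝ, ∀ σ σ' J J' : ℂ, σ.im ≤ u₀ → σ'.im ≤ u₀ → ‖J - 1‖ ≤ 1 / 2 →
    ‖J' - 1‖ ≤ 1 / 2 → (σ, J) ∈ s7Reg fst ∧
      ‖s7X fst σ J - s7X fst σ' J'‖ ≤ C * Real.exp (2 * max σ.im σ'.im) * (‖σ - σ'‖ + ‖J - J'‖) := by
  refine ⟨12 * Real.exp 2 + 48, -3, fun σ σ' J J' hσ hσ' hJ hJ' => ?_⟩
  refine ⟨(s7t_X_bound fst (by linarith) (by linarith)).1, ?_⟩
  set m : ℝ := max σ.im σ'.im with hm
  have hm3 : m ≤ -3 := max_le hσ hσ'
  have hO := s7Reg_isOpen fst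
  have hf := s7X_diff fst
  -- first variable
  have h1 : ‖s7X fst σ J - s7X fst σ' J‖ ≤ 12 * Real.exp 2 * Real.exp (2 * m) * ‖σ - σ'‖ := by
    set U : Set ℂ := (fun s => (s, J)) ⁻¹' s7Reg fst with hU
    have hUo : IsOpen U := hO.preimage (by fun_prop)
    have hfU : DifferentiableOn ℂ (fun s => s7X fst s J) U :=
      hf.comp (f := fun s : ℂ => (s, J)) (by fun_prop) (fun s hs => hs)
    have him : ∀ s : ℂ, s.im ≤ m → ∀ z ∈ closedBall s 1, z.im ≤ m + 1 := by
      intro s hs z hz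
      rw [mem_closedBall, dist_eq_norm] at hz
      have := (le_abs_self _).trans (Complex.abs_im_le_norm (z - s))
      rw [Complex.sub_im] at this
      linarith
    have hUs : ∀ z : ℂ, z.im ≤ m + 1 → z ∈ U := fun z hz =>
      (s7t_X_bound fst (by linarith) (by linarith)).1
    have hd : ∀ s ∈ {s : ℂ | s.im ≤ m},
        HasDerivAt (fun s => s7X fst s J) (deriv (fun s => s7X fst s J) s) s :=
      fun s hs => (hfU.differentiableAt (hUo.mem_nhds (hUs s (by
        have : s.im ≤ m := hs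
        linarith)))).hasDerivAt
    have hb : ∀ s ∈ {s : ℂ | s.im ≤ m},
        ‖deriv (fun s => s7X fst s J) s‖ ≤ 12 * Real.exp 2 * Real.exp (2 * m) := by
      intro s hs
      have := s7t_cauchy hUo hfU one_pos (fun z hz => hUs z (him s hs z hz))
        (M := 12 * Real.exp 2 * Real.exp (2 * m)) (fun z hz => by
          have hz1 := him s hs z hz
          refine (s7t_X_bound fst (by linarith) (by linarith)).2.trans ?_
          rw [mul_assoc, ← Real.exp_add]
          gcongr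
          linarith)
      simpa using this
    exact Convex.norm_image_sub_le_of_norm_hasDerivWithin_le
      (fun z hz => (hd z hz).hasDerivWithinAt) hb (convex_halfSpace_im_le m)
      (le_max_right _ _ : σ'.im ≤ m) (le_max_left _ _ : σ.im ≤ m)
  have h2 : ‖s7X fst σ' J - s7X fst σ' J'‖ ≤ 48 * Real.exp (2 * m) * ‖J - J'‖ := by
    set U : Set ℂ := (fun s => (σ', s)) ⁻¹' s7Reg fst with hU
    have hUo : IsOpen U := hO.preimage (by fun_prop)
    have hfU : DifferentiableOn ℂ (fun s => s7X fst σ' s) U :=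
      hf.comp (f := fun s : ℂ => (σ', s)) (by fun_prop) (fun s hs => hs)
    have hin : ∀ s ∈ closedBall (1 : ℂ) (1 / 2), ∀ z ∈ closedBall s (1 / 4), ‖z - 1‖ ≤ 3 / 4 := by
      intro s hs z hz
      rw [mem_closedBall, dist_eq_norm] at hs hz
      calc ‖z - 1‖ = ‖(z - s) + (s - 1)‖ := by ring_nf
        _ ≤ ‖z - s‖ + ‖s - 1‖ := norm_add_le _ _
        _ ≤ 3 / 4 := by linarith
    have hUs : ∀ z : ℂ, ‖z - 1‖ ≤ 3 / 4 → z ∈ U := fun z hz =>
      (s7t_X_bound fst (by linarith) hz).1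
    have hd : ∀ s ∈ closedBall (1 : ℂ) (1 / 2),
        HasDerivAt (fun s => s7X fst σ' s) (deriv (fun s => s7X fst σ' s) s) s :=
      fun s hs => (hfU.differentiableAt (hUo.mem_nhds (hUs s (by
        rw [mem_closedBall, dist_eq_norm] at hs
        linarith)))).hasDerivAt
    have hb : ∀ s ∈ closedBall (1 : ℂ) (1 / 2),
        ‖deriv (fun s => s7X fst σ' s) s‖ ≤ 48 * Real.exp (2 * m) := by
      intro s hs
      have := s7t_cauchy hUo hfU (by norm_num : (0 : ℝ) < 1 / 4) (fun z hz => hUs z (hin s hs z hz))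
        (M := 12 * Real.exp (2 * m)) (fun z hz => by
          refine (s7t_X_bound fst (by linarith) (hin s hs z hz)).2.trans ?_
          gcongr
          exact le_max_right _ _)
      refine this.trans (le_of_eq ?_)
      ring
    exact Convex.norm_image_sub_le_of_norm_hasDerivWithin_le
      (fun z hz => (hd z hz).hasDerivWithinAt) hb (convex_closedBall _ _)
      (by rwa [mem_closedBall, dist_eq_norm]) (by rwa [mem_closedBall, dist_eq_norm])
  have hE : 0 < Real.exp (2 * m) := Real.exp_pos _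
  have hE2 : 0 < Real.exp 2 := Real.exp_pos _
  calc ‖s7X fst σ J - s7X fst σ' J'‖
      = ‖(s7X fst σ J - s7X fst σ' J) + (s7X fst σ' J - s7X fst σ' J')‖ := by ring_nf
    _ ≤ ‖s7X fst σ J - s7X fst σ' J‖ + ‖s7X fst σ' J - s7X fst σ' J'‖ := norm_add_le _ _
    _ ≤ 12 * Real.exp 2 * Real.exp (2 * m) * ‖σ - σ'‖ + 48 * Real.exp (2 * m) * ‖J - J'‖ :=
        add_le_add h1 h2
    _ ≤ (12 * Real.exp 2 + 48) * Real.exp (2 * m) * (‖σ - σ'‖ + ‖J - J'‖) := by
        have a1 : 0 ≤ 48 * Real.exp (2 * m) * ‖σ - σ'‖ := by positivity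
        have a2 : 0 ≤ 12 * Real.exp 2 * Real.exp (2 * m) * ‖J - J'‖ := by positivity
        nlinarith

end Claimed.Agent.R269
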