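/-
Row 269, P1 Section 7: CONSISTENCY (HOST-FREE).   LEAF PACKAGE LF-S7-cons (ONE FILE = ONE OWNER).   Statements: helper146.
A holomorphic function satisfying the step equation with a small step satisfies the limit equation up to `ε`.
PROOF.  Cauchy: `|g^{(k)}(y₀)| ≤ k! B/r^k` (apply to `g - g y₀`);  `J± = g' ± (a/2) g'' + O(|a|²)` (Taylor with remainder on `ball y₀ (r/2)`).   Enlarge `𝒦` to `𝒦' = {(σ,J) : ∃ J₀, (σ,J₀) ∈ 𝒦, |J - J₀| ≤ δ}` (compact, `⊆ s7Reg` for small `δ`).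
  `s7_onestep` for `𝒦'`: `(g y₀, J₋) ∈ 𝒦'`, `|J₊ - J₋| ≤ r₁` for small `a`, so `J₊` is the OS root: `a g'' + O(|a|³) = a X(g, J₋) + O(ε|a|)`; `X` is uniformly continuous on `𝒦'`: `|X(g,J₋) - X(g,g')| ≤ ε/4`.
-/
import Claimed.Agent.R269.S7.OneStep
import Claimed.Agent.R269.S7.XFun
import Claimed.Agent.R269.S7.TrackLib

set_option autoImplicit false

namespace Claimed.Agent.R269

open Complex Filter Topology Set Metric

/-- LEAF LF-S7-cons: **consistency**. -/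
theorem s7_cons (fst : Bool) (𝒦 : Set (ℂ × ℂ)) (h𝒦 : IsCompact 𝒦) (hreg : 𝒦 ⊆ s7Reg fst) (r B : ℝ)
    (hr : 0 < r) :
    ∀ ε > 0, ∃ η₀ > 0, ∀ (Ff Qf : ℂ → ℂ) (W : Set ℂ) (a y₀ : ℂ) (g : ℂ → ℂ), S7Fld Ff Qf W → a ≠ 0 →
      ‖a‖ ≤ η₀ → DifferentiableOn ℂ g (ball y₀ r) → (∀ y ∈ ball y₀ r, ‖g y - g y₀‖ ≤ B) →
      (g y₀, deriv g y₀) ∈ 𝒦 → S7Close fst Ff Qf W (closedBall (g y₀) 1) η₀ →
      S7StepEq Ff Qf W a (g y₀) ((g y₀ - g (y₀ - a)) / a) ((g (y₀ + a) - g y₀) / a) →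
      ‖deriv (deriv g) y₀ - s7X fst (g y₀) (deriv g y₀)‖ ≤ ε := by
  obtain ⟨δ, L₀, hδ, hL₀, hth, hlip⟩ :=
    s7t_lip_compact (s7Reg_isOpen fst) (s7X_diff fst) h𝒦 hreg
  have hc : IsCompact (cthickening δ 𝒦) := h𝒦.cthickening
  have hs : cthickening δ 𝒦 ⊆ s7Reg fst := (cthickening_mono (by linarith) _).trans hth
  obtain ⟨r₁, hr₁, hos⟩ := s7_onestep fst _ hc hs
  intro ε hε
  obtain ⟨η₁, hη₁, hos⟩ := hos (ε / 2) (by positivity)
  set B' : ℝ := |B| with hB'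
  have hB'0 : 0 ≤ B' := abs_nonneg B
  set C₁ : ℝ := 30 * B' / r ^ 2 with hC₁
  set C₂ : ℝ := 160 * B' / r ^ 3 with hC₂
  set C₃ : ℝ := 20 * B' / r ^ 2 with hC₃
  have hC₁0 : 0 ≤ C₁ := by positivity
  have hC₂0 : 0 ≤ C₂ := by positivity
  have hC₃0 : 0 ≤ C₃ := by positivity
  refine ⟨min (min (min η₁ (r / 4)) 1)
    (min (min (δ / (C₁ + 1)) (r₁ / (C₃ + C₂ + 1))) (ε / 2 / (L₀ * C₁ + C₂ + 1))), by positivity, ?_⟩
  intro Ff Qf W a y₀ g hfld ha0 ha hg hB hmem₀ hclose hstep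
  have hna := norm_nonneg a
  have ha1 : ‖a‖ ≤ η₁ := ha.trans (((min_le_left _ _).trans (min_le_left _ _)).trans (min_le_left _ _))
  have ha2 : ‖a‖ ≤ r / 4 :=
    ha.trans (((min_le_left _ _).trans (min_le_left _ _)).trans (min_le_right _ _))
  have ha5 : ‖a‖ ≤ 1 := ha.trans ((min_le_left _ _).trans (min_le_right _ _))
  have ha3 : C₁ * ‖a‖ ≤ δ := by
    have h := ha.trans (((min_le_right _ _).trans (min_le_left _ _)).trans (min_le_left _ _))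
    rw [le_div_iff₀ (by positivity)] at h
    nlinarith
  have ha6 : (C₃ + C₂) * ‖a‖ ≤ r₁ := by
    have h := ha.trans (((min_le_right _ _).trans (min_le_left _ _)).trans (min_le_right _ _))
    rw [le_div_iff₀ (by positivity)] at h
    nlinarith
  have ha4 : (L₀ * C₁ + C₂) * ‖a‖ ≤ ε / 2 := by
    have h := ha.trans ((min_le_right _ _).trans (min_le_right _ _))
    rw [le_div_iff₀ (by positivity)] at h
    nlinarith
  have hBB : ∀ y ∈ ball y₀ r, ‖g y - g y₀‖ ≤ B' := fun y hy => (hB y hy).trans (le_abs_self B)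
  obtain ⟨q1, -, q3⟩ := s7t_quot hr hg hBB ha0 ha2
  obtain ⟨-, g2, -⟩ := s7t_taylor hr hg hBB
  set qm : ℂ := (g y₀ - g (y₀ - a)) / a with hqm
  set qp : ℂ := (g (y₀ + a) - g y₀) / a with hqp
  have hJδ : ‖qm - deriv g y₀‖ ≤ δ := q1.trans ha3
  have hmem : (g y₀, qm) ∈ cthickening δ 𝒦 := by
    refine closedBall_subset_cthickening hmem₀ δ ?_
    rw [← closedBall_prod_same]
    refine ⟨?_, ?_⟩
    · simp [hδ.le]
    · rw [mem_closedBall, dist_eq_norm]; exact hJδ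
  obtain ⟨θ, C, C', Dd, Dd', hfast, heq⟩ := hstep
  obtain ⟨Jp, -, -, -, h4, h5⟩ := hos Ff Qf W a (g y₀) qm θ C C' Dd Dd' hfld hmem
    (hclose.s7t_mono subset_rfl (((min_le_left _ _).trans (min_le_left _ _)).trans (min_le_left _ _)))
    ha0 ha1 hfast
  have hclose' : ‖qp - qm‖ ≤ r₁ := by
    calc ‖qp - qm‖ = ‖(qp - qm - a * deriv (deriv g) y₀) + a * deriv (deriv g) y₀‖ := by ring_nf
      _ ≤ ‖qp - qm - a * deriv (deriv g) y₀‖ + ‖a * deriv (deriv g) y₀‖ := norm_add_le _ _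
      _ ≤ C₂ * ‖a‖ ^ 2 + ‖a‖ * C₃ := by
          rw [norm_mul]; gcongr
      _ ≤ (C₃ + C₂) * ‖a‖ := by
          have h8 : ‖a‖ ^ 2 ≤ ‖a‖ := by nlinarith
          have h9 := mul_le_mul_of_nonneg_left h8 hC₂0
          linarith
      _ ≤ r₁ := ha6
  have hJp : qp = Jp := h4 qp hclose' heq
  rw [← hJp] at h5
  have hX := hlip _ hmem₀ (g y₀) (g y₀) qm (deriv g y₀) (by simp [hδ.le]) (by simp [hδ.le])
    (by simpa using hJδ) (by simp [hδ.le])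
  simp only [sub_self, norm_zero, zero_add] at hX
  have hpos : 0 < ‖a‖ := norm_pos_iff.2 ha0
  have e : a * (deriv (deriv g) y₀ - s7X fst (g y₀) (deriv g y₀))
      = -(qp - qm - a * deriv (deriv g) y₀) + (qp - qm - a * s7X fst (g y₀) qm)
        + a * (s7X fst (g y₀) qm - s7X fst (g y₀) (deriv g y₀)) := by ring
  have hmain : ‖a‖ * ‖deriv (deriv g) y₀ - s7X fst (g y₀) (deriv g y₀)‖ ≤ ‖a‖ * ε := by
    rw [← norm_mul, e]
    calc _ ≤ ‖-(qp - qm - a * deriv (deriv g) y₀)‖ + ‖qp - qm - a * s7X fst (g y₀) qm‖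
          + ‖a * (s7X fst (g y₀) qm - s7X fst (g y₀) (deriv g y₀))‖ :=
          (norm_add_le _ _).trans (add_le_add_left (norm_add_le _ _) _)
      _ ≤ C₂ * ‖a‖ ^ 2 + ε / 2 * ‖a‖ + ‖a‖ * (L₀ * (C₁ * ‖a‖)) := by
          rw [norm_neg, norm_mul]
          have : ‖s7X fst (g y₀) qm - s7X fst (g y₀) (deriv g y₀)‖ ≤ L₀ * (C₁ * ‖a‖) :=
            hX.trans (by gcongr)
          gcongr
      _ = ‖a‖ * (ε / 2 + (L₀ * C₁ + C₂) * ‖a‖) := by ring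
      _ ≤ ‖a‖ * ε := by
          have h6 : ε / 2 + (L₀ * C₁ + C₂) * ‖a‖ ≤ ε := by linarith
          exact mul_le_mul_of_nonneg_left h6 hna
  exact le_of_mul_le_mul_left hmain hpos

end Claimed.Agent.R269
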