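/-
Row 269, P1 Section 7: HOLOMORPHIC SOLUTION OF `w v' = v P(v)` ON A DISC WITH A REAL MAJORANT (HOST-FREE).   LEAF PACKAGE LF-S7-majode (ONE FILE = ONE OWNER).   Statements: helper146.   PROVED by helper228 (in the variable `h`, `vv = (w/2) e^h`, `h' = F(w,h) = (e^h/2) dslope P 0 ((w/2) e^h)`: a REGULAR equation; `ca_picard_inv` = Picard iteration with an invariant family of closed sets, reusable).
PROOF.  Picard iteration `vv_0 = w/2`, `vv_{k+1} = (w/2) exp(h_{k+1})`, `h_{k+1}' = (P(vv_k(w)) - 1)/w` (`dslope (P ∘ vv_k) 0`, holomorphic on `ball 0 R` because `P(vv_k(0)) = P 0 = 1`), `h_{k+1}(0) = 0` (`ca_exists_primitive`, Lib/CA1Prim.lean).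
 INVARIANT: `vv_k` holomorphic on `ball 0 R`, `vv_k 0 = 0`, `‖vv_k w‖ ≤ v₀ ‖w‖` for `w ≠ 0`.   Along a ray `r ↦ r e^{iϑ}`:  `d/dr Re h_{k+1} = (Re P(vv_k) - 1)/r ≤ (‖P(vv_k)‖ - 1)/r ≤ (p(‖vv_k‖) - 1)/r ≤ (p(v₀ r) - 1)/r = d/dr log(2 v₀(r)/r)`
   (`hmaj`, `hmono`, `hv₀`), and both sides tend to `0` as `r → 0` (`hlim`).  Hence `‖vv_{k+1}(w)‖ = (r/2) e^{Re h_{k+1}} ≤ v₀ r`.     [`v₀ r ≥ r/2`: `p ≥ p 0 = 1`, so `log(2 v₀/r)` is nondecreasing: this gives the invariant for `vv_0`.]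
 CONVERGENCE on `closedBall 0 R'`, `R' < R`:  `v₀` is increasing, so all `vv_k` map into the compact `closedBall 0 (v₀ R') ⊆ ball 0 vc`, where `P` is Lipschitz (`Lp`);  `‖h_k‖ ≤ Ch`;
   `‖vv_{k+1} - vv_k‖(w) ≤ (‖w‖/2) e^{Ch} ‖h_{k+1} - h_k‖(w)`,   `‖h_{k+1} - h_k‖(w) ≤ ∫₀^{‖w‖} Lp ‖vv_k - vv_{k-1}‖/r dr ≤ C ∫₀^{‖w‖} sup_{‖ω‖ = r} ‖h_k - h_{k-1}‖ dr`:   `≤ C₀ (C‖w‖)^k/k!` (pattern: `ca_ode_linear`, `ca_prim_bound` in Lib/CAOde.lean).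
   Locally uniform limit `vv` is holomorphic (`TendstoLocallyUniformlyOn.differentiableOn`), `h = lim h_k`, `h' = (P(vv) - 1)/w`, `vv = (w/2) e^h`: so `w vv' = vv (1 + w h') = vv P(vv)`, `vv'(0) = 1/2`, `vv w ≠ 0` for `w ≠ 0`.
 REAL AXIS: `y(r) = vv(r)` and `v₀` solve `r y' = y P(y)` on `(0,R)`, `y/r → 1/2`.   `δ = ‖y - v₀‖`:  `(δ/r)' ≤ C (δ/r)` on `(0,R']` (as `‖y P(y) - v₀ P(v₀)‖ ≤ (1 + C r) δ`) and `δ/r → 0`: Gronwall from `ε → 0` gives `δ = 0`.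
-/
import Claimed.Agent.R269.Lib.CAOde
import Claimed.Agent.R269.Lib.CA1Prim

set_option autoImplicit false

namespace Claimed.Agent.R269

open Complex Filter Topology Set Metric
open scoped Real

section Picard

variable {E : Type*} [NormedAddCommGroup E] [NormedSpace ℂ E]

/-- the contraction estimate in the weighted norm. -/
theorem ca_picard_contract {K : Set ℂ} {z₀ : ℂ}
    (hK : ∀ z ∈ K, ∀ t ∈ Icc (0 : ℝ) 1, z₀ + (t : ℂ) * (z - z₀) ∈ K) {Q : ℝ} (hQ0 : 0 ≤ Q)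
    {φ₁ φ₂ g₁ g₂ : ℂ → E} (h₁ : ∀ z ∈ K, HasDerivAt g₁ (φ₁ z) z) (h₂ : ∀ z ∈ K, HasDerivAt g₂ (φ₂ z) z)
    (h0 : g₁ z₀ = g₂ z₀) {M : ℝ} (hM : 0 ≤ M)
    (hφ : ∀ z ∈ K, ‖φ₁ z - φ₂ z‖ ≤ Q * (M * Real.exp ((2 * Q + 1) * ‖z - z₀‖))) :
    ∀ z ∈ K, ‖g₁ z - g₂ z‖ ≤ M / 2 * Real.exp ((2 * Q + 1) * ‖z - z₀‖) := by
  intro z hz
  have hμ : 0 < 2 * Q + 1 := by linarith
  have h3 := ca_prim_bound (E := E) hK (g := fun z => g₁ z - g₂ z)
    (h := fun z => φ₁ z - φ₂ z) (M := Q * M) (μ := 2 * Q + 1)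
    (fun z hz => (h₁ z hz).sub (h₂ z hz)) (by simp [h0]) (by positivity) hμ
    (fun z hz => (hφ z hz).trans (le_of_eq (by ring))) z hz
  refine h3.trans ?_
  have h4 : Q * M / (2 * Q + 1) ≤ M / 2 := by
    rw [div_le_div_iff₀ hμ (by norm_num)]
    nlinarith
  gcongr

variable [CompleteSpace E]

/-- **Nonlinear analytic ODE with an invariant family of closed sets.** -/
theorem ca_picard_inv {U : Set ℂ} (hU : IsOpen U) (hc : Convex ℝ U) {z₀ : ℂ} (hz₀ : z₀ ∈ U) (Y₀ : E)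
    (A : ℂ → Set E) (hA : ∀ z ∈ U, IsClosed (A z)) (F : ℂ → E → E)
    (hF : ∀ f : ℂ → E, DifferentiableOn ℂ f U → (∀ z ∈ U, f z ∈ A z) →
      DifferentiableOn ℂ (fun z => F z (f z)) U)
    (hinv : ∀ f g : ℂ → E, DifferentiableOn ℂ f U → (∀ z ∈ U, f z ∈ A z) → g z₀ = Y₀ →
      (∀ z ∈ U, HasDerivAt g (F z (f z)) z) → ∀ z ∈ U, g z ∈ A z)
    (hlip : ∀ K : Set ℂ, IsCompact K → K ⊆ U → ∃ Q : ℝ, 0 ≤ Q ∧ ∀ z ∈ K, ∀ a ∈ A z, ∀ b ∈ A z,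
      ‖F z a - F z b‖ ≤ Q * ‖a - b‖)
    {f₀ : ℂ → E} (hf₀ : DifferentiableOn ℂ f₀ U) (hf₀A : ∀ z ∈ U, f₀ z ∈ A z) :
    ∃ Y : ℂ → E, Y z₀ = Y₀ ∧ (∀ z ∈ U, Y z ∈ A z) ∧ ∀ z ∈ U, HasDerivAt Y (F z (Y z)) z := by
  classical
  -- one Picard step
  have step : ∀ f : {f : ℂ → E // DifferentiableOn ℂ f U ∧ ∀ z ∈ U, f z ∈ A z},
      ∃ g : {f : ℂ → E // DifferentiableOn ℂ f U ∧ ∀ z ∈ U, f z ∈ A z},
        g.1 z₀ = Y₀ ∧ ∀ z ∈ U, HasDerivAt g.1 (F z (f.1 z)) z := by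
    intro f
    obtain ⟨g, hg0, hg⟩ := ca_exists_primitive_E hU hc (hF f.1 f.2.1 f.2.2) z₀ Y₀
    exact ⟨⟨g, fun z hz => (hg z hz).differentiableAt.differentiableWithinAt,
      hinv f.1 g f.2.1 f.2.2 hg0 hg⟩, hg0, hg⟩
  choose T hT0 hT using step
  obtain ⟨y, hy⟩ : ∃ y : ℕ → {f : ℂ → E // DifferentiableOn ℂ f U ∧ ∀ z ∈ U, f z ∈ A z},
      y = fun n => T^[n + 1] ⟨f₀, hf₀, hf₀A⟩ := ⟨_, rfl⟩
  have hys : ∀ n, y (n + 1) = T (y n) := fun n => by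
    rw [hy]; exact Function.iterate_succ_apply' T (n + 1) _
  have hy0 : ∀ n, (y n).1 z₀ = Y₀ := by
    intro n
    rw [hy]
    show (T^[n + 1] ⟨f₀, hf₀, hf₀A⟩).1 z₀ = Y₀
    rw [Function.iterate_succ_apply']
    exact hT0 _
  have hyd : ∀ n, ∀ z ∈ U, HasDerivAt (y (n + 1)).1 (F z ((y n).1 z)) z := by
    intro n; rw [hys]; exact hT _
  -- the local estimate
  have main : ∀ z₁ ∈ U, ∃ K ∈ 𝓝 z₁, K ⊆ U ∧
      (∀ z ∈ K, ∀ t ∈ Icc (0 : ℝ) 1, z₀ + (t : ℂ) * (z - z₀) ∈ K) ∧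
      ∃ Q : ℝ, 0 ≤ Q ∧ (∀ z ∈ K, ∀ a ∈ A z, ∀ b ∈ A z, ‖F z a - F z b‖ ≤ Q * ‖a - b‖) ∧ ∃ c : ℝ, 0 ≤ c ∧
        ∀ n, ∀ z ∈ K, dist ((y n).1 z) ((y (n + 1)).1 z) ≤ c * (1 / 2 : ℝ) ^ n := by
    intro z₁ hz₁
    obtain ⟨K, hKc, hKU, hKn, -, hK⟩ := ca_star_nhds hU hc hz₀ hz₁
    obtain ⟨Q, hQ0, hQ⟩ := hlip K hKc hKU
    have hz₁K : z₁ ∈ K := mem_of_mem_nhds hKn
    have hcont : ContinuousOn (fun z => (y 1).1 z - (y 0).1 z) K :=
      ((y 1).2.1.continuousOn.sub (y 0).2.1.continuousOn).mono hKU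
    obtain ⟨M, hM⟩ := hKc.exists_bound_of_continuousOn hcont
    have hM0 : 0 ≤ M := (norm_nonneg _).trans (hM z₁ hz₁K)
    obtain ⟨D, hD⟩ := hKc.exists_bound_of_continuousOn
      (f := fun z : ℂ => z - z₀) (by fun_prop)
    have est : ∀ n : ℕ, ∀ z ∈ K, ‖(y (n + 1)).1 z - (y n).1 z‖
        ≤ M / 2 ^ n * Real.exp ((2 * Q + 1) * ‖z - z₀‖) := by
      intro n
      induction n with
      | zero =>
        intro z hz
        have h1 : 1 ≤ Real.exp ((2 * Q + 1) * ‖z - z₀‖) := Real.one_le_exp (by positivity)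
        have h2 := hM z hz
        simp only [pow_zero, div_one]
        simp only [zero_add]
        nlinarith
      | succ n ih =>
        intro z hz
        have := ca_picard_contract hK hQ0 (fun z hz => hyd (n + 1) z (hKU hz))
          (fun z hz => hyd n z (hKU hz)) (by rw [hy0, hy0]) (M := M / 2 ^ n) (by positivity)
          (fun z hz => (hQ z hz _ ((y (n + 1)).2.2 z (hKU hz)) _ ((y n).2.2 z (hKU hz))).trans
            (mul_le_mul_of_nonneg_left (ih z hz) hQ0)) z hz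
        rw [pow_succ, ← div_div]
        exact this
    refine ⟨K, hKn, hKU, hK, Q, hQ0, hQ, M * Real.exp ((2 * Q + 1) * D), by positivity, ?_⟩
    intro n z hz
    rw [dist_comm, dist_eq_norm]
    refine (est n z hz).trans ?_
    have h1 : Real.exp ((2 * Q + 1) * ‖z - z₀‖) ≤ Real.exp ((2 * Q + 1) * D) := by
      apply Real.exp_le_exp.2
      have := hD z hz
      gcongr
    calc M / 2 ^ n * Real.exp ((2 * Q + 1) * ‖z - z₀‖)
        ≤ M / 2 ^ n * Real.exp ((2 * Q + 1) * D) := by gcongr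
      _ = M * Real.exp ((2 * Q + 1) * D) * (1 / 2 : ℝ) ^ n := by
          rw [one_div, inv_pow]; ring
  -- the limit
  have hlim : ∀ z ∈ U, ∃ a, Tendsto (fun n => (y n).1 z) atTop (𝓝 a) := by
    intro z hz
    obtain ⟨K, hKn, -, -, Q, -, -, c, -, hc'⟩ := main z hz
    exact cauchySeq_tendsto_of_complete
      (cauchySeq_of_le_geometric (1 / 2) c (by norm_num) (fun n => hc' n z (mem_of_mem_nhds hKn)))
  choose! Y hY using hlim
  have hunif : ∀ z₁ ∈ U, ∃ K ∈ 𝓝 z₁, K ⊆ U ∧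
      (∀ z ∈ K, ∀ t ∈ Icc (0 : ℝ) 1, z₀ + (t : ℂ) * (z - z₀) ∈ K) ∧
      ∃ Q : ℝ, 0 ≤ Q ∧ (∀ z ∈ K, ∀ a ∈ A z, ∀ b ∈ A z, ‖F z a - F z b‖ ≤ Q * ‖a - b‖) ∧ ∃ c : ℝ, 0 ≤ c ∧
        ∀ n, ∀ z ∈ K, dist ((y n).1 z) (Y z) ≤ c * (1 / 2 : ℝ) ^ n := by
    intro z₁ hz₁
    obtain ⟨K, hKn, hKU, hK, Q, hQ0, hQ, c, hc0, hc'⟩ := main z₁ hz₁
    refine ⟨K, hKn, hKU, hK, Q, hQ0, hQ, 2 * c, by positivity, fun n z hz => ?_⟩
    have := dist_le_of_le_geometric_of_tendsto (1 / 2) c (by norm_num) (fun n => hc' n z hz)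
      (hY z (hKU hz)) n
    refine this.trans (le_of_eq ?_)
    ring
  have hpow : ∀ c : ℝ, Tendsto (fun n : ℕ => c * (1 / 2 : ℝ) ^ n) atTop (𝓝 0) := by
    intro c
    have : Tendsto (fun n : ℕ => c * (1 / 2 : ℝ) ^ n) atTop (𝓝 (c * 0)) :=
      (tendsto_pow_atTop_nhds_zero_of_lt_one (by norm_num) (by norm_num)).const_mul c
    simpa using this
  have hlu : TendstoLocallyUniformlyOn (fun n => (y n).1) Y atTop U := by
    rw [Metric.tendstoLocallyUniformlyOn_iff]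
    intro ε hε z₁ hz₁
    obtain ⟨K, hKn, hKU, hK, Q, hQ0, hQ, c, hc0, hc'⟩ := hunif z₁ hz₁
    refine ⟨K, mem_nhdsWithin_of_mem_nhds hKn, ?_⟩
    filter_upwards [(hpow c).eventually (gt_mem_nhds hε)] with n hn z hz
    rw [dist_comm]
    exact (hc' n z hz).trans_lt hn
  have hYd : DifferentiableOn ℂ Y U :=
    hlu.differentiableOn (Eventually.of_forall fun n => (y n).2.1) hU
  have hYA : ∀ z ∈ U, Y z ∈ A z := fun z hz =>
    (hA z hz).mem_of_tendsto (hY z hz) (Eventually.of_forall fun n => (y n).2.2 z hz)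
  -- the fixed point equation
  have hfix : ∀ z ∈ U, (T ⟨Y, hYd, hYA⟩).1 z = Y z := by
    intro z₁ hz₁
    obtain ⟨K, hKn, hKU, hK, Q, hQ0, hQ, c, hc0, hc'⟩ := hunif z₁ hz₁
    have hz₁K : z₁ ∈ K := mem_of_mem_nhds hKn
    have h1 : ∀ n : ℕ, ‖(T ⟨Y, hYd, hYA⟩).1 z₁ - (y (n + 1)).1 z₁‖
        ≤ (Real.exp ((2 * Q + 1) * ‖z₁ - z₀‖) / 2 * c) * (1 / 2 : ℝ) ^ n := by
      intro n
      have := ca_picard_contract hK hQ0 (g₁ := (T ⟨Y, hYd, hYA⟩).1)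
        (fun z hz => hT ⟨Y, hYd, hYA⟩ z (hKU hz))
        (fun z hz => hyd n z (hKU hz)) (by rw [hy0, hT0]) (M := c * (1 / 2 : ℝ) ^ n)
        (by positivity)
        (fun z hz => by
          refine (hQ z hz _ (hYA z (hKU hz)) _ ((y n).2.2 z (hKU hz))).trans
            (mul_le_mul_of_nonneg_left ?_ hQ0)
          have h1 : 1 ≤ Real.exp ((2 * Q + 1) * ‖z - z₀‖) := Real.one_le_exp (by positivity)
          have h2 := hc' n z hz
          rw [dist_comm, dist_eq_norm] at h2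
          have h3 : 0 ≤ c * (1 / 2 : ℝ) ^ n := by positivity
          nlinarith) z₁ hz₁K
      refine this.trans (le_of_eq ?_)
      ring
    have h2 : Tendsto (fun n => (y (n + 1)).1 z₁) atTop (𝓝 ((T ⟨Y, hYd, hYA⟩).1 z₁)) := by
      rw [tendsto_iff_norm_sub_tendsto_zero]
      refine squeeze_zero (fun _ => norm_nonneg _) (fun n => ?_)
        (hpow (Real.exp ((2 * Q + 1) * ‖z₁ - z₀‖) / 2 * c))
      rw [norm_sub_rev]
      exact h1 n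
    have h3 : Tendsto (fun n => (y (n + 1)).1 z₁) atTop (𝓝 (Y z₁)) :=
      (hY z₁ hz₁).comp (tendsto_add_atTop_nat 1)
    exact tendsto_nhds_unique h2 h3
  refine ⟨Y, ?_, hYA, fun z hz => ?_⟩
  · rw [← hfix z₀ hz₀]; exact hT0 _
  · refine (hT ⟨Y, hYd, hYA⟩ z hz).congr_of_eventuallyEq ?_
    filter_upwards [hU.mem_nhds hz] with w hw
    exact (hfix w hw).symm

end Picard

/-! ### the majorant -/

/-- the hypotheses of `s7_majode`. -/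
structure MajCtx (vc R : ℝ) (P : ℂ → ℂ) (p v₀ : ℝ → ℝ) : Prop where
  hvc : 0 < vc
  hR : 0 < R
  hP : DifferentiableOn ℂ P (ball 0 vc)
  hP0 : P 0 = 1
  hmaj : ∀ v ∈ ball (0 : ℂ) vc, ‖P v‖ ≤ p ‖v‖
  hreal : ∀ r ∈ Ico (0 : ℝ) vc, P (r : ℂ) = (p r : ℂ)
  hmono : MonotoneOn p (Ico 0 vc)
  hv₀ : ∀ r ∈ Ioo 0 R, 0 < v₀ r ∧ v₀ r < vc ∧ HasDerivAt v₀ (v₀ r * p (v₀ r) / r) r
  hlim : Tendsto (fun r => v₀ r / r) (𝓝[>] 0) (𝓝 (1 / 2))

/-- `log (2 v₀(r)/r)`, with the value `0` at `r = 0`. -/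
noncomputable def majL (v₀ : ℝ → ℝ) (r : ℝ) : ℝ := if r = 0 then 0 else Real.log (2 * v₀ r / r)

namespace MajCtx

variable {vc R : ℝ} {P : ℂ → ℂ} {p v₀ : ℝ → ℝ}

theorem p_zero (H : MajCtx vc R P p v₀) : p 0 = 1 := by
  have h1 := H.hreal 0 ⟨le_rfl, H.hvc⟩
  rw [Complex.ofReal_zero, H.hP0] at h1
  exact_mod_cast h1.symm

theorem p_ge_one (H : MajCtx vc R P p v₀) {r : ℝ} (hr : r ∈ Ico 0 vc) : 1 ≤ p r := by
  rw [← H.p_zero]
  exact H.hmono ⟨le_rfl, H.hvc⟩ hr hr.1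

theorem v₀_mem (H : MajCtx vc R P p v₀) {r : ℝ} (hr : r ∈ Ioo 0 R) : v₀ r ∈ Ico 0 vc :=
  ⟨(H.hv₀ r hr).1.le, (H.hv₀ r hr).2.1⟩

theorem majL_of_pos {r : ℝ} (hr : 0 < r) : majL v₀ r = Real.log (2 * v₀ r / r) := by
  simp [majL, hr.ne']

theorem majL_hasDerivAt (H : MajCtx vc R P p v₀) {r : ℝ} (hr : r ∈ Ioo 0 R) :
    HasDerivAt (majL v₀) ((p (v₀ r) - 1) / r) r := by
  obtain ⟨h1, -, h3⟩ := H.hv₀ r hr
  have hr0 : r ≠ 0 := hr.1.ne'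
  have h4 : HasDerivAt (fun r => 2 * v₀ r / r) ((2 * (v₀ r * p (v₀ r) / r) * r - 2 * v₀ r * 1) / r ^ 2) r :=
    (h3.const_mul 2).div (hasDerivAt_id r) hr0
  have h5 : 2 * v₀ r / r ≠ 0 := by positivity
  have h6 := h4.log h5
  have h7 : majL v₀ =ᶠ[𝓝 r] fun r => Real.log (2 * v₀ r / r) := by
    filter_upwards [lt_mem_nhds hr.1] with x hx
    exact majL_of_pos hx
  refine (h6.congr_of_eventuallyEq h7).congr_deriv ?_
  have := h1.ne'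
  field_simp

theorem majL_tendsto (H : MajCtx vc R P p v₀) : Tendsto (majL v₀) (𝓝[>] 0) (𝓝 0) := by
  have h1 : Tendsto (fun r => 2 * (v₀ r / r)) (𝓝[>] 0) (𝓝 (2 * (1 / 2))) := H.hlim.const_mul 2
  have h2 : Tendsto (fun r => Real.log (2 * (v₀ r / r))) (𝓝[>] 0) (𝓝 (Real.log (2 * (1 / 2)))) :=
    (Real.continuousAt_log (by norm_num)).tendsto.comp h1
  have h3 : Real.log (2 * (1 / 2)) = 0 := by norm_num
  rw [h3] at h2
  refine h2.congr' ?_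
  filter_upwards [self_mem_nhdsWithin] with r hr
  rw [majL_of_pos hr, mul_div_assoc]

theorem majL_monoOn (H : MajCtx vc R P p v₀) : MonotoneOn (majL v₀) (Ioo 0 R) := by
  refine monotoneOn_of_deriv_nonneg (convex_Ioo 0 R)
    (fun r hr => (H.majL_hasDerivAt hr).continuousAt.continuousWithinAt) ?_ ?_
  · rw [interior_Ioo]
    exact fun r hr => (H.majL_hasDerivAt hr).differentiableAt.differentiableWithinAt
  · rw [interior_Ioo]
    intro r hr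
    rw [(H.majL_hasDerivAt hr).deriv]
    have := H.p_ge_one (H.v₀_mem hr)
    exact div_nonneg (by linarith) hr.1.le

theorem majL_nonneg (H : MajCtx vc R P p v₀) {r : ℝ} (hr : r ∈ Ioo 0 R) : 0 ≤ majL v₀ r := by
  refine le_of_tendsto H.majL_tendsto ?_
  filter_upwards [Ioo_mem_nhdsGT hr.1] with x hx
  exact H.majL_monoOn ⟨hx.1, hx.2.trans hr.2⟩ hr hx.2.le

theorem majL_mono (H : MajCtx vc R P p v₀) {r r' : ℝ} (h0 : 0 ≤ r) (h : r ≤ r') (h' : r' < R) :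
    majL v₀ r ≤ majL v₀ r' := by
  rcases h0.eq_or_lt with rfl | hr
  · rcases h.eq_or_lt with rfl | hr'
    · exact le_rfl
    · simpa [majL] using H.majL_nonneg ⟨hr', h'⟩
  · exact H.majL_monoOn ⟨hr, h.trans_lt h'⟩ ⟨hr.trans_le h, h'⟩ h

theorem exp_majL (H : MajCtx vc R P p v₀) {r : ℝ} (hr : r ∈ Ioo 0 R) : Real.exp (majL v₀ r) = 2 * v₀ r / r := by
  have h1 := (H.hv₀ r hr).1
  have := hr.1
  rw [majL_of_pos hr.1, Real.exp_log (by positivity)]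

theorem v₀_monoOn (H : MajCtx vc R P p v₀) : MonotoneOn v₀ (Ioo 0 R) := by
  refine monotoneOn_of_deriv_nonneg (convex_Ioo 0 R)
    (fun r hr => (H.hv₀ r hr).2.2.continuousAt.continuousWithinAt) ?_ ?_
  · rw [interior_Ioo]
    exact fun r hr => (H.hv₀ r hr).2.2.differentiableAt.differentiableWithinAt
  · rw [interior_Ioo]
    intro r hr
    rw [(H.hv₀ r hr).2.2.deriv]
    have h1 := H.p_ge_one (H.v₀_mem hr)
    have h2 := (H.hv₀ r hr).1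
    have := hr.1
    have : 0 ≤ p (v₀ r) := by linarith
    positivity

/-- the admissible values of `h` at `w`. -/
def majA (v₀ : ℝ → ℝ) (w : ℂ) : Set ℂ := {h | h.re ≤ majL v₀ ‖w‖}

/-- the candidate `v = (w/2) e^h`. -/
noncomputable def majV (w h : ℂ) : ℂ := w / 2 * Complex.exp h

/-- the right side of `h' = F(w,h)`. -/
noncomputable def majF (P : ℂ → ℂ) (w h : ℂ) : ℂ := Complex.exp h / 2 * dslope P 0 (majV w h)

theorem isClosed_majA (w : ℂ) : IsClosed (majA v₀ w) :=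
  isClosed_le Complex.continuous_re continuous_const

theorem norm_majV (w h : ℂ) : ‖majV w h‖ = ‖w‖ / 2 * Real.exp h.re := by
  unfold majV
  rw [norm_mul, norm_div, Complex.norm_exp]
  simp

theorem norm_majV_le (H : MajCtx vc R P p v₀) {w h : ℂ} (hw : w ∈ ball (0 : ℂ) R) (hw0 : w ≠ 0)
    (hh : h ∈ majA v₀ w) : ‖majV w h‖ ≤ v₀ ‖w‖ := by
  have hr : ‖w‖ ∈ Ioo 0 R := ⟨norm_pos_iff.2 hw0, by simpa using hw⟩
  have h1 : Real.exp h.re ≤ 2 * v₀ ‖w‖ / ‖w‖ := by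
    rw [← H.exp_majL hr]
    exact Real.exp_le_exp.2 hh
  rw [norm_majV]
  have h2 := hr.1
  calc ‖w‖ / 2 * Real.exp h.re ≤ ‖w‖ / 2 * (2 * v₀ ‖w‖ / ‖w‖) := by gcongr
    _ = v₀ ‖w‖ := by field_simp

theorem majV_mem (H : MajCtx vc R P p v₀) {w h : ℂ} (hw : w ∈ ball (0 : ℂ) R) (hh : h ∈ majA v₀ w) :
    majV w h ∈ ball (0 : ℂ) vc := by
  by_cases hw0 : w = 0
  · subst hw0
    simpa [majV] using H.hvc
  · have hr : ‖w‖ ∈ Ioo 0 R := ⟨norm_pos_iff.2 hw0, by simpa using hw⟩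
    have := H.norm_majV_le hw hw0 hh
    have := (H.hv₀ _ hr).2.1
    rw [mem_ball_zero_iff]
    linarith

theorem dslope_diff (H : MajCtx vc R P p v₀) : DifferentiableOn ℂ (dslope P 0) (ball 0 vc) :=
  (Complex.differentiableOn_dslope (ball_mem_nhds 0 H.hvc)).2 H.hP

theorem mul_dslope (H : MajCtx vc R P p v₀) (x : ℂ) : x * dslope P 0 x = P x - 1 := by
  have := sub_smul_dslope P 0 x
  rw [sub_zero, smul_eq_mul, H.hP0] at this
  exact this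

/-- `w F(w,h) = P(v) - 1`. -/
theorem mul_majF (H : MajCtx vc R P p v₀) (w h : ℂ) : w * majF P w h = P (majV w h) - 1 := by
  rw [← H.mul_dslope]
  unfold majF majV
  ring

theorem majF_diff (H : MajCtx vc R P p v₀) {f : ℂ → ℂ} (hf : DifferentiableOn ℂ f (ball 0 R))
    (hfA : ∀ z ∈ ball (0 : ℂ) R, f z ∈ majA v₀ z) :
    DifferentiableOn ℂ (fun z => majF P z (f z)) (ball 0 R) := by
  have h1 : DifferentiableOn ℂ (fun z => Complex.exp (f z)) (ball 0 R) := hf.cexp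
  have h2 : DifferentiableOn ℂ (fun z => majV z (f z)) (ball 0 R) :=
    (differentiableOn_id.div_const 2).mul h1
  have h3 : DifferentiableOn ℂ (fun z => dslope P 0 (majV z (f z))) (ball 0 R) :=
    H.dslope_diff.comp h2 fun z hz => H.majV_mem hz (hfA z hz)
  exact (h1.div_const 2).mul h3

/-- invariance of the majorant under the Picard map. -/
theorem maj_inv (H : MajCtx vc R P p v₀) {f g : ℂ → ℂ}
    (hfA : ∀ z ∈ ball (0 : ℂ) R, f z ∈ majA v₀ z) (hg0 : g 0 = 0)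
    (hg : ∀ z ∈ ball (0 : ℂ) R, HasDerivAt g (majF P z (f z)) z) :
    ∀ z ∈ ball (0 : ℂ) R, g z ∈ majA v₀ z := by
  intro z hz
  by_cases hz0 : z = 0
  · subst hz0
    simp [majA, majL, hg0]
  obtain ⟨r, hrdef⟩ : ∃ r, r = ‖z‖ := ⟨_, rfl⟩
  have hr : r ∈ Ioo 0 R := hrdef ▸ ⟨norm_pos_iff.2 hz0, by simpa using hz⟩
  obtain ⟨e, hedef⟩ : ∃ e : ℂ, e = z / r := ⟨_, rfl⟩
  have hrC : (r : ℂ) ≠ 0 := by exact_mod_cast hr.1.ne'
  have he : ‖e‖ = 1 := by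
    rw [hedef, norm_div, Complex.norm_real, Real.norm_eq_abs, abs_of_pos hr.1, hrdef]
    exact div_self (hrdef ▸ hr.1.ne')
  have hre : (r : ℂ) * e = z := by rw [hedef]; field_simp
  have hnorm : ∀ ρ : ℝ, 0 ≤ ρ → ‖(ρ : ℂ) * e‖ = ρ := fun ρ hρ => by
    rw [norm_mul, he, mul_one, Complex.norm_real, Real.norm_eq_abs, abs_of_nonneg hρ]
  have hmem : ∀ ρ ∈ Icc 0 r, (ρ : ℂ) * e ∈ ball (0 : ℂ) R := fun ρ hρ => by
    rw [mem_ball_zero_iff, hnorm ρ hρ.1]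
    exact hρ.2.trans_lt hr.2
  have hφ : ∀ ρ ∈ Icc 0 r, HasDerivAt (fun x : ℝ => (g ((x : ℂ) * e)).re)
      ((majF P ((ρ : ℂ) * e) (f ((ρ : ℂ) * e)) * e).re) ρ := by
    intro ρ hρ
    have h1 : HasDerivAt (fun ζ : ℂ => ζ * e) e (ρ : ℂ) := by
      simpa using (hasDerivAt_id (ρ : ℂ)).mul_const e
    have h2 : HasDerivAt (fun ζ : ℂ => g (ζ * e)) (majF P ((ρ : ℂ) * e) (f ((ρ : ℂ) * e)) * e) (ρ : ℂ) :=
      HasDerivAt.comp (ρ : ℂ) (hg _ (hmem ρ hρ)) h1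
    exact h2.real_of_complex
  have hkey : ∀ ρ ∈ Ioc 0 r, (majF P ((ρ : ℂ) * e) (f ((ρ : ℂ) * e)) * e).re ≤ (p (v₀ ρ) - 1) / ρ := by
    intro ρ hρ
    have hρI : ρ ∈ Icc 0 r := ⟨hρ.1.le, hρ.2⟩
    have hρR : ρ ∈ Ioo 0 R := ⟨hρ.1, hρ.2.trans_lt hr.2⟩
    obtain ⟨w, hw⟩ : ∃ w : ℂ, w = (ρ : ℂ) * e := ⟨_, rfl⟩
    rw [← hw]
    have hwm : w ∈ ball (0 : ℂ) R := hw ▸ hmem ρ hρI
    have hwn : ‖w‖ = ρ := hw ▸ hnorm ρ hρ.1.le
    have hw0 : w ≠ 0 := by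
      rw [← norm_pos_iff, hwn]; exact hρ.1
    have h1 := H.mul_majF w (f w)
    have h2 : (majF P w (f w) * e) * (ρ : ℂ) = P (majV w (f w)) - 1 := by
      rw [← h1, hw]; ring
    have h3 : (majF P w (f w) * e).re * ρ = (P (majV w (f w))).re - 1 := by
      have := congrArg Complex.re h2
      simpa using this
    rw [le_div_iff₀ hρ.1, h3]
    have h4 := H.norm_majV_le hwm hw0 (hfA w hwm)
    rw [hwn] at h4
    have h5 := H.majV_mem hwm (hfA w hwm)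
    have h6 := H.hmaj _ h5
    have h7 : p ‖majV w (f w)‖ ≤ p (v₀ ρ) :=
      H.hmono ⟨norm_nonneg _, by simpa using h5⟩ (H.v₀_mem hρR) h4
    have h8 := Complex.re_le_norm (P (majV w (f w)))
    linarith
  have hanti : AntitoneOn (fun x : ℝ => (g ((x : ℂ) * e)).re - majL v₀ x) (Ioc 0 r) := by
    have hd : ∀ ρ ∈ Ioc 0 r, HasDerivAt (fun x : ℝ => (g ((x : ℂ) * e)).re - majL v₀ x)
        ((majF P ((ρ : ℂ) * e) (f ((ρ : ℂ) * e)) * e).re - (p (v₀ ρ) - 1) / ρ) ρ := fun ρ hρ =>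
      (hφ ρ ⟨hρ.1.le, hρ.2⟩).sub (H.majL_hasDerivAt ⟨hρ.1, hρ.2.trans_lt hr.2⟩)
    refine antitoneOn_of_deriv_nonpos (convex_Ioc 0 r)
      (fun ρ hρ => (hd ρ hρ).continuousAt.continuousWithinAt) ?_ ?_
    · rw [interior_Ioc]
      exact fun ρ hρ => (hd ρ ⟨hρ.1, hρ.2.le⟩).differentiableAt.differentiableWithinAt
    · rw [interior_Ioc]
      intro ρ hρ
      rw [(hd ρ ⟨hρ.1, hρ.2.le⟩).deriv]
      have := hkey ρ ⟨hρ.1, hρ.2.le⟩
      linarith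
  have hlim : Tendsto (fun x : ℝ => (g ((x : ℂ) * e)).re - majL v₀ x) (𝓝[>] 0) (𝓝 0) := by
    have h1 : Tendsto (fun x : ℝ => (g ((x : ℂ) * e)).re) (𝓝[>] 0) (𝓝 0) := by
      have := (hφ 0 ⟨le_rfl, hr.1.le⟩).continuousAt.tendsto
      simp only [Complex.ofReal_zero, zero_mul, hg0, Complex.zero_re] at this
      exact this.mono_left nhdsWithin_le_nhds
    simpa using h1.sub H.majL_tendsto
  have hfin : (g ((r : ℂ) * e)).re - majL v₀ r ≤ 0 := by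
    refine ge_of_tendsto hlim ?_
    filter_upwards [Ioc_mem_nhdsGT hr.1] with x hx
    exact hanti hx ⟨hr.1, le_rfl⟩ hx.2
  rw [hre] at hfin
  show (g z).re ≤ majL v₀ ‖z‖
  rw [← hrdef]
  linarith

theorem exists_radius {K : Set ℂ} {R : ℝ} (hR : 0 < R) (hK : IsCompact K) (hKU : K ⊆ ball (0 : ℂ) R) :
    ∃ R' : ℝ, 0 < R' ∧ R' < R ∧ K ⊆ closedBall (0 : ℂ) R' := by
  rcases K.eq_empty_or_nonempty with rfl | hne
  · exact ⟨R / 2, by linarith, by linarith, empty_subset _⟩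
  · obtain ⟨z, hz, hmax⟩ := hK.exists_isMaxOn hne continuous_norm.continuousOn
    have h1 : ‖z‖ < R := by simpa using hKU hz
    have h0 := norm_nonneg z
    refine ⟨(‖z‖ + R) / 2, by linarith, by linarith, fun w hw => ?_⟩
    have h2 : ‖w‖ ≤ ‖z‖ := hmax hw
    rw [mem_closedBall_zero_iff]
    linarith

theorem exp_lip {Λ : ℝ} {a b : ℂ} (ha : a.re ≤ Λ) (hb : b.re ≤ Λ) :
    ‖Complex.exp a - Complex.exp b‖ ≤ Real.exp Λ * ‖a - b‖ := by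
  refine Convex.norm_image_sub_le_of_norm_deriv_le (f := Complex.exp) (s := {h : ℂ | h.re ≤ Λ})
    (fun x _ => Complex.differentiableAt_exp) (fun x hx => ?_) (convex_halfSpace_re_le Λ) hb ha
  rw [Complex.deriv_exp, Complex.norm_exp]
  exact Real.exp_le_exp.2 hx

/-- the local Lipschitz bound. -/
theorem maj_lip (H : MajCtx vc R P p v₀) {K : Set ℂ} (hK : IsCompact K) (hKU : K ⊆ ball (0 : ℂ) R) :
    ∃ Q : ℝ, 0 ≤ Q ∧ ∀ z ∈ K, ∀ a ∈ majA v₀ z, ∀ b ∈ majA v₀ z,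
      ‖majF P z a - majF P z b‖ ≤ Q * ‖a - b‖ := by
  obtain ⟨R', hR'0, hR'R, hKR'⟩ := exists_radius H.hR hK hKU
  have hR'I : R' ∈ Ioo 0 R := ⟨hR'0, hR'R⟩
  obtain ⟨Λ, hΛ⟩ : ∃ Λ, Λ = majL v₀ R' := ⟨_, rfl⟩
  obtain ⟨ρ, hρ⟩ : ∃ ρ, ρ = v₀ R' := ⟨_, rfl⟩
  have hρ0 : 0 < ρ := hρ ▸ (H.hv₀ R' hR'I).1
  have hρvc : ρ < vc := hρ ▸ (H.hv₀ R' hR'I).2.1
  have hsub : closedBall (0 : ℂ) ρ ⊆ ball (0 : ℂ) vc := closedBall_subset_ball hρvc
  obtain ⟨S₁, hS₁⟩ := (isCompact_closedBall (0 : ℂ) ρ).exists_bound_of_continuousOn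
    (H.dslope_diff.continuousOn.mono hsub)
  obtain ⟨L₁, hL₁⟩ := (isCompact_closedBall (0 : ℂ) ρ).exists_bound_of_continuousOn
    ((H.dslope_diff.deriv isOpen_ball).continuousOn.mono hsub)
  have h0mem : (0 : ℂ) ∈ closedBall (0 : ℂ) ρ := mem_closedBall_self hρ0.le
  have hS₁0 : 0 ≤ S₁ := (norm_nonneg _).trans (hS₁ 0 h0mem)
  have hL₁0 : 0 ≤ L₁ := (norm_nonneg _).trans (hL₁ 0 h0mem)
  have hre : ∀ z ∈ K, ∀ a ∈ majA v₀ z, a.re ≤ Λ := fun z hz a ha => by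
    have h1 : ‖z‖ ≤ R' := by simpa using hKR' hz
    exact le_trans ha (hΛ ▸ H.majL_mono (norm_nonneg _) h1 hR'R)
  have hV : ∀ z ∈ K, ∀ a ∈ majA v₀ z, majV z a ∈ closedBall (0 : ℂ) ρ := fun z hz a ha => by
    rw [mem_closedBall_zero_iff]
    by_cases hz0 : z = 0
    · subst hz0
      simpa [majV] using hρ0.le
    · have h1 : ‖z‖ ≤ R' := by simpa using hKR' hz
      have h2 : ‖z‖ ∈ Ioo 0 R := ⟨norm_pos_iff.2 hz0, h1.trans_lt hR'R⟩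
      exact (H.norm_majV_le (hKU hz) hz0 ha).trans (hρ ▸ H.v₀_monoOn h2 hR'I h1)
  refine ⟨Real.exp Λ * (S₁ / 2 + Real.exp Λ * L₁ * R' / 4), by positivity, fun z hz a ha b hb => ?_⟩
  have hza : ‖z‖ ≤ R' := by simpa using hKR' hz
  have e1 := exp_lip (hre z hz a ha) (hre z hz b hb)
  have e2 : ‖Complex.exp b‖ ≤ Real.exp Λ := by
    rw [Complex.norm_exp]; exact Real.exp_le_exp.2 (hre z hz b hb)
  have e3 : ‖dslope P 0 (majV z a) - dslope P 0 (majV z b)‖ ≤ L₁ * ‖majV z a - majV z b‖ :=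
    Convex.norm_image_sub_le_of_norm_deriv_le (s := closedBall (0 : ℂ) ρ)
      (fun x hx => (H.dslope_diff x (hsub hx)).differentiableAt (isOpen_ball.mem_nhds (hsub hx)))
      hL₁ (convex_closedBall 0 ρ) (hV z hz b hb) (hV z hz a ha)
  have e4 : ‖majV z a - majV z b‖ ≤ R' / 2 * ‖Complex.exp a - Complex.exp b‖ := by
    have : majV z a - majV z b = z / 2 * (Complex.exp a - Complex.exp b) := by unfold majV; ring
    rw [this, norm_mul, norm_div]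
    have h2 : ‖(2 : ℂ)‖ = 2 := by simp
    rw [h2]
    gcongr
  have e5 := hS₁ _ (hV z hz a ha)
  have e6 : majF P z a - majF P z b = (Complex.exp a - Complex.exp b) / 2 * dslope P 0 (majV z a)
      + Complex.exp b / 2 * (dslope P 0 (majV z a) - dslope P 0 (majV z b)) := by
    unfold majF; ring
  obtain ⟨D, hD⟩ : ∃ D, D = ‖Complex.exp a - Complex.exp b‖ := ⟨_, rfl⟩
  rw [← hD] at e1 e4
  have hD0 : 0 ≤ D := hD ▸ norm_nonneg _
  have hE : 0 < Real.exp Λ := Real.exp_pos _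
  have h2 : ‖(2 : ℂ)‖ = 2 := by simp
  calc ‖majF P z a - majF P z b‖
      ≤ ‖(Complex.exp a - Complex.exp b) / 2 * dslope P 0 (majV z a)‖
        + ‖Complex.exp b / 2 * (dslope P 0 (majV z a) - dslope P 0 (majV z b))‖ := by
          rw [e6]; exact norm_add_le _ _
    _ ≤ D / 2 * S₁ + Real.exp Λ / 2 * (L₁ * (R' / 2 * D)) := by
          rw [norm_mul, norm_mul, norm_div, norm_div, h2, ← hD]
          have e7 : ‖dslope P 0 (majV z a) - dslope P 0 (majV z b)‖ ≤ L₁ * (R' / 2 * D) :=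
            e3.trans (mul_le_mul_of_nonneg_left e4 hL₁0)
          gcongr
    _ = (S₁ / 2 + Real.exp Λ * L₁ * R' / 4) * D := by ring
    _ ≤ (S₁ / 2 + Real.exp Λ * L₁ * R' / 4) * (Real.exp Λ * ‖a - b‖) := by gcongr
    _ = Real.exp Λ * (S₁ / 2 + Real.exp Λ * L₁ * R' / 4) * ‖a - b‖ := by ring

theorem zero_mem_majA (H : MajCtx vc R P p v₀) {z : ℂ} (hz : z ∈ ball (0 : ℂ) R) : (0 : ℂ) ∈ majA v₀ z := by
  have h1 := H.majL_mono le_rfl (norm_nonneg z) (by simpa using hz)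
  have h2 : majL v₀ 0 = 0 := by simp [majL]
  rw [h2] at h1
  simpa [majA] using h1

theorem exists_h (H : MajCtx vc R P p v₀) : ∃ h : ℂ → ℂ, h 0 = 0 ∧ (∀ z ∈ ball (0 : ℂ) R, h z ∈ majA v₀ z) ∧
    ∀ z ∈ ball (0 : ℂ) R, HasDerivAt h (majF P z (h z)) z :=
  ca_picard_inv isOpen_ball (convex_ball 0 R) (mem_ball_self H.hR) 0 (majA v₀) (fun z _ => isClosed_majA z)
    (majF P) (fun _ hf hfA => H.majF_diff hf hfA) (fun _ _ _ hfA hg0 hg => H.maj_inv hfA hg0 hg)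
    (fun _ hK hKU => H.maj_lip hK hKU) (f₀ := fun _ => 0) (differentiableOn_const 0)
    (fun _ hz => H.zero_mem_majA hz)

theorem majV_real (H : MajCtx vc R P p v₀) {t : ℝ} (ht : t ∈ Ioo 0 R) :
    majV (t : ℂ) (majL v₀ t : ℂ) = (v₀ t : ℂ) := by
  unfold majV
  rw [← Complex.ofReal_exp, H.exp_majL ht]
  have : (t : ℂ) ≠ 0 := by exact_mod_cast ht.1.ne'
  push_cast
  field_simp

theorem majF_real (H : MajCtx vc R P p v₀) {t : ℝ} (ht : t ∈ Ioo 0 R) :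
    majF P (t : ℂ) (majL v₀ t : ℂ) = (((p (v₀ t) - 1) / t : ℝ) : ℂ) := by
  have h1 := H.mul_majF (t : ℂ) (majL v₀ t : ℂ)
  rw [H.majV_real ht, H.hreal _ (H.v₀_mem ht)] at h1
  have : (t : ℂ) ≠ 0 := by exact_mod_cast ht.1.ne'
  push_cast
  rw [eq_div_iff this, mul_comm]
  exact h1

/-- on the positive real axis the solution is the majorant. -/
theorem h_real (H : MajCtx vc R P p v₀) {h : ℂ → ℂ} (h0 : h 0 = 0) (hA : ∀ z ∈ ball (0 : ℂ) R, h z ∈ majA v₀ z)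
    (hd : ∀ z ∈ ball (0 : ℂ) R, HasDerivAt h (majF P z (h z)) z) :
    ∀ r ∈ Ioo 0 R, h (r : ℂ) = (majL v₀ r : ℂ) := by
  intro r hr
  have hKU : closedBall (0 : ℂ) r ⊆ ball (0 : ℂ) R := closedBall_subset_ball hr.2
  obtain ⟨Q, hQ0, hQ⟩ := H.maj_lip (isCompact_closedBall (0 : ℂ) r) hKU
  have hnorm : ∀ t : ℝ, 0 ≤ t → ‖(t : ℂ)‖ = t := fun t ht => by
    rw [Complex.norm_real, Real.norm_eq_abs, abs_of_nonneg ht]
  have hmemK : ∀ t ∈ Icc 0 r, (t : ℂ) ∈ closedBall (0 : ℂ) r := fun t ht => by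
    rw [mem_closedBall_zero_iff, hnorm t ht.1]; exact ht.2
  have hest : ∀ ε ∈ Ioo 0 r, dist (h (r : ℂ)) (majL v₀ r : ℂ)
      ≤ dist (h (ε : ℂ)) (majL v₀ ε : ℂ) * Real.exp (Q * r) := by
    intro ε hε
    have hsub : ∀ t ∈ Icc ε r, t ∈ Ioo 0 R := fun t ht => ⟨hε.1.trans_le ht.1, ht.2.trans_lt hr.2⟩
    have hsub' : ∀ t ∈ Icc ε r, t ∈ Icc 0 r := fun t ht => ⟨hε.1.le.trans ht.1, ht.2⟩
    have hfd : ∀ t ∈ Icc ε r, HasDerivAt (fun x : ℝ => h (x : ℂ)) (majF P (t : ℂ) (h (t : ℂ))) t := fun t ht =>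
      (hd _ (hKU (hmemK t (hsub' t ht)))).comp_ofReal
    have hgd : ∀ t ∈ Icc ε r, HasDerivAt (fun x : ℝ => ((majL v₀ x : ℝ) : ℂ))
        (majF P (t : ℂ) (majL v₀ t : ℂ)) t := fun t ht => by
      rw [H.majF_real (hsub t ht)]
      exact (H.majL_hasDerivAt (hsub t ht)).ofReal_comp
    have := dist_le_of_trajectories_ODE_of_mem (K := ⟨Q, hQ0⟩) (v := fun t : ℝ => majF P (t : ℂ))
      (s := fun t : ℝ => majA v₀ (t : ℂ)) (f := fun x : ℝ => h (x : ℂ))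
      (g := fun x : ℝ => ((majL v₀ x : ℝ) : ℂ)) (a := ε) (b := r)
      (δ := dist (h (ε : ℂ)) (majL v₀ ε : ℂ))
      (fun t ht => LipschitzOnWith.of_dist_le_mul fun x hx y hy => by
        rw [dist_eq_norm, dist_eq_norm]
        exact hQ _ (hmemK t (hsub' t ⟨ht.1, ht.2.le⟩)) x hx y hy)
      (fun t ht => (hfd t ht).continuousAt.continuousWithinAt)
      (fun t ht => (hfd t ⟨ht.1, ht.2.le⟩).hasDerivWithinAt)
      (fun t ht => hA _ (hKU (hmemK t (hsub' t ⟨ht.1, ht.2.le⟩))))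
      (fun t ht => (hgd t ht).continuousAt.continuousWithinAt)
      (fun t ht => (hgd t ⟨ht.1, ht.2.le⟩).hasDerivWithinAt)
      (fun t ht => by
        show ((majL v₀ t : ℝ) : ℂ).re ≤ majL v₀ ‖(t : ℂ)‖
        rw [hnorm t (hε.1.le.trans ht.1), Complex.ofReal_re])
      le_rfl r ⟨hε.2.le, le_rfl⟩
    refine this.trans ?_
    have h1 : Real.exp (((⟨Q, hQ0⟩ : NNReal) : ℝ) * (r - ε)) ≤ Real.exp (Q * r) := by
      apply Real.exp_le_exp.2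
      show Q * (r - ε) ≤ Q * r
      have := hε.1
      nlinarith
    exact mul_le_mul_of_nonneg_left h1 dist_nonneg
  have hlim : Tendsto (fun ε : ℝ => dist (h (ε : ℂ)) (majL v₀ ε : ℂ) * Real.exp (Q * r)) (𝓝[>] 0) (𝓝 0) := by
    have h1 : Tendsto (fun ε : ℝ => h (ε : ℂ)) (𝓝[>] 0) (𝓝 0) := by
      have h2 : ContinuousAt (fun ε : ℝ => h (ε : ℂ)) 0 :=
        ((hd _ (by simpa using H.hR : ((0 : ℝ) : ℂ) ∈ ball (0 : ℂ) R)).comp_ofReal).continuousAt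
      have := h2.tendsto
      simp only [Complex.ofReal_zero, h0] at this
      exact this.mono_left nhdsWithin_le_nhds
    have h2 : Tendsto (fun ε : ℝ => ((majL v₀ ε : ℝ) : ℂ)) (𝓝[>] 0) (𝓝 0) := by
      have := (Complex.continuous_ofReal.tendsto 0).comp H.majL_tendsto
      simpa [Function.comp_def] using this
    have h3 := (h1.dist h2).mul_const (Real.exp (Q * r))
    simpa using h3
  have hfin : dist (h (r : ℂ)) (majL v₀ r : ℂ) ≤ 0 := by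
    refine ge_of_tendsto hlim ?_
    filter_upwards [Ioo_mem_nhdsGT hr.1] with ε hε
    exact hest ε hε
  exact dist_le_zero.1 hfin

end MajCtx

/-- LEAF LF-S7-majode: **holomorphic solution of `w v' = v P(v)`, `v'(0) = 1/2`, on the disc given by a real majorant solution**. -/
theorem s7_majode {vc R : ℝ} {P : ℂ → ℂ} {p v₀ : ℝ → ℝ} (hvc : 0 < vc) (hR : 0 < R)
    (hP : DifferentiableOn ℂ P (ball 0 vc)) (hP0 : P 0 = 1)
    (hmaj : ∀ v ∈ ball (0 : ℂ) vc, ‖P v‖ ≤ p ‖v‖) (hreal : ∀ r ∈ Ico (0 : ℝ) vc, P (r : ℂ) = (p r : ℂ))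
    (hmono : MonotoneOn p (Ico 0 vc))
    (hv₀ : ∀ r ∈ Ioo 0 R, 0 < v₀ r ∧ v₀ r < vc ∧ HasDerivAt v₀ (v₀ r * p (v₀ r) / r) r)
    (hlim : Tendsto (fun r => v₀ r / r) (𝓝[>] 0) (𝓝 (1 / 2))) :
    ∃ vv : ℂ → ℂ, DifferentiableOn ℂ vv (ball 0 R) ∧ vv 0 = 0 ∧ deriv vv 0 = 1 / 2 ∧
      (∀ w ∈ ball (0 : ℂ) R, w ≠ 0 → ‖vv w‖ ≤ v₀ ‖w‖ ∧ vv w ≠ 0) ∧
      (∀ w ∈ ball (0 : ℂ) R, w * deriv vv w = vv w * P (vv w)) ∧
      (∀ r ∈ Ioo 0 R, vv (r : ℂ) = (v₀ r : ℂ)) := by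
  have H : MajCtx vc R P p v₀ := ⟨hvc, hR, hP, hP0, hmaj, hreal, hmono, hv₀, hlim⟩
  obtain ⟨h, h0, hA, hd⟩ := H.exists_h
  have hvd : ∀ w ∈ ball (0 : ℂ) R, HasDerivAt (fun w => MajCtx.majV w (h w))
      (1 / 2 * Complex.exp (h w) + w / 2 * (Complex.exp (h w) * MajCtx.majF P w (h w))) w := by
    intro w hw
    have h1 : HasDerivAt (fun w : ℂ => w / 2) (1 / 2) w := (hasDerivAt_id w).div_const 2
    exact h1.mul (hd w hw).cexp
  refine ⟨fun w => MajCtx.majV w (h w), fun w hw => (hvd w hw).differentiableAt.differentiableWithinAt,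
    by simp [MajCtx.majV], ?_, fun w hw hw0 => ⟨H.norm_majV_le hw hw0 (hA w hw), ?_⟩, fun w hw => ?_,
    fun r hr => ?_⟩
  · rw [(hvd 0 (mem_ball_self hR)).deriv, h0]
    simp
  · unfold MajCtx.majV
    exact mul_ne_zero (div_ne_zero hw0 two_ne_zero) (Complex.exp_ne_zero _)
  · rw [(hvd w hw).deriv]
    have h1 := H.mul_majF w (h w)
    have h2 : P (MajCtx.majV w (h w)) = 1 + w * MajCtx.majF P w (h w) := by rw [h1]; ring
    simp only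
    rw [h2]
    unfold MajCtx.majV
    ring
  · simp only
    rw [H.h_real h0 hA hd r hr, H.majV_real hr]

end Claimed.Agent.R269
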