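/-
Row 269, P1 Section 7: THE DISC SOLUTION PACKAGE (HOST-FREE, common to both profiles).   LEAF PACKAGE LF-S7-discsol (ONE FILE = ONE OWNER).   Statements: helper146.   PROVED by helper228.
PROOF.  `E' = (1/P - 1)/v` (`dslope (1/P) 0`), `E 0 = 0` (`ca_exists_primitive` on `ball 0 vc`);  `Wf v = 2 v exp(E v)`:  `v Wf' P = Wf`, `Wf' 0 = 2`.
 On `[0,vc)`: `P = p ≥ p 0 = 1` real, so `E` is real and nonincreasing, `Wf r = 2 r e^{E r}` is real, positive, `≤ 2r`, strictly increasing (`Wf' = Wf/(r p) > 0`).   `R = sup = lim_{r → vc} Wf r ≤ 2 vc`.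
 `v₀ = ` the inverse function `(0,R) → (0,vc)` (continuous strictly monotone bijection; `HasDerivAt.of_local_left_inverse`):  `v₀' = 1/Wf'(v₀) = v₀ p(v₀)/r`;  `v₀(r)/r → 1/Wf'(0) = 1/2`;  `v₀ r → vc` as `r → R`.
 `s7_majode` gives `vv`.   `Wf(vv w)/w`: the function `w ↦ Wf(vv w) - w`... use `k(w) = Wf(vv w)`: `w k' = w Wf'(vv) vv' = Wf'(vv) vv P(vv) = k`, so `(k/w)' = 0` on the punctured disc; simpler: `k` and `w` both solve `w y' = y`, `y'(0) = 1`: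
 `dslope k 0` has derivative `0` on `ball 0 R` (connected), value `k'(0) = Wf'(0) vv'(0) = 1`.
-/
import Claimed.Agent.R269.S7.MajOde

set_option autoImplicit false

namespace Claimed.Agent.R269

open Complex Filter Topology Set Metric
open scoped Real

/-! ### the disc solution -/

/-- inverse function of a strictly increasing differentiable function on `[0,c)`. -/
theorem s7_real_inverse {c : ℝ} (hc : 0 < c) {W W' : ℝ → ℝ} (hW0 : W 0 = 0) (hcont : ContinuousOn W (Ico 0 c))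
    (hd : ∀ r ∈ Ioo 0 c, HasDerivAt W (W' r) r) (hpos : ∀ r ∈ Ioo 0 c, 0 < W' r)
    (hbdd : BddAbove (W '' Ioo 0 c)) :
    ∃ (R : ℝ) (v₀ : ℝ → ℝ), 0 < R ∧ (∀ r ∈ Ioo 0 c, 0 < W r ∧ W r < R) ∧ Tendsto W (𝓝[<] c) (𝓝 R) ∧
      (∀ y ∈ Ioo 0 R, v₀ y ∈ Ioo 0 c ∧ W (v₀ y) = y ∧ HasDerivAt v₀ (W' (v₀ y))⁻¹ y) ∧
      Tendsto v₀ (𝓝[>] 0) (𝓝[>] 0) ∧ Tendsto v₀ (𝓝[<] R) (𝓝 c) := by
  have hmono : StrictMonoOn W (Ico 0 c) := by
    refine strictMonoOn_of_deriv_pos (convex_Ico 0 c) hcont ?_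
    rw [interior_Ico]
    intro r hr
    rw [(hd r hr).deriv]
    exact hpos r hr
  have hne : (Ioo 0 c).Nonempty := nonempty_Ioo.2 hc
  have hsubI : Ioo 0 c ⊆ Ico 0 c := Ioo_subset_Ico_self
  obtain ⟨R, hRdef⟩ : ∃ R, R = sSup (W '' Ioo 0 c) := ⟨_, rfl⟩
  have hWpos : ∀ r ∈ Ioo 0 c, 0 < W r := fun r hr => by
    have := hmono ⟨le_rfl, hc⟩ (hsubI hr) hr.1
    rwa [hW0] at this
  have hWlt : ∀ r ∈ Ioo 0 c, W r < R := fun r hr => by
    obtain ⟨r', h1, h2⟩ := exists_between hr.2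
    have h3 : r' ∈ Ioo 0 c := ⟨hr.1.trans h1, h2⟩
    exact (hmono (hsubI hr) (hsubI h3) h1).trans_le (hRdef ▸ le_csSup hbdd (mem_image_of_mem _ h3))
  have hR : 0 < R := by
    obtain ⟨r, hr⟩ := hne
    exact (hWpos r hr).trans (hWlt r hr)
  have hWlim : Tendsto W (𝓝[<] c) (𝓝 R) :=
    hRdef ▸ MonotoneOn.tendsto_nhdsWithin_Ioo_left hne (hmono.monotoneOn.mono hsubI) hbdd
  -- surjectivity
  have hsurj : ∀ y ∈ Ioo 0 R, ∃ ρ, ρ ∈ Ioo 0 c ∧ W ρ = y := by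
    intro y hy
    obtain ⟨_, ⟨r', hr', rfl⟩, h1⟩ := exists_lt_of_lt_csSup (hne.image W) (hRdef ▸ hy.2)
    have h2 : y ∈ Icc (W 0) (W r') := ⟨by rw [hW0]; exact hy.1.le, h1.le⟩
    obtain ⟨ρ, hρ, hρy⟩ := intermediate_value_Icc hr'.1.le
      (hcont.mono fun x hx => ⟨hx.1, hx.2.trans_lt hr'.2⟩) h2
    refine ⟨ρ, ⟨lt_of_le_of_ne hρ.1 fun h0 => ?_, hρ.2.trans_lt hr'.2⟩, hρy⟩
    rw [← h0, hW0] at hρy
    exact hy.1.ne hρy
  choose! v₀ hv₀m hv₀W using hsurj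
  have hleft : ∀ r ∈ Ioo 0 c, v₀ (W r) = r := fun r hr => by
    have hy : W r ∈ Ioo 0 R := ⟨hWpos r hr, hWlt r hr⟩
    exact hmono.injOn (hsubI (hv₀m _ hy)) (hsubI hr) (hv₀W _ hy)
  have hv₀mono : StrictMonoOn v₀ (Ioo 0 R) := by
    intro y hy y' hy' hlt
    by_contra hcon
    have h1 := hmono.monotoneOn (hsubI (hv₀m _ hy')) (hsubI (hv₀m _ hy)) (not_lt.1 hcon)
    rw [hv₀W _ hy, hv₀W _ hy'] at h1
    exact absurd hlt (not_lt.2 h1)
  have himg : v₀ '' Ioo 0 R = Ioo 0 c := by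
    ext ρ
    constructor
    · rintro ⟨y, hy, rfl⟩
      exact hv₀m y hy
    · intro hρ
      exact ⟨W ρ, ⟨hWpos ρ hρ, hWlt ρ hρ⟩, hleft ρ hρ⟩
  have hv₀c : ∀ y ∈ Ioo 0 R, ContinuousAt v₀ y := fun y hy =>
    hv₀mono.continuousAt_of_image_mem_nhds (Ioo_mem_nhds hy.1 hy.2)
      (himg ▸ Ioo_mem_nhds (hv₀m y hy).1 (hv₀m y hy).2)
  refine ⟨R, v₀, hR, fun r hr => ⟨hWpos r hr, hWlt r hr⟩, hWlim, fun y hy => ⟨hv₀m y hy, hv₀W y hy, ?_⟩, ?_, ?_⟩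
  · refine HasDerivAt.of_local_left_inverse (hv₀c y hy) (hd _ (hv₀m y hy)) (hpos _ (hv₀m y hy)).ne' ?_
    filter_upwards [Ioo_mem_nhds hy.1 hy.2] with x hx
    exact hv₀W x hx
  · rw [tendsto_nhdsWithin_iff]
    refine ⟨tendsto_order.2 ⟨fun a ha => ?_, fun a ha => ?_⟩, ?_⟩
    · filter_upwards [Ioo_mem_nhdsGT hR] with y hy
      exact ha.trans (hv₀m y hy).1
    · obtain ⟨ρ, hρ1, hρ2⟩ := exists_between (lt_min ha hc)
      have hρ : ρ ∈ Ioo 0 c := ⟨hρ1, hρ2.trans_le (min_le_right _ _)⟩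
      filter_upwards [Ioo_mem_nhdsGT (hWpos ρ hρ)] with y hy
      have hy' : y ∈ Ioo 0 R := ⟨hy.1, hy.2.trans (hWlt ρ hρ)⟩
      have := hv₀mono hy' ⟨hWpos ρ hρ, hWlt ρ hρ⟩ hy.2
      rw [hleft ρ hρ] at this
      exact this.trans (hρ2.trans_le (min_le_left _ _))
    · filter_upwards [Ioo_mem_nhdsGT hR] with y hy
      exact (hv₀m y hy).1
  · refine tendsto_order.2 ⟨fun a ha => ?_, fun a ha => ?_⟩
    · obtain ⟨ρ, hρ1, hρ2⟩ := exists_between (max_lt ha hc)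
      have hρ : ρ ∈ Ioo 0 c := ⟨(le_max_right _ _).trans_lt hρ1, hρ2⟩
      filter_upwards [Ioo_mem_nhdsLT (hWlt ρ hρ)] with y hy
      have hy' : y ∈ Ioo 0 R := ⟨(hWpos ρ hρ).trans hy.1, hy.2⟩
      have := hv₀mono ⟨hWpos ρ hρ, hWlt ρ hρ⟩ hy' hy.1
      rw [hleft ρ hρ] at this
      exact ((le_max_left _ _).trans_lt hρ1).trans this
    · filter_upwards [Ioo_mem_nhdsLT hR] with y hy
      exact (hv₀m y hy).2.trans ha

theorem s7_const_of_deriv_zero {f : ℝ → ℝ} {a b : ℝ} (hc : ContinuousOn f (Ico a b))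
    (hd : ∀ x ∈ Ioo a b, HasDerivAt f 0 x) : ∀ x ∈ Ico a b, f x = f a := by
  intro x hx
  have ha : a ∈ Ico a b := ⟨le_rfl, hx.1.trans_lt hx.2⟩
  have hdiff : DifferentiableOn ℝ f (interior (Ico a b)) := by
    rw [interior_Ico]
    exact fun y hy => (hd y hy).differentiableAt.differentiableWithinAt
  have h1 : MonotoneOn f (Ico a b) := monotoneOn_of_deriv_nonneg (convex_Ico a b) hc hdiff (by
    rw [interior_Ico]
    intro y hy
    rw [(hd y hy).deriv])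
  have h2 : AntitoneOn f (Ico a b) := antitoneOn_of_deriv_nonpos (convex_Ico a b) hc hdiff (by
    rw [interior_Ico]
    intro y hy
    rw [(hd y hy).deriv])
  exact le_antisymm (h2 ha hx hx.1) (h1 ha hx hx.1)

/-- identity theorem on a disc from agreement on the positive radius. -/
theorem s7_eqOn_of_radius {f g : ℂ → ℂ} {R : ℝ} (hR : 0 < R) (hf : DifferentiableOn ℂ f (ball 0 R))
    (hg : DifferentiableOn ℂ g (ball 0 R)) (h : ∀ r ∈ Ioo 0 R, f (r : ℂ) = g (r : ℂ)) :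
    EqOn f g (ball 0 R) := by
  have hz₀ : ((R / 2 : ℝ) : ℂ) ∈ ball (0 : ℂ) R := by
    rw [mem_ball_zero_iff, Complex.norm_real, Real.norm_eq_abs, abs_of_pos (by linarith)]
    linarith
  refine (hf.analyticOnNhd isOpen_ball).eqOn_of_preconnected_of_frequently_eq (hg.analyticOnNhd isOpen_ball)
    (convex_ball 0 R).isPreconnected hz₀ ?_
  have ht : Tendsto (fun x : ℝ => (x : ℂ)) (𝓝[>] (R / 2)) (𝓝[≠] ((R / 2 : ℝ) : ℂ)) := by
    rw [tendsto_nhdsWithin_iff]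
    refine ⟨(Complex.continuous_ofReal.tendsto _).mono_left nhdsWithin_le_nhds, ?_⟩
    filter_upwards [self_mem_nhdsWithin] with x hx
    have hx' : R / 2 < x := hx
    simp only [mem_compl_iff, mem_singleton_iff]
    exact_mod_cast hx'.ne'
  refine ht.frequently (Eventually.frequently ?_)
  filter_upwards [Ioo_mem_nhdsGT (show R / 2 < R by linarith)] with x hx
  exact h x ⟨by linarith [hx.1], hx.2⟩

set_option maxHeartbeats 1600000 in
/-- LEAF LF-S7-discsol: **the disc solution package** (common to both profiles). -/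
theorem s7_disc_solution {vc : ℝ} {P : ℂ → ℂ} {p : ℝ → ℝ} (hvc : 0 < vc)
    (hP : DifferentiableOn ℂ P (ball 0 vc)) (hP0 : P 0 = 1) (hne : ∀ v ∈ ball (0 : ℂ) vc, P v ≠ 0)
    (hmaj : ∀ v ∈ ball (0 : ℂ) vc, ‖P v‖ ≤ p ‖v‖) (hreal : ∀ r ∈ Ico (0 : ℝ) vc, P (r : ℂ) = (p r : ℂ))
    (hmono : MonotoneOn p (Ico 0 vc)) :
    ∃ (Wf vv : ℂ → ℂ) (R : ℝ), 0 < R ∧ DifferentiableOn ℂ Wf (ball 0 vc) ∧ Wf 0 = 0 ∧ deriv Wf 0 = 2 ∧
      (∀ v ∈ ball (0 : ℂ) vc, v * deriv Wf v * P v = Wf v) ∧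
      (∀ r ∈ Ioo 0 vc, (Wf (r : ℂ)).im = 0 ∧ 0 < (Wf (r : ℂ)).re ∧ (Wf (r : ℂ)).re < R) ∧
      Tendsto (fun r : ℝ => Wf (r : ℂ)) (𝓝[<] vc) (𝓝 (R : ℂ)) ∧
      DifferentiableOn ℂ vv (ball 0 R) ∧ vv 0 = 0 ∧ deriv vv 0 = 1 / 2 ∧
      (∀ w ∈ ball (0 : ℂ) R, vv w ∈ ball (0 : ℂ) vc ∧ Wf (vv w) = w) ∧
      (∀ w ∈ ball (0 : ℂ) R, w ≠ 0 → vv w ≠ 0) ∧
      (∀ w ∈ ball (0 : ℂ) R, w * deriv vv w = vv w * P (vv w)) ∧
      (∀ r ∈ Ioo 0 R, (vv (r : ℂ)).im = 0 ∧ 0 < (vv (r : ℂ)).re) ∧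
      Tendsto (fun r : ℝ => vv (r : ℂ)) (𝓝[<] R) (𝓝 (vc : ℂ)) := by
  -- the exponent
  obtain ⟨e, hedef⟩ : ∃ e : ℂ → ℂ, e = dslope (fun v => (P v)⁻¹) 0 := ⟨_, rfl⟩
  have he : DifferentiableOn ℂ e (ball 0 vc) :=
    hedef ▸ (Complex.differentiableOn_dslope (ball_mem_nhds 0 hvc)).2 (hP.inv hne)
  have hemul : ∀ x : ℂ, x * e x = (P x)⁻¹ - 1 := by
    intro x
    have := sub_smul_dslope (fun v => (P v)⁻¹) 0 x
    simp only [sub_zero, smul_eq_mul, hP0, inv_one] at this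
    rw [hedef]
    exact this
  obtain ⟨E, hE0, hE⟩ := ca_exists_primitive_E isOpen_ball (convex_ball 0 vc) he 0 0
  obtain ⟨Wf, hWfdef⟩ : ∃ Wf : ℂ → ℂ, Wf = fun v => 2 * v * Complex.exp (E v) := ⟨_, rfl⟩
  have hWd : ∀ v ∈ ball (0 : ℂ) vc, HasDerivAt Wf (2 * Complex.exp (E v) * (P v)⁻¹) v := by
    intro v hv
    have h1 : HasDerivAt (fun v : ℂ => 2 * v) 2 v := by simpa using (hasDerivAt_id v).const_mul 2
    have h2 := h1.mul (hE v hv).cexp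
    rw [hWfdef]
    refine h2.congr_deriv ?_
    have := hemul v
    linear_combination (2 * Complex.exp (E v)) * this
  -- real points
  have hmemr : ∀ r ∈ Ico 0 vc, (r : ℂ) ∈ ball (0 : ℂ) vc := fun r hr => by
    rw [mem_ball_zero_iff, Complex.norm_real, Real.norm_eq_abs, abs_of_nonneg hr.1]; exact hr.2
  have hsubI : Ioo 0 vc ⊆ Ico 0 vc := Ioo_subset_Ico_self
  have h0I : (0 : ℝ) ∈ Ico 0 vc := ⟨le_rfl, hvc⟩
  have hp0 : p 0 = 1 := by
    have h1 := hreal 0 h0I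
    rw [Complex.ofReal_zero, hP0] at h1
    exact_mod_cast h1.symm
  have hp1 : ∀ r ∈ Ico 0 vc, 1 ≤ p r := fun r hr => hp0 ▸ hmono h0I hr hr.1
  have her : ∀ r ∈ Ioo 0 vc, e (r : ℂ) = ((((p r)⁻¹ - 1) / r : ℝ) : ℂ) := by
    intro r hr
    have h1 := hemul (r : ℂ)
    rw [hreal r (hsubI hr)] at h1
    have hr0 : (r : ℂ) ≠ 0 := by exact_mod_cast hr.1.ne'
    push_cast
    rw [eq_div_iff hr0, mul_comm]
    exact h1
  have hEre : ∀ r ∈ Ico 0 vc, HasDerivAt (fun x : ℝ => (E (x : ℂ)).re) (e (r : ℂ)).re r := fun r hr =>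
    (hE _ (hmemr r hr)).real_of_complex
  have hEim : ∀ r ∈ Ico 0 vc, HasDerivAt (fun x : ℝ => (E (x : ℂ)).im) (e (r : ℂ)).im r := fun r hr => by
    have h1 : HasDerivAt (fun x : ℝ => E (x : ℂ)) (e (r : ℂ)) r := (hE _ (hmemr r hr)).comp_ofReal
    have h2 := Complex.imCLM.hasFDerivAt.comp_hasDerivAt r h1
    simpa [Function.comp_def] using h2
  have him0 : ∀ r ∈ Ico 0 vc, (E (r : ℂ)).im = 0 := by
    intro r hr
    have := s7_const_of_deriv_zero (f := fun x : ℝ => (E (x : ℂ)).im) (a := 0) (b := vc)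
      (fun x hx => (hEim x hx).continuousAt.continuousWithinAt)
      (fun x hx => by
        have := hEim x (hsubI hx)
        rwa [her x hx, Complex.ofReal_im] at this) r hr
    simpa [hE0] using this
  obtain ⟨Er, hErdef⟩ : ∃ Er : ℝ → ℝ, Er = fun x : ℝ => (E (x : ℂ)).re := ⟨_, rfl⟩
  have hEr0 : Er 0 = 0 := by rw [hErdef]; simp [hE0]
  have hEeq : ∀ r ∈ Ico 0 vc, E (r : ℂ) = (Er r : ℂ) := fun r hr =>
    Complex.ext (by rw [hErdef]; simp) (by rw [him0 r hr]; simp)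
  have hErd : ∀ r ∈ Ico 0 vc, HasDerivAt Er (e (r : ℂ)).re r := fun r hr => hErdef ▸ hEre r hr
  have hErle : ∀ r ∈ Ico 0 vc, Er r ≤ 0 := by
    intro r hr
    have hanti : AntitoneOn Er (Ico 0 vc) := by
      refine antitoneOn_of_deriv_nonpos (convex_Ico 0 vc)
        (fun x hx => (hErd x hx).continuousAt.continuousWithinAt) ?_ ?_
      · rw [interior_Ico]
        exact fun x hx => (hErd x (hsubI hx)).differentiableAt.differentiableWithinAt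
      · rw [interior_Ico]
        intro x hx
        rw [(hErd x (hsubI hx)).deriv, her x hx, Complex.ofReal_re]
        have h1 := hp1 x (hsubI hx)
        have h2 : (p x)⁻¹ ≤ 1 := inv_le_one_of_one_le₀ h1
        exact div_nonpos_of_nonpos_of_nonneg (by linarith) hx.1.le
    have := hanti h0I hr hr.1
    rwa [hEr0] at this
  have hWfr : ∀ r ∈ Ico 0 vc, Wf (r : ℂ) = ((2 * r * Real.exp (Er r) : ℝ) : ℂ) := fun r hr => by
    rw [hWfdef]
    simp only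
    rw [hEeq r hr]
    push_cast
    ring
  obtain ⟨W, hWdef⟩ : ∃ W : ℝ → ℝ, W = fun x : ℝ => (Wf (x : ℂ)).re := ⟨_, rfl⟩
  have hWr : ∀ r ∈ Ico 0 vc, W r = 2 * r * Real.exp (Er r) := fun r hr => by
    rw [hWdef]
    simp only
    rw [hWfr r hr, Complex.ofReal_re]
  have hWfW : ∀ r ∈ Ico 0 vc, Wf (r : ℂ) = (W r : ℂ) := fun r hr => by rw [hWfr r hr, hWr r hr]
  have hWder : ∀ r ∈ Ico 0 vc, HasDerivAt W (2 * Real.exp (Er r) * (p r)⁻¹) r := by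
    intro r hr
    have h1 := (hWd _ (hmemr r hr)).real_of_complex
    rw [hWdef]
    refine h1.congr_deriv ?_
    rw [hEeq r hr, hreal r hr]
    have : (2 * Complex.exp (Er r : ℂ) * ((p r : ℝ) : ℂ)⁻¹) = ((2 * Real.exp (Er r) * (p r)⁻¹ : ℝ) : ℂ) := by
      push_cast; ring
    rw [this, Complex.ofReal_re]
  obtain ⟨R, v₀, hR, hWR, hWlim, hv₀, hv₀lim0, hv₀limR⟩ := s7_real_inverse hvc (W := W)
    (W' := fun r => 2 * Real.exp (Er r) * (p r)⁻¹) (by rw [hWr 0 h0I]; simp)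
    (fun r hr => (hWder r hr).continuousAt.continuousWithinAt) (fun r hr => hWder r (hsubI hr))
    (fun r hr => by
      have := hp1 r (hsubI hr)
      have : 0 < p r := by linarith
      positivity)
    ⟨2 * vc, by
      rintro _ ⟨r, hr, rfl⟩
      rw [hWr r (hsubI hr)]
      have h1 : Real.exp (Er r) ≤ 1 := Real.exp_le_one_iff.2 (hErle r (hsubI hr))
      have := hr.1
      have := hr.2
      nlinarith⟩
  -- the hypotheses of the majorant lemma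
  have hv₀' : ∀ r ∈ Ioo 0 R, 0 < v₀ r ∧ v₀ r < vc ∧ HasDerivAt v₀ (v₀ r * p (v₀ r) / r) r := by
    intro r hr
    obtain ⟨h1, h2, h3⟩ := hv₀ r hr
    refine ⟨h1.1, h1.2, h3.congr_deriv ?_⟩
    have h4 := hWr _ (hsubI h1)
    rw [h2] at h4
    have h5 := hp1 _ (hsubI h1)
    have h6 : 0 < p (v₀ r) := by linarith
    have h7 := h1.1
    have h8 := Real.exp_pos (Er (v₀ r))
    generalize v₀ r = x at h4 h6 h7 h8 ⊢
    generalize Real.exp (Er x) = y at h4 h8 ⊢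
    rw [h4]
    field_simp
  have hlim : Tendsto (fun r => v₀ r / r) (𝓝[>] 0) (𝓝 (1 / 2)) := by
    have h1 : Tendsto (fun r => Er (v₀ r)) (𝓝[>] 0) (𝓝 (Er 0)) :=
      ((hErd 0 h0I).continuousAt.tendsto.mono_left nhdsWithin_le_nhds).comp hv₀lim0
    have h2 : Tendsto (fun r => (2 * Real.exp (Er (v₀ r)))⁻¹) (𝓝[>] 0) (𝓝 (2 * Real.exp (Er 0))⁻¹) :=
      (((Real.continuous_exp.tendsto _).comp h1).const_mul 2).inv₀ (by positivity)
    have h3 : (2 * Real.exp (Er 0))⁻¹ = 1 / 2 := by rw [hEr0]; simp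
    rw [h3] at h2
    refine h2.congr' ?_
    filter_upwards [Ioo_mem_nhdsGT hR] with r hr
    obtain ⟨h1, h2, -⟩ := hv₀ r hr
    have h4 := hWr _ (hsubI h1)
    rw [h2] at h4
    have h7 := h1.1
    have h8 := Real.exp_pos (Er (v₀ r))
    generalize v₀ r = x at h4 h7 h8 ⊢
    generalize Real.exp (Er x) = y at h4 h8 ⊢
    rw [h4]
    field_simp
  obtain ⟨vv, a1, a2, a3, a4, a5, a6⟩ := s7_majode hvc hR hP hP0 hmaj hreal hmono hv₀' hlim
  have hvvmem : ∀ w ∈ ball (0 : ℂ) R, vv w ∈ ball (0 : ℂ) vc := by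
    intro w hw
    by_cases hw0 : w = 0
    · rw [hw0, a2]; exact mem_ball_self hvc
    · have hr : ‖w‖ ∈ Ioo 0 R := ⟨norm_pos_iff.2 hw0, by simpa using hw⟩
      rw [mem_ball_zero_iff]
      exact (a4 w hw hw0).1.trans_lt (hv₀' _ hr).2.1
  have hWfdiff : DifferentiableOn ℂ Wf (ball 0 vc) := fun v hv =>
    (hWd v hv).differentiableAt.differentiableWithinAt
  have hcomp : EqOn (fun w => Wf (vv w)) (fun w => w) (ball 0 R) :=
    s7_eqOn_of_radius hR (hWfdiff.comp a1 hvvmem) differentiableOn_id fun r hr => by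
      obtain ⟨h1, h2, -⟩ := hv₀ r hr
      rw [a6 r hr, hWfW _ (hsubI h1), h2]
  refine ⟨Wf, vv, R, hR, hWfdiff, by rw [hWfdef]; simp, ?_, fun v hv => ?_, fun r hr => ?_, ?_, a1, a2, a3,
    fun w hw => ⟨hvvmem w hw, hcomp hw⟩, fun w hw hw0 => (a4 w hw hw0).2, a5, fun r hr => ?_, ?_⟩
  · rw [(hWd 0 (mem_ball_self hvc)).deriv, hE0, hP0]
    simp
  · rw [(hWd v hv).deriv, hWfdef]
    have := hne v hv
    field_simp
  · rw [hWfW r (hsubI hr)]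
    exact ⟨Complex.ofReal_im _, by simpa using (hWR r hr).1, by simpa using (hWR r hr).2⟩
  · have h1 : Tendsto (fun r : ℝ => ((W r : ℝ) : ℂ)) (𝓝[<] vc) (𝓝 (R : ℂ)) :=
      (Complex.continuous_ofReal.tendsto R).comp hWlim
    refine h1.congr' ?_
    filter_upwards [Ioo_mem_nhdsLT hvc] with r hr
    exact (hWfW r (hsubI hr)).symm
  · rw [a6 r hr]
    exact ⟨Complex.ofReal_im _, by simpa using (hv₀' r hr).1⟩
  · have h1 : Tendsto (fun r : ℝ => ((v₀ r : ℝ) : ℂ)) (𝓝[<] R) (𝓝 (vc : ℂ)) :=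
      (Complex.continuous_ofReal.tendsto vc).comp hv₀limR
    refine h1.congr' ?_
    filter_upwards [Ioo_mem_nhdsLT hR] with r hr
    exact (a6 r hr).symm

end Claimed.Agent.R269
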