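/-
Row 269, P1 Section 7, Theorem 7.7 (07-profiles.tex l.893-1093: exclusion of entire and infinite-order growth).   DEFINITIONS.   Author: helper167.

HOST-FREE context `S7gPair H f q` (a pair `(f,q)` on the strip `estrip H`, `H ∈ (0,∞]`), row maximum `s7gRho f`, and the two interfaces
* `S7gSel H ρ α₀ h ℓ v C`          OUTPUT of part (A) (real-variable selection, S7/GrowthSel.lean, `s7g_select`);
* `S7gProfile H f q α₀ x h ℓ m c₀ C`   OUTPUT of part (B) in host-free form = all hypotheses of Theorem 7.1 (first profile), coarse bound horizontally global and down to the real row.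

DESIGN (differences to the paper, all re-derived by helper167):
* the flat-slope selection (7.flat-slope-selection) (inverse function, Stieltjes measure, maximal inequality) is replaced by an elementary discrete argument:
  grid heights `hs j` with `ρ (hs j) = ρ 0 + j`, `hs 0 = 0`, gaps `g j = hs (j+1) - hs j` (antitone by convexity), and the index minimising `- log g i - ε i`;
* "a growing Fourier mode" is replaced by Liouville: `ρ` bounded above ⇒ `f` bounded entire ⇒ constant; an even convex unbounded `ρ` is all that the selection needs;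
* the limit `F = c₀ e^{-iS}` follows from Borel-Caratheodory (`Complex.borelCaratheodory_zero` applied to `e^{iS} F_n(S)/F_n(0) - 1`, real part `≤ e^ε - 1`): no normal families; only the phase
  `F_n(0)` needs a subsequence (compactness of the unit circle);
* ANY polynomial bound `‖q‖ ≤ C (1+K)^a / Δ^b` is enough for `q/m² → 0`, for the `q`-part of the coarse bound and for "infinite order of `M` ⇒ infinite order of `|f|`".
-/
import Claimed.Agent.R269.ShapeBasic

set_option autoImplicit false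

namespace Claimed.Agent.R269

open Complex ComplexConjugate Filter Topology
open scoped ENNReal Real

/-- the interval `(-H,H)` of heights of the strip `estrip H`. -/
def s7gI (H : ℝ≥0∞) : Set ℝ := {h | ENNReal.ofReal |h| < H}

/-- HOST-FREE context of unit S7d: a periodic, real-symmetric, nonconstant first field `f`, zero-free on the real row, such that `q = f''/f` is holomorphic. -/
structure S7gPair (H : ℝ≥0∞) (f q : ℂ → ℂ) : Prop where
  f_diff : DifferentiableOn ℂ f (estrip H)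
  q_diff : DifferentiableOn ℂ q (estrip H)
  f_per : ∀ s ∈ estrip H, f (s + 2 * π) = f s
  f_conj : ∀ s ∈ estrip H, f (conj s) = conj (f s)
  ode : ∀ s ∈ estrip H, deriv (deriv f) s = q s * f s
  f_real : ∀ x : ℝ, f (x : ℂ) ≠ 0
  noncst : ¬ ∃ c : ℂ, ∀ s ∈ estrip H, f s = c
  H_pos : 0 < H

/-- row supremum `max_x |f(x + i h)|`. -/
noncomputable def s7gRow (f : ℂ → ℂ) (h : ℝ) : ℝ := ⨆ x : ℝ, ‖f (⟨x, h⟩ : ℂ)‖

/-- `ρ(h) = log max_x |f(x + i h)|`. -/
noncomputable def s7gRho (f : ℂ → ℂ) (h : ℝ) : ℝ := Real.log (s7gRow f h)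

/-- infinite upper order of `ρ` relative to `log (1/(H-h))` at a finite wall. -/
def S7gInfOrder (H : ℝ≥0∞) (ρ : ℝ → ℝ) : Prop :=
  ∀ C d₀ : ℝ, 0 < d₀ → ∃ h : ℝ, 0 ≤ h ∧ h < H.toReal ∧ H.toReal - h < d₀ ∧
    C * Real.log (1 / (H.toReal - h)) < ρ h

/-- grid of heights: `ρ (hs j) = ρ 0 + j`. -/
structure S7gGrid (ρ : ℝ → ℝ) (I : Set ℝ) (hs : ℕ → ℝ) : Prop where
  zero : hs 0 = 0
  mem : ∀ j, hs j ∈ I
  val : ∀ j, ρ (hs j) = ρ 0 + j
  smono : StrictMono hs
  anti : Antitone fun j => hs (j + 1) - hs j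

/-- OUTPUT of the real-variable selection (P1 (7.selected-scales)-(7.selected-log-range)): heights `h n`, lengths `ℓ n`, values `v n = ρ (h n) = log m n`. -/
structure S7gSel (H : ℝ≥0∞) (ρ : ℝ → ℝ) (α₀ : ℝ) (h ℓ v : ℕ → ℝ) (C : ℝ) : Prop where
  pos : ∀ n, 0 < ℓ n ∧ ℓ n ≤ C ∧ 0 < h n ∧ h n ∈ s7gI H
  val : ∀ n, ρ (h n) = v n
  v_top : Tendsto v atTop atTop
  logl : Tendsto (fun n => Real.log (ℓ n) / v n) atTop (𝓝 0)
  logh : Tendsto (fun n => Real.log (1 + h n / ℓ n) / v n) atTop (𝓝 0)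
  window : ∀ U ε : ℝ, 0 < ε → ∀ᶠ n in atTop, ∀ u : ℝ, |u| ≤ U →
    0 ≤ h n + ℓ n * u ∧ h n + ℓ n * u ∈ s7gI H ∧ |ρ (h n + ℓ n * u) - v n - u| ≤ ε
  coarse : ∀ n, ∀ y : ℝ, 0 ≤ y → y ≤ h n - ℓ n →
    ρ y ≤ v n - α₀ * Real.log ((h n - y) / ℓ n) + 1
  exhaust : ∀ c ∈ s7gI H, ∀ᶠ n in atTop, c < h n

/-- OUTPUT of the unit in host-free form: all hypotheses of Theorem 7.1 (first profile), with horizontally global coarse bounds down to the real row. -/
structure S7gProfile (H : ℝ≥0∞) (f q : ℂ → ℂ) (α₀ : ℝ) (x h ℓ m : ℕ → ℝ) (c₀ : ℂ) (C : ℝ) : Prop where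
  c₀_ne : c₀ ≠ 0
  pos : ∀ n, 0 < ℓ n ∧ ℓ n ≤ C ∧ 0 < m n ∧ 0 < h n ∧ h n ∈ s7gI H
  b_top : Tendsto (fun n => ℓ n * m n) atTop atTop
  exhaust : ∀ c ∈ s7gI H, ∀ᶠ n in atTop, c < h n
  room : ∀ U : ℝ, ∀ᶠ n in atTop, h n + ℓ n * U ∈ s7gI H
  lim_f : TendstoLocallyUniformly (fun n S => f (⟨x n, h n⟩ + (ℓ n : ℂ) * S) / (m n : ℂ))
    (fun S => c₀ * Complex.exp (-(I * S))) atTop
  lim_q : TendstoLocallyUniformly (fun n S => q (⟨x n, h n⟩ + (ℓ n : ℂ) * S) / (m n : ℂ) ^ 2)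
    (fun _ => 0) atTop
  cone : ∀ᶠ n in atTop, ∀ s : ℂ, 0 ≤ s.im → ℓ n ≤ h n - s.im →
    max ‖f s‖ (Real.sqrt ‖q s‖) ≤ C * m n * (ℓ n / (h n - s.im)) ^ α₀
  logh : Tendsto (fun n => Real.log (1 + h n / ℓ n) / Real.log (m n)) atTop (𝓝 0)

end Claimed.Agent.R269
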