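/-
Row 269, P1 Section 7, Theorem 7.7: EVERYTHING WITH `q`.   Owner: helper251 (split agreed with helper167, who owns S7/GrowthDefs, GrowthSel, GrowthMain).

* `s7q_core`       periodic form of the log-deficit estimate (P1 (7.periodic-q-bound)), host-free, real half-width `H'`:
                   `D √|q(x+iy)| ≤ C (1 + 4 max(K - L₀, 0)/D)`, `L₀` = mean of `log|f|` over the real row, `C` absolute.
                   From `s7_log_deficit` (S7/LogDefMain), `s7q_ball_le_rect` (disc ⊆ rectangle, rows inside), `s8_deficit_row` (S8/LibLogB) and periodicity (`D ≤ 1 < π`: one period covers the rows of the disc).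
* `s7q_bound`      (Q1) the same for an `S7gPair`: `√|q(x+iy)| ≤ C (1+K)/D²`, `C = C(f)`.
* `Shape.s7q_inf_order`   (Q2) `H < ∞`, `¬ order < ⊤` ⇒ `S7gInfOrder Sh.H (s7gRho Sh.f)`.
-/
import Claimed.Agent.R269.S7.GrowthDefs
import Claimed.Agent.R269.S7.LogDefMain
import Claimed.Agent.R269.S8.LibMean
import Claimed.Agent.R269.S8.LibLogB

set_option autoImplicit false

namespace Claimed.Agent.R269

open Complex ComplexConjugate MeasureTheory Set Metric Filter Topology
open scoped ENNReal Real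

/-- the integral over a disc is at most the iterated integral (rows inside) over a rectangle containing it (no measurability needed). -/
theorem s7q_ball_le_rect (F : ℂ → ℝ≥0∞) (c : ℂ) (r a₁ a₂ y₁ y₂ : ℝ)
    (hsub : ∀ z ∈ ball c r, (a₁ ≤ z.re ∧ z.re ≤ a₂) ∧ y₁ ≤ z.im ∧ z.im ≤ y₂) :
    ∫⁻ z in ball c r, F z ≤ ∫⁻ y in Icc y₁ y₂, ∫⁻ a in Icc a₁ a₂, F ⟨a, y⟩ := by
  rw [← lintegral_indicator measurableSet_ball]
  obtain ⟨G, hGm, hGle, hGeq⟩ :=
    exists_measurable_le_lintegral_eq (volume : Measure ℂ) ((ball c r).indicator F)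
  rw [hGeq]
  have h1 : ∫⁻ z, G z = ∫⁻ p : ℝ × ℝ, G (Complex.measurableEquivRealProd.symm p) := by
    rw [← (Complex.volume_preserving_equiv_real_prod.symm).lintegral_comp_emb
      Complex.measurableEquivRealProd.symm.measurableEmbedding]
  have hGm' : Measurable (fun p : ℝ × ℝ => G (Complex.measurableEquivRealProd.symm p)) :=
    hGm.comp Complex.measurableEquivRealProd.symm.measurable
  rw [h1, Measure.volume_eq_prod, lintegral_prod_symm _ hGm'.aemeasurable,
    ← lintegral_indicator measurableSet_Icc]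
  apply lintegral_mono
  intro b
  have h3 : ∀ a : ℝ, G (Complex.measurableEquivRealProd.symm (a, b))
      ≤ (ball c r).indicator F ⟨a, b⟩ := fun a => hGle _
  show ∫⁻ a : ℝ, G (Complex.measurableEquivRealProd.symm (a, b)) ≤
    (Icc y₁ y₂).indicator (fun y => ∫⁻ a in Icc a₁ a₂, F ⟨a, y⟩) b
  by_cases hb : b ∈ Icc y₁ y₂
  · rw [indicator_of_mem hb, ← lintegral_indicator measurableSet_Icc]
    apply lintegral_mono
    intro a
    refine (h3 a).trans ?_
    by_cases hz : (⟨a, b⟩ : ℂ) ∈ ball c r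
    · have := hsub _ hz
      have ha : a ∈ Icc a₁ a₂ := ⟨this.1.1, this.1.2⟩
      rw [indicator_of_mem hz]
      show F ⟨a, b⟩ ≤ (Icc a₁ a₂).indicator (fun a => F ⟨a, b⟩) a
      rw [indicator_of_mem ha]
    · rw [indicator_of_notMem hz]
      exact zero_le
  · rw [indicator_of_notMem hb]
    have : ∀ a : ℝ, G (Complex.measurableEquivRealProd.symm (a, b)) = 0 := by
      intro a
      have hz : (⟨a, b⟩ : ℂ) ∉ ball c r := by
        intro hz
        have := (hsub _ hz).2
        exact hb ⟨this.1, this.2⟩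
      have := h3 a
      rw [indicator_of_notMem hz] at this
      exact le_antisymm this zero_le
    rw [lintegral_congr this, lintegral_zero]

/-- a short interval is covered by one period. -/
theorem s7q_row (g : ℝ → ℝ≥0∞) (hg : Function.Periodic g (2 * π)) (x D : ℝ) (hD : D ≤ 1) :
    ∫⁻ a in Icc (x - D) (x + D), g a ≤ ∫⁻ a in Ico 0 (2 * π), g a := by
  have : Fact (0 < 2 * π) := ⟨by positivity⟩
  have hpi := Real.pi_gt_three
  have h1 : Icc (x - D) (x + D) ⊆ Ioc (x - π) (x - π + 2 * π) := by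
    intro a ha
    exact ⟨by linarith [ha.1], by linarith [ha.2]⟩
  have h2 : ∀ t : ℝ, ∫⁻ a in Ioc t (t + 2 * π), g a = ∫⁻ b : AddCircle (2 * π), hg.lift b := by
    intro t
    rw [← AddCircle.lintegral_preimage (2 * π) t hg.lift]
    rfl
  calc ∫⁻ a in Icc (x - D) (x + D), g a ≤ ∫⁻ a in Ioc (x - π) (x - π + 2 * π), g a :=
        lintegral_mono_set h1
    _ = ∫⁻ a in Ioc 0 (0 + 2 * π), g a := by rw [h2, h2]
    _ = ∫⁻ a in Ico 0 (2 * π), g a := by
        rw [zero_add]
        exact setLIntegral_congr Ico_ae_eq_Ioc.symm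

theorem s7q_strip_convex (H : ℝ) : Convex ℝ {z : ℂ | |z.im| < H} := by
  have h : {z : ℂ | |z.im| < H} = Complex.imCLM ⁻¹' (Ioo (-H) H) := by
    ext z
    simp [abs_lt]
  rw [h]
  exact (convex_Ioo _ _).linear_preimage Complex.imCLM.toLinearMap

/-- periodic form of the log-deficit estimate (P1 (7.periodic-q-bound)). -/
theorem s7q_core : ∃ C : ℝ, 0 < C ∧ ∀ (f q : ℂ → ℂ) (H' : ℝ),
    DifferentiableOn ℂ f {z : ℂ | |z.im| < H'} → DifferentiableOn ℂ q {z : ℂ | |z.im| < H'} →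
    (∀ z : ℂ, |z.im| < H' → deriv (deriv f) z = q z * f z) →
    (∀ z : ℂ, |z.im| < H' → f (z + 2 * π) = f z) →
    (∀ z : ℂ, |z.im| < H' → ‖f (conj z)‖ = ‖f z‖) → (∀ x : ℝ, f (x : ℂ) ≠ 0) →
    ∀ x y D K : ℝ, 0 < D → D ≤ 1 → |y| + D < H' →
      (∀ z : ℂ, |z.im| ≤ |y| + D → ‖f z‖ ≤ Real.exp K) →
      D * Real.sqrt ‖q ⟨x, y⟩‖ ≤ C * (1 + 4 *
        max (K - (2 * π)⁻¹ * ∫ t in (0 : ℝ)..(2 * π), Real.log ‖f (t : ℂ)‖) 0 / D) := by
  obtain ⟨C, hC, hld⟩ := s7_log_deficit
  refine ⟨C, hC, ?_⟩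
  intro f q H' hf hq hode hper hsym hreal x y D K hD hD1 hyD hK
  set c : ℂ := ⟨x, y⟩ with hc
  set L₀ : ℝ := (2 * π)⁻¹ * ∫ t in (0 : ℝ)..(2 * π), Real.log ‖f (t : ℂ)‖ with hL₀
  set t : ℝ := max (K - L₀) 0 with ht
  have ht0 : 0 ≤ t := le_max_right _ _
  have hpi := Real.pi_pos
  have him : ∀ z ∈ ball c D, |z.im - y| < D := by
    intro z hz
    rw [mem_ball, dist_eq_norm] at hz
    have := Complex.abs_im_le_norm (z - c)
    rw [Complex.sub_im] at this
    exact lt_of_le_of_lt this hz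
  have hre : ∀ z ∈ ball c D, |z.re - x| < D := by
    intro z hz
    rw [mem_ball, dist_eq_norm] at hz
    have := Complex.abs_re_le_norm (z - c)
    rw [Complex.sub_re] at this
    exact lt_of_le_of_lt this hz
  have him' : ∀ z ∈ ball c D, |z.im| < |y| + D := by
    intro z hz
    have h1 := him z hz
    have h2 : |z.im| ≤ |z.im - y| + |y| := by
      have := abs_add_le (z.im - y) y
      rwa [sub_add_cancel] at this
    linarith
  have hball : ball c D ⊆ {z : ℂ | |z.im| < H'} := fun z hz => (him' z hz).trans hyD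
  have hH' : 0 < H' := lt_of_le_of_lt (by positivity) hyD
  have hne : ∃ z ∈ ball c D, f z ≠ 0 := by
    by_contra hcon
    push Not at hcon
    have han : AnalyticOnNhd ℂ f {z : ℂ | |z.im| < H'} := hf.analyticOnNhd (ca_strip_isOpen H')
    have hz : f =ᶠ[𝓝 c] 0 := by
      filter_upwards [isOpen_ball.mem_nhds (mem_ball_self hD)] with z hz
      exact hcon z hz
    have := han.eqOn_zero_of_preconnected_of_eventuallyEq_zero
      (s7q_strip_convex H').isPreconnected (hball (mem_ball_self hD)) hz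
    have h0 : ((0 : ℝ) : ℂ) ∈ {z : ℂ | |z.im| < H'} := by simpa using hH'
    exact hreal 0 (this h0)
  have hmain := hld f q c D K hD (hf.mono hball) (hq.mono hball) (fun z hz => hode z (hball hz)) hne
    (fun z hz => hK z (him' z hz).le) c (mem_ball_self (by positivity))
  set F : ℂ → ℝ≥0∞ := fun w => ENNReal.ofReal (K - Real.log ‖f w‖) with hF
  have hrect : ∫⁻ w in ball c D, F w ≤
      ∫⁻ y' in Icc (y - D) (y + D), ∫⁻ a in Icc (x - D) (x + D), F ⟨a, y'⟩ := by
    apply s7q_ball_le_rect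
    intro z hz
    have h1 := abs_lt.1 (him z hz)
    have h2 := abs_lt.1 (hre z hz)
    exact ⟨⟨by linarith [h2.1], by linarith [h2.2]⟩, by linarith [h1.1], by linarith [h1.2]⟩
  have hrow : ∀ y' ∈ Icc (y - D) (y + D), ∫⁻ a in Icc (x - D) (x + D), F ⟨a, y'⟩ ≤
      ENNReal.ofReal (2 * π) * ENNReal.ofReal t := by
    intro y' hy'
    have hy1 : |y'| ≤ |y| + D := by
      rw [abs_le]
      constructor
      · linarith [hy'.1, neg_abs_le y]
      · linarith [hy'.2, le_abs_self y]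
    have hperg : Function.Periodic (fun a : ℝ => F ⟨a, y'⟩) (2 * π) := by
      intro a
      have h1 : (⟨a + 2 * π, y'⟩ : ℂ) = (⟨a, y'⟩ : ℂ) + 2 * π := by
        apply Complex.ext <;> simp
      show F ⟨a + 2 * π, y'⟩ = F ⟨a, y'⟩
      rw [hF]
      simp only
      rw [h1, hper _ (lt_of_le_of_lt hy1 hyD)]
    refine (s7q_row _ hperg x D hD1).trans ?_
    have h2 := s8_deficit_row f H' y' K (lt_of_le_of_lt hy1 hyD) hf hper hsym hreal
      (fun a => hK _ hy1)
    rw [s8nu0, lintegral_smul_measure, smul_eq_mul] at h2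
    have h3 : ENNReal.ofReal (K - L₀) ≤ ENNReal.ofReal t :=
      ENNReal.ofReal_le_ofReal (le_max_left _ _)
    calc ∫⁻ a in Ico 0 (2 * π), F ⟨a, y'⟩
        = ENNReal.ofReal (2 * π) * (ENNReal.ofReal (2 * π)⁻¹ * ∫⁻ a in Ico 0 (2 * π), F ⟨a, y'⟩) := by
          rw [← mul_assoc, ← ENNReal.ofReal_mul (by positivity),
            mul_inv_cancel₀ (by positivity), ENNReal.ofReal_one, one_mul]
      _ ≤ _ := by
          gcongr
          exact h2.trans h3
  have hint : ∫⁻ w in ball c D, F w ≤ ENNReal.ofReal (2 * π * t * (2 * D)) := by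
    refine hrect.trans ((setLIntegral_mono' measurableSet_Icc hrow).trans ?_)
    rw [lintegral_const, Measure.restrict_apply MeasurableSet.univ, univ_inter, Real.volume_Icc,
      ← ENNReal.ofReal_mul (by positivity), ← ENNReal.ofReal_mul (by positivity)]
    apply ENNReal.ofReal_le_ofReal
    apply le_of_eq
    ring
  have hfin : ENNReal.ofReal (D * Real.sqrt ‖q c‖) ≤ ENNReal.ofReal (C * (1 + 4 * t / D)) := by
    refine hmain.trans ?_
    calc ENNReal.ofReal C * (1 + ENNReal.ofReal (π * D ^ 2)⁻¹ * ∫⁻ w in ball c D, F w)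
        ≤ ENNReal.ofReal C * (1 + ENNReal.ofReal (π * D ^ 2)⁻¹ *
            ENNReal.ofReal (2 * π * t * (2 * D))) := by gcongr
      _ = ENNReal.ofReal (C * (1 + 4 * t / D)) := by
          rw [← ENNReal.ofReal_mul (by positivity), ← ENNReal.ofReal_one,
            ← ENNReal.ofReal_add (by norm_num) (by positivity),
            ← ENNReal.ofReal_mul hC.le]
          congr 2
          field_simp
          ring
  exact (ENNReal.ofReal_le_ofReal_iff (by positivity)).1 hfin

/-- (Q1) polynomial bound of the potential by the size of `f` on a slightly larger strip. -/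
theorem s7q_bound {H : ℝ≥0∞} {f q : ℂ → ℂ} (hp : S7gPair H f q) :
    ∃ C : ℝ, 0 < C ∧ ∀ x y D K : ℝ, 0 < D → D ≤ 1 → |y| + D ∈ s7gI H → 0 ≤ K →
      (∀ z : ℂ, |z.im| ≤ |y| + D → ‖f z‖ ≤ Real.exp K) →
      Real.sqrt ‖q ⟨x, y⟩‖ ≤ C * (1 + K) / D ^ 2 := by
  obtain ⟨C, hC, hcore⟩ := s7q_core
  set L₀ : ℝ := (2 * π)⁻¹ * ∫ t in (0 : ℝ)..(2 * π), Real.log ‖f (t : ℂ)‖ with hL₀
  set A : ℝ := 1 + |L₀| with hA
  have hA1 : 1 ≤ A := by
    rw [hA]
    linarith [abs_nonneg L₀]
  refine ⟨C * (1 + 4 * A), by positivity, ?_⟩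
  intro x y D K hD hD1 hyD hK0 hK
  have hyD0 : 0 ≤ |y| + D := by positivity
  obtain ⟨H', hH', hsub⟩ : ∃ H' : ℝ, |y| + D < H' ∧ {z : ℂ | |z.im| < H'} ⊆ estrip H := by
    by_cases hH : H = ⊤
    · refine ⟨|y| + D + 1, by linarith, ?_⟩
      intro z _
      show ENNReal.ofReal |z.im| < H
      rw [hH]
      exact ENNReal.ofReal_lt_top
    · refine ⟨H.toReal, ?_, ?_⟩
      · have : ENNReal.ofReal |(|y| + D)| < H := hyD
        rw [abs_of_nonneg hyD0] at this
        exact (ENNReal.ofReal_lt_iff_lt_toReal hyD0 hH).1 this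
      · intro z hz
        exact (ENNReal.ofReal_lt_iff_lt_toReal (abs_nonneg _) hH).2 hz
  have h1 := hcore f q H' (hp.f_diff.mono hsub) (hp.q_diff.mono hsub)
    (fun z hz => hp.ode z (hsub hz)) (fun z hz => hp.f_per z (hsub hz))
    (fun z hz => by rw [hp.f_conj z (hsub hz), Complex.norm_conj]) hp.f_real x y D K hD hD1 hH' hK
  rw [← hL₀] at h1
  have h2 : max (K - L₀) 0 ≤ A * (1 + K) := by
    apply max_le
    · have := neg_abs_le L₀
      nlinarith [abs_nonneg L₀]
    · positivity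
  set s : ℝ := Real.sqrt ‖q ⟨x, y⟩‖ with hs
  have h3 : D * s ≤ C * (1 + 4 * (A * (1 + K)) / D) := by
    refine h1.trans ?_
    gcongr
  rw [le_div_iff₀ (by positivity)]
  have h4 : C * (1 + 4 * (A * (1 + K)) / D) * D = C * (D + 4 * (A * (1 + K))) := by
    field_simp
  calc s * D ^ 2 = (D * s) * D := by ring
    _ ≤ C * (1 + 4 * (A * (1 + K)) / D) * D := by gcongr
    _ = C * (D + 4 * (A * (1 + K))) := h4
    _ ≤ C * ((1 + K) + 4 * (A * (1 + K))) := by
        gcongr
        linarith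
    _ = C * (1 + 4 * A) * (1 + K) := by ring

namespace Shape

variable (Sh : Shape)

theorem s7q_norm_le_rho (hH : Sh.H ≠ ⊤) {z : ℂ} (hz : z ∈ Sh.D) :
    ‖Sh.f z‖ ≤ Real.exp (s7gRho Sh.f |z.im|) := by
  have hz' : |z.im| < Sh.Hr := (Sh.sb_mem_D_iff hH z).1 hz
  obtain ⟨B, hB⟩ := Sh.sb_bdd_f hH hz'
  have hbdd : BddAbove (Set.range fun x : ℝ => ‖Sh.f (⟨x, |z.im|⟩ : ℂ)‖) := by
    refine ⟨B, ?_⟩
    rintro _ ⟨x, rfl⟩
    apply hB
    show |(|z.im|)| ≤ |z.im|
    rw [abs_abs]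
  have h1 : ‖Sh.f z‖ ≤ s7gRow Sh.f |z.im| := by
    have h2 : ‖Sh.f (⟨z.re, |z.im|⟩ : ℂ)‖ ≤ s7gRow Sh.f |z.im| := le_ciSup hbdd z.re
    rcases abs_cases z.im with ⟨h, _⟩ | ⟨h, _⟩
    · rw [h] at h2 ⊢
      exact h2
    · have h3 : (⟨z.re, |z.im|⟩ : ℂ) = conj z := by
        rw [h]
        apply Complex.ext <;> simp
      rw [h3, Sh.sb_norm_f_conj hz] at h2
      exact h2
  rcases (norm_nonneg (Sh.f z)).eq_or_lt with h0 | h0
  · rw [← h0]
    exact (Real.exp_pos _).le
  · rw [s7gRho, Real.exp_log (lt_of_lt_of_le h0 h1)]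
    exact h1

/-- (Q2) infinite order of `M = max(|f|, √|q|)` forces infinite order of `|f|`. -/
theorem s7q_inf_order (hp : S7gPair Sh.H Sh.f Sh.q) (hH : Sh.H ≠ ⊤)
    (ho : ¬ Sh.order < ⊤) : S7gInfOrder Sh.H (s7gRho Sh.f) := by
  intro C d₀ hd₀
  by_contra hcon
  push Not at hcon
  apply ho
  have hHr : 0 < Sh.Hr := Sh.sb_Hr_pos hH
  have hHeq : Sh.H.toReal = Sh.Hr := rfl
  rw [hHeq] at hcon
  obtain ⟨Cq, hCq, hq⟩ := s7q_bound hp
  set C₁ : ℝ := max C 0 with hC₁
  have hC₁0 : 0 ≤ C₁ := le_max_right _ _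
  set d₂ : ℝ := min (min d₀ 1) Sh.Hr / 2 with hd₂
  have hd₂0 : 0 < d₂ := by
    rw [hd₂]
    have : 0 < min (min d₀ 1) Sh.Hr := lt_min (lt_min hd₀ one_pos) hHr
    linarith
  have hm : min (min d₀ 1) Sh.Hr = 2 * d₂ := by rw [hd₂]; ring
  have hd₂a : 2 * d₂ ≤ d₀ := by rw [← hm]; exact (min_le_left _ _).trans (min_le_left _ _)
  have hd₂b : 2 * d₂ ≤ 1 := by rw [← hm]; exact (min_le_left _ _).trans (min_le_right _ _)
  have hd₂c : 2 * d₂ ≤ Sh.Hr := by rw [← hm]; exact min_le_right _ _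
  obtain ⟨B', hB'⟩ := Sh.sb_bdd_f hH (show Sh.Hr - d₂ < Sh.Hr by linarith)
  set B₀ : ℝ := max B' 1 with hB₀
  have hB₀1 : 1 ≤ B₀ := le_max_right _ _
  have hB₀pos : 0 < B₀ := by linarith
  have hlogB : 0 ≤ Real.log B₀ := Real.log_nonneg hB₀1
  set a : ℝ := Real.log (1 + 4 * Cq) + Real.log B₀ + C₁ * Real.log 2 with ha
  have hkey : ∀ k : ℝ, -Real.log d₂ ≤ k → 1 ≤ k → Sh.growth k ≤ a + (C₁ + 2) * k := by
    intro k hk hk1
    set d : ℝ := Real.exp (-k) with hd
    have hd0 : 0 < d := Real.exp_pos _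
    have hdd : d ≤ d₂ := by
      rw [hd, ← Real.exp_log hd₂0]
      exact Real.exp_le_exp.2 (by linarith)
    have hlog2d : Real.log (2 / d) = Real.log 2 + k := by
      rw [Real.log_div (by norm_num) hd0.ne', hd, Real.log_exp]
      ring
    have hlog2 : 0 ≤ Real.log 2 := Real.log_nonneg (by norm_num)
    set K : ℝ := Real.log B₀ + C₁ * Real.log (2 / d) with hK
    have hK0 : 0 ≤ K := by
      rw [hK, hlog2d]
      positivity
    have hfK : ∀ z : ℂ, |z.im| ≤ Sh.Hr - d / 2 → ‖Sh.f z‖ ≤ Real.exp K := by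
      intro z hz
      by_cases hz1 : |z.im| ≤ Sh.Hr - d₂
      · calc ‖Sh.f z‖ ≤ B' := hB' z hz1
          _ ≤ B₀ := le_max_left _ _
          _ = Real.exp (Real.log B₀) := (Real.exp_log hB₀pos).symm
          _ ≤ Real.exp K := by
              apply Real.exp_le_exp.2
              rw [hK, hlog2d]
              have : 0 ≤ C₁ * (Real.log 2 + k) := by positivity
              linarith
      · push Not at hz1
        have hzD : z ∈ Sh.D := (Sh.sb_mem_D_iff hH z).2 (by linarith)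
        refine (Sh.s7q_norm_le_rho hH hzD).trans (Real.exp_le_exp.2 ?_)
        have hdep : 0 < Sh.Hr - |z.im| := by linarith
        have h1 := hcon |z.im| (abs_nonneg _) (by linarith) (by linarith)
        have h2 : 0 ≤ Real.log (1 / (Sh.Hr - |z.im|)) := by
          apply Real.log_nonneg
          rw [le_div_iff₀ hdep]
          linarith
        have h3 : Real.log (1 / (Sh.Hr - |z.im|)) ≤ Real.log (2 / d) := by
          apply Real.log_le_log (by positivity)
          rw [div_le_div_iff₀ hdep hd0]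
          linarith
        calc s7gRho Sh.f |z.im| ≤ C * Real.log (1 / (Sh.Hr - |z.im|)) := h1
          _ ≤ C₁ * Real.log (1 / (Sh.Hr - |z.im|)) := by
              gcongr
              exact le_max_left _ _
          _ ≤ C₁ * Real.log (2 / d) := by gcongr
          _ ≤ K := by rw [hK]; linarith
    have hy0 : 0 ≤ Sh.Hr - d := by linarith
    have hyabs : |Sh.Hr - d| + d / 2 = Sh.Hr - d / 2 := by
      rw [abs_of_nonneg hy0]
      ring
    have hM : ∀ x : ℝ, Sh.M (⟨x, Sh.Hr - d⟩ : ℂ) ≤ (1 + 4 * Cq) * Real.exp K / d ^ 2 := by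
      intro x
      have hd1 : d ≤ 1 := by linarith
      have hd2 : d ^ 2 ≤ 1 := by nlinarith
      have hexpK : 1 + K ≤ Real.exp K := by linarith [Real.add_one_le_exp K]
      have hE : 0 < Real.exp K := Real.exp_pos _
      apply max_le
      · have h1 : ‖Sh.f (⟨x, Sh.Hr - d⟩ : ℂ)‖ ≤ Real.exp K := by
          apply hfK
          show |Sh.Hr - d| ≤ _
          rw [abs_of_nonneg hy0]
          linarith
        rw [le_div_iff₀ (by positivity)]
        calc ‖Sh.f (⟨x, Sh.Hr - d⟩ : ℂ)‖ * d ^ 2 ≤ Real.exp K * 1 := by gcongr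
          _ ≤ (1 + 4 * Cq) * Real.exp K := by nlinarith
      · have h1 := hq x (Sh.Hr - d) (d / 2) K (by positivity) (by linarith) (by
          show ENNReal.ofReal |(|Sh.Hr - d| + d / 2)| < Sh.H
          rw [hyabs, abs_of_nonneg (by linarith)]
          exact (ENNReal.ofReal_lt_iff_lt_toReal (by linarith) hH).2 (by rw [hHeq]; linarith)) hK0
          (by rw [hyabs]; exact hfK)
        refine h1.trans ?_
        rw [div_le_div_iff₀ (by positivity) (by positivity)]
        have : Cq * (1 + K) ≤ Cq * Real.exp K := by gcongr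
        nlinarith [sq_nonneg d, mul_pos hCq hE]
    have hrow : Sh.rowMax (Sh.Hr - d) ≤ (1 + 4 * Cq) * Real.exp K / d ^ 2 := ciSup_le hM
    have hrow0 : 0 ≤ Sh.rowMax (Sh.Hr - d) :=
      Real.iSup_nonneg fun x => le_max_of_le_left (norm_nonneg _)
    have hval : Real.log ((1 + 4 * Cq) * Real.exp K / d ^ 2) = a + (C₁ + 2) * k := by
      rw [Real.log_div (by positivity) (by positivity), Real.log_mul (by positivity)
        (Real.exp_pos _).ne', Real.log_exp, Real.log_pow, hd, Real.log_exp, hK, hlog2d, ha]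
      push_cast
      ring
    show Real.log (Sh.rowMax (Sh.Hr - Real.exp (-k))) ≤ _
    rcases hrow0.eq_or_lt with h0 | h0
    · rw [← hd, ← h0, Real.log_zero]
      have : 0 ≤ Real.log (1 + 4 * Cq) := Real.log_nonneg (by linarith)
      rw [ha]
      positivity
    · rw [← hval]
      exact Real.log_le_log h0 hrow
  have hev : ∀ᶠ k : ℝ in atTop, ((Sh.growth k / k : ℝ) : EReal) ≤ ((|a| + (C₁ + 2) : ℝ) : EReal) := by
    filter_upwards [eventually_ge_atTop (-Real.log d₂), eventually_ge_atTop (1 : ℝ)] with k hk hk1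
    rw [EReal.coe_le_coe_iff, div_le_iff₀ (by linarith)]
    have h1 := hkey k hk hk1
    have h2 : a ≤ |a| * k := by
      have := le_abs_self a
      nlinarith [abs_nonneg a]
    linarith
  exact lt_of_le_of_lt (Filter.limsup_le_of_le (by isBoundedDefault) hev) (EReal.coe_lt_top _)

end Shape

end Claimed.Agent.R269
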