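/-
Row 269, P1 Section 7, unit S7d part (A) (captain memo #8a): THE REAL-VARIABLE SELECTION for the convex function `ρ(h) = log max_x |f(x+ih)|`
(P1 Theorem 7.7: (7.slow-slope-values), (7.flat-slope-selection), (7.selected-scales), (7.linear-log-maximum), (7.selected-size-bounds), (7.coarser-inverse-bound), (7.selected-log-range)).
Blueprint + glue: helper167.   HOST-FREE (Mathlib + the definitions of S7/GrowthDefs.lean).

EXPORT: `s7g_select : ConvexOn ℝ (s7gI H) ρ → even → unbounded → (H ≠ ⊤ → S7gInfOrder H ρ) → 0 < α₀ < 1 → ∃ h ℓ v C, S7gSel H ρ α₀ h ℓ v C`     (GLUE PROVED at the end of the file).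
FIVE LEAVES, each with a complete plan in the comment above it; fill IN PLACE, statements verbatim:  LF-S7g-grid, LF-S7g-slow, LF-S7g-arg, LF-S7g-win, LF-S7g-coarse.
-/
import Claimed.Agent.R269.S7.GrowthDefs

set_option autoImplicit false

namespace Claimed.Agent.R269

open Filter Topology Set
open scoped ENNReal Real

/-! ### LEAF LF-S7g-grid
  .   HOST-FREE real analysis (Mathlib + the definitions `s7gI`, `S7gGrid` of S7/GrowthDefs.lean).

`ρ` is convex and even on the symmetric interval `I = s7gI H = (-H,H)` and unbounded above.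

PROOFS.
* `s7g_I_*`: unfold `s7gI`; `ENNReal.ofReal_lt_ofReal..`/monotonicity of `ENNReal.ofReal`; openness: `isOpen_lt (ENNReal.continuous_ofReal.comp continuous_abs) continuous_const`;
  convexity: as `Shape.sb_convex_D` in ShapeBasic.lean (`|a x + b y| ≤ max |x| |y|`).
* `s7g_rho_mono`: for `0 ≤ a ≤ b`, `b ∈ I`: `a ∈ Icc (-b) b`, `ConvexOn.le_max_of_mem_Icc` gives `ρ a ≤ max (ρ (-b)) (ρ b) = ρ b`.
* `s7g_rho_cont`: `ConvexOn.continuousOn` (`I` is an open set of a finite-dimensional space).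
* `s7g_grid_exists`: for `j ≥ 1` choose `b ∈ I` with `ρ 0 + j < ρ b`; by evenness we may take `b ≥ 0` (replace `b` by `|b|`), `b ≠ 0`; the intermediate value theorem on `Icc 0 b ⊆ I`
  (`intermediate_value_Icc`) gives `hs j ∈ Icc 0 b` with `ρ (hs j) = ρ 0 + j`.  Put `hs 0 = 0`.
  Strict monotonicity: if `hs (j+1) ≤ hs j` then `ρ (hs (j+1)) ≤ ρ (hs j)` by `s7g_rho_mono`, contradiction (`strictMono_nat_of_lt_succ`).
  Antitone gaps (`antitone_nat_of_succ_le`): the three points `x = hs j < y = hs (j+1) < z = hs (j+2)`; `ConvexOn.slope_mono_adjacent`: `(ρ y - ρ x)/(y - x) ≤ (ρ z - ρ y)/(z - y)`, i.e. `1/(y-x) ≤ 1/(z-y)`.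
-/

theorem s7g_I_isOpen (H : ℝ≥0∞) : IsOpen (s7gI H) := by
  exact isOpen_lt (ENNReal.continuous_ofReal.comp continuous_abs) continuous_const

theorem s7g_I_convex (H : ℝ≥0∞) : Convex ℝ (s7gI H) := by
  intro x hx y hy a b ha hb hab
  have h1 : |a • x + b • y| ≤ max |x| |y| := by
    simp only [smul_eq_mul]
    calc |a * x + b * y| ≤ |a * x| + |b * y| := abs_add_le _ _
      _ = a * |x| + b * |y| := by rw [abs_mul, abs_mul, abs_of_nonneg ha, abs_of_nonneg hb]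
      _ ≤ a * max |x| |y| + b * max |x| |y| :=
          add_le_add (mul_le_mul_of_nonneg_left (le_max_left _ _) ha)
            (mul_le_mul_of_nonneg_left (le_max_right _ _) hb)
      _ = max |x| |y| := by rw [← add_mul, hab, one_mul]
  rcases le_total |x| |y| with h | h
  · rw [max_eq_right h] at h1
    exact lt_of_le_of_lt (ENNReal.ofReal_le_ofReal h1) hy
  · rw [max_eq_left h] at h1
    exact lt_of_le_of_lt (ENNReal.ofReal_le_ofReal h1) hx

theorem s7g_I_of_abs_le {H : ℝ≥0∞} {a b : ℝ} (hb : b ∈ s7gI H) (h : |a| ≤ |b|) : a ∈ s7gI H := by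
  exact lt_of_le_of_lt (ENNReal.ofReal_le_ofReal h) hb

theorem s7g_I_top (h : ℝ) : h ∈ s7gI ⊤ := by
  exact ENNReal.ofReal_lt_top

theorem s7g_I_iff {H : ℝ≥0∞} (hH : H ≠ ⊤) (h : ℝ) : h ∈ s7gI H ↔ |h| < H.toReal := by
  exact ENNReal.ofReal_lt_iff_lt_toReal (abs_nonneg h) hH

theorem s7g_mem_estrip {H : ℝ≥0∞} (s : ℂ) : s ∈ estrip H ↔ s.im ∈ s7gI H := Iff.rfl

/-- an even convex function is monotone on the nonnegative half of the interval. -/
theorem s7g_rho_mono {H : ℝ≥0∞} {ρ : ℝ → ℝ} (hconv : ConvexOn ℝ (s7gI H) ρ)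
    (heven : ∀ h ∈ s7gI H, ρ (-h) = ρ h) {a b : ℝ} (ha : 0 ≤ a) (hab : a ≤ b) (hb : b ∈ s7gI H) :
    ρ a ≤ ρ b := by
  have hnb : -b ∈ s7gI H := s7g_I_of_abs_le hb (by rw [abs_neg])
  have h := hconv.le_max_of_mem_Icc hnb hb (⟨by linarith, hab⟩ : a ∈ Icc (-b) b)
  rwa [heven b hb, max_self] at h

theorem s7g_rho_cont {H : ℝ≥0∞} {ρ : ℝ → ℝ} (hconv : ConvexOn ℝ (s7gI H) ρ) :
    ContinuousOn ρ (s7gI H) := by
  exact hconv.continuousOn (s7g_I_isOpen H)

/-- the grid of heights. -/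
theorem s7g_grid_exists {H : ℝ≥0∞} {ρ : ℝ → ℝ} (hconv : ConvexOn ℝ (s7gI H) ρ)
    (heven : ∀ h ∈ s7gI H, ρ (-h) = ρ h) (hunb : ∀ v : ℝ, ∃ h ∈ s7gI H, v < ρ h) :
    ∃ hs : ℕ → ℝ, S7gGrid ρ (s7gI H) hs := by
  have h0I : (0 : ℝ) ∈ s7gI H := by
    obtain ⟨h, hh, -⟩ := hunb 0
    exact s7g_I_of_abs_le hh (by rw [abs_zero]; exact abs_nonneg h)
  have hex : ∀ j : ℕ, ∃ t : ℝ, 0 ≤ t ∧ t ∈ s7gI H ∧ ρ t = ρ 0 + j ∧ (j = 0 → t = 0) := by
    intro j
    rcases Nat.eq_zero_or_pos j with hj | hj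
    · exact ⟨0, le_rfl, h0I, by rw [hj]; simp, fun _ => rfl⟩
    · obtain ⟨b, hb, hbv⟩ := hunb (ρ 0 + j)
      have hbI : |b| ∈ s7gI H := s7g_I_of_abs_le hb (by rw [abs_abs])
      have hρb : ρ |b| = ρ b := by
        rcases abs_choice b with h | h
        · rw [h]
        · rw [h, heven b hb]
      have hsub : Icc 0 |b| ⊆ s7gI H := fun t ht =>
        s7g_I_of_abs_le hbI (by rw [abs_of_nonneg ht.1, abs_abs]; exact ht.2)
      have hj0 : (0 : ℝ) ≤ j := Nat.cast_nonneg j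
      obtain ⟨t, ht, htv⟩ := intermediate_value_Icc (abs_nonneg b) ((s7g_rho_cont hconv).mono hsub)
        (⟨by linarith, by rw [hρb]; exact hbv.le⟩ : ρ 0 + j ∈ Icc (ρ 0) (ρ |b|))
      exact ⟨t, ht.1, hsub ht, htv, fun h => absurd h hj.ne'⟩
  choose hs h1 h2 h3 h4 using hex
  have hsm : StrictMono hs := by
    refine strictMono_nat_of_lt_succ fun j => ?_
    by_contra hcon
    have h5 := s7g_rho_mono hconv heven (h1 (j + 1)) (not_lt.1 hcon) (h2 j)
    rw [h3, h3] at h5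
    push_cast at h5
    linarith
  refine ⟨hs, h4 0 rfl, h2, h3, hsm, antitone_nat_of_succ_le fun j => ?_⟩
  have hxy : hs j < hs (j + 1) := hsm (Nat.lt_succ_self j)
  have hyz : hs (j + 1) < hs (j + 1 + 1) := hsm (Nat.lt_succ_self (j + 1))
  have h5 := hconv.slope_mono_adjacent (h2 j) (h2 (j + 1 + 1)) hxy hyz
  rw [h3, h3, h3] at h5
  have e1 : ρ 0 + ((j + 1 : ℕ) : ℝ) - (ρ 0 + (j : ℝ)) = 1 := by push_cast; ring
  have e2 : ρ 0 + ((j + 1 + 1 : ℕ) : ℝ) - (ρ 0 + ((j + 1 : ℕ) : ℝ)) = 1 := by push_cast; ring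
  rw [e1, e2] at h5
  exact (one_div_le_one_div (sub_pos.2 hxy) (sub_pos.2 hyz)).1 h5

/-! ### LEAF LF-S7g-slow
  P1 (7.slow-slope-values) in discrete form.   HOST-FREE real analysis.
Uses S7/GrowthSelGrid.lean as a black box (`s7g_rho_mono`, `s7g_I_iff`, `s7g_I_top`).

STATEMENT.  `g j = hs (j+1) - hs j` are the gaps of the grid (`ρ (hs j) = ρ 0 + j`).  For every `η > 0` there are arbitrarily large `J` with `g 0 e^{-η J} ≤ g J`.

PROOF.  Suppose not: `g J < g 0 e^{-η J}` for all `J ≥ J₀`.  Put `B = g 0 / (1 - e^{-η})`.  Geometric sum: for `J₀ ≤ J ≤ K`: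
   (1)  `hs K - hs J = ∑_{i ∈ Ico J K} g i ≤ B e^{-η J}`     (`Finset.sum_range_succ`-induction on `K`: prove `hs K - hs J ≤ B (e^{-η J} - e^{-η K})`, using `g 0 e^{-η K} = B (e^{-η K} - e^{-η (K+1)})`).
  So `hs K ≤ T := hs J₀ + B` for all `K`.
  Case `H = ⊤`: `T ∈ I`, so `ρ 0 + K = ρ (hs K) ≤ ρ T` for all `K` (`s7g_rho_mono`, `0 = hs 0 ≤ hs K`): contradiction for `K > ρ T - ρ 0`.
  Case `H ≠ ⊤`, `Hr = H.toReal`; `hs K < Hr` for all `K`.
   (2) for every `y` with `0 ≤ y < Hr` there is `K` with `y < hs K` (otherwise `ρ 0 + K = ρ (hs K) ≤ ρ y` for all `K`).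
   (3) `Hr - hs J ≤ B e^{-η J}` for `J ≥ J₀`  (if `Hr - hs J > B e^{-η J}`, take `y = hs J + B e^{-η J} < Hr` in (2) and contradict (1)).
   (4) let `0 ≤ y < Hr` with `hs J₀ ≤ y`; let `J` be the largest index with `hs J ≤ y` (exists by (2): `Nat.find` of `y < hs K`, minus one), so `J ≥ J₀`, `y < hs (J+1)`.
       Then `ρ y ≤ ρ 0 + J + 1` and `Hr - y ≤ Hr - hs J ≤ B e^{-η J}`, so `log (1/(Hr - y)) ≥ η J - log B`, `J ≤ (log (1/(Hr-y)) + log B)/η` and
       `ρ y ≤ A₀ + (1/η) log (1/(Hr-y))`,  `A₀ = ρ 0 + 1 + log B / η`.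
   (5) apply `hord` with `C = 2/η` and `d₀ = min (Hr - hs J₀) (exp (-(η |A₀|)))` (`> 0`): we get `y` with `Hr - y < d₀`, so `hs J₀ < y` and `log (1/(Hr-y)) > η |A₀|`, i.e. `A₀ < (1/η) log(1/(Hr-y))`, and
       `(2/η) log (1/(Hr-y)) < ρ y ≤ A₀ + (1/η) log (1/(Hr-y)) < (2/η) log (1/(Hr-y))`: contradiction.
-/

theorem s7g_slow {H : ℝ≥0∞} {ρ : ℝ → ℝ} (hconv : ConvexOn ℝ (s7gI H) ρ)
    (heven : ∀ h ∈ s7gI H, ρ (-h) = ρ h) {hs : ℕ → ℝ} (G : S7gGrid ρ (s7gI H) hs)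
    (hord : H ≠ ⊤ → S7gInfOrder H ρ) (η : ℝ) (hη : 0 < η) (J₀ : ℕ) :
    ∃ J : ℕ, J₀ ≤ J ∧ (hs 1 - hs 0) * Real.exp (-(η * J)) ≤ hs (J + 1) - hs J := by
  by_contra hcon
  push Not at hcon
  have hg0 : 0 < hs 1 - hs 0 := sub_pos.2 (G.smono Nat.zero_lt_one)
  have hhs0 : ∀ K, 0 ≤ hs K := fun K => by
    rw [← G.zero]
    exact G.smono.monotone (Nat.zero_le K)
  have hq1 : Real.exp (-η) < 1 := by
    rw [Real.exp_lt_one_iff]
    linarith
  have h1q : 0 < 1 - Real.exp (-η) := by linarith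
  obtain ⟨B, hBdef⟩ : ∃ B : ℝ, B = (hs 1 - hs 0) / (1 - Real.exp (-η)) := ⟨_, rfl⟩
  have hB : 0 < B := by rw [hBdef]; positivity
  have hBq : (hs 1 - hs 0) = B * (1 - Real.exp (-η)) := by
    rw [hBdef]
    field_simp
  have hestep : ∀ K : ℕ, Real.exp (-(η * ((K + 1 : ℕ) : ℝ))) = Real.exp (-(η * K)) * Real.exp (-η) := by
    intro K
    rw [← Real.exp_add]
    congr 1
    push_cast
    ring
  -- (1)
  have h1 : ∀ J : ℕ, J₀ ≤ J → ∀ K : ℕ, J ≤ K →
      hs K - hs J ≤ B * (Real.exp (-(η * J)) - Real.exp (-(η * K))) := by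
    intro J hJ K hK
    induction K, hK using Nat.le_induction with
    | base => simp
    | succ K hK ih =>
      have h2 := hcon K (hJ.trans hK)
      rw [hestep K]
      rw [hBq] at h2
      nlinarith
  have h1' : ∀ J : ℕ, J₀ ≤ J → ∀ K : ℕ, hs K ≤ hs J + B * Real.exp (-(η * J)) := by
    intro J hJ K
    have hpos : 0 < B * Real.exp (-(η * J)) := by positivity
    rcases le_total J K with hK | hK
    · have h2 := h1 J hJ K hK
      have h3 : 0 < B * Real.exp (-(η * K)) := by positivity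
      nlinarith
    · have := G.smono.monotone hK
      linarith
  -- unboundedness of the grid inside the interval
  have h2 : ∀ y : ℝ, 0 ≤ y → y ∈ s7gI H → ∃ K : ℕ, y < hs K := by
    intro y hy0 hyI
    by_contra hc
    push Not at hc
    obtain ⟨K, hK⟩ := exists_nat_gt (ρ y - ρ 0)
    have h3 := s7g_rho_mono hconv heven (hhs0 K) (hc K) hyI
    rw [G.val] at h3
    linarith
  by_cases hH : H = ⊤
  · subst hH
    obtain ⟨K, hK⟩ := h2 (hs J₀ + B * Real.exp (-(η * J₀))) (by have := hhs0 J₀; positivity) (s7g_I_top _)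
    have := h1' J₀ le_rfl K
    linarith
  · have hord' := hord hH
    unfold S7gInfOrder at hord'
    have hlt : ∀ K, hs K < H.toReal := fun K => by
      have := (s7g_I_iff hH (hs K)).1 (G.mem K)
      rwa [abs_of_nonneg (hhs0 K)] at this
    have hmemI : ∀ y : ℝ, 0 ≤ y → y < H.toReal → y ∈ s7gI H := fun y hy0 hy => by
      rw [s7g_I_iff hH, abs_of_nonneg hy0]
      exact hy
    generalize H.toReal = Hr at hlt hmemI hord'
    -- (3)
    have h3 : ∀ J : ℕ, J₀ ≤ J → Hr - hs J ≤ B * Real.exp (-(η * J)) := by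
      intro J hJ
      by_contra hc
      have hc' : hs J + B * Real.exp (-(η * J)) < Hr := by linarith
      obtain ⟨K, hK⟩ := h2 _ (by have := hhs0 J; positivity) (hmemI _ (by have := hhs0 J; positivity) hc')
      have := h1' J hJ K
      linarith
    -- (4)
    have h4 : ∀ y : ℝ, hs J₀ ≤ y → y < Hr →
        ρ y ≤ (ρ 0 + 1 + Real.log B / η) + 1 / η * Real.log (1 / (Hr - y)) := by
      intro y hy1 hy2
      have hy0 : 0 ≤ y := (hhs0 J₀).trans hy1
      have hex := h2 y hy0 (hmemI y hy0 hy2)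
      classical
      obtain ⟨K, hK, hKmin⟩ : ∃ K : ℕ, y < hs K ∧ ∀ k < K, ¬ y < hs k :=
        ⟨Nat.find hex, Nat.find_spec hex, fun k hk => Nat.find_min hex hk⟩
      have hK0 : K ≠ 0 := by
        rintro rfl
        rw [G.zero] at hK
        linarith
      obtain ⟨J, rfl⟩ := Nat.exists_eq_succ_of_ne_zero hK0
      have hJy : hs J ≤ y := not_lt.1 (hKmin J (Nat.lt_succ_self J))
      have hJJ₀ : J₀ ≤ J := by
        by_contra hc
        have : J + 1 ≤ J₀ := by omega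
        have := G.smono.monotone this
        linarith
      have h5 := s7g_rho_mono hconv heven hy0 hK.le (G.mem (J + 1))
      rw [G.val] at h5
      push_cast at h5
      have h6 : Hr - y ≤ B * Real.exp (-(η * J)) := by linarith [h3 J hJJ₀]
      have hpos : 0 < Hr - y := by linarith
      have h7 := Real.log_le_log hpos h6
      rw [Real.log_mul hB.ne' (Real.exp_pos _).ne', Real.log_exp] at h7
      have h8 : Real.log (1 / (Hr - y)) = -Real.log (Hr - y) := by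
        rw [one_div, Real.log_inv]
      rw [h8]
      have h9 : (J : ℝ) ≤ (Real.log B - Real.log (Hr - y)) / η := by
        rw [le_div_iff₀ hη]
        linarith
      have h10 : (Real.log B - Real.log (Hr - y)) / η
          = Real.log B / η + 1 / η * -Real.log (Hr - y) := by ring
      linarith
    -- (5)
    generalize hA₀ : ρ 0 + 1 + Real.log B / η = A₀ at h4
    obtain ⟨y, hy0, hy1, hy2, hy3⟩ := hord' (2 / η) (min (Hr - hs J₀) (Real.exp (-(η * |A₀|))))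
      (lt_min (by linarith [hlt J₀]) (Real.exp_pos _))
    have hy4 : hs J₀ ≤ y := by
      have := lt_of_lt_of_le hy2 (min_le_left _ _)
      linarith
    have hy5 : Hr - y < Real.exp (-(η * |A₀|)) := lt_of_lt_of_le hy2 (min_le_right _ _)
    have hpos : 0 < Hr - y := by linarith
    have h6 : Real.log (Hr - y) < -(η * |A₀|) := (Real.log_lt_iff_lt_exp hpos).2 hy5
    have h8 : Real.log (1 / (Hr - y)) = -Real.log (Hr - y) := by
      rw [one_div, Real.log_inv]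
    have h9 := h4 y hy4 hy1
    rw [h8] at h9 hy3
    have h10 : A₀ < 1 / η * -Real.log (Hr - y) := by
      rw [one_div, lt_inv_mul_iff₀ hη]
      have := mul_le_mul_of_nonneg_left (le_abs_self A₀) hη.le
      linarith
    have h11 : 2 / η * -Real.log (Hr - y) = 1 / η * -Real.log (Hr - y) + 1 / η * -Real.log (Hr - y) := by
      ring
    linarith

/-! ### LEAF LF-S7g-arg
  the flat-slope selection (7.flat-slope-selection) in discrete form.   MATHLIB ONLY.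

`g` positive antitone (gaps of the grid); `hslow`: arbitrarily large `J` with `g 0 e^{-η J} ≤ g J`, for every `η > 0`.
OUTPUT: a centre index `c ≥ max c₀ n` such that the gaps are almost constant on `[c, c+n]` and grow at most like `e^{ε n + ε (c-i)}` to the left of `c`.

PROOF.  `a i = - log (g i)` is monotone.  Take `J ≥ 4 n + 2 c₀ + 4` with `g 0 e^{-(ε/2) J} ≤ g J`, i.e. `a J ≤ a 0 + (ε/2) J`.
Let `j ∈ range (J+1)` minimise `a i - ε i` (`Finset.exists_min_image`).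
  * `a j - ε j ≤ a J - ε J` gives `ε (J - j) ≤ a J - a j ≤ a J - a 0 ≤ (ε/2) J`, so `J ≤ 2 j`.
  * `c = j - n` (`j ≥ J/2 ≥ 2n + c₀ + 2`), so `c ≥ c₀`, `c ≥ n`, `J ≤ 2 j = 2 c + 2 n ≤ 4 c`.
  * for all `i ≤ j`:  `a j - a i ≤ ε (j - i)`   (minimality).
  * `c ≤ i ≤ c + n = j`:  `a i ≤ a j ≤ a c + ε n`, i.e. `g c e^{-ε n} ≤ g i`.
  * `i ≤ c`:  `a c - a i ≤ a j - a i ≤ ε (j - i) = ε n + ε (c - i)`, i.e. `g i ≤ g c e^{ε n + ε (c - i)}`.
  * `a c ≤ a J ≤ a 0 + (ε/2) J ≤ a 0 + 2 ε c`, i.e. `g 0 e^{-2 ε c} ≤ g c`.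
Translate between `a` and `g` with `Real.exp_log`, `Real.log_le_log_iff`, `Real.log_mul`, `Real.log_exp`.
-/

theorem s7g_aux_mul_exp_le {x y t : ℝ} (hx : 0 < x) (hy : 0 < y) (h : Real.log x + t ≤ Real.log y) :
    x * Real.exp t ≤ y := by
  calc x * Real.exp t = Real.exp (Real.log x + t) := by rw [Real.exp_add, Real.exp_log hx]
    _ ≤ Real.exp (Real.log y) := Real.exp_le_exp.2 h
    _ = y := Real.exp_log hy

theorem s7g_aux_le_mul_exp {x y t : ℝ} (hx : 0 < x) (hy : 0 < y) (h : Real.log x ≤ Real.log y + t) :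
    x ≤ y * Real.exp t := by
  calc x = Real.exp (Real.log x) := (Real.exp_log hx).symm
    _ ≤ Real.exp (Real.log y + t) := Real.exp_le_exp.2 h
    _ = y * Real.exp t := by rw [Real.exp_add, Real.exp_log hy]

theorem s7g_aux_log_of_mul_exp_le {x y t : ℝ} (hx : 0 < x) (h : x * Real.exp t ≤ y) :
    Real.log x + t ≤ Real.log y := by
  have h1 := Real.log_le_log (by positivity) h
  rwa [Real.log_mul hx.ne' (Real.exp_pos _).ne', Real.log_exp] at h1

theorem s7g_argmin (g : ℕ → ℝ) (hpos : ∀ j, 0 < g j) (hanti : Antitone g)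
    (hslow : ∀ η : ℝ, 0 < η → ∀ J₀ : ℕ, ∃ J : ℕ, J₀ ≤ J ∧ g 0 * Real.exp (-(η * J)) ≤ g J)
    (ε : ℝ) (hε : 0 < ε) (n c₀ : ℕ) :
    ∃ c : ℕ, c₀ ≤ c ∧ n ≤ c ∧
      (∀ i : ℕ, c ≤ i → i ≤ c + n → g c * Real.exp (-(ε * n)) ≤ g i) ∧
      (∀ i : ℕ, i ≤ c → g i ≤ g c * Real.exp (ε * n + ε * ((c : ℝ) - i))) ∧
      g 0 * Real.exp (-(2 * ε * c)) ≤ g c := by
  obtain ⟨J, hJ, hgJ⟩ := hslow (ε / 2) (by positivity) (4 * n + 2 * c₀ + 4)
  have hmono : ∀ i j : ℕ, i ≤ j → Real.log (g j) ≤ Real.log (g i) := fun i j hij =>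
    Real.log_le_log (hpos j) (hanti hij)
  have hJ1 := s7g_aux_log_of_mul_exp_le (hpos 0) hgJ
  obtain ⟨j, hjm, hjmin⟩ := Finset.exists_min_image (Finset.range (J + 1))
    (fun i : ℕ => -Real.log (g i) - ε * i) ⟨0, Finset.mem_range.2 (Nat.succ_pos J)⟩
  have hjJ : j ≤ J := Nat.lt_succ_iff.1 (Finset.mem_range.1 hjm)
  have hmin : ∀ i : ℕ, i ≤ J → -Real.log (g j) - ε * j ≤ -Real.log (g i) - ε * i := fun i hi =>
    hjmin i (Finset.mem_range.2 (Nat.lt_succ_of_le hi))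
  have hJ2j : (J : ℝ) ≤ 2 * j := by
    have h1 := hmin J le_rfl
    have h2 := hmono 0 j (Nat.zero_le j)
    have h3 : ε * ((J : ℝ) - 2 * j) ≤ 0 := by nlinarith
    by_contra hcon
    have h4 : 0 < (J : ℝ) - 2 * j := by linarith
    have := mul_pos hε h4
    linarith
  have hJ2j' : J ≤ 2 * j := by exact_mod_cast hJ2j
  have hnj : n ≤ j := by omega
  have hcj : ((j - n : ℕ) : ℝ) = (j : ℝ) - n := by
    rw [Nat.cast_sub hnj]
  refine ⟨j - n, by omega, by omega, ?_, ?_, ?_⟩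
  · intro i hi1 hi2
    have hij : i ≤ j := by omega
    refine s7g_aux_mul_exp_le (hpos _) (hpos _) ?_
    have h1 := hmin (j - n) (by omega)
    have h2 := hmono i j hij
    rw [hcj] at h1
    nlinarith
  · intro i hi
    refine s7g_aux_le_mul_exp (hpos _) (hpos _) ?_
    have h1 := hmin i (by omega)
    have h2 := hmono (j - n) j (Nat.sub_le j n)
    rw [hcj]
    nlinarith
  · refine s7g_aux_mul_exp_le (hpos _) (hpos _) ?_
    have h2 := hmono (j - n) J (by omega)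
    rw [hcj]
    have h3 : (J : ℝ) ≤ 4 * ((j : ℝ) - n) := by
      have : J ≤ 4 * (j - n) := by omega
      have h4 : ((J : ℕ) : ℝ) ≤ ((4 * (j - n) : ℕ) : ℝ) := by exact_mod_cast this
      rw [Nat.cast_mul, hcj] at h4
      simpa using h4
    nlinarith

/-! ### LEAF LF-S7g-win
  P1 (7.linear-log-maximum) in discrete form.   HOST-FREE real analysis (only `S7gGrid` from S7/GrowthDefs.lean).

`ρ` convex on the convex set `I`; grid `ρ (hs j) = ρ 0 + j`, `hs 0 = 0`, gaps `g j = hs (j+1) - hs j > 0`.  Centre `c`, `ℓ = g c`, `v = ρ 0 + c`.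
If the `n` gaps to the right of `c` are `≥ ℓ e^{-κ}` (they are `≤ ℓ` by `G.anti`) and the `n` gaps to the left are `≤ ℓ e^{2κ}` (they are `≥ ℓ`), `e^{-κ} ≥ 1/2`, then
     `|ρ (hs c + ℓ u) - v - u| ≤ n (e^{2κ} - 1)`   for `|u| ≤ n/2`.

PROOF.  `E u = ρ (hs c + ℓ u) - v - u`.
  `u₊ = (hs (c+n) - hs c)/ℓ = ∑_{i ∈ Ico c (c+n)} g i / ℓ ∈ [n e^{-κ}, n]`, `E u₊ = n - u₊ ≤ n (1 - e^{-κ}) ≤ n (e^{2κ} - 1)`   (`1 - e^{-κ} ≤ κ ≤ e^{2κ} - 1`),
  `u₋ = -(hs c - hs (c-n))/ℓ ∈ [-n e^{2κ}, -n]`, `E u₋ = -n - u₋ ≤ n (e^{2κ} - 1)`.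
  (telescoping: `hs (c+k) - hs c = ∑_{i<k} g (c+i)`, induction on `k`.)
  For `|u| ≤ n/2`: `u₋ ≤ -n ≤ u ≤ n/2 ≤ n e^{-κ} ≤ u₊`, so `y = hs c + ℓ u ∈ Icc (hs (c-n)) (hs (c+n)) ⊆ I` (`hconv.1.ordConnected`), `y ≥ hs (c-n) ≥ hs 0 = 0`.
  Upper bound: `y = hs c + ℓ u` is a convex combination of `hs (c-n)` and `hs (c+n)`; the function `y ↦ ρ y - (y - hs c)/ℓ` is convex on `I` (`hconv.add` of an affine function, or do it by hand
  from `hconv.2`), so by `ConvexOn.le_max_of_mem_Icc` `E u ≤ max (E u₋) (E u₊)`.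
  Lower bound: midpoint convexity `2 ρ (hs c) ≤ ρ (hs c + ℓ u) + ρ (hs c - ℓ u)`, i.e. `0 ≤ E u + E (-u)`, so `E u ≥ - E (-u) ≥ - n (e^{2κ} - 1)`.
-/

theorem s7g_window_aux {ρ : ℝ → ℝ} {I : Set ℝ} (hconv : ConvexOn ℝ I ρ) {hs : ℕ → ℝ}
    (G : S7gGrid ρ I hs) (c n : ℕ) (hnc : n ≤ c) (κ : ℝ) (hκ : 0 ≤ κ)
    (hκ' : 1 / 2 ≤ Real.exp (-κ))
    (hW1 : ∀ i : ℕ, c ≤ i → i ≤ c + n →
      (hs (c + 1) - hs c) * Real.exp (-κ) ≤ hs (i + 1) - hs i)
    (hW2 : ∀ i : ℕ, i ≤ c → c ≤ i + n →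
      hs (i + 1) - hs i ≤ (hs (c + 1) - hs c) * Real.exp (2 * κ))
    (u : ℝ) (hu : |u| ≤ (n : ℝ) / 2) :
    0 ≤ hs c + (hs (c + 1) - hs c) * u ∧ hs c + (hs (c + 1) - hs c) * u ∈ I ∧
      ρ (hs c + (hs (c + 1) - hs c) * u) - (ρ 0 + c) - u ≤ n * (Real.exp (2 * κ) - 1) := by
  have hl : 0 < hs (c + 1) - hs c := sub_pos.2 (G.smono (Nat.lt_succ_self c))
  have hanti : ∀ i : ℕ, i ≤ c → hs (c + 1) - hs c ≤ hs (i + 1) - hs i := fun i hi => G.anti hi
  generalize hs (c + 1) - hs c = ℓ at hl hanti hW1 hW2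
  have hn0 : (0 : ℝ) ≤ n := Nat.cast_nonneg n
  have hR : ∀ k : ℕ, k ≤ n → k * (ℓ * Real.exp (-κ)) ≤ hs (c + k) - hs c := by
    intro k hk
    induction k with
    | zero => simp
    | succ k ih =>
      have h1 := ih (by omega)
      have h2 := hW1 (c + k) (by omega) (by omega)
      have e : hs (c + (k + 1)) = hs (c + k + 1) := rfl
      rw [e]
      push_cast
      linarith
  have hL : ∀ k : ℕ, k ≤ n →
      hs c - hs (c - k) ≤ k * (ℓ * Real.exp (2 * κ)) ∧ k * ℓ ≤ hs c - hs (c - k) := by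
    intro k hk
    induction k with
    | zero => simp
    | succ k ih =>
      have h1 := ih (by omega)
      have e : c - (k + 1) + 1 = c - k := by omega
      have h2 := hW2 (c - (k + 1)) (by omega) (by omega)
      have h3 := hanti (c - (k + 1)) (by omega)
      rw [e] at h2 h3
      push_cast
      constructor <;> linarith [h1.1, h1.2]
  obtain ⟨hu1, hu2⟩ := abs_le.1 hu
  have hRn := hR n le_rfl
  obtain ⟨hLn1, hLn2⟩ := hL n le_rfl
  have hy1 : hs (c - n) ≤ hs c + ℓ * u := by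
    have h1 := mul_le_mul_of_nonneg_left hu1 hl.le
    have h2 : 0 ≤ (n : ℝ) * ℓ := by positivity
    linarith
  have hy2 : hs c + ℓ * u ≤ hs (c + n) := by
    have h1 := mul_le_mul_of_nonneg_left hu2 hl.le
    have h2 : (n : ℝ) * (ℓ * (1 / 2)) ≤ n * (ℓ * Real.exp (-κ)) :=
      mul_le_mul_of_nonneg_left (mul_le_mul_of_nonneg_left hκ' hl.le) hn0
    linarith
  have hx0 : 0 ≤ hs (c - n) := by
    rw [← G.zero]
    exact G.smono.monotone (Nat.zero_le _)
  refine ⟨hx0.trans hy1, hconv.1.ordConnected.out (G.mem _) (G.mem _) ⟨hy1, hy2⟩, ?_⟩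
  have hφ : ConvexOn ℝ I (fun t => ρ t + (-(t - hs c) / ℓ)) := by
    refine hconv.add ⟨hconv.1, fun x _ y _ a b _ _ hab => le_of_eq ?_⟩
    simp only [smul_eq_mul]
    have hb : b = 1 - a := by linarith
    subst hb
    field_simp
    ring
  have hmax := hφ.le_max_of_mem_Icc (G.mem (c - n)) (G.mem (c + n)) ⟨hy1, hy2⟩
  beta_reduce at hmax
  have e1 : -(hs c + ℓ * u - hs c) / ℓ = -u := by
    field_simp
    ring
  rw [e1, G.val, G.val] at hmax
  have hcn : ((c - n : ℕ) : ℝ) = (c : ℝ) - n := by rw [Nat.cast_sub hnc]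
  rw [hcn] at hmax
  push_cast at hmax
  have hA : ρ 0 + ((c : ℝ) - n) + -(hs (c - n) - hs c) / ℓ
      ≤ (ρ 0 + c) + n * (Real.exp (2 * κ) - 1) := by
    have h1 : -(hs (c - n) - hs c) / ℓ ≤ n * Real.exp (2 * κ) := by
      rw [div_le_iff₀ hl]
      linarith
    linarith
  have hB : ρ 0 + ((c : ℝ) + n) + -(hs (c + n) - hs c) / ℓ
      ≤ (ρ 0 + c) + n * (Real.exp (2 * κ) - 1) := by
    have h1 : -(hs (c + n) - hs c) / ℓ ≤ -(n * Real.exp (-κ)) := by
      rw [div_le_iff₀ hl]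
      linarith
    have h2 := Real.add_one_le_exp (-κ)
    have h3 := Real.add_one_le_exp (2 * κ)
    have h4 : (n : ℝ) * (1 - Real.exp (-κ)) ≤ n * (Real.exp (2 * κ) - 1) :=
      mul_le_mul_of_nonneg_left (by linarith) hn0
    linarith
  have := hmax.trans (max_le hA hB)
  linarith

theorem s7g_window {ρ : ℝ → ℝ} {I : Set ℝ} (hconv : ConvexOn ℝ I ρ) {hs : ℕ → ℝ}
    (G : S7gGrid ρ I hs) (c n : ℕ) (hnc : n ≤ c) (κ : ℝ) (hκ : 0 ≤ κ)
    (hκ' : 1 / 2 ≤ Real.exp (-κ))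
    (hW1 : ∀ i : ℕ, c ≤ i → i ≤ c + n →
      (hs (c + 1) - hs c) * Real.exp (-κ) ≤ hs (i + 1) - hs i)
    (hW2 : ∀ i : ℕ, i ≤ c → c ≤ i + n →
      hs (i + 1) - hs i ≤ (hs (c + 1) - hs c) * Real.exp (2 * κ))
    (u : ℝ) (hu : |u| ≤ (n : ℝ) / 2) :
    0 ≤ hs c + (hs (c + 1) - hs c) * u ∧ hs c + (hs (c + 1) - hs c) * u ∈ I ∧
      |ρ (hs c + (hs (c + 1) - hs c) * u) - (ρ 0 + c) - u| ≤ n * (Real.exp (2 * κ) - 1) := by
  obtain ⟨a1, a2, a3⟩ := s7g_window_aux hconv G c n hnc κ hκ hκ' hW1 hW2 u hu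
  obtain ⟨-, b2, b3⟩ := s7g_window_aux hconv G c n hnc κ hκ hκ' hW1 hW2 (-u) (by rwa [abs_neg])
  refine ⟨a1, a2, abs_le.2 ⟨?_, a3⟩⟩
  have hmid := hconv.2 a2 b2 (by norm_num : (0 : ℝ) ≤ 1 / 2) (by norm_num : (0 : ℝ) ≤ 1 / 2)
    (by norm_num : (1 / 2 : ℝ) + 1 / 2 = 1)
  have e : (1 / 2 : ℝ) • (hs c + (hs (c + 1) - hs c) * u) + (1 / 2 : ℝ) • (hs c + (hs (c + 1) - hs c) * -u)
      = hs c := by
    simp only [smul_eq_mul]
    ring
  rw [e, G.val] at hmid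
  simp only [smul_eq_mul] at hmid
  linarith

/-! ### LEAF LF-S7g-coarse
  P1 (7.coarser-inverse-bound) and the power bound after it, in discrete form.   HOST-FREE real analysis (only `S7gGrid`).

`ρ` convex on `I`; grid `ρ (hs j) = ρ 0 + j`, `hs 0 = 0`, gaps `g j = hs (j+1) - hs j > 0`.  Centre `c`, `ℓ = g c`, `v = ρ 0 + c`, and `g i ≤ ℓ e^{κ + ε (c - i)}` for `i ≤ c`.
CLAIM: `ρ y ≤ v - α₀ log ((hs c - y)/ℓ) + 1` for `0 ≤ y ≤ hs c - ℓ`.

PROOF.  `0 = hs 0 ≤ y < hs c`: let `i < c` be the index with `hs i ≤ y < hs (i+1)` (largest `i` with `hs i ≤ y`: `Nat.find` of `y < hs k`, minus one; or induction on `c`).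
Write `y = hs (i+1) - θ g i`, `θ = (hs (i+1) - y)/g i ∈ (0,1]`.  Chord: `ρ y ≤ θ ρ (hs i) + (1-θ) ρ (hs (i+1)) = ρ 0 + (i+1) - θ = v - w`,  `w = (c - i - 1) + θ > 0`   (`hconv.2`).
`hs c - y = ∑_{k ∈ Ico (i+1) c} g k + θ g i ≤ ℓ e^{κ + ε (c - i)} ((c - i - 1) + θ) = ℓ e^{κ + ε (c-i)} w`   (every `g k`, `i ≤ k < c`, is `≤ ℓ e^{κ + ε (c-k)} ≤ ℓ e^{κ + ε (c-i)}`; telescoping sum by induction).
`c - i = w + 1 - θ ≤ w + 1`.  So `log ((hs c - y)/ℓ) ≤ log w + κ + ε (w + 1) ≤ (w - 1) + κ + ε (w+1)` (`Real.log_le_sub_one_of_pos`) and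
`α₀ log ((hs c - y)/ℓ) ≤ α₀ (1 + ε) w + α₀ (κ + ε - 1) ≤ w + 0 ≤ w + 1`   (note `log(..) ≥ 0` is not needed; `α₀ > 0`, `α₀ (1+ε) ≤ 1`, `κ + ε ≤ 1`, `w > 0`).
Hence `ρ y ≤ v - w ≤ v - α₀ log(..) + 1`.
-/

theorem s7g_coarse {ρ : ℝ → ℝ} {I : Set ℝ} (hconv : ConvexOn ℝ I ρ) {hs : ℕ → ℝ}
    (G : S7gGrid ρ I hs) (c : ℕ) (κ ε α₀ : ℝ) (hκ : 0 ≤ κ) (hε : 0 < ε) (hα : 0 < α₀)
    (hαε : α₀ * (1 + ε) ≤ 1) (hκε : κ + ε ≤ 1)
    (hW2 : ∀ i : ℕ, i ≤ c →
      hs (i + 1) - hs i ≤ (hs (c + 1) - hs c) * Real.exp (κ + ε * ((c : ℝ) - i)))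
    (y : ℝ) (hy0 : 0 ≤ y) (hy : y ≤ hs c - (hs (c + 1) - hs c)) :
    ρ y ≤ (ρ 0 + c) - α₀ * Real.log ((hs c - y) / (hs (c + 1) - hs c)) + 1 := by
  have hl : 0 < hs (c + 1) - hs c := sub_pos.2 (G.smono (Nat.lt_succ_self c))
  generalize hs (c + 1) - hs c = ℓ at hl hW2 hy ⊢
  have hyc : y < hs c := by linarith
  classical
  have hex : ∃ k : ℕ, y < hs k := ⟨c, hyc⟩
  obtain ⟨K, hK, hKmin⟩ : ∃ K : ℕ, y < hs K ∧ ∀ k < K, ¬ y < hs k :=
    ⟨Nat.find hex, Nat.find_spec hex, fun k hk => Nat.find_min hex hk⟩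
  have hKc : K ≤ c := by
    by_contra h
    exact hKmin c (not_le.1 h) hyc
  have hK0 : K ≠ 0 := by
    rintro rfl
    rw [G.zero] at hK
    linarith
  obtain ⟨i, rfl⟩ := Nat.exists_eq_succ_of_ne_zero hK0
  have hiy : hs i ≤ y := not_lt.1 (hKmin i (Nat.lt_succ_self i))
  have hK' : y < hs (i + 1) := hK
  have hKc' : i + 1 ≤ c := hKc
  have hgi : 0 < hs (i + 1) - hs i := sub_pos.2 (G.smono (Nat.lt_succ_self i))
  obtain ⟨θ, hθ⟩ : ∃ θ : ℝ, θ = (hs (i + 1) - y) / (hs (i + 1) - hs i) := ⟨_, rfl⟩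
  have hθ0 : 0 < θ := by
    rw [hθ]
    exact div_pos (by linarith) hgi
  have hθ1 : θ ≤ 1 := by
    rw [hθ, div_le_one hgi]
    linarith
  have hθg : θ * (hs (i + 1) - hs i) = hs (i + 1) - y := by
    rw [hθ]
    field_simp
  have hch := hconv.2 (G.mem i) (G.mem (i + 1)) hθ0.le (by linarith : 0 ≤ 1 - θ)
    (by ring : θ + (1 - θ) = 1)
  have e : θ • hs i + (1 - θ) • hs (i + 1) = y := by
    simp only [smul_eq_mul]
    linarith
  rw [e, G.val, G.val] at hch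
  simp only [smul_eq_mul] at hch
  push_cast at hch
  obtain ⟨w, hw⟩ : ∃ w : ℝ, w = ((c : ℝ) - i - 1) + θ := ⟨_, rfl⟩
  have hci : (i : ℝ) + 1 ≤ c := by exact_mod_cast hKc'
  have hw0 : 0 < w := by
    rw [hw]
    linarith
  have hρ : ρ y ≤ ρ 0 + c - w := by
    rw [hw]
    linarith
  obtain ⟨M, hM⟩ : ∃ M : ℝ, M = ℓ * Real.exp (κ + ε * ((c : ℝ) - i)) := ⟨_, rfl⟩
  have hgk : ∀ k : ℕ, i ≤ k → k ≤ c → hs (k + 1) - hs k ≤ M := by
    intro k hik hkc
    refine (hW2 k hkc).trans ?_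
    rw [hM]
    refine mul_le_mul_of_nonneg_left (Real.exp_le_exp.2 ?_) hl.le
    have h1 : (i : ℝ) ≤ k := by exact_mod_cast hik
    have h2 := mul_le_mul_of_nonneg_left (show (c : ℝ) - k ≤ (c : ℝ) - i by linarith) hε.le
    linarith
  have hsum : ∀ k : ℕ, i + 1 ≤ k → k ≤ c → hs k - hs (i + 1) ≤ ((k : ℝ) - i - 1) * M := by
    intro k hk
    induction k, hk using Nat.le_induction with
    | base =>
      intro _
      push_cast
      simp
    | succ k hk ih =>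
      intro hkc
      have h1 := ih (by omega)
      have h2 := hgk k (by omega) (by omega)
      push_cast
      linarith
  have h1 := hsum c hKc' le_rfl
  have h2 : θ * (hs (i + 1) - hs i) ≤ θ * M :=
    mul_le_mul_of_nonneg_left (hgk i le_rfl (by omega)) hθ0.le
  have h3 : hs c - y ≤ M * w := by
    rw [hw]
    linarith
  have hpos : 0 < hs c - y := by linarith
  have h4 : (hs c - y) / ℓ ≤ Real.exp (κ + ε * ((c : ℝ) - i)) * w := by
    rw [div_le_iff₀ hl]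
    rw [hM] at h3
    linarith
  have h5 := Real.log_le_log (div_pos hpos hl) h4
  rw [Real.log_mul (Real.exp_pos _).ne' hw0.ne', Real.log_exp] at h5
  have h6 := Real.log_le_sub_one_of_pos hw0
  have h7 : (c : ℝ) - i ≤ w + 1 := by
    rw [hw]
    linarith
  have h8 := mul_le_mul_of_nonneg_left h7 hε.le
  have h9 : Real.log ((hs c - y) / ℓ) ≤ (1 + ε) * w + (κ + ε - 1) := by linarith
  have h10 := mul_le_mul_of_nonneg_left h9 hα.le
  have h11 : α₀ * ((1 + ε) * w) ≤ 1 * w := by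
    rw [← mul_assoc]
    exact mul_le_mul_of_nonneg_right hαε hw0.le
  have h12 : 0 ≤ α₀ * (1 - (κ + ε)) := mul_nonneg hα.le (by linarith)
  linarith

/-! ### GLUE (proved)
Row 269, P1 Section 7, unit S7d (helper167).   GLUE: the real-variable selection `s7g_select` (P1 (7.slow-slope-values)-(7.selected-log-range)) from the leaves
LF-S7g-grid, -slow, -arg, -win, -coarse.   HOST-FREE.
Parameters for the `n`-th term: `ε = (1-α₀)/(4 (n+1)^3)`, window of `n+1` cells, `κ = ε (n+1)`.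
-/

/-- the `n`-th centre. -/
theorem s7g_select_pt {H : ℝ≥0∞} {ρ : ℝ → ℝ} (hconv : ConvexOn ℝ (s7gI H) ρ)
    (heven : ∀ h ∈ s7gI H, ρ (-h) = ρ h) {hs : ℕ → ℝ} (G : S7gGrid ρ (s7gI H) hs)
    (hord : H ≠ ⊤ → S7gInfOrder H ρ) (α₀ : ℝ) (hα : 0 < α₀) (hα' : α₀ < 1) (n : ℕ) :
    ∃ c : ℕ, n + 1 ≤ c ∧
      (∀ u : ℝ, |u| ≤ ((n : ℝ) + 1) / 2 →
        0 ≤ hs c + (hs (c + 1) - hs c) * u ∧ hs c + (hs (c + 1) - hs c) * u ∈ s7gI H ∧
        |ρ (hs c + (hs (c + 1) - hs c) * u) - (ρ 0 + c) - u| ≤ 1 / ((n : ℝ) + 1)) ∧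
      (∀ y : ℝ, 0 ≤ y → y ≤ hs c - (hs (c + 1) - hs c) →
        ρ y ≤ (ρ 0 + c) - α₀ * Real.log ((hs c - y) / (hs (c + 1) - hs c)) + 1) ∧
      (hs 1 - hs 0) * Real.exp (-((c : ℝ) / ((n : ℝ) + 1))) ≤ hs (c + 1) - hs c := by
  set N : ℝ := (n : ℝ) + 1 with hN
  have hN1 : 1 ≤ N := by rw [hN]; linarith [Nat.cast_nonneg (α := ℝ) n]
  have hN0 : 0 < N := by linarith
  set ε : ℝ := (1 - α₀) / (4 * N ^ 3) with hε
  have hε0 : 0 < ε := by rw [hε]; apply div_pos (by linarith); positivity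
  set κ : ℝ := ε * N with hκ
  have hκ0 : 0 < κ := mul_pos hε0 hN0
  have hκN : κ * N ^ 2 = (1 - α₀) / 4 := by
    rw [hκ, hε]; field_simp
  have hN2 : 1 ≤ N ^ 2 := by nlinarith
  have hκ4 : κ ≤ 1 / 4 := by nlinarith
  have hεκ : ε ≤ κ := by rw [hκ]; nlinarith
  have hεα : ε ≤ (1 - α₀) / 4 := by nlinarith
  have hgpos : ∀ j, 0 < hs (j + 1) - hs j := fun j => sub_pos.2 (G.smono (Nat.lt_succ_self j))
  obtain ⟨c, hc0, hnc, hW1, hW2, hlow⟩ := s7g_argmin (fun j => hs (j + 1) - hs j) hgpos G.anti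
    (fun η hη J₀ => by simpa using s7g_slow hconv heven G hord η hη J₀) ε hε0 (n + 1) (n + 1)
  have hcast : ((n + 1 : ℕ) : ℝ) = N := by rw [hN]; push_cast; ring
  simp only [hcast] at hW1 hW2
  refine ⟨c, hc0, ?_, ?_, ?_⟩
  · intro u hu
    have hκ' : 1 / 2 ≤ Real.exp (-κ) := by
      have := Real.add_one_le_exp (-κ)
      linarith
    have h := s7g_window hconv G c (n + 1) hnc κ hκ0.le hκ' (fun i h1 h2 => hW1 i h1 h2)
      (fun i h1 h2 => by
        refine (hW2 i h1).trans ?_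
        refine mul_le_mul_of_nonneg_left (Real.exp_le_exp.2 ?_) (hgpos c).le
        have h3 : (c : ℝ) ≤ (i : ℝ) + N := by
          have : ((c : ℕ) : ℝ) ≤ ((i + (n + 1) : ℕ) : ℝ) := by exact_mod_cast h2
          rw [Nat.cast_add, hcast] at this
          exact this
        have : ε * ((c : ℝ) - i) ≤ ε * N := mul_le_mul_of_nonneg_left (by linarith) hε0.le
        rw [hκ]; linarith) u (by rw [hcast]; exact hu)
    refine ⟨h.1, h.2.1, h.2.2.trans ?_⟩
    rw [hcast]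
    have h2κ : 2 * κ < 1 := by linarith
    have h1 : Real.exp (2 * κ) ≤ 1 / (1 - 2 * κ) :=
      Real.exp_bound_div_one_sub_of_interval (by linarith) h2κ
    have h2 : 1 / (1 - 2 * κ) ≤ 1 + 4 * κ := by
      rw [div_le_iff₀ (by linarith)]
      nlinarith
    have h3 : N * (Real.exp (2 * κ) - 1) ≤ N * (4 * κ) :=
      mul_le_mul_of_nonneg_left (by linarith) hN0.le
    refine h3.trans ?_
    rw [le_div_iff₀ hN0]
    have : N * (4 * κ) * N = 4 * (κ * N ^ 2) := by ring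
    rw [this, hκN]
    linarith
  · intro y hy0 hy
    exact s7g_coarse hconv G c κ ε α₀ hκ0.le hε0 hα (by nlinarith) (by linarith)
      (fun i hi => hW2 i hi) y hy0 hy
  · refine le_trans ?_ hlow
    simp only [zero_add]
    refine mul_le_mul_of_nonneg_left (Real.exp_le_exp.2 ?_) (by simpa using (hgpos 0).le)
    rw [neg_le_neg_iff, le_div_iff₀ hN0]
    have hc' : (0 : ℝ) ≤ c := Nat.cast_nonneg c
    have : 2 * ε * N ≤ 1 := by rw [hκ] at hκ4; linarith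
    nlinarith

/-- **The real-variable selection** (P1 Theorem 7.7, second to fifth paragraphs of the proof). -/
theorem s7g_select {H : ℝ≥0∞} {ρ : ℝ → ℝ} (hconv : ConvexOn ℝ (s7gI H) ρ)
    (heven : ∀ h ∈ s7gI H, ρ (-h) = ρ h) (hunb : ∀ v : ℝ, ∃ h ∈ s7gI H, v < ρ h)
    (hord : H ≠ ⊤ → S7gInfOrder H ρ) (α₀ : ℝ) (hα : 0 < α₀) (hα' : α₀ < 1) :
    ∃ (h ℓ v : ℕ → ℝ) (C : ℝ), S7gSel H ρ α₀ h ℓ v C := by
  obtain ⟨hs, G⟩ := s7g_grid_exists hconv heven hunb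
  choose c hc1 hc2 hc3 hc4 using s7g_select_pt hconv heven G hord α₀ hα hα'
  have hgpos : ∀ j, 0 < hs (j + 1) - hs j := fun j => sub_pos.2 (G.smono (Nat.lt_succ_self j))
  have hg0 : 0 < hs 1 - hs 0 := hgpos 0
  -- `c n → ∞`
  have hcn : ∀ n : ℕ, (n : ℝ) + 1 ≤ (c n : ℝ) := fun n => by exact_mod_cast hc1 n
  have hctop : Tendsto (fun n => (c n : ℝ)) atTop atTop :=
    tendsto_atTop_mono (fun n => by linarith [hcn n]) tendsto_natCast_atTop_atTop
  have hvtop : Tendsto (fun n => ρ 0 + (c n : ℝ)) atTop atTop := tendsto_atTop_add_const_left _ _ hctop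
  -- `c n / v n → 1`
  have hcv : Tendsto (fun n => (c n : ℝ) / (ρ 0 + c n)) atTop (𝓝 1) := by
    have h1 : Tendsto (fun n => 1 - ρ 0 / (ρ 0 + (c n : ℝ))) atTop (𝓝 (1 - 0)) :=
      tendsto_const_nhds.sub (hvtop.const_div_atTop _)
    rw [sub_zero] at h1
    refine h1.congr' ?_
    filter_upwards [hvtop.eventually_gt_atTop 0] with n hn
    field_simp
    ring
  have hinv : Tendsto (fun n : ℕ => 1 / ((n : ℝ) + 1)) atTop (𝓝 0) := tendsto_one_div_add_atTop_nhds_zero_nat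
  -- `(c n/(n+1)) / v n → 0`
  have hcnv : Tendsto (fun n => ((c n : ℝ) / ((n : ℝ) + 1)) / (ρ 0 + c n)) atTop (𝓝 0) := by
    have := hinv.mul hcv
    rw [zero_mul] at this
    refine this.congr (fun n => ?_)
    ring
  have hconstv : ∀ a : ℝ, Tendsto (fun n => a / (ρ 0 + (c n : ℝ))) atTop (𝓝 0) :=
    fun a => hvtop.const_div_atTop a
  -- bounds for `log ℓ`
  have hlog_up : ∀ n, Real.log (hs (c n + 1) - hs (c n)) ≤ Real.log (hs 1 - hs 0) := fun n =>
    Real.log_le_log (hgpos _) (by simpa using G.anti (Nat.zero_le (c n)))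
  have hlog_lo : ∀ n, Real.log (hs 1 - hs 0) - (c n : ℝ) / ((n : ℝ) + 1) ≤
      Real.log (hs (c n + 1) - hs (c n)) := fun n => by
    have := Real.log_le_log (by positivity) (hc4 n)
    rwa [Real.log_mul hg0.ne' (Real.exp_pos _).ne', Real.log_exp, ← sub_eq_add_neg] at this
  have hhs_le : ∀ j : ℕ, hs j ≤ j * (hs 1 - hs 0) := by
    intro j
    induction j with
    | zero => simp [G.zero]
    | succ j ih =>
      have : hs (j + 1) - hs j ≤ hs 1 - hs 0 := by simpa using G.anti (Nat.zero_le j)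
      push_cast
      linarith
  refine ⟨fun n => hs (c n), fun n => hs (c n + 1) - hs (c n), fun n => ρ 0 + c n, hs 1 - hs 0, ?_⟩
  refine ⟨?_, fun n => G.val _, hvtop, ?_, ?_, ?_, fun n => hc3 n, ?_⟩
  · intro n
    refine ⟨hgpos _, by simpa using G.anti (Nat.zero_le (c n)), ?_, G.mem _⟩
    rw [← G.zero]
    exact G.smono (lt_of_lt_of_le (Nat.succ_pos n) (hc1 n))
  · -- log ℓ / v → 0
    have hlo : Tendsto (fun n => Real.log (hs 1 - hs 0) / (ρ 0 + (c n : ℝ)) -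
        ((c n : ℝ) / ((n : ℝ) + 1)) / (ρ 0 + c n)) atTop (𝓝 (0 - 0)) := (hconstv _).sub hcnv
    rw [sub_zero] at hlo
    refine tendsto_of_tendsto_of_tendsto_of_le_of_le' hlo (hconstv (Real.log (hs 1 - hs 0))) ?_ ?_
    · filter_upwards [hvtop.eventually_gt_atTop 0] with n hn
      rw [← sub_div]
      exact div_le_div_of_nonneg_right (hlog_lo n) hn.le
    · filter_upwards [hvtop.eventually_gt_atTop 0] with n hn
      exact div_le_div_of_nonneg_right (hlog_up n) hn.le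
  · -- log (1 + h/ℓ) / v → 0
    have h1 : Tendsto (fun n => Real.log (1 + (c n : ℝ)) / (ρ 0 + (c n : ℝ))) atTop (𝓝 0) := by
      have h2 := Real.tendsto_pow_log_div_mul_add_atTop 1 (ρ 0 - 1) 1 one_ne_zero
      have h3 : Tendsto (fun n => 1 + (c n : ℝ)) atTop atTop := tendsto_atTop_add_const_left _ _ hctop
      refine (h2.comp h3).congr (fun n => ?_)
      simp only [Function.comp_apply, pow_one]
      congr 1
      ring
    have hup : Tendsto (fun n => Real.log (1 + (c n : ℝ)) / (ρ 0 + (c n : ℝ)) +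
        ((c n : ℝ) / ((n : ℝ) + 1)) / (ρ 0 + c n)) atTop (𝓝 (0 + 0)) := h1.add hcnv
    rw [add_zero] at hup
    refine tendsto_of_tendsto_of_tendsto_of_le_of_le' tendsto_const_nhds hup ?_ ?_
    · filter_upwards [hvtop.eventually_gt_atTop 0] with n hn
      have hh0 : 0 ≤ hs (c n) := by rw [← G.zero]; exact G.smono.monotone (Nat.zero_le _)
      have : 0 ≤ hs (c n) / (hs (c n + 1) - hs (c n)) := div_nonneg hh0 (hgpos _).le
      exact div_nonneg (Real.log_nonneg (by linarith)) hn.le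
    · filter_upwards [hvtop.eventually_gt_atTop 0] with n hn
      rw [← add_div]
      refine div_le_div_of_nonneg_right ?_ hn.le
      have hl := hgpos (c n)
      have hh0 : 0 ≤ hs (c n) := by rw [← G.zero]; exact G.smono.monotone (Nat.zero_le _)
      have hc0 : (0 : ℝ) ≤ c n := Nat.cast_nonneg _
      have hle : hs (c n + 1) - hs (c n) ≤ hs 1 - hs 0 := by simpa using G.anti (Nat.zero_le (c n))
      have h4 : 1 + hs (c n) / (hs (c n + 1) - hs (c n)) ≤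
          (1 + (c n : ℝ)) * ((hs 1 - hs 0) / (hs (c n + 1) - hs (c n))) := by
        have h5 : 1 ≤ (hs 1 - hs 0) / (hs (c n + 1) - hs (c n)) := (one_le_div hl).2 hle
        have h6 : hs (c n) / (hs (c n + 1) - hs (c n)) ≤
            (c n : ℝ) * ((hs 1 - hs 0) / (hs (c n + 1) - hs (c n))) := by
          rw [← mul_div_assoc]
          exact div_le_div_of_nonneg_right (hhs_le _) hl.le
        nlinarith
      have h7 : 0 < 1 + hs (c n) / (hs (c n + 1) - hs (c n)) := by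
        have : 0 ≤ hs (c n) / (hs (c n + 1) - hs (c n)) := div_nonneg hh0 hl.le
        linarith
      have h8 := Real.log_le_log h7 h4
      rw [Real.log_mul (by positivity) (by positivity), Real.log_div hg0.ne' hl.ne'] at h8
      linarith [hlog_lo n]
  · intro U ε hε
    have e1 : ∀ᶠ n : ℕ in atTop, 2 * U ≤ (n : ℝ) := tendsto_natCast_atTop_atTop.eventually_ge_atTop _
    have e2 : ∀ᶠ n : ℕ in atTop, 1 / ((n : ℝ) + 1) < ε := hinv.eventually_lt_const hε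
    filter_upwards [e1, e2] with n h1 h2 u hu
    obtain ⟨a1, a2, a3⟩ := hc2 n u (by linarith)
    exact ⟨a1, a2, a3.trans h2.le⟩
  · intro y hy
    filter_upwards [hvtop.eventually_gt_atTop (ρ y)] with n hn
    by_contra hcon
    push Not at hcon
    have hh0 : 0 ≤ hs (c n) := by rw [← G.zero]; exact G.smono.monotone (Nat.zero_le _)
    have := s7g_rho_mono hconv heven hh0 hcon hy
    rw [G.val] at this
    linarith

end Claimed.Agent.R269
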