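/-
Row 269, P1 Section 7, Theorem 7.7 part (B), first file: THE ROW MAXIMUM `ρ = s7gRho f` AND THE LIMIT OF THE FIRST FIELD (07-profiles.tex l.916-925, l.1010-1025).   Author: helper167.   NO SORRY.
HOST-FREE: a pair `P : S7gPair H f q` on the strip `estrip H`, `H ∈ (0,∞]`;  `S : S7gSel H ρ α₀ h ℓ v C` is the output of part (A) (S7/GrowthSel.lean).

* the row maximum: attained, positive, `‖f s‖ ≤ e^{ρ(Im s)}`, even, CONVEX (three lines), unbounded (Liouville / infinite order);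
* `s7g_lim_f_aux`: `F_n(S) - F_n(0) e^{-iS} → 0` uniformly on discs, by Borel-Caratheodory applied to `e^{iS} F_n(S)/F_n(0) - 1`.
-/
import Claimed.Agent.R269.S7.GrowthSel
import Claimed.Agent.R269.Lib.CAThreeLines

set_option autoImplicit false

namespace Claimed.Agent.R269

open Complex ComplexConjugate Filter Topology Set Metric
open scoped ENNReal Real

variable {H : ℝ≥0∞} {f q : ℂ → ℂ}

theorem s7g_exists_T {h : ℝ} (hh : h ∈ s7gI H) :
    ∃ T : ℝ, |h| < T ∧ ∀ z : ℂ, |z.im| < T → z ∈ estrip H := by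
  obtain ⟨r, hr0, h1, h2⟩ := ENNReal.lt_iff_exists_real_btwn.1 hh
  refine ⟨r, (ENNReal.ofReal_lt_ofReal_iff_of_nonneg (abs_nonneg h)).1 h1, fun z hz => ?_⟩
  exact lt_of_le_of_lt (ENNReal.ofReal_le_ofReal hz.le) h2

theorem s7g_mk_eq (x h : ℝ) : (⟨x, h⟩ : ℂ) = (x : ℂ) + (⟨0, h⟩ : ℂ) := by
  apply Complex.ext <;> simp

theorem s7g_estrip_isOpen (H : ℝ≥0∞) : IsOpen (estrip H) :=
  (s7g_I_isOpen H).preimage continuous_im

theorem s7g_estrip_convex (H : ℝ≥0∞) : Convex ℝ (estrip H) :=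
  (s7g_I_convex H).linear_preimage Complex.imLm

theorem s7g_row_bdd (P : S7gPair H f q) {h : ℝ} (hh : h ∈ s7gI H) :
    BddAbove (range fun x : ℝ => ‖f (⟨x, h⟩ : ℂ)‖) := by
  obtain ⟨T, hT, hsub⟩ := s7g_exists_T hh
  obtain ⟨M, hM⟩ := ca_strip_bdd (g := f) (H := T) ((P.f_diff.mono hsub).continuousOn)
    (fun z hz => P.f_per z (hsub z hz)) hT
  refine ⟨M, ?_⟩
  rintro _ ⟨x, rfl⟩
  exact hM _ le_rfl

theorem s7g_row_attained (P : S7gPair H f q) {h : ℝ} (hh : h ∈ s7gI H) :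
    ∃ x : ℝ, ‖f (⟨x, h⟩ : ℂ)‖ = s7gRow f h := by
  obtain ⟨T, hT, hsub⟩ := s7g_exists_T hh
  have hz : |(⟨0, h⟩ : ℂ).im| < T := hT
  have hc : Continuous (fun x : ℝ => ‖f ((x : ℂ) + (⟨0, h⟩ : ℂ))‖) :=
    (ca_row_continuous (g := f) (H := T) ((P.f_diff.mono hsub).continuousOn) hz).norm
  have hp := ca_row_periodic (g := f) (H := T) (fun z hz => P.f_per z (hsub z hz)) hz
  obtain ⟨x₀, hx₀, hmax⟩ := isCompact_Icc.exists_isMaxOn
    (nonempty_Icc.2 Real.two_pi_pos.le) hc.continuousOn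
  refine ⟨x₀, le_antisymm (le_ciSup (s7g_row_bdd P hh) x₀) (ciSup_le fun x => ?_)⟩
  obtain ⟨y, hy, hy'⟩ := hp.exists_mem_Ico₀ Real.two_pi_pos x
  have h1 := hmax (Ico_subset_Icc_self hy)
  simp only at hy' h1
  rw [s7g_mk_eq x h, s7g_mk_eq x₀ h, hy']
  exact h1

theorem s7g_row_pos (P : S7gPair H f q) {h : ℝ} (hh : h ∈ s7gI H) : 0 < s7gRow f h := by
  by_contra hcon
  push Not at hcon
  have hzero : ∀ x : ℝ, f (⟨x, h⟩ : ℂ) = 0 := by
    intro x
    have h1 := le_ciSup (s7g_row_bdd P hh) x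
    have h2 : ‖f (⟨x, h⟩ : ℂ)‖ ≤ 0 := h1.trans hcon
    exact norm_le_zero_iff.1 h2
  have han : AnalyticOnNhd ℂ f (estrip H) := P.f_diff.analyticOnNhd (s7g_estrip_isOpen H)
  have hz₀ : (⟨0, h⟩ : ℂ) ∈ estrip H := hh
  have ht : Tendsto (fun n : ℕ => (⟨1 / ((n : ℝ) + 1), h⟩ : ℂ)) atTop (𝓝[≠] (⟨0, h⟩ : ℂ)) := by
    refine tendsto_nhdsWithin_iff.2 ⟨?_, Eventually.of_forall fun n => ?_⟩
    · have h1 : Tendsto (fun n : ℕ => ((1 / ((n : ℝ) + 1) : ℝ) : ℂ) + (⟨0, h⟩ : ℂ)) atTop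
          (𝓝 (((0 : ℝ) : ℂ) + (⟨0, h⟩ : ℂ))) :=
        ((continuous_ofReal.tendsto 0).comp tendsto_one_div_add_atTop_nhds_zero_nat).add_const _
      rw [← s7g_mk_eq] at h1
      refine h1.congr fun n => ?_
      rw [← s7g_mk_eq]
    · intro h0
      have h1 := congrArg Complex.re h0
      simp only at h1
      have : (0 : ℝ) < 1 / ((n : ℝ) + 1) := by positivity
      linarith
  have hfr : ∃ᶠ z in 𝓝[≠] (⟨0, h⟩ : ℂ), f z = 0 :=
    ht.frequently (Frequently.of_forall fun n => hzero _)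
  have h0 := han.eqOn_zero_of_preconnected_of_frequently_eq_zero
    (s7g_estrip_convex H).isPreconnected hz₀ hfr
  have hr : ((0 : ℝ) : ℂ) ∈ estrip H := by
    show ((0 : ℝ) : ℂ).im ∈ s7gI H
    exact s7g_I_of_abs_le hh (by simp)
  exact P.f_real 0 (h0 hr)

theorem s7g_norm_le (P : S7gPair H f q) {s : ℂ} (hs : s ∈ estrip H) :
    ‖f s‖ ≤ Real.exp (s7gRho f s.im) := by
  have hh : s.im ∈ s7gI H := hs
  rw [s7gRho, Real.exp_log (s7g_row_pos P hh)]
  exact le_ciSup (s7g_row_bdd P hh) s.re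

theorem s7g_rho_attained (P : S7gPair H f q) {h : ℝ} (hh : h ∈ s7gI H) :
    ∃ x : ℝ, ‖f (⟨x, h⟩ : ℂ)‖ = Real.exp (s7gRho f h) := by
  rw [s7gRho, Real.exp_log (s7g_row_pos P hh)]
  exact s7g_row_attained P hh

theorem s7g_rho_even (P : S7gPair H f q) : ∀ h ∈ s7gI H, s7gRho f (-h) = s7gRho f h := by
  intro h hh
  unfold s7gRho s7gRow
  congr 2
  funext x
  have h1 : (⟨x, -h⟩ : ℂ) = conj (⟨x, h⟩ : ℂ) := by
    apply Complex.ext <;> simp
  rw [h1, P.f_conj _ hh, Complex.norm_conj]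

theorem s7g_rho_convex (P : S7gPair H f q) : ConvexOn ℝ (s7gI H) (s7gRho f) := by
  refine ⟨s7g_I_convex H, ?_⟩
  intro h₀ hh₀ h₁ hh₁ a b ha hb hab
  obtain ⟨T, hT0, hT1, hsub⟩ :
      ∃ T : ℝ, |h₀| < T ∧ |h₁| < T ∧ ∀ z : ℂ, |z.im| < T → z ∈ estrip H := by
    rcases le_total |h₀| |h₁| with h | h
    · obtain ⟨T, h1, h2⟩ := s7g_exists_T hh₁
      exact ⟨T, h.trans_lt h1, h1, h2⟩
    · obtain ⟨T, h1, h2⟩ := s7g_exists_T hh₀
      exact ⟨T, h1, h.trans_lt h1, h2⟩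
  have hmem : a • h₀ + b • h₁ ∈ s7gI H := (s7g_I_convex H) hh₀ hh₁ ha hb hab
  have hrow : ∀ (y : ℝ), y ∈ s7gI H → ∀ t : ℝ, ‖f ((t : ℂ) + (y : ℂ) * I)‖ ≤ Real.exp (s7gRho f y) := by
    intro y hy t
    have h1 : ((t : ℂ) + (y : ℂ) * I) = (⟨t, y⟩ : ℂ) := by apply Complex.ext <;> simp
    rw [h1]
    exact s7g_norm_le P (s := ⟨t, y⟩) hy
  have key : ∀ x : ℝ, ‖f (⟨x, a • h₀ + b • h₁⟩ : ℂ)‖ ≤
      Real.exp (a • s7gRho f h₀ + b • s7gRho f h₁) := by
    intro x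
    have h1 := ca_sup_three_lines (g := f) (H := T) (P.f_diff.mono hsub)
      (fun z hz => P.f_per z (hsub z hz)) hT0 hT1 (θ := b) ⟨hb, by linarith⟩
      (hrow h₀ hh₀) (hrow h₁ hh₁) x
    have h2 : ((x : ℂ) + (((1 - b) * h₀ + b * h₁ : ℝ) : ℂ) * I) = (⟨x, a • h₀ + b • h₁⟩ : ℂ) := by
      have : a = 1 - b := by linarith
      apply Complex.ext <;> simp [this]
    rw [h2] at h1
    refine h1.trans (le_of_eq ?_)
    have h3 : 1 - b = a := by linarith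
    rw [h3, ← Real.exp_mul, ← Real.exp_mul, ← Real.exp_add]
    congr 1
    simp only [smul_eq_mul]
    ring
  rw [s7gRho, Real.log_le_iff_le_exp (s7g_row_pos P hmem)]
  exact ciSup_le key

theorem s7g_rho_unbdd_top (P : S7gPair ⊤ f q) : ∀ v : ℝ, ∃ h ∈ s7gI ⊤, v < s7gRho f h := by
  by_contra hcon
  push Not at hcon
  obtain ⟨v, hv⟩ := hcon
  have hall : ∀ s : ℂ, s ∈ estrip ⊤ := fun s => s7g_I_top s.im
  have hd : Differentiable ℂ f := fun s =>
    (P.f_diff s (hall s)).differentiableAt ((s7g_estrip_isOpen ⊤).mem_nhds (hall s))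
  have hb : Bornology.IsBounded (range f) := by
    rw [isBounded_iff_forall_norm_le]
    refine ⟨Real.exp v, ?_⟩
    rintro _ ⟨s, rfl⟩
    exact (s7g_norm_le P (hall s)).trans (Real.exp_le_exp.2 (hv _ (s7g_I_top _)))
  exact P.noncst ⟨f 0, fun s _ => hd.apply_eq_apply_of_bounded hb s 0⟩

theorem s7g_unbdd_fin {ρ : ℝ → ℝ} (hH : H ≠ ⊤) (hord : S7gInfOrder H ρ) :
    ∀ v : ℝ, ∃ h ∈ s7gI H, v < ρ h := by
  intro v
  obtain ⟨h, h0, h1, h2, h3⟩ := hord 1 (Real.exp (-|v|)) (Real.exp_pos _)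
  refine ⟨h, (s7g_I_iff hH h).2 (by rwa [abs_of_nonneg h0]), ?_⟩
  have hd : 0 < H.toReal - h := by linarith
  have h4 : |v| < Real.log (1 / (H.toReal - h)) := by
    rw [one_div, Real.log_inv, lt_neg]
    rw [← Real.log_exp (-|v|)]
    exact Real.log_lt_log hd h2
  linarith [le_abs_self v]


theorem s7g_lim_f_aux (P : S7gPair H f q) {α₀ C : ℝ} {h ℓ v : ℕ → ℝ}
    (S : S7gSel H (s7gRho f) α₀ h ℓ v C) (x : ℕ → ℝ)
    (hx : ∀ n, ‖f (⟨x n, h n⟩ : ℂ)‖ = Real.exp (v n)) (R ε : ℝ) (hε : 0 < ε) :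
    ∀ᶠ n in atTop, ∀ Z : ℂ, ‖Z‖ ≤ R →
      ‖f (⟨x n, h n⟩ + (ℓ n : ℂ) * Z) / ((Real.exp (v n) : ℝ) : ℂ) -
        f (⟨x n, h n⟩ : ℂ) / ((Real.exp (v n) : ℝ) : ℂ) * Complex.exp (-(I * Z))‖ ≤ ε := by
  set R' : ℝ := max R 1 with hR'
  have hR'1 : 1 ≤ R' := le_max_right _ _
  have hR'0 : 0 < R' := by linarith
  set M : ℝ := ε * Real.exp (-R') / 2 with hM
  have hM0 : 0 < M := by positivity
  set ε' : ℝ := Real.log (1 + M) with hε'
  have hε'0 : 0 < ε' := Real.log_pos (by linarith)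
  have hexpε' : Real.exp ε' = 1 + M := Real.exp_log (by linarith)
  filter_upwards [S.window (2 * R') ε' hε'0] with n hn Z hZ
  set s : ℂ := (⟨x n, h n⟩ : ℂ) with hs
  have hfs : f s ≠ 0 := by
    intro h0
    have := hx n
    rw [← hs, h0, norm_zero] at this
    exact (Real.exp_pos _).ne this
  have hm0 : ((Real.exp (v n) : ℝ) : ℂ) ≠ 0 := by
    exact_mod_cast (Real.exp_pos (v n)).ne'
  have him : ∀ W : ℂ, (s + (ℓ n : ℂ) * W).im = h n + ℓ n * W.im := by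
    intro W; simp [hs]
  have hmem : ∀ W ∈ ball (0 : ℂ) (2 * R'), s + (ℓ n : ℂ) * W ∈ estrip H := by
    intro W hW
    rw [mem_ball_zero_iff] at hW
    show (s + (ℓ n : ℂ) * W).im ∈ s7gI H
    rw [him]
    exact (hn W.im ((Complex.abs_im_le_norm W).trans hW.le)).2.1
  set G : ℂ → ℂ := fun W => Complex.exp (I * W) * f (s + (ℓ n : ℂ) * W) / f s - 1 with hG
  have hdiff : DifferentiableOn ℂ G (ball 0 (2 * R')) := by
    intro W hW
    have h1 : DifferentiableAt ℂ f (s + (ℓ n : ℂ) * W) :=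
      (P.f_diff _ (hmem W hW)).differentiableAt ((s7g_estrip_isOpen H).mem_nhds (hmem W hW))
    have h2 : DifferentiableAt ℂ (fun W : ℂ => s + (ℓ n : ℂ) * W) W := by fun_prop
    have h3 : DifferentiableAt ℂ (fun W : ℂ => f (s + (ℓ n : ℂ) * W)) W :=
      DifferentiableAt.comp W h1 h2
    have h4 : DifferentiableAt ℂ (fun W : ℂ => Complex.exp (I * W)) W := by fun_prop
    exact (((h4.mul h3).div_const _).sub_const _).differentiableWithinAt
  have hmaps : MapsTo G (ball 0 (2 * R')) {z | z.re ≤ M} := by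
    intro W hW
    have hW' := hW
    rw [mem_ball_zero_iff] at hW'
    obtain ⟨-, b2, b3⟩ := hn W.im ((Complex.abs_im_le_norm W).trans hW'.le)
    show (G W).re ≤ M
    have h1 : (G W).re ≤ ‖Complex.exp (I * W) * f (s + (ℓ n : ℂ) * W) / f s‖ - 1 := by
      simp only [hG, Complex.sub_re, Complex.one_re]
      linarith [Complex.re_le_norm (Complex.exp (I * W) * f (s + (ℓ n : ℂ) * W) / f s)]
    have h2 : ‖Complex.exp (I * W)‖ = Real.exp (-W.im) := by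
      rw [Complex.norm_exp]; congr 1; simp
    have h3 : ‖f (s + (ℓ n : ℂ) * W)‖ ≤ Real.exp (s7gRho f (h n + ℓ n * W.im)) := by
      have := s7g_norm_le P (hmem W hW)
      rwa [him] at this
    have h4 : ‖Complex.exp (I * W) * f (s + (ℓ n : ℂ) * W) / f s‖ ≤ Real.exp ε' := by
      rw [norm_div, norm_mul, h2, hs, hx n, div_le_iff₀ (Real.exp_pos _)]
      calc Real.exp (-W.im) * ‖f ((⟨x n, h n⟩ : ℂ) + (ℓ n : ℂ) * W)‖
          ≤ Real.exp (-W.im) * Real.exp (s7gRho f (h n + ℓ n * W.im)) :=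
            mul_le_mul_of_nonneg_left h3 (Real.exp_pos _).le
        _ = Real.exp (-W.im + s7gRho f (h n + ℓ n * W.im)) := by rw [Real.exp_add]
        _ ≤ Real.exp (ε' + v n) := Real.exp_le_exp.2 (by linarith [(abs_le.1 b3).2])
        _ = Real.exp ε' * Real.exp (v n) := by rw [Real.exp_add]
    linarith
  have hG0 : G 0 = 0 := by
    simp only [hG, mul_zero, Complex.exp_zero, add_zero, one_mul]
    rw [div_self hfs, sub_self]
  have hZR : ‖Z‖ ≤ R' := hZ.trans (le_max_left _ _)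
  have hZb : Z ∈ ball (0 : ℂ) (2 * R') := by
    rw [mem_ball_zero_iff]; linarith
  have hBC := Complex.borelCaratheodory_zero hM0 hdiff hmaps (by linarith) hZb hG0
  have hGZ : ‖G Z‖ ≤ 2 * M := by
    refine hBC.trans ?_
    rw [div_le_iff₀ (by linarith)]
    have : 0 ≤ ‖Z‖ := norm_nonneg _
    nlinarith
  have hid : f (s + (ℓ n : ℂ) * Z) / ((Real.exp (v n) : ℝ) : ℂ) -
      f s / ((Real.exp (v n) : ℝ) : ℂ) * Complex.exp (-(I * Z)) =
      f s / ((Real.exp (v n) : ℝ) : ℂ) * Complex.exp (-(I * Z)) * G Z := by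
    have h1 : Complex.exp (-(I * Z)) * Complex.exp (I * Z) = 1 := by
      rw [← Complex.exp_add]; simp
    simp only [hG]
    generalize Complex.exp (-(I * Z)) = E at h1 ⊢
    generalize Complex.exp (I * Z) = E' at h1 ⊢
    field_simp
    linear_combination (-(f (s + (ℓ n : ℂ) * Z))) * h1
  rw [hid, norm_mul, norm_mul, norm_div, hs, hx n, Complex.norm_real, Real.norm_eq_abs,
    abs_of_pos (Real.exp_pos _), div_self (Real.exp_pos _).ne', one_mul]
  have h5 : ‖Complex.exp (-(I * Z))‖ ≤ Real.exp R' := by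
    rw [Complex.norm_exp]
    refine Real.exp_le_exp.2 ?_
    have : (-(I * Z)).re = Z.im := by simp
    rw [this]
    exact (le_abs_self _).trans ((Complex.abs_im_le_norm Z).trans hZR)
  calc ‖Complex.exp (-(I * Z))‖ * ‖G Z‖ ≤ Real.exp R' * (2 * M) :=
        mul_le_mul h5 hGZ (norm_nonneg _) (Real.exp_pos _).le
    _ = ε := by
        rw [hM, Real.exp_neg]; field_simp

end Claimed.Agent.R269
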