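/-
Row 269, P1 Section 7, **Theorem 7.7** (exclusion of entire and infinite-order growth): GLUE AND EXPORTS.   Author: helper167.

EXPORTS:  `Shape.s7g_H_ne_top (h : Sh.S7NoTop) : Sh.H ≠ ⊤`,    `Shape.s7g_order_lt_top (h : Sh.S7NoFin) (hH : Sh.H ≠ ⊤) : Sh.order < ⊤`
(the two Section 7 sorries of Stage3.lean; `S7NoFin`, `S7NoTop` = Theorem 7.1, S7/Stmt.lean).
NO SORRY in this file.  Everything is proved from S7/GrowthSel.lean (part (A)), S7/GrowthRho.lean (`ρ`, first field), S7/GrowthQ.lean (helper251: `s7q_bound`, `Shape.s7q_inf_order`).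
  `s7g_q_small` (7.selected-q-smallness): `|q|^{1/2} ≤ e^{ε v_n}` on `|Im s| ≤ h_n + C₁ ℓ_n`;
  `s7g_cone`    the coarser bound `M(s) ≤ e · m_n (ℓ_n/δ)^{α₀}`, `ℓ_n ≤ δ = h_n - Im s ≤ h_n`, all horizontal positions.
-/
import Claimed.Agent.R269.S7.GrowthRho
import Claimed.Agent.R269.S7.GrowthQ
import Claimed.Agent.R269.S7.Stmt

set_option autoImplicit false

namespace Claimed.Agent.R269

open Complex ComplexConjugate Filter Topology Set Metric
open scoped ENNReal Real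

variable {H : ℝ≥0∞} {f q : ℂ → ℂ}

/-! ### (7.selected-q-smallness) and the coarser bound -/

theorem s7g_q_small (P : S7gPair H f q) {α₀ C : ℝ} {h ℓ v : ℕ → ℝ}
    (S : S7gSel H (s7gRho f) α₀ h ℓ v C) (C₁ ε : ℝ) (hε : 0 < ε) :
    ∀ᶠ n in atTop, ∀ s : ℂ, |s.im| ≤ h n + C₁ * ℓ n →
      Real.sqrt ‖q s‖ ≤ Real.exp (ε * v n) := by
  obtain ⟨Cq, hCq, hq⟩ := s7q_bound P
  set C' : ℝ := max C₁ 0 with hC'
  have hC'0 : 0 ≤ C' := le_max_right _ _
  have hconv := s7g_rho_convex P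
  have heven := s7g_rho_even P
  -- asymptotics
  have e1 : ∀ᶠ n in atTop, Real.log Cq ≤ ε / 4 * v n := by
    have : Tendsto (fun n => ε / 4 * v n) atTop atTop :=
      S.v_top.const_mul_atTop (by positivity)
    exact this.eventually_ge_atTop _
  have e2 : ∀ᶠ n in atTop, Real.log (3 + C' + v n) ≤ ε / 4 * v n := by
    have h2 := Real.tendsto_pow_log_div_mul_add_atTop 1 (-(3 + C')) 1 one_ne_zero
    have h3 : Tendsto (fun n => 3 + C' + v n) atTop atTop :=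
      tendsto_atTop_add_const_left _ _ S.v_top
    have h4 := (h2.comp h3).eventually_lt_const (show (0 : ℝ) < ε / 4 by positivity)
    filter_upwards [h4, S.v_top.eventually_gt_atTop 0] with n hn hv
    simp only [Function.comp_apply, pow_one] at hn
    have h5 : 1 * (3 + C' + v n) + -(3 + C') = v n := by ring
    rw [h5, div_lt_iff₀ hv] at hn
    exact hn.le
  have e3 : ∀ᶠ n in atTop, |Real.log (ℓ n)| ≤ ε / 4 * v n := by
    have h1 := (tendsto_order.1 S.logl.abs)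
    rw [abs_zero] at h1
    filter_upwards [h1.2 (ε / 4) (by positivity), S.v_top.eventually_gt_atTop 0] with n hn hv
    rw [abs_div, abs_of_pos hv, div_lt_iff₀ hv] at hn
    exact hn.le
  filter_upwards [S.window (C' + 1) 1 one_pos, e1, e2, e3, S.v_top.eventually_gt_atTop 0]
    with n hw a1 a2 a3 hv s hs
  obtain ⟨hl, -, hh, -⟩ := S.pos n
  obtain ⟨w1, w2, w3⟩ := hw (C' + 1) (by rw [abs_of_nonneg (by linarith)])
  set b : ℝ := h n + ℓ n * (C' + 1) with hb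
  set Δ : ℝ := min (ℓ n) 1 with hΔ
  have hΔ0 : 0 < Δ := lt_min hl one_pos
  have hΔ1 : Δ ≤ 1 := min_le_right _ _
  have hΔl : Δ ≤ ℓ n := min_le_left _ _
  set K : ℝ := v n + C' + 2 with hK
  have hK0 : 0 ≤ K := by rw [hK]; linarith
  have hρb : s7gRho f b ≤ K := by
    have := (abs_le.1 w3).2
    rw [hK]; linarith
  have hsb : |s.im| + Δ ≤ b := by
    have h1 : C₁ * ℓ n ≤ C' * ℓ n := mul_le_mul_of_nonneg_right (le_max_left _ _) hl.le
    rw [hb]; nlinarith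
  have hb0 : 0 ≤ b := w1
  have hmem : |s.im| + Δ ∈ s7gI H := by
    refine s7g_I_of_abs_le w2 ?_
    rw [abs_of_nonneg (by positivity), abs_of_nonneg hb0]
    exact hsb
  have hfK : ∀ z : ℂ, |z.im| ≤ |s.im| + Δ → ‖f z‖ ≤ Real.exp K := by
    intro z hz
    have hzb : |z.im| ≤ b := hz.trans hsb
    have hzI : z.im ∈ s7gI H := s7g_I_of_abs_le w2 (by rwa [abs_of_nonneg hb0])
    have h1 := s7g_norm_le P (s := z) hzI
    have h2 : s7gRho f z.im = s7gRho f |z.im| := by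
      rcases abs_cases z.im with ⟨h3, -⟩ | ⟨h3, -⟩
      · rw [h3]
      · rw [h3, heven _ hzI]
    have h3 : s7gRho f |z.im| ≤ s7gRho f b := s7g_rho_mono hconv heven (abs_nonneg _) hzb w2
    exact h1.trans (Real.exp_le_exp.2 (by linarith))
  have hmain := hq s.re s.im Δ K hΔ0 hΔ1 hmem hK0 hfK
  rw [Complex.eta] at hmain
  refine hmain.trans ?_
  -- `Cq (1+K)/Δ² ≤ exp (ε v)`
  have hK1 : 0 < 1 + K := by linarith
  have hlogΔ : -Real.log Δ ≤ |Real.log (ℓ n)| := by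
    rcases le_total (ℓ n) 1 with h1 | h1
    · rw [hΔ, min_eq_left h1]; exact neg_le_abs _
    · rw [hΔ, min_eq_right h1, Real.log_one, neg_zero]; exact abs_nonneg _
  have hpos : 0 < Cq * (1 + K) / Δ ^ 2 := by positivity
  rw [← Real.exp_log hpos]
  refine Real.exp_le_exp.2 ?_
  rw [Real.log_div (by positivity) (by positivity), Real.log_mul hCq.ne' hK1.ne', Real.log_pow]
  have h6 : 1 + K = 3 + C' + v n := by rw [hK]; ring
  rw [h6]
  push_cast
  linarith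

theorem s7g_cone (P : S7gPair H f q) {α₀ C : ℝ} {h ℓ v : ℕ → ℝ}
    (S : S7gSel H (s7gRho f) α₀ h ℓ v C) (hα : 0 < α₀) (hα' : α₀ < 1) :
    ∀ᶠ n in atTop, ∀ s : ℂ, 0 ≤ s.im → ℓ n ≤ h n - s.im →
      max ‖f s‖ (Real.sqrt ‖q s‖) ≤
        Real.exp 1 * Real.exp (v n) * (ℓ n / (h n - s.im)) ^ α₀ := by
  have e1 : ∀ᶠ n in atTop, Real.log (1 + h n / ℓ n) ≤ v n / 4 := by
    filter_upwards [S.logh.eventually_lt_const (show (0 : ℝ) < 1 / 4 by norm_num),
      S.v_top.eventually_gt_atTop 0] with n hn hv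
    rw [div_lt_iff₀ hv] at hn
    linarith
  filter_upwards [s7g_q_small P S 0 (1 / 4) (by norm_num), e1, S.v_top.eventually_gt_atTop 0]
    with n hq a1 hv s hs0 hs
  obtain ⟨hl, -, hh, hhI⟩ := S.pos n
  set δ : ℝ := h n - s.im with hδ
  have hδ0 : 0 < δ := hl.trans_le hs
  have hrpow : (ℓ n / δ) ^ α₀ = Real.exp (-(α₀ * Real.log (δ / ℓ n))) := by
    rw [Real.rpow_def_of_pos (div_pos hl hδ0), Real.log_div hl.ne' hδ0.ne',
      Real.log_div hδ0.ne' hl.ne']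
    congr 1; ring
  refine max_le ?_ ?_
  · have hsI : s.im ∈ s7gI H :=
      s7g_I_of_abs_le hhI (by rw [abs_of_nonneg hs0, abs_of_pos hh]; linarith)
    have h1 := s7g_norm_le P (s := s) hsI
    have h2 := S.coarse n s.im hs0 (by linarith)
    refine h1.trans ?_
    rw [hrpow, ← Real.exp_add, ← Real.exp_add]
    refine Real.exp_le_exp.2 ?_
    linarith
  · have h1 := hq s (by rw [abs_of_nonneg hs0]; linarith)
    refine h1.trans ?_
    rw [hrpow, ← Real.exp_add, ← Real.exp_add]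
    refine Real.exp_le_exp.2 ?_
    have h2 : δ / ℓ n ≤ 1 + h n / ℓ n := by
      have : δ / ℓ n ≤ h n / ℓ n := div_le_div_of_nonneg_right (by linarith) hl.le
      linarith
    have h3 : Real.log (δ / ℓ n) ≤ v n / 4 :=
      (Real.log_le_log (div_pos hδ0 hl) h2).trans a1
    have h4 : 0 ≤ Real.log (δ / ℓ n) := Real.log_nonneg ((one_le_div hl).2 hs)
    nlinarith

/-- locally uniform convergence on `ℂ` from uniform convergence on all discs about `0`. -/
theorem s7g_tlu_of_balls {F : ℕ → ℂ → ℂ} {G : ℂ → ℂ}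
    (h : ∀ R ε : ℝ, 0 < ε → ∀ᶠ n in atTop, ∀ Z : ℂ, ‖Z‖ ≤ R → ‖F n Z - G Z‖ ≤ ε) :
    TendstoLocallyUniformly F G atTop := by
  rw [Metric.tendstoLocallyUniformly_iff]
  intro ε hε Z₀
  refine ⟨closedBall 0 (‖Z₀‖ + 1), ?_, ?_⟩
  · refine Filter.mem_of_superset (ball_mem_nhds Z₀ one_pos) ?_
    intro Z hZ
    rw [mem_closedBall, dist_zero_right]
    rw [mem_ball, dist_eq_norm] at hZ
    calc ‖Z‖ = ‖Z₀ + (Z - Z₀)‖ := by ring_nf
      _ ≤ ‖Z₀‖ + ‖Z - Z₀‖ := norm_add_le _ _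
      _ ≤ ‖Z₀‖ + 1 := by linarith
  · filter_upwards [h (‖Z₀‖ + 1) (ε / 2) (half_pos hε)] with n hn Z hZ
    rw [mem_closedBall, dist_zero_right] at hZ
    rw [dist_comm, dist_eq_norm]
    linarith [hn Z hZ]

/-- the selection is stable under subsequences. -/
theorem S7gSel.comp {ρ : ℝ → ℝ} {α₀ C : ℝ} {h ℓ v : ℕ → ℝ} (S : S7gSel H ρ α₀ h ℓ v C)
    {φ : ℕ → ℕ} (hφ : StrictMono φ) : S7gSel H ρ α₀ (h ∘ φ) (ℓ ∘ φ) (v ∘ φ) C where
  pos n := S.pos (φ n)
  val n := S.val (φ n)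
  v_top := S.v_top.comp hφ.tendsto_atTop
  logl := S.logl.comp hφ.tendsto_atTop
  logh := S.logh.comp hφ.tendsto_atTop
  window U ε hε := hφ.tendsto_atTop.eventually (S.window U ε hε)
  coarse n := S.coarse (φ n)
  exhaust c hc := hφ.tendsto_atTop.eventually (S.exhaust c hc)

/-- from a selection and a convergent phase to the profile. -/
theorem s7g_profile_of_sel (P : S7gPair H f q) {α₀ C : ℝ} {h ℓ v : ℕ → ℝ}
    (S : S7gSel H (s7gRho f) α₀ h ℓ v C) (hα : 0 < α₀) (hα' : α₀ < 1) (x : ℕ → ℝ)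
    (hx : ∀ n, ‖f (⟨x n, h n⟩ : ℂ)‖ = Real.exp (v n)) (c₀ : ℂ)
    (hc : Tendsto (fun n => f (⟨x n, h n⟩ : ℂ) / ((Real.exp (v n) : ℝ) : ℂ)) atTop (𝓝 c₀)) :
    S7gProfile H f q α₀ x h ℓ (fun n => Real.exp (v n)) c₀ (max C (Real.exp 1)) := by
  have hnorm : ∀ n, ‖f (⟨x n, h n⟩ : ℂ) / ((Real.exp (v n) : ℝ) : ℂ)‖ = 1 := by
    intro n
    rw [norm_div, hx n, Complex.norm_real, Real.norm_eq_abs, abs_of_pos (Real.exp_pos _),
      div_self (Real.exp_pos _).ne']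
  have hc₀ : ‖c₀‖ = 1 := by
    have h1 := hc.norm
    simp only [hnorm] at h1
    exact (tendsto_nhds_unique h1 tendsto_const_nhds)
  refine ⟨?_, ?_, ?_, S.exhaust, ?_, ?_, ?_, ?_, ?_⟩
  · intro h0
    rw [h0, norm_zero] at hc₀
    exact zero_ne_one hc₀
  · intro n
    obtain ⟨a1, a2, a3, a4⟩ := S.pos n
    exact ⟨a1, a2.trans (le_max_left _ _), Real.exp_pos _, a3, a4⟩
  · -- `ℓ m = exp (log ℓ + v) ≥ exp (v/2)`
    have h1 : ∀ᶠ n in atTop, |Real.log (ℓ n) / v n| < 1 / 2 := by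
      have := (tendsto_order.1 S.logl.abs)
      rw [abs_zero] at this
      exact this.2 _ (by norm_num)
    have h2 : Tendsto (fun n => Real.exp (v n / 2)) atTop atTop :=
      Real.tendsto_exp_atTop.comp (S.v_top.atTop_div_const (by norm_num))
    refine tendsto_atTop_mono' _ ?_ h2
    filter_upwards [h1, S.v_top.eventually_gt_atTop 0] with n hn hv
    have hl := (S.pos n).1
    rw [abs_div, abs_of_pos hv, div_lt_iff₀ hv] at hn
    have h3 : -(v n / 2) ≤ Real.log (ℓ n) := by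
      have := neg_abs_le (Real.log (ℓ n))
      linarith
    calc Real.exp (v n / 2) = Real.exp (-(v n / 2)) * Real.exp (v n) := by
          rw [← Real.exp_add]; congr 1; ring
      _ ≤ Real.exp (Real.log (ℓ n)) * Real.exp (v n) :=
          mul_le_mul_of_nonneg_right (Real.exp_le_exp.2 h3) (Real.exp_pos _).le
      _ = ℓ n * Real.exp (v n) := by rw [Real.exp_log hl]
  · intro U
    filter_upwards [S.window |U| 1 one_pos] with n hn
    exact (hn U le_rfl).2.1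
  · -- the first field
    refine s7g_tlu_of_balls ?_
    intro R ε hε
    have h1 := s7g_lim_f_aux P S x hx R (ε / 2) (half_pos hε)
    have h2 : ∀ᶠ n in atTop,
        ‖f (⟨x n, h n⟩ : ℂ) / ((Real.exp (v n) : ℝ) : ℂ) - c₀‖ < ε / 2 / Real.exp |R| := by
      have := (Metric.tendsto_nhds.1 hc) (ε / 2 / Real.exp |R|) (by positivity)
      simpa [dist_eq_norm] using this
    filter_upwards [h1, h2] with n a1 a2 Z hZ
    have a3 := a1 Z hZ
    have a4 : ‖Complex.exp (-(I * Z))‖ ≤ Real.exp |R| := by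
      rw [Complex.norm_exp]
      refine Real.exp_le_exp.2 ?_
      have : (-(I * Z)).re = Z.im := by simp
      rw [this]
      exact (le_abs_self _).trans ((Complex.abs_im_le_norm Z).trans (hZ.trans (le_abs_self R)))
    have a5 : ‖(f (⟨x n, h n⟩ : ℂ) / ((Real.exp (v n) : ℝ) : ℂ) - c₀) * Complex.exp (-(I * Z))‖
        ≤ ε / 2 := by
      rw [norm_mul]
      calc _ ≤ ε / 2 / Real.exp |R| * Real.exp |R| :=
            mul_le_mul a2.le a4 (norm_nonneg _) (by positivity)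
        _ = ε / 2 := by field_simp
    calc ‖f (⟨x n, h n⟩ + (ℓ n : ℂ) * Z) / ((Real.exp (v n) : ℝ) : ℂ) -
          c₀ * Complex.exp (-(I * Z))‖
        = ‖(f (⟨x n, h n⟩ + (ℓ n : ℂ) * Z) / ((Real.exp (v n) : ℝ) : ℂ) -
          f (⟨x n, h n⟩ : ℂ) / ((Real.exp (v n) : ℝ) : ℂ) * Complex.exp (-(I * Z))) +
          (f (⟨x n, h n⟩ : ℂ) / ((Real.exp (v n) : ℝ) : ℂ) - c₀) * Complex.exp (-(I * Z))‖ := by
          congr 1; ring
      _ ≤ ε / 2 + ε / 2 := (norm_add_le _ _).trans (add_le_add a3 a5)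
      _ = ε := by ring
  · -- the second field
    refine s7g_tlu_of_balls ?_
    intro R ε hε
    have h1 := s7g_q_small P S |R| (1 / 2) (by norm_num)
    have h2 : ∀ᶠ n in atTop, Real.exp (-(v n)) < ε := by
      have : Tendsto (fun n => Real.exp (-(v n))) atTop (𝓝 0) :=
        Real.tendsto_exp_atBot.comp (tendsto_neg_atTop_atBot.comp S.v_top)
      exact this.eventually_lt_const hε
    filter_upwards [h1, h2] with n a1 a2 Z hZ
    obtain ⟨b1, -, b3, -⟩ := S.pos n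
    have him : ((⟨x n, h n⟩ : ℂ) + (ℓ n : ℂ) * Z).im = h n + ℓ n * Z.im := by simp
    have a3 : |((⟨x n, h n⟩ : ℂ) + (ℓ n : ℂ) * Z).im| ≤ h n + |R| * ℓ n := by
      rw [him]
      have h4 : |Z.im| ≤ |R| := (Complex.abs_im_le_norm Z).trans (hZ.trans (le_abs_self R))
      calc |h n + ℓ n * Z.im| ≤ |h n| + |ℓ n * Z.im| := abs_add_le _ _
        _ = h n + ℓ n * |Z.im| := by rw [abs_of_pos b3, abs_mul, abs_of_pos b1]
        _ ≤ h n + |R| * ℓ n := by nlinarith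
    have a4 := a1 _ a3
    have a5 : ‖q (⟨x n, h n⟩ + (ℓ n : ℂ) * Z)‖ ≤ Real.exp (v n) := by
      have h5 := Real.sq_sqrt (norm_nonneg (q (⟨x n, h n⟩ + (ℓ n : ℂ) * Z)))
      rw [← h5]
      calc Real.sqrt ‖q (⟨x n, h n⟩ + (ℓ n : ℂ) * Z)‖ ^ 2 ≤ Real.exp (1 / 2 * v n) ^ 2 :=
            pow_le_pow_left₀ (Real.sqrt_nonneg _) a4 2
        _ = Real.exp (v n) := by rw [← Real.exp_nat_mul]; congr 1; push_cast; ring
    rw [sub_zero, norm_div, norm_pow, Complex.norm_real, Real.norm_eq_abs,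
      abs_of_pos (Real.exp_pos _)]
    calc ‖q (⟨x n, h n⟩ + (ℓ n : ℂ) * Z)‖ / Real.exp (v n) ^ 2
        ≤ Real.exp (v n) / Real.exp (v n) ^ 2 := div_le_div_of_nonneg_right a5 (by positivity)
      _ = Real.exp (-(v n)) := by
          rw [Real.exp_neg]; field_simp
      _ ≤ ε := a2.le
  · filter_upwards [s7g_cone P S hα hα'] with n hn s hs1 hs2
    refine (hn s hs1 hs2).trans ?_
    have h1 : 0 ≤ (ℓ n / (h n - s.im)) ^ α₀ :=
      Real.rpow_nonneg (div_nonneg (S.pos n).1.le ((S.pos n).1.le.trans hs2)) _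
    have h2 : Real.exp 1 * Real.exp (v n) ≤ max C (Real.exp 1) * Real.exp (v n) :=
      mul_le_mul_of_nonneg_right (le_max_right _ _) (Real.exp_pos _).le
    exact mul_le_mul_of_nonneg_right h2 h1
  · simpa only [Real.log_exp] using S.logh

/-- **Theorem 7.7, host-free form**: an entire nonconstant first field, or infinite order at a finite wall, produces all hypotheses of Theorem 7.1. -/
theorem s7g_profile (P : S7gPair H f q) (hord : H ≠ ⊤ → S7gInfOrder H (s7gRho f)) (α₀ : ℝ)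
    (hα : 0 < α₀) (hα' : α₀ < 1) :
    ∃ (x h ℓ m : ℕ → ℝ) (c₀ : ℂ) (C : ℝ), S7gProfile H f q α₀ x h ℓ m c₀ C := by
  have hunb : ∀ v : ℝ, ∃ h ∈ s7gI H, v < s7gRho f h := by
    by_cases hH : H = ⊤
    · subst hH
      exact s7g_rho_unbdd_top P
    · exact s7g_unbdd_fin hH (hord hH)
  obtain ⟨h, ℓ, v, C, S⟩ := s7g_select (s7g_rho_convex P) (s7g_rho_even P) hunb hord α₀ hα hα'
  have hx' : ∀ n, ∃ x : ℝ, ‖f (⟨x, h n⟩ : ℂ)‖ = Real.exp (v n) := by
    intro n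
    obtain ⟨x, hx⟩ := s7g_rho_attained P (S.pos n).2.2.2
    exact ⟨x, by rw [hx, S.val n]⟩
  choose x hx using hx'
  have hnorm : ∀ n, f (⟨x n, h n⟩ : ℂ) / ((Real.exp (v n) : ℝ) : ℂ) ∈ sphere (0 : ℂ) 1 := by
    intro n
    rw [mem_sphere, dist_zero_right, norm_div, hx n, Complex.norm_real, Real.norm_eq_abs,
      abs_of_pos (Real.exp_pos _), div_self (Real.exp_pos _).ne']
  obtain ⟨c₀, -, φ, hφ, hc⟩ := (isCompact_sphere (0 : ℂ) 1).tendsto_subseq hnorm
  exact ⟨x ∘ φ, h ∘ φ, ℓ ∘ φ, _, c₀, _,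
    s7g_profile_of_sel P (S.comp hφ) hα hα' (x ∘ φ) (fun n => hx (φ n)) c₀ hc⟩

namespace Shape

variable (Sh : Shape)

/-- `f > 0` on the real row. -/
theorem s7g_f_real (x : ℝ) : Sh.f (x : ℂ) ≠ 0 := by
  have hs : 0 < Sh.G.s / 2 := half_pos Sh.sb_Gs_pos
  have hmem : (x : ℂ) ∈ hstrip (Sh.G.s / 2) := by
    show |(x : ℂ).im| < Sh.G.s / 2
    simpa using hs
  have h1 : Sh.φ =ᶠ[𝓝 (x : ℂ)] fun y => Sh.G.Θ y 0 := by
    filter_upwards [(sb_hstrip_isOpen (Sh.G.s / 2)).mem_nhds hmem] with y hy using Sh.φ_base y hy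
  have h2 : Sh.f (x : ℂ) = deriv (fun y => Sh.G.Θ y 0) (x : ℂ) := h1.deriv_eq
  intro h0
  have h3 := Sh.G.φ'_pos x
  rw [← h2, h0] at h3
  simp at h3

/-- the host-free context of a `Shape`. -/
theorem s7g_pair : S7gPair Sh.H Sh.f Sh.q where
  f_diff := Sh.sb_f_diff
  q_diff := Sh.q_diff
  f_per := Sh.sb_f_per
  f_conj := Sh.sb_f_conj
  ode := Sh.sb_f_ode
  f_real := Sh.s7g_f_real
  noncst := Sh.noncircular
  H_pos := lt_of_le_of_lt zero_le Sh.sb_zero_mem_D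

/-- **EXPORT (Theorem 7.7, first half)**. -/
theorem s7g_H_ne_top (hno : Sh.S7NoTop) : Sh.H ≠ ⊤ := by
  intro hH
  obtain ⟨x, h, ℓ, m, c₀, C, A⟩ :=
    s7g_profile Sh.s7g_pair (fun h => absurd hH h) (3 / 4) (by norm_num) (by norm_num)
  refine hno hH x h ℓ m c₀ (3 / 4)
    ⟨A.c₀_ne, fun n => (A.pos n).1, fun n => (A.pos n).2.2.1, A.b_top, Or.inl ⟨A.lim_f, A.lim_q⟩,
      by norm_num, by norm_num⟩
    ⟨?_, ⟨C, fun n => (A.pos n).2.1⟩, ⟨C, ?_⟩, A.logh⟩
  · rw [Filter.tendsto_atTop]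
    intro b
    filter_upwards [A.exhaust b (by rw [hH]; exact s7g_I_top b)] with n hn using hn.le
  · filter_upwards [A.cone] with n hn s hs1 hs2
    exact hn s (by linarith) hs1

/-- **EXPORT (Theorem 7.7, second half)**. -/
theorem s7g_order_lt_top (hno : Sh.S7NoFin) (hH : Sh.H ≠ ⊤) : Sh.order < ⊤ := by
  by_contra ho
  obtain ⟨x, h, ℓ, m, c₀, C, A⟩ :=
    s7g_profile Sh.s7g_pair (fun _ => Sh.s7q_inf_order Sh.s7g_pair hH ho) (3 / 4) (by norm_num) (by norm_num)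
  have hHr := Sh.sb_Hr_pos hH
  have hlt : ∀ n, |h n| < Sh.Hr := fun n => (s7g_I_iff hH (h n)).1 (A.pos n).2.2.2.2
  have hlim : Tendsto h atTop (𝓝 Sh.Hr) := by
    rw [tendsto_order]
    refine ⟨fun a ha => ?_, fun a ha => ?_⟩
    · by_cases ha0 : 0 ≤ a
      · exact A.exhaust a ((s7g_I_iff hH a).2 (by rw [abs_of_nonneg ha0]; exact ha))
      · exact Eventually.of_forall fun n => lt_trans (not_le.1 ha0) (A.pos n).2.2.2.1
    · exact Eventually.of_forall fun n => lt_of_le_of_lt (le_abs_self _) ((hlt n).trans ha)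
  have hex : Tendsto (fun n => (Sh.Hr - h n) / ℓ n) atTop atTop := by
    rw [Filter.tendsto_atTop]
    intro U
    filter_upwards [A.room U] with n hn
    have h1 := (s7g_I_iff hH _).1 hn
    have h2 := (le_abs_self _).trans_lt h1
    rw [le_div_iff₀ (A.pos n).1]
    have : Sh.H.toReal = Sh.Hr := rfl
    linarith
  have hℓ : Tendsto ℓ atTop (𝓝 0) := by
    -- `0 < ℓ n ≤ Hr / ((Hr - h n)/ℓ n)`
    have h1 : Tendsto (fun n => Sh.Hr / ((Sh.Hr - h n) / ℓ n)) atTop (𝓝 0) :=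
      hex.const_div_atTop _
    refine tendsto_of_tendsto_of_tendsto_of_le_of_le tendsto_const_nhds h1
      (fun n => (A.pos n).1.le) (fun n => ?_)
    have hl := (A.pos n).1
    have hd : 0 < Sh.Hr - h n := by linarith [(le_abs_self _).trans_lt (hlt n)]
    show ℓ n ≤ Sh.Hr / ((Sh.Hr - h n) / ℓ n)
    rw [le_div_iff₀ (div_pos hd hl), mul_div_assoc', div_le_iff₀ hl]
    have := (A.pos n).2.2.2.1
    nlinarith
  refine hno hH x h ℓ m c₀ (3 / 4) (Sh.Hr / 4)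
    ⟨A.c₀_ne, fun n => (A.pos n).1, fun n => (A.pos n).2.2.1, A.b_top, Or.inl ⟨A.lim_f, A.lim_q⟩,
      by norm_num, by norm_num⟩
    ⟨hlt, hlim, hℓ, hex, by positivity, by linarith, fun _ => ⟨C, ?_⟩⟩
  have h1 : ∀ᶠ n in atTop, Sh.Hr / 4 < h n := (tendsto_order.1 hlim).1 _ (by linarith)
  filter_upwards [A.cone, h1] with n hn h2 s hs1 hs2 _
  exact hn s (by linarith) hs1

end Shape

end Claimed.Agent.R269
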