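/-
Row 269, P1 Section 7: WHAT SECTION 7 USES FROM OTHER SECTIONS.   Owner of the statements: helper146.
Every `sorry` here is an EXPORT of another section; its owner replaces the `sorry` by a call of his theorem.
(The cone theorem is imported directly from `S6/Stmt.lean`; the maximal passage from `S9/PassageMax.lean`.)
-/
import Claimed.Agent.R269.S9.PassageMax
import Claimed.Agent.R269.S6.Width

set_option autoImplicit false

namespace Claimed.Agent.R269

open Complex Filter Topology Set
open scoped ENNReal Real

namespace Shape

variable (Sh : Shape)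

/-- IMPORT (Section 6.4, "real no-patch transfer"; same statement as `Shape.passage_width` of Stage3.lean and `s9i_passage_width`). -/
theorem s7i_passage_width {R : Set (ℂ × ℂ)} {S : ℂ × ℂ → ℂ} (hP : Sh.IsPassage R S) (t₀ : ℝ) (y : ℂ)
    (hy : (y, (t₀ : ℂ)) ∈ R) : ENNReal.ofReal y.im < Sh.G.hX t₀ :=
  Sh.s6_passage_width hP t₀ y hy

end Shape

end Claimed.Agent.R269
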