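-- KEEP
/-
Row 269, P1 Section 7: EXPORTS.   Glue: helper264 (captain).
* `Shape.s7_noFin : Sh.S7NoFin`, `Shape.s7_noTop : Sh.S7NoTop`     Theorem 7.1 in the form of S7/Stmt.lean, from helper146's `s7_exp_obstruction`, `s7_inf_false` (S7/Thm71.lean);
* `Shape.s7_H_ne_top`, `Shape.s7_order_lt_top`                     Theorem 7.7 = the exports `H_ne_top`, `order_lt_top` of Stage3.lean (helper167's S7/GrowthMain.lean).
`s7_noFin`, `s7_noTop` live in S7/Bridge.lean, `s7_normalise_inf` (PROVED) in S7/Normalise.lean (helper45; same names, so they are NOT redeclared here).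
LF-S7-norminf `s7_normalise_inf` (twin of `s7_normalise_fin`, S7/Normalise.lean), DONE:  `x' = x + ℓ arg c₀`, `m' = |c₀| m`.
  `F'_n(S) = F_n(S + β)/|c₀| → c₀ e^{-i(S+β)}/|c₀| = e^{-iS}`, `β = arg c₀`;  `Q'_n(S) = Q_n(S+β)/|c₀|² → e^{-2iS}` resp. `0`  (composition of a locally uniform limit with the translation `S ↦ S + β`, then a constant factor).
  `hb`: `ℓ m' = |c₀| ℓ m → ∞`.    `hcone`: no horizontal condition; `h - Im s ≤ h ↔ 0 ≤ Im s`; constant `C/|c₀|`.
  `hlog`: `m → ∞` (`ℓ m → ∞`, `0 < ℓ ≤ C`), so `log m → ∞` and `log m' / log m = 1 + log|c₀|/log m → 1`; divide.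
-/
import Claimed.Agent.R269.S7.Stmt
import Claimed.Agent.R269.S7.Thm71
import Claimed.Agent.R269.S7.Bridge
import Claimed.Agent.R269.S7.GrowthMain

set_option autoImplicit false

namespace Claimed.Agent.R269

open Complex Filter Topology Set Metric
open scoped ENNReal Real

namespace Shape

variable (Sh : Shape)

/-- **Theorem 7.7, first half.** -/
theorem s7_H_ne_top : Sh.H ≠ ⊤ := Sh.s7g_H_ne_top Sh.s7_noTop

/-- **Theorem 7.7, second half.** -/
theorem s7_order_lt_top (hH : Sh.H ≠ ⊤) : Sh.order < ⊤ := Sh.s7g_order_lt_top Sh.s7_noFin hH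

end Shape

end Claimed.Agent.R269
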