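/-
Row 269, P1 Section 7.2-7.3, MODEL OF THE FIRST PROFILE (`s7_model_F`), file A: SPECIAL FUNCTIONS.   HOST-FREE (Mathlib only).   Architect: helper183 (BP-S7-modelF).
Files: ModelFA (special functions), ModelFB (cube root `G`, `P`, majorant; disc data), ModelFC (solution criterion, half plane, anchor), ModelFD (Morse lemma, roots, chart at `π`), ModelFE (matching, assembly).

NOTATION.  `S v = sin v / v` (entire), `N v = sin v - v cos v`, `g v = 3 N v / v³` (entire, `g 0 = 1`), `F v = 6 ∑_{k ≥ 1} 1/(k²π² - v²) = 3 (1 - v cot v)/v²`, `g = S F`.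
LEAVES OF THIS FILE (each block = one leaf; statements are frozen, auxiliary lemmas welcome, prefix `s7f`):
 LF-S7F-S    block S : `S` (dslope), zeros of `sin`, `|sin ‖v‖| ≤ ‖sin v‖`, `sinc` positive and antitone on `[0,π]`.
     * `‖sin (x+iy)‖² = sin² x + sinh² y`;  with `r = ‖v‖`:  `sin² r - sin² x = sin (r-x) sin (r+x) ≤ |r-x| |r+x| = y² ≤ sinh² y`.
     * `sinc` antitone: `antitoneOn_of_deriv_nonpos` on `Icc 0 π` (`Real.continuous_sinc`), derivative `(x cos x - sin x)/x² ≤ 0` on `(0,π)` because `x cos x ≤ sin x` there (`Real.tan`-free: `N' = x sin x ≥ 0`, `N 0 = 0`).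
 LF-S7F-g    block g : `g` is entire, `g' 0 = 0`.   `AnalyticAt.exists_eq_sum_add_pow_mul` (Taylor with analytic remainder) for `N` at `0` with `n = 4`: `N z = z³/3 + z⁴ R z`, so `g z = 1 + 3 z R z` for ALL `z`.   `g' 0 = 0`: `g` is even (`deriv_comp_neg`).
 LF-S7F-F1   block F1: summability, `g = S F` (`cot_series_rep'` at `x = v/π`; at `v = 0` use `hasSum_zeta_two`).
 LF-S7F-F2   block F2: `Re F > 0`, `‖F v‖ ≤ F ‖v‖`, real on reals, monotone (all termwise: `Summable.tsum_le_tsum`, `norm_tsum_le_tsum_norm`, `re_tsum`).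
 LF-S7F-ne   block ne: `g ≠ 0` on `closedBall 0 π`, hence on `ball 0 (π + δ)` (compactness: `IsCompact.exists_thickening_subset_open` or `exists_cthickening`, `thickening_closedBall`), `g > 0` on `[0,π]`.
 LF-S7F-rl   block rl: a continuous logarithm of a positive function on a real segment which vanishes at `0` is real (intermediate value theorem for `Im L`: it would take the value `±π`, where `exp L < 0`).
-/
import Mathlib

set_option autoImplicit false

namespace Claimed.Agent.R269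

open Complex Filter Topology Set Metric
open scoped Real

/-- `sin v / v`, entire. -/
noncomputable def s7fS (v : ℂ) : ℂ := dslope Complex.sin 0 v

/-- `N = sin v - v cos v`. -/
noncomputable def s7fN (v : ℂ) : ℂ := Complex.sin v - v * Complex.cos v

/-- `g = 3 N / v³`, `g 0 = 1`. -/
noncomputable def s7fg (v : ℂ) : ℂ := if v = 0 then 1 else 3 * s7fN v / v ^ 3

/-- `F = 6 ∑ 1/(k²π² - v²)`. -/
noncomputable def s7fF (v : ℂ) : ℂ := 6 * ∑' k : ℕ, 1 / ((((k : ℂ) + 1) * π) ^ 2 - v ^ 2)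

/-- the real version of `F`. -/
noncomputable def s7fFR (r : ℝ) : ℝ := 6 * ∑' k : ℕ, 1 / ((((k : ℝ) + 1) * π) ^ 2 - r ^ 2)

/-! ### block S  (LF-S7F-S) -/

theorem s7f_dslope_differentiable {f : ℂ → ℂ} (hf : Differentiable ℂ f) (c : ℂ) :
    Differentiable ℂ (dslope f c) := by
  rw [← differentiableOn_univ]
  exact (Complex.differentiableOn_dslope univ_mem).2 hf.differentiableOn

theorem s7fS_differentiable : Differentiable ℂ s7fS :=
  s7f_dslope_differentiable Complex.differentiable_sin 0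

theorem s7fS_zero : s7fS 0 = 1 := by
  rw [s7fS, dslope_same, Complex.deriv_sin, Complex.cos_zero]

theorem s7fS_mul (v : ℂ) : v * s7fS v = Complex.sin v := by
  have := sub_smul_dslope Complex.sin 0 v
  simpa [s7fS] using this

theorem s7fS_ofReal (r : ℝ) : s7fS (r : ℂ) = (Real.sinc r : ℂ) := by
  by_cases hr : r = 0
  · rw [hr, Real.sinc_zero]
    simpa using s7fS_zero
  · have h1 := s7fS_mul (r : ℂ)
    have hr' : (r : ℂ) ≠ 0 := by exact_mod_cast hr
    rw [Real.sinc_of_ne_zero hr]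
    push_cast
    rw [eq_div_iff hr', mul_comm]
    exact h1

theorem s7fS_neg (v : ℂ) : s7fS (-v) = s7fS v := by
  by_cases hv : v = 0
  · rw [hv, neg_zero]
  · have h1 := s7fS_mul v
    have h2 := s7fS_mul (-v)
    rw [Complex.sin_neg, ← h1] at h2
    have h3 : v * s7fS (-v) = v * s7fS v := by linear_combination -h2
    exact mul_left_cancel₀ hv h3

theorem s7f_even_deriv_zero {f : ℂ → ℂ} (hf : ∀ v, f (-v) = f v) : deriv f 0 = 0 := by
  have h1 : deriv (fun v => f (-v)) 0 = -deriv f (-0) := deriv_comp_neg f 0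
  have h2 : (fun v => f (-v)) = f := funext hf
  rw [h2, neg_zero] at h1
  have h3 : (2 : ℂ) * deriv f 0 = 0 := by linear_combination h1
  simpa using h3

theorem s7fS_deriv_zero : deriv s7fS 0 = 0 := s7f_even_deriv_zero s7fS_neg

/-- zeros of `sin` in `ball 0 (2π)`. -/
theorem s7f_sin_ne_zero {v : ℂ} (h0 : v ≠ 0) (h1 : ‖v‖ < 2 * π) (h2 : v ^ 2 ≠ (π : ℂ) ^ 2) : Complex.sin v ≠ 0 := by
  intro hs
  obtain ⟨k, hk⟩ := Complex.sin_eq_zero_iff.1 hs
  have hpi := Real.pi_pos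
  have hn : ‖v‖ = |(k : ℝ)| * π := by
    rw [hk, norm_mul, Complex.norm_real, Real.norm_of_nonneg hpi.le, Complex.norm_intCast]
  rw [hn] at h1
  have h3 : |(k : ℝ)| < 2 := by
    by_contra hcon
    push Not at hcon
    nlinarith
  have h4 : |k| < 2 := by exact_mod_cast h3
  rw [abs_lt] at h4
  have h5 : k = -1 ∨ k = 0 ∨ k = 1 := by omega
  rcases h5 with h | h | h
  · apply h2
    rw [hk, h]
    push_cast
    ring
  · apply h0
    rw [hk, h]
    simp
  · apply h2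
    rw [hk, h]
    push_cast
    ring

theorem s7f_sin_ne_zero_near {v : ℂ} (h : v ∈ ball (π : ℂ) 1) (hne : v ≠ π) : Complex.sin v ≠ 0 := by
  intro hs
  obtain ⟨k, hk⟩ := Complex.sin_eq_zero_iff.1 hs
  have hpi := Real.pi_gt_three
  rw [mem_ball, dist_eq_norm] at h
  have e : v - π = (((k - 1 : ℤ) : ℝ) : ℂ) * π := by
    rw [hk]
    push_cast
    ring
  rw [e, norm_mul, Complex.norm_real, Complex.norm_real, Real.norm_of_nonneg (by linarith : (0:ℝ) ≤ π),
    Real.norm_eq_abs] at h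
  have h3 : |((k - 1 : ℤ) : ℝ)| < 1 := by
    by_contra hcon
    push Not at hcon
    nlinarith
  have h4 : |k - 1| < 1 := by exact_mod_cast h3
  rw [abs_lt] at h4
  have h5 : k = 1 := by omega
  apply hne
  rw [hk, h5]
  simp

theorem s7f_normSq_sin (v : ℂ) : ‖Complex.sin v‖ ^ 2 = Real.sin v.re ^ 2 + Real.sinh v.im ^ 2 := by
  rw [Complex.sq_norm, Complex.sin_eq v, Complex.normSq_apply]
  have h1 : (Complex.sin (v.re : ℂ) * Complex.cosh (v.im : ℂ) +
      Complex.cos (v.re : ℂ) * Complex.sinh (v.im : ℂ) * I).re = Real.sin v.re * Real.cosh v.im := by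
    simp [Complex.sin_ofReal_re, Complex.sin_ofReal_im, Complex.cos_ofReal_re, Complex.cos_ofReal_im,
      Complex.sinh_ofReal_re, Complex.sinh_ofReal_im, Complex.cosh_ofReal_re, Complex.cosh_ofReal_im]
  have h2 : (Complex.sin (v.re : ℂ) * Complex.cosh (v.im : ℂ) +
      Complex.cos (v.re : ℂ) * Complex.sinh (v.im : ℂ) * I).im = Real.cos v.re * Real.sinh v.im := by
    simp [Complex.sin_ofReal_re, Complex.sin_ofReal_im, Complex.cos_ofReal_re, Complex.cos_ofReal_im,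
      Complex.sinh_ofReal_re, Complex.sinh_ofReal_im, Complex.cosh_ofReal_re, Complex.cosh_ofReal_im]
  rw [h1, h2]
  have h3 := Real.cosh_sq v.im
  have h4 := Real.sin_sq_add_cos_sq v.re
  nlinarith

theorem s7f_norm_sin_ge (v : ℂ) : |Real.sin ‖v‖| ≤ ‖Complex.sin v‖ := by
  apply abs_le_of_sq_le_sq' _ (norm_nonneg _) |> fun h => abs_le.2 h
  rw [s7f_normSq_sin]
  set r := ‖v‖ with hr
  set x := v.re with hx
  set y := v.im with hy
  have hr2 : r ^ 2 = x ^ 2 + y ^ 2 := by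
    rw [hr, Complex.sq_norm, Complex.normSq_apply]
    ring
  have h1 : Real.sin r ^ 2 - Real.sin x ^ 2 = Real.sin (r - x) * Real.sin (r + x) := by
    rw [Real.sin_sub, Real.sin_add]
    have h3 := Real.sin_sq_add_cos_sq r
    have h4 := Real.sin_sq_add_cos_sq x
    nlinarith
  have h2 : Real.sin (r - x) * Real.sin (r + x) ≤ y ^ 2 := by
    calc Real.sin (r - x) * Real.sin (r + x) ≤ |Real.sin (r - x) * Real.sin (r + x)| := le_abs_self _
      _ = |Real.sin (r - x)| * |Real.sin (r + x)| := abs_mul _ _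
      _ ≤ |r - x| * |r + x| := mul_le_mul Real.abs_sin_le_abs Real.abs_sin_le_abs (abs_nonneg _) (abs_nonneg _)
      _ = |y ^ 2| := by
          rw [← abs_mul]
          congr 1
          nlinarith
      _ = y ^ 2 := abs_of_nonneg (by positivity)
  have h3 : y ^ 2 ≤ Real.sinh y ^ 2 := by
    rw [sq_le_sq, Real.abs_sinh]
    exact Real.self_le_sinh_iff.2 (abs_nonneg y)
  linarith

theorem s7fS_norm_ge (v : ℂ) (hv : ‖v‖ ≤ π) : Real.sinc ‖v‖ ≤ ‖s7fS v‖ := by
  by_cases h0 : v = 0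
  · rw [h0, norm_zero, Real.sinc_zero, s7fS_zero, norm_one]
  · have hn : 0 < ‖v‖ := norm_pos_iff.2 h0
    rw [Real.sinc_of_ne_zero hn.ne', div_le_iff₀ hn]
    have h1 := s7fS_mul v
    have h2 : ‖s7fS v‖ * ‖v‖ = ‖Complex.sin v‖ := by rw [← h1, norm_mul, mul_comm]
    rw [h2]
    exact (le_abs_self _).trans (s7f_norm_sin_ge v)

theorem s7f_sinc_pos {r : ℝ} (h0 : 0 ≤ r) (h1 : r < π) : 0 < Real.sinc r := by
  rcases h0.eq_or_lt with h | h
  · rw [← h, Real.sinc_zero]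
    norm_num
  · rw [Real.sinc_of_ne_zero h.ne']
    exact div_pos (Real.sin_pos_of_pos_of_lt_pi h h1) h

/-- `x cos x < sin x` on `(0,π]`. -/
theorem s7f_N_pos {x : ℝ} (h0 : 0 < x) (h1 : x ≤ π) : x * Real.cos x < Real.sin x := by
  rcases lt_or_ge x (π / 2) with h | h
  · have hc : 0 < Real.cos x := Real.cos_pos_of_mem_Ioo ⟨by linarith, h⟩
    have h2 := Real.lt_tan h0 h
    rw [Real.tan_eq_sin_div_cos, lt_div_iff₀ hc] at h2
    exact h2
  · have hc : Real.cos x ≤ 0 := Real.cos_nonpos_of_pi_div_two_le_of_le h (by linarith [Real.pi_pos])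
    rcases h1.eq_or_lt with h2 | h2
    · rw [h2, Real.cos_pi, Real.sin_pi]
      linarith [Real.pi_pos]
    · have hs := Real.sin_pos_of_pos_of_lt_pi h0 h2
      nlinarith

theorem s7f_sinc_anti : AntitoneOn Real.sinc (Icc 0 π) := by
  apply antitoneOn_of_deriv_nonpos (convex_Icc 0 π) Real.continuous_sinc.continuousOn
  · intro x hx
    rw [interior_Icc] at hx
    have h1 : HasDerivAt (fun x => Real.sin x / x) ((Real.cos x * x - Real.sin x * 1) / x ^ 2) x :=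
      (Real.hasDerivAt_sin x).div (hasDerivAt_id x) hx.1.ne'
    have h2 : Real.sinc =ᶠ[𝓝 x] fun x => Real.sin x / x := by
      filter_upwards [isOpen_ne.mem_nhds hx.1.ne'] with y hy
      exact Real.sinc_of_ne_zero hy
    exact (h2.hasDerivAt_iff.2 h1).differentiableAt.differentiableWithinAt
  · intro x hx
    rw [interior_Icc] at hx
    have h1 : HasDerivAt (fun x => Real.sin x / x) ((Real.cos x * x - Real.sin x * 1) / x ^ 2) x :=
      (Real.hasDerivAt_sin x).div (hasDerivAt_id x) hx.1.ne'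
    have h2 : Real.sinc =ᶠ[𝓝 x] fun x => Real.sin x / x := by
      filter_upwards [isOpen_ne.mem_nhds hx.1.ne'] with y hy
      exact Real.sinc_of_ne_zero hy
    rw [(h2.hasDerivAt_iff.2 h1).deriv]
    apply div_nonpos_of_nonpos_of_nonneg _ (by positivity)
    have := s7f_N_pos hx.1 hx.2.le
    linarith

/-! ### block g  (LF-S7F-g) -/

theorem s7fg_zero : s7fg 0 = 1 := by simp [s7fg]

theorem s7fg_mul (v : ℂ) : v ^ 3 * s7fg v = 3 * s7fN v := by
  by_cases hv : v = 0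
  · simp [hv, s7fN]
  · simp only [s7fg, if_neg hv]
    field_simp

/-- `(sin v - v)/v³`, entire. -/
noncomputable def s7fS2 (v : ℂ) : ℂ := dslope (dslope s7fS 0) 0 v

theorem s7fS2_differentiable : Differentiable ℂ s7fS2 :=
  s7f_dslope_differentiable (s7f_dslope_differentiable s7fS_differentiable 0) 0

theorem s7fS2_mul (v : ℂ) : v ^ 3 * s7fS2 v = Complex.sin v - v := by
  have h1 := sub_smul_dslope s7fS 0 v
  have h2 := sub_smul_dslope (dslope s7fS 0) 0 v
  rw [dslope_same, s7fS_deriv_zero] at h2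
  rw [s7fS_zero] at h1
  simp only [sub_zero, smul_eq_mul] at h1 h2
  have h3 := s7fS_mul v
  rw [s7fS2]
  calc v ^ 3 * dslope (dslope s7fS 0) 0 v = v ^ 2 * (v * dslope (dslope s7fS 0) 0 v) := by ring
    _ = v * (v * dslope s7fS 0 v) := by rw [h2]; ring
    _ = v * s7fS v - v := by rw [h1]; ring
    _ = _ := by rw [h3]

theorem s7fS2_zero : s7fS2 0 = -1 / 6 := by
  have hcont : Continuous fun v : ℂ => s7fS2 (v / 3) / 9 - 4 / 27 * s7fS (v / 3) ^ 3 := by
    have h1 := s7fS2_differentiable.continuous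
    have h2 := s7fS_differentiable.continuous
    fun_prop
  have heq : EqOn s7fS2 (fun v : ℂ => s7fS2 (v / 3) / 9 - 4 / 27 * s7fS (v / 3) ^ 3) {(0 : ℂ)}ᶜ := by
    intro v hv
    have hv0 : v ≠ 0 := hv
    have h1 := s7fS2_mul v
    have h2 := s7fS2_mul (v / 3)
    have h3 := s7fS_mul (v / 3)
    have h4 := Complex.sin_three_mul (v / 3)
    have e : 3 * (v / 3) = v := by ring
    rw [e] at h4
    have h5 : v ^ 3 * s7fS2 v = v ^ 3 * (s7fS2 (v / 3) / 9 - 4 / 27 * s7fS (v / 3) ^ 3) := by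
      rw [h1, h4, ← h3]
      linear_combination (-3 : ℂ) * h2 + (3 : ℂ) * h3
    exact mul_left_cancel₀ (pow_ne_zero 3 hv0) h5
  have h := Continuous.ext_on (dense_compl_singleton (0 : ℂ)) s7fS2_differentiable.continuous hcont heq
  have h0 := congrFun h 0
  simp only [zero_div, s7fS_zero] at h0
  linear_combination (9 / 8 : ℂ) * h0

theorem s7f_one_sub_cos (v : ℂ) : 1 - Complex.cos v = v ^ 2 / 2 * s7fS (v / 2) ^ 2 := by
  have h1 := s7fS_mul (v / 2)
  have h2 := Complex.cos_two_mul (v / 2)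
  have e : 2 * (v / 2) = v := by ring
  rw [e] at h2
  have h3 := Complex.sin_sq_add_cos_sq (v / 2)
  have h4 : v ^ 2 / 2 * s7fS (v / 2) ^ 2 = 2 * (v / 2 * s7fS (v / 2)) ^ 2 := by ring
  rw [h4, h1, h2]
  linear_combination (-2 : ℂ) * h3

theorem s7fg_eq_entire (v : ℂ) : s7fg v = 3 * (s7fS2 v + s7fS (v / 2) ^ 2 / 2) := by
  by_cases hv : v = 0
  · rw [hv, s7fg_zero, s7fS2_zero, zero_div, s7fS_zero]
    norm_num
  · have h1 := s7fg_mul v
    have h2 := s7fS2_mul v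
    have h3 := s7f_one_sub_cos v
    have h4 : v ^ 3 * s7fg v = v ^ 3 * (3 * (s7fS2 v + s7fS (v / 2) ^ 2 / 2)) := by
      rw [h1, s7fN]
      linear_combination (-3 : ℂ) * h2 + (3 * v) * h3
    exact mul_left_cancel₀ (pow_ne_zero 3 hv) h4

theorem s7fg_differentiable : Differentiable ℂ s7fg := by
  have h : s7fg = fun v => 3 * (s7fS2 v + s7fS (v / 2) ^ 2 / 2) := funext s7fg_eq_entire
  rw [h]
  have h1 := s7fS2_differentiable
  have h2 := s7fS_differentiable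
  fun_prop

theorem s7fg_neg (v : ℂ) : s7fg (-v) = s7fg v := by
  by_cases hv : v = 0
  · rw [hv, neg_zero]
  · have hv' : -v ≠ 0 := neg_ne_zero.2 hv
    simp only [s7fg, if_neg hv, if_neg hv', s7fN, Complex.sin_neg, Complex.cos_neg]
    field_simp
    ring

theorem s7fg_deriv_zero : deriv s7fg 0 = 0 := s7f_even_deriv_zero s7fg_neg

/-! ### block F1  (LF-S7F-F1) -/

/-- lower bound for the denominators. -/
theorem s7fF_den_ge (v : ℂ) (k : ℕ) : (((k : ℝ) + 1) * π) ^ 2 - ‖v‖ ^ 2 ≤ ‖(((k : ℂ) + 1) * π) ^ 2 - v ^ 2‖ := by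
  have h1 : ‖(((k : ℂ) + 1) * π) ^ 2‖ = (((k : ℝ) + 1) * π) ^ 2 := by
    have : (((k : ℂ) + 1) * π) ^ 2 = (((((k : ℝ) + 1) * π) ^ 2 : ℝ) : ℂ) := by push_cast; ring
    rw [this, Complex.norm_real, Real.norm_of_nonneg (by positivity)]
  have h2 := norm_sub_norm_le ((((k : ℂ) + 1) * π) ^ 2) (v ^ 2)
  rw [h1, norm_pow] at h2
  exact h2

theorem s7fF_summable_sq : Summable fun k : ℕ => 2 / (((k : ℝ) + 1) * π) ^ 2 := by
  have h1 : Summable fun k : ℕ => 1 / ((k : ℝ) + 1) ^ 2 := by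
    have := (summable_nat_add_iff 1).2 (Real.summable_one_div_nat_pow.2 (by norm_num : 1 < 2))
    simpa using this
  refine (h1.mul_left (2 / π ^ 2)).congr fun k => ?_
  rw [mul_pow]
  field_simp

theorem s7fF_summable (v : ℂ) : Summable fun k : ℕ => 1 / ((((k : ℂ) + 1) * π) ^ 2 - v ^ 2) := by
  refine Summable.of_norm_bounded_eventually_nat s7fF_summable_sq ?_
  filter_upwards [eventually_ge_atTop ⌈2 * ‖v‖⌉₊] with k hk
  have h1 : 2 * ‖v‖ ≤ (k : ℝ) := (Nat.le_ceil _).trans (by exact_mod_cast hk)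
  have h2 : (k : ℝ) + 1 ≤ ((k : ℝ) + 1) * π := by
    have := Real.pi_gt_three
    have hk0 : (0 : ℝ) ≤ k := Nat.cast_nonneg k
    nlinarith
  have h3 : 0 ≤ ‖v‖ := norm_nonneg v
  have h4 : 2 * ‖v‖ ≤ ((k : ℝ) + 1) * π := by linarith
  have h5 : (((k : ℝ) + 1) * π) ^ 2 / 2 ≤ ‖(((k : ℂ) + 1) * π) ^ 2 - v ^ 2‖ := by
    refine le_trans ?_ (s7fF_den_ge v k)
    nlinarith
  have h6 : 0 < (((k : ℝ) + 1) * π) ^ 2 / 2 := by positivity
  rw [norm_div, norm_one]
  calc 1 / ‖(((k : ℂ) + 1) * π) ^ 2 - v ^ 2‖ ≤ 1 / ((((k : ℝ) + 1) * π) ^ 2 / 2) := one_div_le_one_div_of_le h6 h5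
    _ = 2 / (((k : ℝ) + 1) * π) ^ 2 := by field_simp

theorem s7fF_term_ofReal (r : ℝ) (k : ℕ) :
    1 / ((((k : ℂ) + 1) * π) ^ 2 - (r : ℂ) ^ 2) = ((1 / ((((k : ℝ) + 1) * π) ^ 2 - r ^ 2) : ℝ) : ℂ) := by
  push_cast; ring

theorem s7fFR_summable (r : ℝ) : Summable fun k : ℕ => 1 / ((((k : ℝ) + 1) * π) ^ 2 - r ^ 2) := by
  have h := s7fF_summable (r : ℂ)
  simp only [s7fF_term_ofReal] at h
  exact Complex.summable_ofReal.1 h

theorem s7fFR_zero : s7fFR 0 = 1 := by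
  have h1 : HasSum (fun k : ℕ => (1 : ℝ) / (((k + 1 : ℕ) : ℝ)) ^ 2) (π ^ 2 / 6) := by
    have := (hasSum_nat_add_iff' 1).2 hasSum_zeta_two
    simpa using this
  have h2 : (fun k : ℕ => 1 / ((((k : ℝ) + 1) * π) ^ 2 - (0 : ℝ) ^ 2)) = fun k : ℕ => (1 / π ^ 2) * ((1 : ℝ) / (((k + 1 : ℕ) : ℝ)) ^ 2) := by
    funext k
    push_cast
    rw [mul_pow]
    field_simp
    ring
  unfold s7fFR
  rw [h2, tsum_mul_left, h1.tsum_eq]
  field_simp

theorem s7fF_ofReal (r : ℝ) : s7fF (r : ℂ) = (s7fFR r : ℂ) := by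
  unfold s7fF s7fFR
  simp only [s7fF_term_ofReal]
  rw [← Complex.ofReal_tsum]
  push_cast
  ring

theorem s7fF_not_int {v : ℂ} (h0 : v ≠ 0) (hv : ‖v‖ ≤ π) (hv2 : v ^ 2 ≠ (π : ℂ) ^ 2) (n : ℤ) : v ≠ n * π := by
  intro h
  have hπ := Real.pi_pos
  have h1 : ‖v‖ = |(n : ℝ)| * π := by
    rw [h, norm_mul, Complex.norm_intCast, Complex.norm_real, Real.norm_of_nonneg hπ.le]
  rw [h1] at hv
  have h2 : |(n : ℝ)| ≤ 1 := by
    by_contra hc
    push Not at hc
    nlinarith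
  have h3 : |n| ≤ 1 := by exact_mod_cast h2
  have h4 : n = -1 ∨ n = 0 ∨ n = 1 := by
    have := abs_le.1 h3
    omega
  rcases h4 with rfl | rfl | rfl
  · exact hv2 (by rw [h]; push_cast; ring)
  · exact h0 (by rw [h]; simp)
  · exact hv2 (by rw [h]; push_cast; ring)

theorem s7fF_pf (v a p : ℂ) (hp : p ≠ 0) (a1 : v - a ≠ 0) (a2 : v + a ≠ 0) :
    1 / ((v - a) / p) + 1 / ((v + a) / p) = (-2 * p * v) * (1 / (a ^ 2 - v ^ 2)) := by
  have a3 : a ^ 2 - v ^ 2 ≠ 0 := by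
    have : a ^ 2 - v ^ 2 = -((v - a) * (v + a)) := by ring
    rw [this]
    exact neg_ne_zero.2 (mul_ne_zero a1 a2)
  field_simp
  ring

/-- `g = S F` off the zeros of `sin` (and at `0`). -/
theorem s7fg_eq {v : ℂ} (hv : ‖v‖ ≤ π) (hv2 : v ^ 2 ≠ (π : ℂ) ^ 2) : s7fg v = s7fS v * s7fF v := by
  by_cases h0 : v = 0
  · have h1 : s7fF 0 = 1 := by
      have := s7fF_ofReal 0
      rw [s7fFR_zero] at this
      simpa using this
    rw [h0, s7fg_zero, s7fS_zero, h1, mul_one]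
  have hπ : (π : ℂ) ≠ 0 := Complex.ofReal_ne_zero.2 Real.pi_ne_zero
  have hint := s7fF_not_int h0 hv hv2
  have hx : v / π ∈ Complex.integerComplement := by
    rintro ⟨n, hn⟩
    exact hint n (by rw [hn]; field_simp)
  have h := cot_series_rep' hx
  have e1 : (π : ℂ) * (v / π) = v := by field_simp
  have hterm : ∀ n : ℕ, 1 / (v / π - ((n : ℂ) + 1)) + 1 / (v / π + ((n : ℂ) + 1))
      = (-2 * π * v) * (1 / ((((n : ℂ) + 1) * π) ^ 2 - v ^ 2)) := by
    intro n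
    have a1 : v - ((n : ℂ) + 1) * π ≠ 0 := by
      have := hint (n + 1)
      push_cast at this
      exact sub_ne_zero.2 this
    have a2 : v + ((n : ℂ) + 1) * π ≠ 0 := by
      have := hint (-(n + 1))
      push_cast at this
      intro h'
      exact this (by linear_combination h')
    have b1 : v / π - ((n : ℂ) + 1) = (v - ((n : ℂ) + 1) * π) / π := by field_simp
    have b2 : v / π + ((n : ℂ) + 1) = (v + ((n : ℂ) + 1) * π) / π := by field_simp
    rw [b1, b2]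
    exact s7fF_pf v _ π hπ a1 a2
  simp only [hterm] at h
  rw [tsum_mul_left, e1, Complex.cot_eq_cos_div_sin] at h
  have hsin : Complex.sin v ≠ 0 := s7f_sin_ne_zero h0 (by linarith [Real.pi_pos]) hv2
  have hS : s7fS v = Complex.sin v / v := by
    rw [← s7fS_mul v]; field_simp
  simp only [s7fg, if_neg h0, s7fN, s7fF, hS]
  set Fs := ∑' k : ℕ, 1 / ((((k : ℂ) + 1) * π) ^ 2 - v ^ 2) with hFs
  field_simp at h ⊢
  linear_combination (-3) * h

/-! ### block F2  (LF-S7F-F2) -/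

theorem s7fF_term_re_nonneg {v : ℂ} (hv : ‖v‖ ≤ π) (k : ℕ) : 0 ≤ (1 / ((((k : ℂ) + 1) * π) ^ 2 - v ^ 2)).re := by
  rw [one_div, Complex.inv_re]
  refine div_nonneg ?_ (Complex.normSq_nonneg _)
  have h1 : ((((k : ℂ) + 1) * π) ^ 2).re = (((k : ℝ) + 1) * π) ^ 2 := by
    have : (((k : ℂ) + 1) * π) ^ 2 = (((((k : ℝ) + 1) * π) ^ 2 : ℝ) : ℂ) := by push_cast; ring
    rw [this, Complex.ofReal_re]
  have h2 : (v ^ 2).re ≤ ‖v‖ ^ 2 := by
    rw [← norm_pow]; exact Complex.re_le_norm _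
  rw [Complex.sub_re, h1]
  have h3 : π ≤ ((k : ℝ) + 1) * π := by
    have hk0 : (0 : ℝ) ≤ k := Nat.cast_nonneg k
    nlinarith [Real.pi_pos]
  have h4 : 0 ≤ ‖v‖ := norm_nonneg v
  nlinarith [Real.pi_pos]

theorem s7fF_re_pos {v : ℂ} (hv : ‖v‖ ≤ π) (hv2 : v ^ 2 ≠ (π : ℂ) ^ 2) : 0 < (s7fF v).re := by
  have hs := s7fF_summable v
  have h1 : (s7fF v).re = 6 * ∑' k : ℕ, (1 / ((((k : ℂ) + 1) * π) ^ 2 - v ^ 2)).re := by
    unfold s7fF
    rw [← Complex.re_tsum hs]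
    simp
  rw [h1]
  refine mul_pos (by norm_num) ?_
  have hsr : Summable fun k : ℕ => (1 / ((((k : ℂ) + 1) * π) ^ 2 - v ^ 2)).re := Complex.reCLM.summable hs
  refine hsr.tsum_pos (s7fF_term_re_nonneg hv) 1 ?_
  -- the term `k = 1`
  have hden := s7fF_den_ge v 1
  have h4 : 0 ≤ ‖v‖ := norm_nonneg v
  have hpos : 0 < ‖((((1 : ℕ) : ℂ) + 1) * π) ^ 2 - v ^ 2‖ := by
    refine lt_of_lt_of_le ?_ hden
    push_cast
    nlinarith [Real.pi_pos]
  rw [one_div, Complex.inv_re]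
  refine div_pos ?_ (Complex.normSq_pos.2 (norm_pos_iff.1 hpos))
  have h1 : (((((1 : ℕ) : ℂ) + 1) * π) ^ 2).re = ((((1 : ℕ) : ℝ) + 1) * π) ^ 2 := by
    have : ((((1 : ℕ) : ℂ) + 1) * π) ^ 2 = ((((((1 : ℕ) : ℝ) + 1) * π) ^ 2 : ℝ) : ℂ) := by push_cast; ring
    rw [this, Complex.ofReal_re]
  have h2 : (v ^ 2).re ≤ ‖v‖ ^ 2 := by
    rw [← norm_pow]; exact Complex.re_le_norm _
  rw [Complex.sub_re, h1]
  push_cast
  nlinarith [Real.pi_pos]

theorem s7fFR_den_pos {r : ℝ} (h0 : 0 ≤ r) (h1 : r < π) (k : ℕ) : 0 < (((k : ℝ) + 1) * π) ^ 2 - r ^ 2 := by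
  have h3 : π ≤ ((k : ℝ) + 1) * π := by
    have hk0 : (0 : ℝ) ≤ k := Nat.cast_nonneg k
    nlinarith [Real.pi_pos]
  nlinarith [Real.pi_pos]

theorem s7fF_norm_le {v : ℂ} (hv : ‖v‖ < π) : ‖s7fF v‖ ≤ s7fFR ‖v‖ := by
  unfold s7fF s7fFR
  rw [norm_mul]
  have h6 : ‖(6 : ℂ)‖ = 6 := by simp
  rw [h6]
  refine mul_le_mul_of_nonneg_left ?_ (by norm_num)
  have hs := (s7fF_summable v).norm
  refine (norm_tsum_le_tsum_norm hs).trans (hs.tsum_le_tsum (fun k => ?_) (s7fFR_summable ‖v‖))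
  rw [norm_div, norm_one]
  exact one_div_le_one_div_of_le (s7fFR_den_pos (norm_nonneg v) hv k) (s7fF_den_ge v k)

theorem s7fFR_mono : MonotoneOn s7fFR (Ico 0 π) := by
  intro r hr r' hr' hle
  unfold s7fFR
  refine mul_le_mul_of_nonneg_left ?_ (by norm_num)
  refine (s7fFR_summable r).tsum_le_tsum (fun k => ?_) (s7fFR_summable r')
  refine one_div_le_one_div_of_le (s7fFR_den_pos hr'.1 hr'.2 k) ?_
  have := hr.1
  nlinarith

theorem s7fFR_pos {r : ℝ} (h0 : 0 ≤ r) (h1 : r < π) : 0 < s7fFR r := by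
  unfold s7fFR
  refine mul_pos (by norm_num) ?_
  exact (s7fFR_summable r).tsum_pos (fun k => (one_div_pos.2 (s7fFR_den_pos h0 h1 k)).le) 0
    (one_div_pos.2 (s7fFR_den_pos h0 h1 0))

/-! ### block ne  (LF-S7F-ne) -/

theorem s7fg_pi_sq {v : ℂ} (h : v ^ 2 = (π : ℂ) ^ 2) : s7fg v = 3 / (π : ℂ) ^ 2 := by
  have hπ : (π : ℂ) ≠ 0 := by exact_mod_cast Real.pi_ne_zero
  have hm := s7fg_mul v
  rcases sq_eq_sq_iff_eq_or_eq_neg.1 h with rfl | rfl
  · simp only [s7fN, Complex.sin_pi, Complex.cos_pi] at hm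
    rw [eq_div_iff (pow_ne_zero 2 hπ)]
    apply mul_left_cancel₀ hπ
    linear_combination hm
  · simp only [s7fN, Complex.sin_neg, Complex.cos_neg, Complex.sin_pi, Complex.cos_pi] at hm
    rw [eq_div_iff (pow_ne_zero 2 hπ)]
    apply mul_left_cancel₀ hπ
    linear_combination -hm

theorem s7fg_ne_zero {v : ℂ} (hv : ‖v‖ ≤ π) : s7fg v ≠ 0 := by
  have hπ : (π : ℂ) ≠ 0 := by exact_mod_cast Real.pi_ne_zero
  by_cases h2 : v ^ 2 = (π : ℂ) ^ 2
  · rw [s7fg_pi_sq h2]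
    exact div_ne_zero (by norm_num) (pow_ne_zero 2 hπ)
  · rw [s7fg_eq hv h2]
    refine mul_ne_zero ?_ ?_
    · by_cases h0 : v = 0
      · rw [h0, s7fS_zero]; exact one_ne_zero
      · intro hS
        have := s7fS_mul v
        rw [hS, mul_zero] at this
        exact s7f_sin_ne_zero h0 (by linarith [Real.pi_pos]) h2 this.symm
    · intro hF
      have := s7fF_re_pos hv h2
      rw [hF] at this
      simp at this

theorem s7fg_exists_delta : ∃ δ : ℝ, 0 < δ ∧ δ ≤ 1 ∧ ∀ v ∈ ball (0 : ℂ) (π + δ), s7fg v ≠ 0 := by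
  have hopen : IsOpen {v : ℂ | s7fg v ≠ 0} :=
    isOpen_ne_fun s7fg_differentiable.continuous continuous_const
  obtain ⟨δ, hδ, hsub⟩ := (isCompact_closedBall (0 : ℂ) π).exists_thickening_subset_open hopen
    (fun v hv => s7fg_ne_zero (by simpa using hv))
  rw [thickening_closedBall hδ Real.pi_pos.le] at hsub
  refine ⟨min δ 1, lt_min hδ one_pos, min_le_right _ _, fun v hv => hsub (ball_subset_ball ?_ hv)⟩
  linarith [min_le_left δ 1]

theorem s7fg_ofReal_pos {r : ℝ} (h0 : 0 ≤ r) (h1 : r ≤ π) : ∃ ρ : ℝ, 0 < ρ ∧ s7fg (r : ℂ) = (ρ : ℂ) := by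
  rcases h1.eq_or_lt with rfl | h1
  · refine ⟨3 / π ^ 2, by positivity, ?_⟩
    rw [s7fg_pi_sq rfl]
    push_cast
    ring
  · refine ⟨Real.sinc r * s7fFR r, mul_pos (s7f_sinc_pos h0 h1) (s7fFR_pos h0 h1), ?_⟩
    have hn : ‖(r : ℂ)‖ ≤ π := by
      rw [Complex.norm_real, Real.norm_of_nonneg h0]; exact h1.le
    have h2 : (r : ℂ) ^ 2 ≠ (π : ℂ) ^ 2 := by
      intro h
      have h3 : r ^ 2 = π ^ 2 := by exact_mod_cast h
      have h4 : r = π := by
        have := abs_eq_abs.2 (sq_eq_sq_iff_eq_or_eq_neg.1 h3)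
        rwa [abs_of_nonneg h0, abs_of_pos Real.pi_pos] at this
      linarith
    rw [s7fg_eq hn h2, s7fS_ofReal, s7fF_ofReal]
    push_cast
    ring

/-! ### block rl  (LF-S7F-rl) -/

/-- a continuous logarithm of a positive real function on `[0,a]` with `L 0 = 0` is real. -/
theorem s7f_log_real {L : ℂ → ℂ} {a : ℝ} (hL : ContinuousOn (fun r : ℝ => L (r : ℂ)) (Icc 0 a)) (h0 : L 0 = 0)
    (hpos : ∀ r ∈ Icc (0 : ℝ) a, ∃ ρ : ℝ, 0 < ρ ∧ Complex.exp (L (r : ℂ)) = (ρ : ℂ)) :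
    ∀ r ∈ Icc (0 : ℝ) a, (L (r : ℂ)).im = 0 := by
  intro r₀ hr₀
  by_contra hne
  have hsin : ∀ r ∈ Icc (0 : ℝ) a, Real.sin (L (r : ℂ)).im = 0 := by
    intro r hr
    obtain ⟨ρ, -, hρ⟩ := hpos r hr
    have h1 := congrArg Complex.im hρ
    rw [Complex.exp_im, Complex.ofReal_im] at h1
    exact (mul_eq_zero.1 h1).resolve_left (Real.exp_pos _).ne'
  have hf : ContinuousOn (fun r : ℝ => (L (r : ℂ)).im) (uIcc 0 r₀) := by
    rw [uIcc_of_le hr₀.1]
    exact (Complex.continuous_im.comp_continuousOn hL).mono (Icc_subset_Icc le_rfl hr₀.2)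
  have hivt := intermediate_value_uIcc hf
  obtain ⟨t, ht⟩ : ∃ t : ℝ, t = (L (r₀ : ℂ)).im := ⟨_, rfl⟩
  have ht0 : t ≠ 0 := by rw [ht]; exact hne
  have habs : 0 < |t| := abs_pos.2 ht0
  have hc : t / (1 + |t|) ∈ uIcc ((L ((0 : ℝ) : ℂ)).im) ((L (r₀ : ℂ)).im) := by
    rw [Complex.ofReal_zero, h0, Complex.zero_im, ← ht]
    rcases lt_or_gt_of_ne ht0 with hneg | hpos'
    · rw [uIcc_of_ge hneg.le]
      constructor
      · rw [le_div_iff₀ (by positivity)]
        nlinarith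
      · exact div_nonpos_of_nonpos_of_nonneg hneg.le (by positivity)
    · rw [uIcc_of_le hpos'.le]
      constructor
      · positivity
      · rw [div_le_iff₀ (by positivity)]
        nlinarith
  obtain ⟨r₁, hr₁, hr₁c⟩ := hivt hc
  rw [uIcc_of_le hr₀.1] at hr₁
  have hs := hsin r₁ ⟨hr₁.1, hr₁.2.trans hr₀.2⟩
  simp only at hr₁c
  rw [hr₁c] at hs
  have hlt : |t / (1 + |t|)| < 1 := by
    rw [abs_div, abs_of_pos (by positivity : 0 < 1 + |t|), div_lt_one (by positivity)]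
    linarith
  have hcne : t / (1 + |t|) ≠ 0 := div_ne_zero ht0 (by positivity)
  have hπ : (1 : ℝ) < π := by linarith [Real.pi_gt_three]
  rcases lt_or_gt_of_ne hcne with hneg | hpos'
  · have h1 : 0 < Real.sin (-(t / (1 + |t|))) :=
      Real.sin_pos_of_pos_of_lt_pi (by linarith) (by linarith [(abs_lt.1 hlt).1])
    rw [Real.sin_neg, hs] at h1
    simp at h1
  · have h1 : 0 < Real.sin (t / (1 + |t|)) :=
      Real.sin_pos_of_pos_of_lt_pi hpos' (by linarith [(abs_lt.1 hlt).2])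
    rw [hs] at h1
    exact lt_irrefl _ h1

end Claimed.Agent.R269
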