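/-
Row 269, P1 Section 7.2-7.3, MODEL OF THE FIRST PROFILE, file B: THE CUBE ROOT `G = g^{1/3}` ON `ball 0 (π + δ)`, `Λ = 2 v G`, `P = G²/S`, THE MAJORANT, THE DISC DATA.   HOST-FREE.   Architect: helper183.
`S7FData` = (δ, L) with `exp L = g` on `ball 0 (π+δ)`, `L 0 = 0` (`ca_exists_log`).     `G = exp (L/3)`:  `G³ = g`,  `Λ³ = 8 v³ g = 24 N`.
`P = G²/S` on `ball 0 π`:   `P³ = g²/S³ = F²/S`,  so `‖P v‖³ = ‖F v‖²/‖S v‖ ≤ FR(r)²/sinc r = P(r)³`, `r = ‖v‖`;   `P r > 0` real because `L r` is real (`s7f_log_real`).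
LEAVES:  LF-S7F-G (block G: real positivity, derivative at 0),   LF-S7F-P (block P: `P_cube`, `P_real`, `P_maj`, `p_mono`).   Everything else in this file is proved.
-/
import Claimed.Agent.R269.S7.ModelFA
import Claimed.Agent.R269.Lib.CA1Prim

set_option autoImplicit false

namespace Claimed.Agent.R269

open Complex Filter Topology Set Metric
open scoped Real

/-- a logarithm of `g` on a ball slightly larger than `ball 0 π`. -/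
structure S7FData where
  δ : ℝ
  δ_pos : 0 < δ
  δ_le : δ ≤ 1
  L : ℂ → ℂ
  L_zero : L 0 = 0
  L_deriv : ∀ v ∈ ball (0 : ℂ) (π + δ), HasDerivAt L (deriv s7fg v / s7fg v) v
  L_exp : ∀ v ∈ ball (0 : ℂ) (π + δ), Complex.exp (L v) = s7fg v

theorem s7f_data : Nonempty S7FData := by
  obtain ⟨δ, h0, h1, hne⟩ := s7fg_exists_delta
  have hc : (0 : ℂ) ∈ ball (0 : ℂ) (π + δ) := mem_ball_self (by positivity)
  obtain ⟨L, hL0, hLd, hLe⟩ := ca_exists_log isOpen_ball (convex_ball (0 : ℂ) (π + δ))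
    s7fg_differentiable.differentiableOn hne hc (L₀ := 0) (by rw [Complex.exp_zero, s7fg_zero])
  exact ⟨⟨δ, h0, h1, L, hL0, hLd, hLe⟩⟩

namespace S7FData

variable (D : S7FData)

/-- `G = g^{1/3}`. -/
noncomputable def G (v : ℂ) : ℂ := Complex.exp (D.L v / 3)

/-- `Λ = 2 v G`, the cube root of `24 N`. -/
noncomputable def Lam (v : ℂ) : ℂ := 2 * v * D.G v

/-- `P = G²/S`. -/
noncomputable def P (v : ℂ) : ℂ := D.G v ^ 2 / s7fS v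

/-- the real majorant. -/
noncomputable def p (r : ℝ) : ℝ := (D.P (r : ℂ)).re

theorem ball_pi_subset : ball (0 : ℂ) π ⊆ ball (0 : ℂ) (π + D.δ) :=
  ball_subset_ball (by linarith [D.δ_pos])

theorem ball_near_subset : ball (π : ℂ) D.δ ⊆ ball (0 : ℂ) (π + D.δ) := by
  intro v hv
  rw [mem_ball, dist_eq_norm] at hv
  rw [mem_ball_zero_iff]
  calc ‖v‖ = ‖(v - π) + π‖ := by ring_nf
    _ ≤ ‖v - π‖ + ‖(π : ℂ)‖ := norm_add_le _ _
    _ < π + D.δ := by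
      rw [Complex.norm_real, Real.norm_of_nonneg Real.pi_pos.le]
      linarith

theorem G_ne (v : ℂ) : D.G v ≠ 0 := Complex.exp_ne_zero _

theorem G_zero : D.G 0 = 1 := by simp [G, D.L_zero]

theorem G_cube {v : ℂ} (hv : v ∈ ball (0 : ℂ) (π + D.δ)) : D.G v ^ 3 = s7fg v := by
  rw [G, ← Complex.exp_nat_mul, ← D.L_exp v hv]
  congr 1
  push_cast
  ring

theorem G_hasDerivAt {v : ℂ} (hv : v ∈ ball (0 : ℂ) (π + D.δ)) :
    HasDerivAt D.G (D.G v * (deriv s7fg v / s7fg v / 3)) v :=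
  ((D.L_deriv v hv).div_const 3).cexp

theorem G_diff : DifferentiableOn ℂ D.G (ball (0 : ℂ) (π + D.δ)) :=
  fun _ hv => (D.G_hasDerivAt hv).differentiableAt.differentiableWithinAt

theorem Lam_cube {v : ℂ} (hv : v ∈ ball (0 : ℂ) (π + D.δ)) : D.Lam v ^ 3 = 24 * s7fN v := by
  have h := s7fg_mul v
  rw [Lam, mul_pow, mul_pow, D.G_cube hv]
  linear_combination 8 * h

theorem Lam_diff : DifferentiableOn ℂ D.Lam (ball (0 : ℂ) (π + D.δ)) :=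
  ((differentiableOn_const _).mul differentiableOn_id).mul D.G_diff

theorem Lam_ne {v : ℂ} (hv : v ≠ 0) : D.Lam v ≠ 0 :=
  mul_ne_zero (mul_ne_zero two_ne_zero hv) (D.G_ne v)

/-! ### block G  (LF-S7F-G) -/

/-- real points of `[0,π]` lie in the big ball. -/
theorem ofReal_mem {r : ℝ} (h0 : 0 ≤ r) (h1 : r ≤ π) : (r : ℂ) ∈ ball (0 : ℂ) (π + D.δ) := by
  rw [mem_ball_zero_iff, Complex.norm_real, Real.norm_of_nonneg h0]
  linarith [D.δ_pos]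

/-- `G` is real and positive on `[0,π]`  (`s7f_log_real`, `s7fg_ofReal_pos`). -/
theorem G_real {r : ℝ} (h0 : 0 ≤ r) (h1 : r ≤ π) : ∃ ρ : ℝ, 0 < ρ ∧ D.G (r : ℂ) = (ρ : ℂ) := by
  have hc : ContinuousOn (fun r : ℝ => D.L (r : ℂ)) (Icc 0 π) := by
    intro x hx
    have h := (D.L_deriv _ (D.ofReal_mem hx.1 hx.2)).continuousAt
    exact (h.comp (f := fun r : ℝ => (r : ℂ)) Complex.continuous_ofReal.continuousAt).continuousWithinAt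
  have him := s7f_log_real hc D.L_zero (fun x hx => by
    obtain ⟨ρ, hρ, he⟩ := s7fg_ofReal_pos hx.1 hx.2
    exact ⟨ρ, hρ, by rw [D.L_exp _ (D.ofReal_mem hx.1 hx.2), he]⟩) r ⟨h0, h1⟩
  refine ⟨Real.exp ((D.L (r : ℂ)).re / 3), Real.exp_pos _, ?_⟩
  have hL : D.L (r : ℂ) = (((D.L (r : ℂ)).re : ℝ) : ℂ) := by
    apply Complex.ext
    · simp
    · simp [him]
  rw [G, hL]
  push_cast
  simp

/-- `G' 0 = 0`  (`G_hasDerivAt`, `s7fg_deriv_zero`). -/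
theorem G_deriv_zero : deriv D.G 0 = 0 := by
  have h := (D.G_hasDerivAt (mem_ball_self (by linarith [Real.pi_pos, D.δ_pos]))).deriv
  rw [h, s7fg_deriv_zero]
  simp

/-! ### block P  (LF-S7F-P) -/

theorem sq_ne_pi {v : ℂ} (hv : v ∈ ball (0 : ℂ) π) : v ^ 2 ≠ (π : ℂ) ^ 2 := by
  rw [mem_ball_zero_iff] at hv
  intro h
  have h2 := congrArg norm h
  rw [norm_pow, norm_pow, Complex.norm_real, Real.norm_of_nonneg Real.pi_pos.le] at h2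
  have := pow_lt_pow_left₀ hv (norm_nonneg v) two_ne_zero
  linarith

theorem S_ne {v : ℂ} (hv : v ∈ ball (0 : ℂ) π) : s7fS v ≠ 0 := by
  by_cases h0 : v = 0
  · rw [h0, s7fS_zero]
    exact one_ne_zero
  · intro h
    have h1 := s7fS_mul v
    rw [h, mul_zero] at h1
    have hv' := hv
    rw [mem_ball_zero_iff] at hv'
    exact s7f_sin_ne_zero h0 (by linarith [Real.pi_pos]) (sq_ne_pi hv) h1.symm

theorem P_diff : DifferentiableOn ℂ D.P (ball (0 : ℂ) π) :=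
  ((D.G_diff.mono D.ball_pi_subset).pow 2).div s7fS_differentiable.differentiableOn (fun _ hv => S_ne hv)

theorem P_zero : D.P 0 = 1 := by simp [P, D.G_zero, s7fS_zero]

theorem P_ne {v : ℂ} (hv : v ∈ ball (0 : ℂ) π) : D.P v ≠ 0 :=
  div_ne_zero (pow_ne_zero 2 (D.G_ne v)) (S_ne hv)

/-- `P³ = F²/S`. -/
theorem P_cube {v : ℂ} (hv : v ∈ ball (0 : ℂ) π) : D.P v ^ 3 = s7fF v ^ 2 / s7fS v := by
  have hS := S_ne hv
  have hv' := hv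
  rw [mem_ball_zero_iff] at hv'
  have hg := s7fg_eq hv'.le (sq_ne_pi hv)
  have hG := D.G_cube (D.ball_pi_subset hv)
  rw [P, div_pow]
  have h6 : (D.G v ^ 2) ^ 3 = (s7fS v * s7fF v) ^ 2 := by
    rw [← hg, ← hG]
    ring
  rw [h6]
  field_simp

/-- `P` is real and positive on `[0,π)`. -/
theorem P_real {r : ℝ} (hr : r ∈ Ico (0 : ℝ) π) : D.P (r : ℂ) = (D.p r : ℂ) ∧ 0 < D.p r := by
  obtain ⟨ρ, hρ, hG⟩ := D.G_real hr.1 hr.2.le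
  have hs := s7f_sinc_pos hr.1 hr.2
  have hP : D.P (r : ℂ) = ((ρ ^ 2 / Real.sinc r : ℝ) : ℂ) := by
    rw [P, hG, s7fS_ofReal]
    push_cast
    ring
  have hp : D.p r = ρ ^ 2 / Real.sinc r := by
    rw [p, hP, Complex.ofReal_re]
  rw [hp]
  exact ⟨hP, by positivity⟩

/-- `p³ = FR²/sinc`. -/
theorem p_cube {r : ℝ} (hr : r ∈ Ico (0 : ℝ) π) : D.p r ^ 3 = s7fFR r ^ 2 / Real.sinc r := by
  have hmem : (r : ℂ) ∈ ball (0 : ℂ) π := by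
    rw [mem_ball_zero_iff, Complex.norm_real, Real.norm_of_nonneg hr.1]
    exact hr.2
  have h := D.P_cube hmem
  rw [(D.P_real hr).1, s7fF_ofReal, s7fS_ofReal] at h
  exact_mod_cast h

theorem P_maj {v : ℂ} (hv : v ∈ ball (0 : ℂ) π) : ‖D.P v‖ ≤ D.p ‖v‖ := by
  have hv' := hv
  rw [mem_ball_zero_iff] at hv'
  have hr : ‖v‖ ∈ Ico (0 : ℝ) π := ⟨norm_nonneg v, hv'⟩
  have hp := (D.P_real hr).2
  have h3 : ‖D.P v‖ ^ 3 ≤ D.p ‖v‖ ^ 3 := by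
    rw [← norm_pow, D.P_cube hv, D.p_cube hr, norm_div, norm_pow]
    have hs := s7f_sinc_pos hr.1 hr.2
    have h1 := s7fS_norm_ge v hv'.le
    have h2 := s7fF_norm_le hv'
    exact div_le_div₀ (by positivity) (pow_le_pow_left₀ (norm_nonneg _) h2 2) hs h1
  exact (pow_le_pow_iff_left₀ (norm_nonneg _) hp.le three_ne_zero).1 h3

theorem p_mono : MonotoneOn D.p (Ico 0 π) := by
  intro a ha b hb hab
  have hpa := (D.P_real ha).2
  have hpb := (D.P_real hb).2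
  have h3 : D.p a ^ 3 ≤ D.p b ^ 3 := by
    rw [D.p_cube ha, D.p_cube hb]
    have hsb := s7f_sinc_pos hb.1 hb.2
    have h1 := s7f_sinc_anti ⟨ha.1, ha.2.le⟩ ⟨hb.1, hb.2.le⟩ hab
    have h2 := s7fFR_mono ha hb hab
    have h0 := (s7fFR_pos ha.1 ha.2).le
    exact div_le_div₀ (by positivity) (pow_le_pow_left₀ h0 h2 2) hsb h1
  exact (pow_le_pow_iff_left₀ hpa.le hpb.le three_ne_zero).1 h3

end S7FData

/-- the disc data: the part of the conclusion of `s7_disc_solution` (for `P = D.P`, `vc = π`) which is used. -/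
structure S7FDisc (D : S7FData) where
  R : ℝ
  R_pos : 0 < R
  vv : ℂ → ℂ
  vv_diff : DifferentiableOn ℂ vv (ball 0 R)
  vv_zero : vv 0 = 0
  vv_deriv : deriv vv 0 = 1 / 2
  vv_mem : ∀ w ∈ ball (0 : ℂ) R, vv w ∈ ball (0 : ℂ) π
  vv_ne : ∀ w ∈ ball (0 : ℂ) R, w ≠ 0 → vv w ≠ 0
  vv_ode : ∀ w ∈ ball (0 : ℂ) R, w * deriv vv w = vv w * D.P (vv w)
  vv_real : ∀ r ∈ Ioo 0 R, (vv (r : ℂ)).im = 0 ∧ 0 < (vv (r : ℂ)).re
  vv_lim : Tendsto (fun r : ℝ => vv (r : ℂ)) (𝓝[<] R) (𝓝 (π : ℂ))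

/-- the statement of `s7_disc_solution` (`S7/ModelStmt.lean`), verbatim. -/
def S7DiscStmt : Prop :=
  ∀ {vc : ℝ} {P : ℂ → ℂ} {p : ℝ → ℝ} (_ : 0 < vc)
    (_ : DifferentiableOn ℂ P (ball 0 vc)) (_ : P 0 = 1) (_ : ∀ v ∈ ball (0 : ℂ) vc, P v ≠ 0)
    (_ : ∀ v ∈ ball (0 : ℂ) vc, ‖P v‖ ≤ p ‖v‖) (_ : ∀ r ∈ Ico (0 : ℝ) vc, P (r : ℂ) = (p r : ℂ))
    (_ : MonotoneOn p (Ico 0 vc)),
    ∃ (Wf vv : ℂ → ℂ) (R : ℝ), 0 < R ∧ DifferentiableOn ℂ Wf (ball 0 vc) ∧ Wf 0 = 0 ∧ deriv Wf 0 = 2 ∧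
      (∀ v ∈ ball (0 : ℂ) vc, v * deriv Wf v * P v = Wf v) ∧
      (∀ r ∈ Ioo 0 vc, (Wf (r : ℂ)).im = 0 ∧ 0 < (Wf (r : ℂ)).re ∧ (Wf (r : ℂ)).re < R) ∧
      Tendsto (fun r : ℝ => Wf (r : ℂ)) (𝓝[<] vc) (𝓝 (R : ℂ)) ∧
      DifferentiableOn ℂ vv (ball 0 R) ∧ vv 0 = 0 ∧ deriv vv 0 = 1 / 2 ∧
      (∀ w ∈ ball (0 : ℂ) R, vv w ∈ ball (0 : ℂ) vc ∧ Wf (vv w) = w) ∧
      (∀ w ∈ ball (0 : ℂ) R, w ≠ 0 → vv w ≠ 0) ∧
      (∀ w ∈ ball (0 : ℂ) R, w * deriv vv w = vv w * P (vv w)) ∧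
      (∀ r ∈ Ioo 0 R, (vv (r : ℂ)).im = 0 ∧ 0 < (vv (r : ℂ)).re) ∧
      Tendsto (fun r : ℝ => vv (r : ℂ)) (𝓝[<] R) (𝓝 (vc : ℂ))

theorem s7f_disc (h : S7DiscStmt) (D : S7FData) : Nonempty (S7FDisc D) := by
  obtain ⟨Wf, vv, R, hR, -, -, -, -, -, -, h1, h2, h3, h4, h5, h6, h7, h8⟩ :=
    h Real.pi_pos D.P_diff D.P_zero (fun v hv => D.P_ne hv) (fun v hv => D.P_maj hv)
      (fun r hr => (D.P_real hr).1) D.p_mono
  exact ⟨⟨R, hR, vv, h1, h2, h3, fun w hw => (h4 w hw).1, h5, h6, h7, h8⟩⟩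

end Claimed.Agent.R269
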