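/-
Row 269, P1 Section 7.2-7.3, MODEL OF THE FIRST PROFILE, file C: SOLUTION CRITERION, THE HALF PLANE, THE ANCHOR.   HOST-FREE.   Architect: helper183.
PROVED HERE: `s7f_criterion` (if `exp(-3 i m) = 24 N(v)`, `v' = exp(-2 i m)/(4 i sin v)`, `sin v ≠ 0` on an open set then `m` solves the limit equation, `m' = 2 v exp(i m)`, `s7z (m, m') = v`),
   `s7f_sol_of_local` (`S7Sol` is local), `s7f_half` (the solution `mH y = y + i ℒ(exp(-i y))` on `Im y < log R`, with the anchor).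
LEAVES:  LF-S7F-calL (`s7f_exists_calL`),   LF-S7F-quad (`s7f_quadratic_bound`).
-/
import Claimed.Agent.R269.S7.Defs
import Claimed.Agent.R269.S7.ModelFB

set_option autoImplicit false

namespace Claimed.Agent.R269

open Complex Filter Topology Set Metric
open scoped Real

theorem s7fN_hasDerivAt (v : ℂ) : HasDerivAt s7fN (v * Complex.sin v) v := by
  have h := (Complex.hasDerivAt_sin v).sub ((hasDerivAt_id v).mul (Complex.hasDerivAt_cos v))
  have e : Complex.cos v - (1 * Complex.cos v + id v * -Complex.sin v) = v * Complex.sin v := by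
    simp only [id]; ring
  rw [e] at h
  exact h

/-- **Solution criterion** (parametrisation by `v = z`). -/
theorem s7f_criterion {Ω : Set ℂ} {v m : ℂ → ℂ} (hΩ : IsOpen Ω) (hv : DifferentiableOn ℂ v Ω)
    (hm : DifferentiableOn ℂ m Ω)
    (h1 : ∀ y ∈ Ω, Complex.exp (-(3 * I * m y)) = 24 * s7fN (v y))
    (h2 : ∀ y ∈ Ω, deriv v y = Complex.exp (-(2 * I * m y)) / (4 * I * Complex.sin (v y)))
    (h3 : ∀ y ∈ Ω, Complex.sin (v y) ≠ 0) :
    S7Sol true Ω m ∧ (∀ y ∈ Ω, deriv m y = 2 * v y * Complex.exp (I * m y)) ∧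
      ∀ y ∈ Ω, s7z (m y) (deriv m y) = v y := by
  have hmd : ∀ y ∈ Ω, HasDerivAt m (deriv m y) y := fun y hy =>
    (hm.differentiableAt (hΩ.mem_nhds hy)).hasDerivAt
  have hvd : ∀ y ∈ Ω, HasDerivAt v (deriv v y) y := fun y hy =>
    (hv.differentiableAt (hΩ.mem_nhds hy)).hasDerivAt
  -- exponentials in terms of `e = exp (-(I m))`
  have e3 : ∀ y, Complex.exp (-(3 * I * m y)) = Complex.exp (-(I * m y)) ^ 3 := by
    intro y; rw [← Complex.exp_nat_mul]; congr 1; push_cast; ring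
  have e2 : ∀ y, Complex.exp (-(2 * I * m y)) = Complex.exp (-(I * m y)) ^ 2 := by
    intro y; rw [← Complex.exp_nat_mul]; congr 1; push_cast; ring
  have em : ∀ y, Complex.exp (I * m y) = (Complex.exp (-(I * m y)))⁻¹ := by
    intro y; rw [← Complex.exp_neg, neg_neg]
  have e2p : ∀ y, Complex.exp (2 * I * m y) = ((Complex.exp (-(I * m y))) ^ 2)⁻¹ := by
    intro y; rw [← e2, ← Complex.exp_neg]; congr 1; ring
  have hJ : ∀ y ∈ Ω, deriv m y = 2 * v y * Complex.exp (I * m y) := by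
    intro y hy
    have d1 : HasDerivAt (fun y => Complex.exp (-(3 * I * m y)))
        (Complex.exp (-(3 * I * m y)) * (-(3 * I * deriv m y))) y :=
      (((hmd y hy).const_mul (3 * I)).neg).cexp
    have d2 : HasDerivAt (fun y => 24 * s7fN (v y)) (24 * (v y * Complex.sin (v y) * deriv v y)) y :=
      ((s7fN_hasDerivAt (v y)).comp y (hvd y hy)).const_mul 24
    have heq : (fun y => Complex.exp (-(3 * I * m y))) =ᶠ[𝓝 y] fun y => 24 * s7fN (v y) := by
      filter_upwards [hΩ.mem_nhds hy] with z hz using h1 z hz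
    have h := (d1.congr_of_eventuallyEq heq.symm).unique d2
    rw [h2 y hy, e3, e2] at h
    rw [em]
    have he : Complex.exp (-(I * m y)) ≠ 0 := Complex.exp_ne_zero _
    have hs := h3 y hy
    generalize Complex.exp (-(I * m y)) = e at *
    generalize deriv m y = J at *
    field_simp at h ⊢
    have hI : I ^ 2 = -1 := Complex.I_sq
    linear_combination (1 / 12 : ℂ) * h + (e * J) * hI
  have hz : ∀ y ∈ Ω, s7z (m y) (deriv m y) = v y := by
    intro y hy
    rw [s7z, hJ y hy, em]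
    have he : Complex.exp (-(I * m y)) ≠ 0 := Complex.exp_ne_zero _
    field_simp
  refine ⟨⟨hΩ, hm, ?_, ?_⟩, hJ, hz⟩
  · intro y hy
    simp only [s7Reg, Set.mem_ofPred_eq, if_true]
    rw [hz y hy]
    exact h3 y hy
  · intro y hy
    have heq : deriv m =ᶠ[𝓝 y] fun y => 2 * v y * Complex.exp (I * m y) := by
      filter_upwards [hΩ.mem_nhds hy] with z hz' using hJ z hz'
    have d3 : HasDerivAt (fun y => 2 * v y * Complex.exp (I * m y))
        (2 * deriv v y * Complex.exp (I * m y) + 2 * v y * (Complex.exp (I * m y) * (I * deriv m y))) y :=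
      ((hvd y hy).const_mul 2).mul (((hmd y hy).const_mul I).cexp)
    rw [heq.deriv_eq, d3.deriv]
    simp only [s7X, if_true]
    rw [hz y hy, hJ y hy, h2 y hy, em, e2, e2p]
    have h1' := h1 y hy
    rw [e3, s7fN] at h1'
    have he : Complex.exp (-(I * m y)) ≠ 0 := Complex.exp_ne_zero _
    have hs := h3 y hy
    generalize Complex.exp (-(I * m y)) = e at *
    field_simp
    have hI : I ^ 2 = -1 := Complex.I_sq
    linear_combination h1' + 24 * (Complex.sin (v y) - v y * Complex.cos (v y)) * hI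


/-- `S7Sol` is a local property. -/
theorem s7f_sol_of_local {fst : Bool} {Ω : Set ℂ} {m : ℂ → ℂ} (hΩ : IsOpen Ω)
    (h : ∀ y ∈ Ω, ∃ (Ω' : Set ℂ) (m' : ℂ → ℂ), S7Sol fst Ω' m' ∧ y ∈ Ω' ∧ m =ᶠ[𝓝 y] m') : S7Sol fst Ω m := by
  refine ⟨hΩ, ?_, ?_, ?_⟩
  · intro y hy
    obtain ⟨Ω', m', hs, hy', he⟩ := h y hy
    exact (he.differentiableAt_iff.2 (hs.diff.differentiableAt (hs.isOpen.mem_nhds hy'))).differentiableWithinAt
  · intro y hy
    obtain ⟨Ω', m', hs, hy', he⟩ := h y hy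
    rw [he.eq_of_nhds, he.deriv_eq]
    exact hs.reg y hy'
  · intro y hy
    obtain ⟨Ω', m', hs, hy', he⟩ := h y hy
    rw [he.eq_of_nhds, he.deriv_eq, he.deriv.deriv_eq]
    exact hs.ode y hy'

/-! ### the half plane -/

/-- LEAF LF-S7F-calL.  `ℒ = ℒ₀ + (L ∘ vv)/3`, `exp ℒ₀ = 2 dslope vv 0` (`ca_exists_log` on `ball 0 R`; `dslope vv 0 ≠ 0` by `vv_ne`, `vv_deriv`), `ℒ₀ 0 = 0`.
`ℒ' 0 = 0`:  differentiate `(w exp ℒ)³ = 24 N(vv w)` and use `vv_ode`, `P = G²/S`, `Λ³ = 24 N`:  `G(vv w) (1 + w ℒ'(w)) = 1` for `w ≠ 0`, so `ℒ'(w) = (1/G(vv w) - 1)/w → (1/G ∘ vv)'(0) = -G'(0)/2 = 0`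
(`G_deriv_zero`); `ℒ'` is continuous at `0`. -/
theorem s7f_exists_calL (D : S7FData) (K : S7FDisc D) :
    ∃ ℒ : ℂ → ℂ, DifferentiableOn ℂ ℒ (ball 0 K.R) ∧ ℒ 0 = 0 ∧ deriv ℒ 0 = 0 ∧
      ∀ w ∈ ball (0 : ℂ) K.R, w * Complex.exp (ℒ w) = D.Lam (K.vv w) := by
  have h0mem : (0 : ℂ) ∈ ball (0 : ℂ) K.R := mem_ball_self K.R_pos
  have hnhds : ball (0 : ℂ) K.R ∈ 𝓝 (0 : ℂ) := isOpen_ball.mem_nhds h0mem
  -- `q = vv / w`
  set q : ℂ → ℂ := dslope K.vv 0 with hq
  have hqd : DifferentiableOn ℂ q (ball 0 K.R) := (Complex.differentiableOn_dslope hnhds).2 K.vv_diff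
  have hqmul : ∀ w, w * q w = K.vv w := by
    intro w
    have := sub_smul_dslope K.vv 0 w
    simpa [K.vv_zero, smul_eq_mul] using this
  have hq0 : q 0 = 1 / 2 := by rw [hq, dslope_same, K.vv_deriv]
  have hqne : ∀ w ∈ ball (0 : ℂ) K.R, (fun w => 2 * q w) w ≠ 0 := by
    intro w hw
    by_cases h : w = 0
    · simp [h, hq0]
    · intro h2
      have h3 : q w = 0 := by simpa using h2
      have := hqmul w
      rw [h3, mul_zero] at this
      exact K.vv_ne w hw h this.symm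
  obtain ⟨L0, hL00, hL0d, hL0e⟩ := ca_exists_log isOpen_ball (convex_ball (0 : ℂ) K.R)
    (hqd.const_mul 2) hqne h0mem (L₀ := 0) (by simp [hq0])
  have hvvd : ∀ w ∈ ball (0 : ℂ) K.R, HasDerivAt K.vv (deriv K.vv w) w := fun w hw =>
    (K.vv_diff.differentiableAt (isOpen_ball.mem_nhds hw)).hasDerivAt
  have hbig : ∀ w ∈ ball (0 : ℂ) K.R, K.vv w ∈ ball (0 : ℂ) (π + D.δ) := fun w hw =>
    D.ball_pi_subset (K.vv_mem w hw)
  set ℒ : ℂ → ℂ := fun w => L0 w + D.L (K.vv w) / 3 with hℒ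
  have hℒd : DifferentiableOn ℂ ℒ (ball 0 K.R) := by
    intro w hw
    have d1 := (hL0d w hw).differentiableAt
    have d2 : DifferentiableAt ℂ (fun w => D.L (K.vv w)) w :=
      ((D.L_deriv _ (hbig w hw)).comp w (hvvd w hw)).differentiableAt
    exact (d1.add (d2.div_const 3)).differentiableWithinAt
  have hid : ∀ w ∈ ball (0 : ℂ) K.R, w * Complex.exp (ℒ w) = D.Lam (K.vv w) := by
    intro w hw
    simp only [hℒ]
    rw [Complex.exp_add, hL0e w hw, S7FData.Lam, S7FData.G, ← hqmul w]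
    ring
  refine ⟨ℒ, hℒd, ?_, ?_, hid⟩
  · simp [hℒ, hL00, K.vv_zero, D.L_zero]
  -- the derivative at `0`
  set E : ℂ → ℂ := fun w => (D.G (K.vv w))⁻¹ with hE
  have hE0 : E 0 = 1 := by simp [hE, K.vv_zero, D.G_zero]
  have hEd : HasDerivAt E 0 0 := by
    have hG0 : HasDerivAt D.G 0 (K.vv 0) := by
      rw [K.vv_zero]
      have h := D.G_hasDerivAt (mem_ball_self (by linarith [Real.pi_pos, D.δ_pos]))
      rw [s7fg_deriv_zero] at h
      simpa using h
    have h1 := hG0.comp 0 (hvvd 0 h0mem)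
    have h2 := h1.fun_inv (D.G_ne _)
    simpa [hE, Function.comp_def] using h2
  have hkey : ∀ w ∈ ball (0 : ℂ) K.R, w ≠ 0 → deriv ℒ w = slope E 0 w := by
    intro w hw hw0
    have hv0 := K.vv_ne w hw hw0
    have hvπ := K.vv_mem w hw
    have hvb := hbig w hw
    set v := K.vv w with hv
    have dℒ : HasDerivAt ℒ (deriv ℒ w) w := (hℒd.differentiableAt (isOpen_ball.mem_nhds hw)).hasDerivAt
    have dl : HasDerivAt (fun w => w * Complex.exp (ℒ w))
        (1 * Complex.exp (ℒ w) + w * (Complex.exp (ℒ w) * deriv ℒ w)) w :=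
      (hasDerivAt_id w).mul dℒ.cexp
    have dLam : HasDerivAt D.Lam (deriv D.Lam v) v :=
      (D.Lam_diff.differentiableAt (isOpen_ball.mem_nhds hvb)).hasDerivAt
    have dr : HasDerivAt (fun w => D.Lam (K.vv w)) (deriv D.Lam v * deriv K.vv w) w :=
      dLam.comp w (hvvd w hw)
    have he : (fun w => w * Complex.exp (ℒ w)) =ᶠ[𝓝 w] fun w => D.Lam (K.vv w) := by
      filter_upwards [isOpen_ball.mem_nhds hw] with z hz using hid z hz
    have e1 := (dl.congr_of_eventuallyEq he.symm).unique dr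
    -- the cube
    have dc : HasDerivAt (fun v => D.Lam v ^ 3) (3 * D.Lam v ^ 2 * deriv D.Lam v) v := by
      simpa using dLam.fun_pow 3
    have dn : HasDerivAt (fun v => 24 * s7fN v) (24 * (v * Complex.sin v)) v :=
      (s7fN_hasDerivAt v).const_mul 24
    have he2 : (fun v => D.Lam v ^ 3) =ᶠ[𝓝 v] fun v => 24 * s7fN v := by
      filter_upwards [isOpen_ball.mem_nhds hvb] with z hz using D.Lam_cube hz
    have e2 := (dc.congr_of_eventuallyEq he2.symm).unique dn
    have e3 := K.vv_ode w hw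
    have e4 := hid w hw
    have e5 := s7fS_mul v
    have hS : s7fS v ≠ 0 := S7FData.S_ne hvπ
    have hG : D.G v ≠ 0 := D.G_ne v
    rw [← hv] at e3 e4
    rw [S7FData.P] at e3
    rw [slope_def_field, hE0]
    simp only [hE, ← hv, sub_zero]
    rw [S7FData.Lam] at e2 e4
    rw [← e5] at e2
    generalize deriv ℒ w = J at *
    generalize deriv D.Lam v = Λ' at *
    generalize deriv K.vv w = v' at *
    generalize Complex.exp (ℒ w) = X at *
    generalize D.G v = g at *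
    generalize s7fS v = s at *
    -- e1 : 1 * X + w * (X * J) = Λ' * v'
    -- e2 : 3 * (2 v g)^2 Λ' = 24 (v (v s))
    -- e3 : w v' = v (g^2 / s)
    -- e4 : w X = 2 v g
    have e2' : g ^ 2 * Λ' = 2 * s := by
      have : v ^ 2 * (g ^ 2 * Λ') = v ^ 2 * (2 * s) := by linear_combination (1 / 12 : ℂ) * e2
      exact mul_left_cancel₀ (pow_ne_zero 2 hv0) this
    have e3' : w * v' * s = v * g ^ 2 := by
      rw [e3]
      field_simp
    have hfin : g * (1 + w * J) = 1 := by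
      have h1 : (2 * v * g) * (1 + w * J) = Λ' * (w * v') := by
        rw [← e4]
        linear_combination w * e1
      have h2 : (2 * v * g ^ 2 * s) * (g * (1 + w * J)) = (2 * v * g ^ 2 * s) * 1 := by
        linear_combination (g ^ 2 * s) * h1 + (g ^ 2 * Λ') * e3' + (v * g ^ 2) * e2'
      exact mul_left_cancel₀ (by
        refine mul_ne_zero (mul_ne_zero (mul_ne_zero two_ne_zero hv0) (pow_ne_zero 2 hG)) hS) h2
    field_simp
    linear_combination hfin
  have hlim1 : Tendsto (slope E 0) (𝓝[≠] 0) (𝓝 0) := hasDerivAt_iff_tendsto_slope.1 hEd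
  have hlim2 : Tendsto (deriv ℒ) (𝓝[≠] 0) (𝓝 (deriv ℒ 0)) := by
    have han : AnalyticAt ℂ ℒ 0 := hℒd.analyticAt hnhds
    exact han.deriv.continuousAt.tendsto.mono_left nhdsWithin_le_nhds
  have hev : deriv ℒ =ᶠ[𝓝[≠] 0] slope E 0 := by
    filter_upwards [nhdsWithin_le_nhds hnhds, self_mem_nhdsWithin] with w hw hw0
    exact hkey w hw hw0
  exact tendsto_nhds_unique (hlim2.congr' hev) hlim1

/-- LEAF LF-S7F-quad.  `AnalyticAt.exists_eq_sum_add_pow_mul` with `n = 2`: `ℒ w = w² F w`, `F` analytic at `0`, hence bounded near `0`. -/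
theorem s7f_quadratic_bound {ℒ : ℂ → ℂ} {R : ℝ} (hR : 0 < R) (hd : DifferentiableOn ℂ ℒ (ball 0 R))
    (h0 : ℒ 0 = 0) (h1 : deriv ℒ 0 = 0) :
    ∃ C r₀ : ℝ, 0 < r₀ ∧ ∀ w : ℂ, ‖w‖ ≤ r₀ → ‖ℒ w‖ ≤ C * ‖w‖ ^ 2 := by
  have hnhds : ball (0 : ℂ) R ∈ 𝓝 (0 : ℂ) := isOpen_ball.mem_nhds (mem_ball_self hR)
  have hd1 : DifferentiableOn ℂ (dslope ℒ 0) (ball 0 R) := (Complex.differentiableOn_dslope hnhds).2 hd
  have hd2 : DifferentiableOn ℂ (dslope (dslope ℒ 0) 0) (ball 0 R) :=
    (Complex.differentiableOn_dslope hnhds).2 hd1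
  have e1 : ∀ w, ℒ w = w * dslope ℒ 0 w := by
    intro w
    have := sub_smul_dslope ℒ 0 w
    simpa [h0, smul_eq_mul] using this.symm
  have e2 : ∀ w, dslope ℒ 0 w = w * dslope (dslope ℒ 0) 0 w := by
    intro w
    have := sub_smul_dslope (dslope ℒ 0) 0 w
    simpa [dslope_same, h1, smul_eq_mul] using this.symm
  have hsub : closedBall (0 : ℂ) (R / 2) ⊆ ball 0 R := closedBall_subset_ball (by linarith)
  obtain ⟨C, hC⟩ := (isCompact_closedBall (0 : ℂ) (R / 2)).exists_bound_of_continuousOn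
    (hd2.continuousOn.mono hsub)
  refine ⟨C, R / 2, by linarith, fun w hw => ?_⟩
  rw [e1 w, e2 w, norm_mul, norm_mul]
  have := hC w (mem_closedBall_zero_iff.2 hw)
  nlinarith [norm_nonneg w, mul_nonneg (norm_nonneg w) (norm_nonneg w)]

theorem s7f_norm_exp (y : ℂ) : ‖Complex.exp (-(I * y))‖ = Real.exp y.im := by
  rw [Complex.norm_exp]
  simp

/-- the solution on the half plane `Im y < log R`. -/
structure S7FHalf (D : S7FData) (K : S7FDisc D) where
  mH : ℂ → ℂ
  sol : S7Sol true {y : ℂ | y.im < Real.log K.R} mH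
  exp_eq : ∀ y : ℂ, y.im < Real.log K.R → Complex.exp (-(I * mH y)) = D.Lam (K.vv (Complex.exp (-(I * y))))
  z_eq : ∀ y : ℂ, y.im < Real.log K.R → s7z (mH y) (deriv mH y) = K.vv (Complex.exp (-(I * y)))
  deriv_eq : ∀ y : ℂ, y.im < Real.log K.R →
    deriv mH y = 2 * K.vv (Complex.exp (-(I * y))) * Complex.exp (I * mH y)
  anchor : ∃ C u₀ : ℝ, ∀ y : ℂ, y.im ≤ u₀ → ‖mH y - y‖ ≤ C * Real.exp (2 * y.im)

theorem S7FDisc.exp_mem {D : S7FData} (K : S7FDisc D) {y : ℂ} (hy : y.im < Real.log K.R) :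
    Complex.exp (-(I * y)) ∈ ball (0 : ℂ) K.R := by
  rw [mem_ball_zero_iff, s7f_norm_exp]
  exact (Real.lt_log_iff_exp_lt K.R_pos).1 hy

theorem s7f_isOpen_half (u : ℝ) : IsOpen {y : ℂ | y.im < u} :=
  isOpen_lt Complex.continuous_im continuous_const

theorem S7FDisc.vH_hasDerivAt {D : S7FData} (K : S7FDisc D) {y : ℂ} (hy : y.im < Real.log K.R) :
    HasDerivAt (fun y => K.vv (Complex.exp (-(I * y))))
      (-I * (K.vv (Complex.exp (-(I * y))) * D.P (K.vv (Complex.exp (-(I * y)))))) y := by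
  have hw := K.exp_mem hy
  have d1 : HasDerivAt (fun y : ℂ => Complex.exp (-(I * y))) (Complex.exp (-(I * y)) * (-(I * 1))) y :=
    (((hasDerivAt_id y).const_mul I).neg).cexp
  have d2 : HasDerivAt K.vv (deriv K.vv (Complex.exp (-(I * y)))) (Complex.exp (-(I * y))) :=
    (K.vv_diff.differentiableAt (isOpen_ball.mem_nhds hw)).hasDerivAt
  have d3 := d2.comp y d1
  have e := K.vv_ode _ hw
  have : deriv K.vv (Complex.exp (-(I * y))) * (Complex.exp (-(I * y)) * (-(I * 1))) =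
      -I * (K.vv (Complex.exp (-(I * y))) * D.P (K.vv (Complex.exp (-(I * y))))) := by
    rw [← e]; ring
  rw [this] at d3
  exact d3

theorem s7f_half (D : S7FData) (K : S7FDisc D) : Nonempty (S7FHalf D K) := by
  obtain ⟨ℒ, hd, h0, h1, hL⟩ := s7f_exists_calL D K
  obtain ⟨C, r₀, hr₀, hq⟩ := s7f_quadratic_bound K.R_pos hd h0 h1
  set Ω : Set ℂ := {y : ℂ | y.im < Real.log K.R} with hΩdef
  have hΩ : IsOpen Ω := s7f_isOpen_half _
  set mH : ℂ → ℂ := fun y => y + I * ℒ (Complex.exp (-(I * y))) with hmH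
  set vH : ℂ → ℂ := fun y => K.vv (Complex.exp (-(I * y))) with hvH
  have hexp : ∀ y ∈ Ω, Complex.exp (-(I * mH y)) = D.Lam (vH y) := by
    intro y hy
    rw [← hL _ (K.exp_mem hy), ← Complex.exp_add]
    congr 1
    simp only [hmH]
    have hI : I ^ 2 = -1 := Complex.I_sq
    linear_combination (-ℒ (Complex.exp (-(I * y)))) * hI
  have hvd : DifferentiableOn ℂ vH Ω := fun y hy =>
    (K.vH_hasDerivAt hy).differentiableAt.differentiableWithinAt
  have hmd : DifferentiableOn ℂ mH Ω := by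
    intro y hy
    have d1 : DifferentiableAt ℂ (fun y : ℂ => Complex.exp (-(I * y))) y := by fun_prop
    have d2 : DifferentiableAt ℂ ℒ (Complex.exp (-(I * y))) :=
      hd.differentiableAt (isOpen_ball.mem_nhds (K.exp_mem hy))
    have d3 : DifferentiableAt ℂ (fun y : ℂ => ℒ (Complex.exp (-(I * y)))) y := d2.comp y d1
    exact (differentiableAt_id.add (d3.const_mul I)).differentiableWithinAt
  have hmem : ∀ y ∈ Ω, vH y ∈ ball (0 : ℂ) π := fun y hy => K.vv_mem _ (K.exp_mem hy)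
  have hne : ∀ y ∈ Ω, vH y ≠ 0 := fun y hy => K.vv_ne _ (K.exp_mem hy) (Complex.exp_ne_zero _)
  have hsin : ∀ y ∈ Ω, Complex.sin (vH y) ≠ 0 := by
    intro y hy
    have h := hmem y hy
    rw [mem_ball_zero_iff] at h
    refine s7f_sin_ne_zero (hne y hy) (by linarith [Real.pi_pos]) ?_
    intro h2
    have h3 : ‖vH y‖ ^ 2 = π ^ 2 := by
      rw [← norm_pow, h2, norm_pow, Complex.norm_real, Real.norm_of_nonneg Real.pi_pos.le]
    nlinarith [norm_nonneg (vH y), Real.pi_pos]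
  have key := s7f_criterion hΩ hvd hmd
    (by
      intro y hy
      rw [← D.Lam_cube (D.ball_pi_subset (hmem y hy)), ← hexp y hy, ← Complex.exp_nat_mul]
      congr 1; push_cast; ring)
    (by
      intro y hy
      rw [(K.vH_hasDerivAt hy).deriv]
      have e2 : Complex.exp (-(2 * I * mH y)) = D.Lam (vH y) ^ 2 := by
        rw [← hexp y hy, ← Complex.exp_nat_mul]
        congr 1; push_cast; ring
      rw [e2]
      have hS := s7fS_mul (vH y)
      have hs := hsin y hy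
      have hv0 := hne y hy
      have hS0 : s7fS (vH y) ≠ 0 := S7FData.S_ne (hmem y hy)
      show -I * (vH y * D.P (vH y)) = _
      rw [S7FData.P, S7FData.Lam, ← hS]
      field_simp
      have hI : I ^ 2 = -1 := Complex.I_sq
      linear_combination (-4 * D.G (vH y) ^ 2 : ℂ) * hI)
    hsin
  refine ⟨⟨mH, key.1, hexp, key.2.2, key.2.1, ?_⟩⟩
  refine ⟨C, Real.log r₀, fun y hy => ?_⟩
  have hw : ‖Complex.exp (-(I * y))‖ ≤ r₀ := by
    rw [s7f_norm_exp]
    exact (Real.le_log_iff_exp_le hr₀).1 hy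
  have h := hq _ hw
  rw [s7f_norm_exp] at h
  have e : mH y - y = I * ℒ (Complex.exp (-(I * y))) := by simp [hmH]
  rw [e, norm_mul, Complex.norm_I, one_mul]
  refine h.trans (le_of_eq ?_)
  rw [← Real.exp_nat_mul]
  push_cast
  ring_nf

end Claimed.Agent.R269
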