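/-
Row 269, P1 Section 7.2-7.3, MODEL OF THE FIRST PROFILE, file D: MORSE LEMMA, THE TWO ROOTS, THE CHART AT `v = π`.   HOST-FREE.   Architect: helper183.
`Φ' = -4 sin v/Λ(v)²` on `ball π δ`, `Φ π = 0`:  `Φ' π = 0`, `Φ'' π = 4/Λ(π)² > 0`.   `s7_morse`: `ψ : ball 0 ε → ball π δ` with `Φ (ψ s) = s²`, and its left inverse `χ` near `π`, `Re (χ v/(v - π)) > 0`.
For a holomorphic root `ρ ξ ² = ξ` on `Ξ ⊆ ball 0 ε² \ {0}` put `ξ = i y + uR`, `v y = ψ (ρ ξ)`, `m y = i (Log (2 v) + L(v)/3) + c₀` (`exp(-i c₀) = 1`):  `exp(-i m) = Λ(v)`, `Φ(v y) = i y + uR`, so `v' = i/Φ'(v) = Λ²/(4 i sin v)`:  `s7f_criterion` applies.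
LEAVES:  LF-S7F-morse (`s7_morse`),   LF-S7F-root (block root).       PROVED HERE: `s7f_chart`, `S7FChart.sol`.
-/
import Claimed.Agent.R269.S7.ModelFC

set_option autoImplicit false

namespace Claimed.Agent.R269

open Complex Filter Topology Set Metric
open scoped Real

/-- LEAF LF-S7F-morse.  **Holomorphic Morse lemma** (one variable).
PROOF.  `f z = Φ (c + z)` is analytic at `0`; `AnalyticAt.exists_eq_sum_add_pow_mul` with `n = 3`:  `f z = z² (A/2 + z F₃ z) =: z² κ z`, `κ` analytic at `0`, `κ 0 = A/2 > 0`.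
`k = exp (Log κ / 2)` analytic at `0` (`κ 0 ∈ slitPlane`), `k² = κ` near `0`, `Re k > 0` near `0`.   `χ₀ z = z k z`, `χ₀' 0 = k 0 ≠ 0`:  `ca_exists_local_inverse` gives `μ`.
`ψ s = c + μ s`, `χ v = χ₀ (v - c)`;  choose `ε` then `η` from the `∀ᶠ` statements (`Metric.eventually_nhds_iff_ball`);  injectivity of `ψ` from `χ₀ (μ s) = s`. -/
theorem s7_morse {Φ φ : ℂ → ℂ} {c : ℂ} {δ A : ℝ} (hδ : 0 < δ)
    (hΦ : ∀ v ∈ ball c δ, HasDerivAt Φ (φ v) v) (hφ : DifferentiableOn ℂ φ (ball c δ))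
    (h0 : Φ c = 0) (h1 : φ c = 0) (h2 : deriv φ c = (A : ℂ)) (hA : 0 < A) :
    ∃ (ε η : ℝ) (ψ χ : ℂ → ℂ), 0 < ε ∧ 0 < η ∧ η ≤ δ ∧ DifferentiableOn ℂ ψ (ball 0 ε) ∧ ψ 0 = c ∧
      (∀ s ∈ ball (0 : ℂ) ε, ψ s ∈ ball c δ ∧ Φ (ψ s) = s ^ 2) ∧ InjOn ψ (ball 0 ε) ∧
      (∀ v ∈ ball c η, χ v ∈ ball (0 : ℂ) ε ∧ ψ (χ v) = v ∧ (v ≠ c → 0 < (χ v / (v - c)).re)) := by
  have hU : IsOpen (ball c δ) := isOpen_ball
  have hc : c ∈ ball c δ := mem_ball_self hδ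
  have hn : ball c δ ∈ 𝓝 c := hU.mem_nhds hc
  have hΦd : DifferentiableOn ℂ Φ (ball c δ) :=
    fun v hv => (hΦ v hv).differentiableAt.differentiableWithinAt
  obtain ⟨κ₁, hκ₁⟩ : ∃ κ₁, κ₁ = dslope Φ c := ⟨_, rfl⟩
  have hκ₁d : DifferentiableOn ℂ κ₁ (ball c δ) := hκ₁ ▸ (Complex.differentiableOn_dslope hn).2 hΦd
  have e1 : ∀ v, Φ v = (v - c) * κ₁ v := by
    intro v
    have := sub_smul_dslope Φ c v
    simp only [smul_eq_mul, h0, sub_zero] at this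
    rw [hκ₁]; exact this.symm
  have hκ₁c : κ₁ c = 0 := by rw [hκ₁, dslope_same, (hΦ c hc).deriv, h1]
  obtain ⟨κ, hκ⟩ : ∃ κ, κ = dslope κ₁ c := ⟨_, rfl⟩
  have hκd : DifferentiableOn ℂ κ (ball c δ) := hκ ▸ (Complex.differentiableOn_dslope hn).2 hκ₁d
  have e2 : ∀ v, κ₁ v = (v - c) * κ v := by
    intro v
    have := sub_smul_dslope κ₁ c v
    simp only [smul_eq_mul, hκ₁c, sub_zero] at this
    rw [hκ]; exact this.symm
  have e3 : ∀ v, Φ v = (v - c) ^ 2 * κ v := by intro v; rw [e1, e2]; ring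
  obtain ⟨φ₁, hφ₁⟩ : ∃ φ₁, φ₁ = dslope φ c := ⟨_, rfl⟩
  have hφ₁d : DifferentiableOn ℂ φ₁ (ball c δ) := hφ₁ ▸ (Complex.differentiableOn_dslope hn).2 hφ
  have e4 : ∀ v, φ v = (v - c) * φ₁ v := by
    intro v
    have := sub_smul_dslope φ c v
    simp only [smul_eq_mul, h1, sub_zero] at this
    rw [hφ₁]; exact this.symm
  have hφ₁c : φ₁ c = A := by rw [hφ₁, dslope_same, h2]
  have hκ'd : DifferentiableOn ℂ (deriv κ) (ball c δ) := hκd.deriv hU
  have e5 : ∀ v ∈ ball c δ, φ v = 2 * (v - c) * κ v + (v - c) ^ 2 * deriv κ v := by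
    intro v hv
    have d1 : HasDerivAt κ (deriv κ v) v := (hκd.differentiableAt (hU.mem_nhds hv)).hasDerivAt
    have d2 : HasDerivAt (fun v => (v - c) ^ 2 * κ v)
        (2 * (v - c) * κ v + (v - c) ^ 2 * deriv κ v) v := by
      have := (((hasDerivAt_id v).sub_const c).pow 2).mul d1
      refine this.congr_deriv ?_
      simp
    have e : Φ = fun v => (v - c) ^ 2 * κ v := funext e3
    rw [← e] at d2
    exact (hΦ v hv).unique d2
  have hκc : κ c = ((A / 2 : ℝ) : ℂ) := by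
    have hcont1 : ContinuousAt φ₁ c := (hφ₁d.differentiableAt hn).continuousAt
    have hcont2 : ContinuousAt (fun v => 2 * κ v + (v - c) * deriv κ v) c := by
      have a1 : ContinuousAt κ c := (hκd.differentiableAt hn).continuousAt
      have a2 : ContinuousAt (deriv κ) c := (hκ'd.differentiableAt hn).continuousAt
      exact (a1.const_mul 2).add ((continuousAt_id.sub continuousAt_const).mul a2)
    have hev : ∀ᶠ v in 𝓝[≠] c, φ₁ v = 2 * κ v + (v - c) * deriv κ v := by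
      filter_upwards [nhdsWithin_le_nhds hn, self_mem_nhdsWithin] with v hv hvc
      have hne : v - c ≠ 0 := sub_ne_zero.2 hvc
      have := e5 v hv
      rw [e4 v] at this
      apply mul_left_cancel₀ hne
      rw [this]; ring
    have t1 : Tendsto φ₁ (𝓝[≠] c) (𝓝 (φ₁ c)) := hcont1.tendsto.mono_left nhdsWithin_le_nhds
    have t2 : Tendsto (fun v => 2 * κ v + (v - c) * deriv κ v) (𝓝[≠] c)
        (𝓝 (2 * κ c + (c - c) * deriv κ c)) := hcont2.tendsto.mono_left nhdsWithin_le_nhds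
    have := tendsto_nhds_unique (t1.congr' hev) t2
    rw [hφ₁c] at this
    push_cast
    linear_combination (-1 / 2 : ℂ) * this
  have hA2 : 0 < A / 2 := by positivity
  have hκslit : κ c ∈ slitPlane := by rw [hκc]; exact Complex.ofReal_mem_slitPlane.2 hA2
  have hκan : AnalyticAt ℂ κ c := hκd.analyticAt hn
  obtain ⟨k, hk⟩ : ∃ k : ℂ → ℂ, k = fun v => Complex.exp (Complex.log (κ v) / 2) := ⟨_, rfl⟩
  have hkan : AnalyticAt ℂ k c := by
    rw [hk]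
    exact ((hκan.clog hκslit).div analyticAt_const (by norm_num)).cexp
  have hkc : k c = ((Real.exp (Real.log (A / 2) / 2) : ℝ) : ℂ) := by
    rw [hk]
    simp only
    rw [hκc, ← Complex.ofReal_log hA2.le]
    push_cast
    rfl
  have hkre : 0 < (k c).re := by rw [hkc, Complex.ofReal_re]; exact Real.exp_pos _
  have hkne : k c ≠ 0 := by rw [hk]; exact Complex.exp_ne_zero _
  obtain ⟨χ₀, hχ₀⟩ : ∃ χ₀ : ℂ → ℂ, χ₀ = fun v => (v - c) * k v := ⟨_, rfl⟩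
  have hχan : AnalyticAt ℂ χ₀ c := by
    rw [hχ₀]; exact (analyticAt_id.sub analyticAt_const).mul hkan
  have hχc : χ₀ c = 0 := by rw [hχ₀]; simp
  have hχd : deriv χ₀ c = k c := by
    have := ((hasDerivAt_id c).sub_const c).mul hkan.differentiableAt.hasDerivAt
    rw [hχ₀]
    have e := this.deriv
    simp only [id, sub_self, zero_mul, add_zero, one_mul] at e
    exact e
  obtain ⟨mu, hmuan, hmu0, hleft, hright⟩ := ca_exists_local_inverse hχan (by rw [hχd]; exact hkne)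
  rw [hχc] at hmuan hmu0 hright
  -- good points near `c`
  have hgood : ∀ᶠ v in 𝓝 c, v ∈ ball c δ ∧ κ v ∈ slitPlane ∧ 0 < (k v).re := by
    have g1 : ∀ᶠ v in 𝓝 c, κ v ∈ slitPlane :=
      hκan.continuousAt.eventually (isOpen_slitPlane.mem_nhds hκslit)
    have g2 : ∀ᶠ v in 𝓝 c, 0 < (k v).re :=
      hkan.continuousAt.eventually
        ((isOpen_lt continuous_const Complex.continuous_re).mem_nhds hkre)
    filter_upwards [hn, g1, g2] with v a b d using ⟨a, b, d⟩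
  have hsq : ∀ v, κ v ∈ slitPlane → Φ v = χ₀ v ^ 2 := by
    intro v hv
    have hne : κ v ≠ 0 := slitPlane_ne_zero hv
    rw [e3, hχ₀, hk]
    simp only
    rw [mul_pow, ← Complex.exp_nat_mul]
    have : ((2 : ℕ) : ℂ) * (Complex.log (κ v) / 2) = Complex.log (κ v) := by push_cast; ring
    rw [this, Complex.exp_log hne]
  have hmucont : Tendsto mu (𝓝 0) (𝓝 c) := by
    have := hmuan.continuousAt.tendsto
    rwa [hmu0] at this
  have E0 : ∀ᶠ s in 𝓝 (0 : ℂ), AnalyticAt ℂ mu s ∧ (mu s ∈ ball c δ ∧ κ (mu s) ∈ slitPlane ∧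
      0 < (k (mu s)).re) ∧ χ₀ (mu s) = s := by
    filter_upwards [hmuan.eventually_analyticAt, hmucont.eventually hgood, hright] with s a b d
      using ⟨a, b, d⟩
  obtain ⟨ε, hε, hE0⟩ := Metric.eventually_nhds_iff_ball.1 E0
  have hχcont : Tendsto χ₀ (𝓝 c) (𝓝 0) := by
    have := hχan.continuousAt.tendsto
    rwa [hχc] at this
  have E1 : ∀ᶠ v in 𝓝 c, χ₀ v ∈ ball (0 : ℂ) ε ∧ mu (χ₀ v) = v ∧ 0 < (k v).re := by
    filter_upwards [hχcont.eventually (ball_mem_nhds 0 hε), hleft, hgood] with v a b d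
      using ⟨a, b, d.2.2⟩
  obtain ⟨η, hη, hE1⟩ := Metric.eventually_nhds_iff_ball.1 E1
  refine ⟨ε, min η δ, mu, χ₀, hε, lt_min hη hδ, min_le_right _ _, ?_, hmu0, ?_, ?_, ?_⟩
  · intro s hs
    exact (hE0 s hs).1.differentiableAt.differentiableWithinAt
  · intro s hs
    obtain ⟨-, ⟨a, b, -⟩, d⟩ := hE0 s hs
    exact ⟨a, by rw [hsq _ b, d]⟩
  · intro s hs s' hs' h
    rw [← (hE0 s hs).2.2, ← (hE0 s' hs').2.2, h]
  · intro v hv
    obtain ⟨a, b, d⟩ := hE1 v (ball_subset_ball (min_le_left _ _) hv)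
    refine ⟨a, b, fun hvc => ?_⟩
    have hne : v - c ≠ 0 := sub_ne_zero.2 hvc
    have : χ₀ v / (v - c) = k v := by rw [hχ₀]; field_simp
    rw [this]; exact d

/-! ### block root  (LF-S7F-root) -/

/-- `-√ξ`, principal root (cut `ξ ≤ 0`). -/
noncomputable def s7r1 (ξ : ℂ) : ℂ := -Complex.exp (Complex.log ξ / 2)

/-- the root on `ℂ \ [0,∞)` which agrees with `s7r1` for `Im ξ < 0`. -/
noncomputable def s7r2 (ξ : ℂ) : ℂ := I * Complex.exp (Complex.log (-ξ) / 2)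

theorem s7f_exp_half_sq {ξ : ℂ} (h : ξ ≠ 0) : Complex.exp (Complex.log ξ / 2) ^ 2 = ξ := by
  rw [← Complex.exp_nat_mul]
  have : ((2 : ℕ) : ℂ) * (Complex.log ξ / 2) = Complex.log ξ := by push_cast; ring
  rw [this, Complex.exp_log h]

theorem s7r1_sq {ξ : ℂ} (h : ξ ≠ 0) : s7r1 ξ ^ 2 = ξ := by
  unfold s7r1
  rw [neg_sq, s7f_exp_half_sq h]

theorem s7r2_sq {ξ : ℂ} (h : ξ ≠ 0) : s7r2 ξ ^ 2 = ξ := by
  unfold s7r2
  rw [mul_pow, s7f_exp_half_sq (neg_ne_zero.2 h), I_sq]; ring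

theorem s7r1_diff : DifferentiableOn ℂ s7r1 slitPlane := by
  intro ξ hξ
  have : DifferentiableAt ℂ Complex.log ξ := Complex.differentiableAt_log hξ
  exact ((this.div_const 2).cexp.neg).differentiableWithinAt

theorem s7r2_diff : DifferentiableOn ℂ s7r2 {ξ | -ξ ∈ slitPlane} := by
  intro ξ hξ
  have h1 : DifferentiableAt ℂ Complex.log (-ξ) := Complex.differentiableAt_log hξ
  have h2 : DifferentiableAt ℂ (fun ξ : ℂ => Complex.log (-ξ)) ξ :=
    h1.comp ξ differentiableAt_id.neg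
  exact (((h2.div_const 2).cexp).const_mul I).differentiableWithinAt

/-- `Complex.arg_neg_eq_arg_add_pi_of_im_neg`: `Log (-ξ) = Log ξ + iπ`. -/
theorem s7r2_of_im_neg {ξ : ℂ} (h : ξ.im < 0) : s7r2 ξ = s7r1 ξ := by
  unfold s7r2 s7r1
  have e : Complex.log (-ξ) = Complex.log ξ + π * I := by
    rw [Complex.log, Complex.log, norm_neg, Complex.arg_neg_eq_arg_add_pi_of_im_neg h]
    push_cast; ring
  rw [e, add_div, Complex.exp_add]
  have : Complex.exp (π * I / 2) = I := by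
    rw [show (π : ℂ) * I / 2 = π / 2 * I by ring, Complex.exp_pi_div_two_mul_I]
  rw [this]
  linear_combination (Complex.exp (Complex.log ξ / 2)) * Complex.I_mul_I

/-- `Complex.arg_neg_eq_arg_sub_pi_of_im_pos`: `Log (-ξ) = Log ξ - iπ`. -/
theorem s7r2_of_im_pos {ξ : ℂ} (h : 0 < ξ.im) : s7r2 ξ = -s7r1 ξ := by
  unfold s7r2 s7r1
  have e : Complex.log (-ξ) = Complex.log ξ - π * I := by
    rw [Complex.log, Complex.log, norm_neg, Complex.arg_neg_eq_arg_sub_pi_of_im_pos h]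
    push_cast; ring
  rw [e, sub_div, Complex.exp_sub]
  have : Complex.exp (π * I / 2) = I := by
    rw [show (π : ℂ) * I / 2 = π / 2 * I by ring, Complex.exp_pi_div_two_mul_I]
  rw [this]
  field_simp

/-- on the positive reals `s7r1` is the root with negative real part. -/
theorem s7r1_unique {x : ℝ} (hx : 0 < x) {s : ℂ} (hs : s ^ 2 = (x : ℂ)) (hre : s.re < 0) : s = s7r1 (x : ℂ) := by
  have hx0 : (x : ℂ) ≠ 0 := Complex.ofReal_ne_zero.2 hx.ne'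
  have h := s7r1_sq hx0
  rw [← hs] at h
  rcases sq_eq_sq_iff_eq_or_eq_neg.1 h with h | h
  · rw [hs] at h; exact h.symm
  · exfalso
    rw [hs] at h
    unfold s7r1 at h
    have e : s = Complex.exp (Complex.log (x : ℂ) / 2) := by linear_combination h
    rw [← Complex.ofReal_log hx.le] at e
    have e2 : s = ((Real.exp (Real.log x / 2) : ℝ) : ℂ) := by rw [e]; push_cast; rfl
    rw [e2, Complex.ofReal_re] at hre
    exact absurd hre (not_lt.2 (Real.exp_pos _).le)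

/-! ### the chart -/

/-- the chart at `v = π`. -/
structure S7FChart (D : S7FData) where
  Φ : ℂ → ℂ
  Φ_pi : Φ π = 0
  Φ_deriv : ∀ v ∈ ball (π : ℂ) D.δ, HasDerivAt Φ (-(4 * Complex.sin v) / D.Lam v ^ 2) v
  ε : ℝ
  η : ℝ
  ε_pos : 0 < ε
  η_pos : 0 < η
  η_le : η ≤ D.δ
  ψ : ℂ → ℂ
  χ : ℂ → ℂ
  ψ_diff : DifferentiableOn ℂ ψ (ball 0 ε)
  ψ_zero : ψ 0 = π
  ψ_mem : ∀ s ∈ ball (0 : ℂ) ε, ψ s ∈ ball (π : ℂ) D.δ
  Φψ : ∀ s ∈ ball (0 : ℂ) ε, Φ (ψ s) = s ^ 2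
  ψ_inj : InjOn ψ (ball 0 ε)
  χ_mem : ∀ v ∈ ball (π : ℂ) η, χ v ∈ ball (0 : ℂ) ε
  ψχ : ∀ v ∈ ball (π : ℂ) η, ψ (χ v) = v
  χ_re : ∀ v ∈ ball (π : ℂ) η, v ≠ π → 0 < (χ v / (v - π)).re

theorem S7FData.near_re_pos (D : S7FData) {v : ℂ} (hv : v ∈ ball (π : ℂ) D.δ) : 0 < v.re := by
  rw [mem_ball, dist_eq_norm] at hv
  have h1 : |(v - π).re| ≤ ‖v - π‖ := Complex.abs_re_le_norm _
  have h2 : (v - π).re = v.re - π := by simp
  rw [h2] at h1
  have h3 := (abs_le.1 h1).1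
  have := D.δ_le
  have := Real.pi_gt_three
  linarith

theorem S7FData.near_ne_zero (D : S7FData) {v : ℂ} (hv : v ∈ ball (π : ℂ) D.δ) : v ≠ 0 := by
  intro h
  have := D.near_re_pos hv
  rw [h] at this
  simp at this

theorem s7f_chart (D : S7FData) : Nonempty (S7FChart D) := by
  set φ : ℂ → ℂ := fun v => -(4 * Complex.sin v) / D.Lam v ^ 2 with hφdef
  have hΛd : DifferentiableOn ℂ D.Lam (ball (π : ℂ) D.δ) := D.Lam_diff.mono D.ball_near_subset
  have hφ : DifferentiableOn ℂ φ (ball (π : ℂ) D.δ) := by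
    refine DifferentiableOn.div ?_ (hΛd.pow 2) (fun v hv => pow_ne_zero 2 (D.Lam_ne (D.near_ne_zero hv)))
    exact (Complex.differentiable_sin.differentiableOn.const_mul 4).neg
  obtain ⟨Φ, hΦ0, hΦ⟩ := ca_exists_primitive isOpen_ball (convex_ball (π : ℂ) D.δ) hφ π 0
  obtain ⟨ρ, hρ, hG⟩ := D.G_real Real.pi_pos.le le_rfl
  have hc : (π : ℂ) ∈ ball (π : ℂ) D.δ := mem_ball_self D.δ_pos
  have hφ0 : φ π = 0 := by simp [hφdef]
  have hΛπ : D.Lam π = ((2 * π * ρ : ℝ) : ℂ) := by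
    rw [S7FData.Lam, hG]; push_cast; ring
  have hder : deriv φ π = ((4 / (2 * π * ρ) ^ 2 : ℝ) : ℂ) := by
    have d1 : HasDerivAt (fun v : ℂ => -(4 * Complex.sin v)) (-(4 * Complex.cos π)) π :=
      ((Complex.hasDerivAt_sin _).const_mul 4).neg
    have d2 : HasDerivAt (fun v : ℂ => D.Lam v ^ 2) (deriv (fun v : ℂ => D.Lam v ^ 2) π) π :=
      ((hΛd.pow 2).differentiableAt (isOpen_ball.mem_nhds hc)).hasDerivAt
    have hne : D.Lam π ^ 2 ≠ 0 := pow_ne_zero 2 (D.Lam_ne (D.near_ne_zero hc))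
    have d3 := (d1.div d2 hne).deriv
    have : deriv φ π = deriv (fun v : ℂ => -(4 * Complex.sin v) / D.Lam v ^ 2) π := rfl
    rw [this]
    simp only [Complex.sin_pi, Complex.cos_pi] at d3
    have e : deriv (fun v : ℂ => -(4 * Complex.sin v) / D.Lam v ^ 2) π = _ := d3
    rw [e]
    rw [hΛπ] at hne ⊢
    push_cast at hne ⊢
    have hρ' : (ρ : ℂ) ≠ 0 := Complex.ofReal_ne_zero.2 hρ.ne'
    have hπ' : (π : ℂ) ≠ 0 := Complex.ofReal_ne_zero.2 Real.pi_ne_zero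
    field_simp
    ring
  have hA : 0 < 4 / (2 * π * ρ) ^ 2 := by positivity
  obtain ⟨ε, η, ψ, χ, hε, hη, hηδ, hψd, hψ0, hψ, hinj, hχ⟩ := s7_morse D.δ_pos hΦ hφ hΦ0 hφ0 hder hA
  exact ⟨⟨Φ, hΦ0, hΦ, ε, η, hε, hη, hηδ, ψ, χ, hψd, hψ0, fun s hs => (hψ s hs).1, fun s hs => (hψ s hs).2, hinj,
    fun v hv => (hχ v hv).1, fun v hv => (hχ v hv).2.1, fun v hv => (hχ v hv).2.2⟩⟩

end Claimed.Agent.R269
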