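/-
Row 269, P1 Section 7.2-7.3, MODEL OF THE FIRST PROFILE, file E: CHART SOLUTIONS, MATCHING WITH THE HALF PLANE, ASSEMBLY.   HOST-FREE.   Architect: helper183.
EXPORT: `s7f_model : S7DiscStmt → Nonempty (S7Model true)`   (wiring in `S7/ModelStmt.lean`:  `s7_model_F := s7f_model @s7_disc_solution`).
-/
import Claimed.Agent.R269.S7.ModelFD

set_option autoImplicit false

namespace Claimed.Agent.R269

open Complex Filter Topology Set Metric
open scoped Real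

namespace S7FChart

variable {D : S7FData} (Ch : S7FChart D)

/-- a holomorphic square root on a small set. -/
structure Root (Ξ : Set ℂ) (ρ : ℂ → ℂ) : Prop where
  isOpen : IsOpen Ξ
  diff : DifferentiableOn ℂ ρ Ξ
  sq : ∀ ξ ∈ Ξ, ρ ξ ^ 2 = ξ
  ne : ∀ ξ ∈ Ξ, ξ ≠ 0
  small : ∀ ξ ∈ Ξ, ‖ξ‖ < Ch.ε ^ 2

/-- `v` on the chart. -/
noncomputable def vB (uR : ℝ) (ρ : ℂ → ℂ) (y : ℂ) : ℂ := Ch.ψ (ρ (I * y + uR))

/-- `m` on the chart. -/
noncomputable def mB (uR : ℝ) (ρ : ℂ → ℂ) (c₀ : ℂ) (y : ℂ) : ℂ :=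
  I * (Complex.log (2 * Ch.vB uR ρ y) + D.L (Ch.vB uR ρ y) / 3) + c₀

variable {Ch}

theorem Root.mem {Ξ : Set ℂ} {ρ : ℂ → ℂ} (h : Ch.Root Ξ ρ) {ξ : ℂ} (hξ : ξ ∈ Ξ) : ρ ξ ∈ ball (0 : ℂ) Ch.ε := by
  rw [mem_ball_zero_iff]
  have h1 : ‖ρ ξ‖ ^ 2 < Ch.ε ^ 2 := by
    rw [← norm_pow, h.sq ξ hξ]
    exact h.small ξ hξ
  exact lt_of_pow_lt_pow_left₀ 2 Ch.ε_pos.le h1

theorem Root.ne_zero {Ξ : Set ℂ} {ρ : ℂ → ℂ} (h : Ch.Root Ξ ρ) {ξ : ℂ} (hξ : ξ ∈ Ξ) : ρ ξ ≠ 0 := by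
  intro h0
  have := h.sq ξ hξ
  rw [h0] at this
  exact h.ne ξ hξ (by simpa using this.symm)

theorem Root.ψ_ne {Ξ : Set ℂ} {ρ : ℂ → ℂ} (h : Ch.Root Ξ ρ) {ξ : ℂ} (hξ : ξ ∈ Ξ) : Ch.ψ (ρ ξ) ≠ π := by
  intro h0
  rw [← Ch.ψ_zero] at h0
  exact h.ne_zero hξ (Ch.ψ_inj (h.mem hξ) (mem_ball_self Ch.ε_pos) h0)

/-- **the chart solution.** -/
theorem Root.sol {Ξ : Set ℂ} {ρ : ℂ → ℂ} (h : Ch.Root Ξ ρ) (uR : ℝ) {c₀ : ℂ}
    (hc₀ : Complex.exp (-(I * c₀)) = 1) :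
    S7Sol true {y : ℂ | I * y + uR ∈ Ξ} (Ch.mB uR ρ c₀) ∧
      (∀ y : ℂ, I * y + uR ∈ Ξ → deriv (Ch.mB uR ρ c₀) y = 2 * Ch.vB uR ρ y * Complex.exp (I * Ch.mB uR ρ c₀ y)) ∧
      (∀ y : ℂ, I * y + uR ∈ Ξ → s7z (Ch.mB uR ρ c₀ y) (deriv (Ch.mB uR ρ c₀) y) = Ch.vB uR ρ y) ∧
      (∀ y : ℂ, I * y + uR ∈ Ξ → Complex.exp (-(I * Ch.mB uR ρ c₀ y)) = D.Lam (Ch.vB uR ρ y)) ∧
      DifferentiableOn ℂ (Ch.vB uR ρ) {y : ℂ | I * y + uR ∈ Ξ} := by
  set Ω : Set ℂ := {y : ℂ | I * y + uR ∈ Ξ} with hΩdef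
  have hcont : Continuous fun y : ℂ => I * y + uR := by fun_prop
  have hΩ : IsOpen Ω := h.isOpen.preimage hcont
  have hmem : ∀ y ∈ Ω, Ch.vB uR ρ y ∈ ball (π : ℂ) D.δ := fun y hy => Ch.ψ_mem _ (h.mem hy)
  have hvd' : ∀ y ∈ Ω, DifferentiableAt ℂ (Ch.vB uR ρ) y := by
    intro y hy
    have d1 : DifferentiableAt ℂ (fun y : ℂ => I * y + uR) y := by fun_prop
    have d2 : DifferentiableAt ℂ ρ (I * y + uR) := h.diff.differentiableAt (h.isOpen.mem_nhds hy)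
    have d3 : DifferentiableAt ℂ Ch.ψ (ρ (I * y + uR)) :=
      Ch.ψ_diff.differentiableAt (isOpen_ball.mem_nhds (h.mem hy))
    exact d3.comp y (d2.comp y d1)
  have hvd : DifferentiableOn ℂ (Ch.vB uR ρ) Ω := fun y hy => (hvd' y hy).differentiableWithinAt
  have hmd : DifferentiableOn ℂ (Ch.mB uR ρ c₀) Ω := by
    intro y hy
    have hs : 2 * Ch.vB uR ρ y ∈ slitPlane := by
      left
      have := D.near_re_pos (hmem y hy)
      simpa using this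
    have d1 : DifferentiableAt ℂ (fun y => Complex.log (2 * Ch.vB uR ρ y)) y :=
      ((hvd' y hy).const_mul 2).clog hs
    have d2 : DifferentiableAt ℂ (fun y => D.L (Ch.vB uR ρ y)) y :=
      (D.L_deriv _ (D.ball_near_subset (hmem y hy))).differentiableAt.comp y (hvd' y hy)
    exact (((d1.add (d2.div_const 3)).const_mul I).add_const c₀).differentiableWithinAt
  have hexp : ∀ y ∈ Ω, Complex.exp (-(I * Ch.mB uR ρ c₀ y)) = D.Lam (Ch.vB uR ρ y) := by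
    intro y hy
    have hv0 : 2 * Ch.vB uR ρ y ≠ 0 := mul_ne_zero two_ne_zero (D.near_ne_zero (hmem y hy))
    have e : -(I * Ch.mB uR ρ c₀ y) =
        Complex.log (2 * Ch.vB uR ρ y) + D.L (Ch.vB uR ρ y) / 3 + -(I * c₀) := by
      have hI : I ^ 2 = -1 := Complex.I_sq
      simp only [mB]
      linear_combination (-(Complex.log (2 * Ch.vB uR ρ y) + D.L (Ch.vB uR ρ y) / 3)) * hI
    rw [e, Complex.exp_add, Complex.exp_add, hc₀, Complex.exp_log hv0, mul_one]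
    rfl
  have hsin : ∀ y ∈ Ω, Complex.sin (Ch.vB uR ρ y) ≠ 0 := by
    intro y hy
    exact s7f_sin_ne_zero_near (ball_subset_ball D.δ_le (hmem y hy)) (h.ψ_ne hy)
  have key := s7f_criterion hΩ hvd hmd
    (by
      intro y hy
      rw [← D.Lam_cube (D.ball_near_subset (hmem y hy)), ← hexp y hy, ← Complex.exp_nat_mul]
      congr 1; push_cast; ring)
    (by
      intro y hy
      have e2 : Complex.exp (-(2 * I * Ch.mB uR ρ c₀ y)) = D.Lam (Ch.vB uR ρ y) ^ 2 := by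
        rw [← hexp y hy, ← Complex.exp_nat_mul]
        congr 1; push_cast; ring
      rw [e2]
      have d1 := (Ch.Φ_deriv _ (hmem y hy)).comp y (hvd' y hy).hasDerivAt
      have d2 : HasDerivAt (fun y : ℂ => I * y + uR) (I * 1) y := ((hasDerivAt_id y).const_mul I).add_const _
      have heq : (Ch.Φ ∘ Ch.vB uR ρ) =ᶠ[𝓝 y] fun y : ℂ => I * y + uR := by
        filter_upwards [hΩ.mem_nhds hy] with z hz
        show Ch.Φ (Ch.ψ (ρ (I * z + uR))) = _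
        rw [Ch.Φψ _ (h.mem hz), h.sq _ hz]
      have h3 := (d1.congr_of_eventuallyEq heq.symm).unique d2
      have hs := hsin y hy
      have hΛ : D.Lam (Ch.vB uR ρ y) ≠ 0 := D.Lam_ne (D.near_ne_zero (hmem y hy))
      generalize deriv (Ch.vB uR ρ) y = v' at *
      field_simp at h3 ⊢
      have hI : I ^ 2 = -1 := Complex.I_sq
      linear_combination (-I) * h3 + (-(D.Lam (Ch.vB uR ρ y) ^ 2)) * hI)
    hsin
  exact ⟨key.1, key.2.1, key.2.2, hexp, hvd⟩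

end S7FChart

/-! ### matching on the real segment -/

/-- LEAF LF-S7F-seg.  On a real segment `(R₁, R)`: `vv r ∈ ball π η` (`vv_lim`) and `Φ (vv r) = log R - log r`.
PROOF.  `h r = Φ (vv r) + log r` (a function `ℝ → ℂ`) has derivative `Φ'(vv r) vv'(r) + 1/r = 0` on `(R₁,R)` (`HasDerivAt.comp_ofReal`, `vv_ode`, `P = G²/S`, `v S v = sin v`, `Λ = 2 v G`:
`Φ'(v) v P(v) = -4 sin v/(4 v² G²) · v G² v/sin v = -1`), so it is constant (`IsOpen.is_const_of_deriv_eq_zero` on `Ioo R₁ R`); its limit at `R⁻` is `Φ π + log R = log R` (`Φ` continuous at `π`). -/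
theorem s7f_segment {D : S7FData} (K : S7FDisc D) (Ch : S7FChart D) :
    ∃ R₁ : ℝ, 0 < R₁ ∧ R₁ < K.R ∧ ∀ r ∈ Ioo R₁ K.R, K.vv (r : ℂ) ∈ ball (π : ℂ) Ch.η ∧
      Ch.Φ (K.vv (r : ℂ)) = ((Real.log K.R - Real.log r : ℝ) : ℂ) := by
  have hev : ∀ᶠ r in 𝓝[<] K.R, K.vv ((r : ℝ) : ℂ) ∈ ball (π : ℂ) Ch.η :=
    K.vv_lim (ball_mem_nhds _ Ch.η_pos)
  obtain ⟨l, hl, hlsub⟩ := (mem_nhdsLT_iff_exists_Ioo_subset).1 hev
  have hl' : l < K.R := hl
  set R₁ : ℝ := max l (K.R / 2) with hR₁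
  have hR₁0 : 0 < R₁ := lt_of_lt_of_le (half_pos K.R_pos) (le_max_right _ _)
  have hR₁R : R₁ < K.R := max_lt hl' (half_lt_self K.R_pos)
  have hmem : ∀ r ∈ Ioo R₁ K.R, K.vv (r : ℂ) ∈ ball (π : ℂ) Ch.η := fun r hr =>
    hlsub ⟨lt_of_le_of_lt (le_max_left _ _) hr.1, hr.2⟩
  set h : ℝ → ℂ := fun r => Ch.Φ (K.vv (r : ℂ)) + ((Real.log r : ℝ) : ℂ) with hh
  have hd : ∀ r ∈ Ioo R₁ K.R, HasDerivAt h 0 r := by
    intro r hr
    have hr0 : 0 < r := hR₁0.trans hr.1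
    have hrb : (r : ℂ) ∈ ball (0 : ℂ) K.R := by
      rw [mem_ball_zero_iff, Complex.norm_real, Real.norm_of_nonneg hr0.le]
      exact hr.2
    have hv := ball_subset_ball Ch.η_le (hmem r hr)
    have d1 : HasDerivAt K.vv (deriv K.vv (r : ℂ)) (r : ℂ) :=
      (K.vv_diff.differentiableAt (isOpen_ball.mem_nhds hrb)).hasDerivAt
    have d2 := ((Ch.Φ_deriv _ hv).comp (r : ℂ) d1).comp_ofReal
    have d3 : HasDerivAt (fun x : ℝ => ((Real.log x : ℝ) : ℂ)) ((r⁻¹ : ℝ) : ℂ) r :=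
      (Real.hasDerivAt_log hr0.ne').ofReal_comp
    have d4 := d2.add d3
    have e : -(4 * Complex.sin (K.vv (r : ℂ))) / D.Lam (K.vv (r : ℂ)) ^ 2 * deriv K.vv (r : ℂ)
        + ((r⁻¹ : ℝ) : ℂ) = 0 := by
      have hode := K.vv_ode _ hrb
      have hv0 : K.vv (r : ℂ) ≠ 0 := D.near_ne_zero hv
      have hS := s7fS_mul (K.vv (r : ℂ))
      have hS0 : s7fS (K.vv (r : ℂ)) ≠ 0 := S7FData.S_ne (K.vv_mem _ hrb)
      have hG := D.G_ne (K.vv (r : ℂ))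
      have hrc : (r : ℂ) ≠ 0 := Complex.ofReal_ne_zero.2 hr0.ne'
      have hvv : deriv K.vv (r : ℂ) = K.vv (r : ℂ) * D.P (K.vv (r : ℂ)) / r := by
        rw [← hode]; field_simp
      rw [hvv, S7FData.P, S7FData.Lam, ← hS]
      push_cast
      field_simp
      ring
    rw [e] at d4
    exact d4
  have hconst : ∀ r ∈ Ioo R₁ K.R, ∀ r' ∈ Ioo R₁ K.R, h r = h r' := by
    intro r hr r' hr'
    exact isOpen_Ioo.is_const_of_deriv_eq_zero isPreconnected_Ioo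
      (fun x hx => (hd x hx).differentiableAt.differentiableWithinAt)
      (fun x hx => (hd x hx).deriv) hr hr'
  have hlim : Tendsto h (𝓝[<] K.R) (𝓝 (Ch.Φ π + ((Real.log K.R : ℝ) : ℂ))) := by
    have c1 : ContinuousAt Ch.Φ π := (Ch.Φ_deriv _ (mem_ball_self D.δ_pos)).continuousAt
    have t1 : Tendsto (fun r : ℝ => Ch.Φ (K.vv (r : ℂ))) (𝓝[<] K.R) (𝓝 (Ch.Φ π)) := c1.tendsto.comp K.vv_lim
    have t2 : Tendsto (fun r : ℝ => ((Real.log r : ℝ) : ℂ)) (𝓝[<] K.R) (𝓝 ((Real.log K.R : ℝ) : ℂ)) :=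
      (Complex.continuous_ofReal.tendsto _).comp
        ((Real.continuousAt_log K.R_pos.ne').tendsto.mono_left nhdsWithin_le_nhds)
    exact t1.add t2
  refine ⟨R₁, hR₁0, hR₁R, fun r hr => ⟨hmem r hr, ?_⟩⟩
  have hev2 : ∀ᶠ x in 𝓝[<] K.R, h x = h r := by
    filter_upwards [Ioo_mem_nhdsLT hR₁R] with x hx using hconst x hx r hr
  have h5 : h r = Ch.Φ π + ((Real.log K.R : ℝ) : ℂ) :=
    tendsto_nhds_unique (tendsto_const_nhds.congr' (hev2.mono fun x hx => hx.symm)) hlim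
  rw [Ch.Φ_pi, zero_add] at h5
  simp only [hh] at h5
  push_cast
  linear_combination h5

theorem s7f_match_real {D : S7FData} (K : S7FDisc D) (Ch : S7FChart D) {r : ℝ} (hr : r ∈ Ioo 0 K.R)
    (h1 : K.vv (r : ℂ) ∈ ball (π : ℂ) Ch.η)
    (h2 : Ch.Φ (K.vv (r : ℂ)) = ((Real.log K.R - Real.log r : ℝ) : ℂ)) :
    K.vv (r : ℂ) = Ch.ψ (s7r1 ((Real.log K.R - Real.log r : ℝ) : ℂ)) := by
  have hx : 0 < Real.log K.R - Real.log r := sub_pos.2 (Real.log_lt_log hr.1 hr.2)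
  obtain ⟨him, hre⟩ := K.vv_real r hr
  have hrb : (r : ℂ) ∈ ball (0 : ℂ) K.R := by
    rw [mem_ball_zero_iff, Complex.norm_real, Real.norm_of_nonneg hr.1.le]
    exact hr.2
  set v := K.vv (r : ℂ) with hv
  have hva : v = ((v.re : ℝ) : ℂ) := Complex.ext (by simp) (by simp [him])
  have hlt : v.re < π := by
    have := K.vv_mem _ hrb
    rw [mem_ball_zero_iff, ← hv, hva, Complex.norm_real, Real.norm_of_nonneg (by simpa using hre.le)] at this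
    simpa using this
  have hne : v ≠ π := by
    intro h
    rw [h] at hlt
    simp at hlt
  have hs := Ch.χ_mem v h1
  have hψ := Ch.ψχ v h1
  have hq := Ch.χ_re v h1 hne
  have hsq : Ch.χ v ^ 2 = ((Real.log K.R - Real.log r : ℝ) : ℂ) := by
    rw [← Ch.Φψ _ hs, hψ, h2]
  have hsub : v - π = ((v.re - π : ℝ) : ℂ) := by
    rw [hva]; push_cast; simp
  have hsub0 : v - π ≠ 0 := sub_ne_zero.2 hne
  have hre' : (Ch.χ v).re < 0 := by
    have e : Ch.χ v = Ch.χ v / (v - π) * ((v.re - π : ℝ) : ℂ) := by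
      rw [← hsub]; field_simp
    rw [e, Complex.re_mul_ofReal]
    exact mul_neg_of_pos_of_neg hq (by linarith)
  rw [← s7r1_unique hx hsq hre', hψ]

/-! ### geometry of `ξ = i y + u` -/

theorem s7f_xi_norm (y : ℂ) (u : ℝ) : ‖I * y + u‖ = dist y ((u : ℂ) * I) := by
  rw [dist_eq_norm]
  have e : I * y + u = I * (y - (u : ℂ) * I) := by
    have hI : I ^ 2 = -1 := Complex.I_sq
    linear_combination ((u : ℂ)) * hI
  rw [e, norm_mul, Complex.norm_I, one_mul]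

theorem s7f_xi_re (y : ℂ) (u : ℝ) : (I * y + u).re = u - y.im := by simp; ring

theorem s7f_xi_im (y : ℂ) (u : ℝ) : (I * y + u).im = y.re := by simp

/-- agreement of two analytic functions on a preconnected open set from agreement on a vertical segment. -/
theorem s7f_eqOn_of_segment {f g : ℂ → ℂ} {U : Set ℂ} (hU : IsOpen U) (hc : IsPreconnected U)
    (hf : DifferentiableOn ℂ f U) (hg : DifferentiableOn ℂ g U) {a b : ℝ} (hab : a < b)
    (hseg : ∀ t ∈ Ioo a b, (t : ℂ) * I ∈ U ∧ f ((t : ℂ) * I) = g ((t : ℂ) * I)) : EqOn f g U := by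
  set t₀ : ℝ := (a + b) / 2 with ht₀
  have ht₀m : t₀ ∈ Ioo a b := ⟨by rw [ht₀]; linarith, by rw [ht₀]; linarith⟩
  refine (hf.analyticOnNhd hU).eqOn_of_preconnected_of_frequently_eq (hg.analyticOnNhd hU) hc
    (hseg t₀ ht₀m).1 ?_
  have hτ : Tendsto (fun t : ℝ => (t : ℂ) * I) (𝓝[≠] t₀) (𝓝[≠] ((t₀ : ℂ) * I)) := by
    refine tendsto_nhdsWithin_of_tendsto_nhds_of_eventually_within _ ?_ ?_
    · have : Continuous fun t : ℝ => (t : ℂ) * I := by fun_prop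
      exact (this.tendsto t₀).mono_left nhdsWithin_le_nhds
    · filter_upwards [self_mem_nhdsWithin] with t ht
      intro h
      apply ht
      have h' := mul_right_cancel₀ Complex.I_ne_zero h
      exact_mod_cast h'
  refine hτ.frequently (p := fun z => f z = g z) (Eventually.frequently ?_)
  have : Ioo a b ∈ 𝓝 t₀ := Ioo_mem_nhds ht₀m.1 ht₀m.2
  filter_upwards [nhdsWithin_le_nhds this] with t ht using (hseg t ht).2

theorem s7f_isOpen_Ω₁ (u ϱ : ℝ) : IsOpen (s7Ω₁ u ϱ) := by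
  have h1 : IsOpen {y : ℂ | y.im < u} := s7f_isOpen_half u
  have h2 : IsOpen {y : ℂ | y.re ≠ 0} := isOpen_ne_fun Complex.continuous_re continuous_const
  exact h1.union (isOpen_ball.inter h2)

theorem s7f_isOpen_Ω₂ (u ϱ : ℝ) : IsOpen (s7Ω₂ u ϱ) := by
  have h1 : IsOpen {y : ℂ | u < y.im} := isOpen_lt continuous_const Complex.continuous_im
  have h2 : IsOpen {y : ℂ | y.re ≠ 0} := isOpen_ne_fun Complex.continuous_re continuous_const
  exact isOpen_ball.inter (h2.union h1)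

/-- **The model of the first profile** (from the disc solution package). -/
theorem s7f_model (hdisc : S7DiscStmt) : Nonempty (S7Model true) := by
  obtain ⟨D⟩ := s7f_data
  obtain ⟨K⟩ := s7f_disc hdisc D
  obtain ⟨Hf⟩ := s7f_half D K
  obtain ⟨Ch⟩ := s7f_chart D
  obtain ⟨R₁, hR₁0, hR₁R, hseg⟩ := s7f_segment K Ch
  set uR : ℝ := Real.log K.R with huR
  set ϱ : ℝ := Ch.ε ^ 2 with hϱ
  have hϱ0 : 0 < ϱ := pow_pos Ch.ε_pos 2
  -- the two roots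
  have hRt1 : Ch.Root (slitPlane ∩ ball 0 ϱ) s7r1 :=
    ⟨isOpen_slitPlane.inter isOpen_ball, s7r1_diff.mono inter_subset_left,
      fun ξ hξ => s7r1_sq (slitPlane_ne_zero hξ.1), fun ξ hξ => slitPlane_ne_zero hξ.1,
      fun ξ hξ => by simpa using hξ.2⟩
  have hRt2 : Ch.Root ({ξ : ℂ | -ξ ∈ slitPlane} ∩ ball 0 ϱ) s7r2 :=
    ⟨(isOpen_slitPlane.preimage continuous_neg).inter isOpen_ball, s7r2_diff.mono inter_subset_left,
      fun ξ hξ => s7r2_sq (neg_ne_zero.1 (slitPlane_ne_zero hξ.1)),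
      fun ξ hξ => neg_ne_zero.1 (slitPlane_ne_zero hξ.1), fun ξ hξ => by simpa using hξ.2⟩
  have hc00 : Complex.exp (-(I * 0)) = 1 := by simp
  obtain ⟨s10, d10, -, e10, v1d⟩ := hRt1.sol uR hc00
  -- the lower half disc
  set U : Set ℂ := {y : ℂ | y.im < uR} ∩ ball ((uR : ℂ) * I) ϱ with hU
  have hUo : IsOpen U := (s7f_isOpen_half uR).inter isOpen_ball
  have hUc : IsPreconnected U :=
    ((convex_halfSpace_im_lt uR).inter (convex_ball _ _)).isPreconnected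
  have hball : ∀ y : ℂ, y ∈ ball ((uR : ℂ) * I) ϱ ↔ I * y + uR ∈ ball (0 : ℂ) ϱ := by
    intro y
    rw [mem_ball_zero_iff, s7f_xi_norm, mem_ball]
  have hUΞ : ∀ y ∈ U, I * y + uR ∈ slitPlane ∩ ball (0 : ℂ) ϱ := fun y hy =>
    ⟨Or.inl (by rw [s7f_xi_re]; have h : y.im < uR := hy.1; linarith), (hball y).1 hy.2⟩
  -- matching of `v`
  have hvEq : EqOn (fun y => K.vv (Complex.exp (-(I * y)))) (Ch.vB uR s7r1) U := by
    refine s7f_eqOn_of_segment hUo hUc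
      (fun y hy => (K.vH_hasDerivAt hy.1).differentiableAt.differentiableWithinAt)
      (v1d.mono hUΞ) (a := max (Real.log R₁) (uR - ϱ)) (b := uR)
      (max_lt (Real.log_lt_log hR₁0 hR₁R) (by linarith)) ?_
    intro t ht
    have ht1 : Real.log R₁ < t := lt_of_le_of_lt (le_max_left _ _) ht.1
    have ht2 : uR - ϱ < t := lt_of_le_of_lt (le_max_right _ _) ht.1
    have ht3 : t < uR := ht.2
    refine ⟨⟨by simpa using ht3, ?_⟩, ?_⟩
    · rw [mem_ball, dist_eq_norm, ← sub_mul, norm_mul, Complex.norm_I, mul_one, ← Complex.ofReal_sub,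
        Complex.norm_real, Real.norm_eq_abs, abs_lt]
      constructor <;> linarith
    · have hI : I ^ 2 = -1 := Complex.I_sq
      have e1 : -(I * ((t : ℂ) * I)) = (t : ℂ) := by linear_combination (-(t : ℂ)) * hI
      have e2 : I * ((t : ℂ) * I) + uR = ((uR - t : ℝ) : ℂ) := by
        push_cast; linear_combination ((t : ℂ)) * hI
      have hr : Real.exp t ∈ Ioo R₁ K.R :=
        ⟨(Real.log_lt_iff_lt_exp hR₁0).1 ht1, (Real.lt_log_iff_exp_lt K.R_pos).1 ht3⟩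
      obtain ⟨h1, h2⟩ := hseg _ hr
      have h3 := s7f_match_real K Ch ⟨Real.exp_pos t, hr.2⟩ h1 h2
      rw [Real.log_exp] at h3
      show K.vv (Complex.exp (-(I * ((t : ℂ) * I)))) = Ch.ψ (s7r1 (I * ((t : ℂ) * I) + uR))
      rw [e1, e2, ← Complex.ofReal_exp]
      exact h3
  -- matching of `m`
  have hinv : ∀ z : ℂ, Complex.exp (I * z) = (Complex.exp (-(I * z)))⁻¹ := by
    intro z; rw [← Complex.exp_neg, neg_neg]
  obtain ⟨c₀, hc₀⟩ := hUo.exists_eq_add_of_deriv_eq hUc (Hf.sol.diff.mono inter_subset_left)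
    (s10.diff.mono hUΞ) (by
      intro y hy
      rw [Hf.deriv_eq y hy.1, d10 y (hUΞ y hy), hinv, hinv, Hf.exp_eq y hy.1, e10 y (hUΞ y hy)]
      have := hvEq hy
      simp only at this
      rw [this])
  have hshift : ∀ (ρ : ℂ → ℂ) (y : ℂ), Ch.mB uR ρ c₀ y = Ch.mB uR ρ 0 y + c₀ := by
    intro ρ y; simp [S7FChart.mB]
  have hc₀e : Complex.exp (-(I * c₀)) = 1 := by
    have hy₀ : ((uR - ϱ / 2 : ℝ) : ℂ) * I ∈ U := by
      refine ⟨by simp; linarith, ?_⟩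
      rw [mem_ball, dist_eq_norm, ← sub_mul, norm_mul, Complex.norm_I, mul_one, ← Complex.ofReal_sub,
        Complex.norm_real, Real.norm_eq_abs, abs_lt]
      constructor <;> linarith
    set y₀ : ℂ := ((uR - ϱ / 2 : ℝ) : ℂ) * I
    have h1 := Hf.exp_eq y₀ hy₀.1
    have h2 := e10 y₀ (hUΞ y₀ hy₀)
    have h3 := hc₀ hy₀
    have h4 := hvEq hy₀
    simp only at h3 h4
    rw [h3, h4, ← h2, mul_add, neg_add, Complex.exp_add] at h1
    exact mul_left_cancel₀ (Complex.exp_ne_zero _) (h1.trans (mul_one _).symm)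
  obtain ⟨s1, -, z1, -, -⟩ := hRt1.sol uR hc₀e
  obtain ⟨s2, -, z2, -, -⟩ := hRt2.sol uR hc₀e
  -- the model
  set m₁ : ℂ → ℂ := fun y => if y.im < uR then Hf.mH y else Ch.mB uR s7r1 c₀ y with hm₁
  set m₂ : ℂ → ℂ := Ch.mB uR s7r2 c₀ with hm₂
  have hA : ∀ y : ℂ, I * y + uR ∈ slitPlane ∩ ball (0 : ℂ) ϱ → m₁ y = Ch.mB uR s7r1 c₀ y := by
    intro y hy
    by_cases h : y.im < uR
    · simp only [hm₁, if_pos h]
      rw [hshift]
      exact hc₀ ⟨h, (hball y).2 hy.2⟩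
    · simp only [hm₁, if_neg h]
  have hB : ∀ y : ℂ, I * y + uR ∈ slitPlane ∩ ball (0 : ℂ) ϱ → m₁ =ᶠ[𝓝 y] Ch.mB uR s7r1 c₀ := by
    intro y hy
    filter_upwards [s1.isOpen.mem_nhds hy] with z hz using hA z hz
  have hC : ∀ y : ℂ, y.im < uR → m₁ =ᶠ[𝓝 y] Hf.mH := by
    intro y hy
    filter_upwards [(s7f_isOpen_half uR).mem_nhds hy] with z hz
    simp only [hm₁]
    rw [if_pos hz]
  have hΞ1 : ∀ y ∈ ball ((uR : ℂ) * I) ϱ, y.re ≠ 0 → I * y + uR ∈ slitPlane ∩ ball (0 : ℂ) ϱ :=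
    fun y hy h => ⟨Or.inr (by rw [s7f_xi_im]; exact h), (hball y).1 hy⟩
  have hΞ2 : ∀ y ∈ ball ((uR : ℂ) * I) ϱ, (y.re ≠ 0 ∨ uR < y.im) →
      I * y + uR ∈ {ξ : ℂ | -ξ ∈ slitPlane} ∩ ball (0 : ℂ) ϱ := by
    intro y hy h
    refine ⟨?_, (hball y).1 hy⟩
    rcases h with h | h
    · exact Or.inr (by rw [Complex.neg_im, s7f_xi_im]; exact neg_ne_zero.2 h)
    · exact Or.inl (by rw [Complex.neg_re, s7f_xi_re]; linarith)
  refine ⟨⟨uR, ϱ, hϱ0, m₁, m₂, ?_, ?_, ?_, ?_, ?_⟩⟩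
  · refine s7f_sol_of_local (s7f_isOpen_Ω₁ uR ϱ) ?_
    rintro y (hy | ⟨hy, hre⟩)
    · exact ⟨_, _, Hf.sol, hy, hC y hy⟩
    · exact ⟨_, _, s1, hΞ1 y hy hre, hB y (hΞ1 y hy hre)⟩
  · refine s7f_sol_of_local (s7f_isOpen_Ω₂ uR ϱ) ?_
    rintro y ⟨hy, h⟩
    exact ⟨_, _, s2, hΞ2 y hy h, EventuallyEq.rfl⟩
  · intro y hy hre
    rw [hA y (hΞ1 y hy hre.ne)]
    have h : s7r2 (I * y + uR) = s7r1 (I * y + uR) := s7r2_of_im_neg (by rw [s7f_xi_im]; exact hre)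
    simp only [hm₂, S7FChart.mB, S7FChart.vB, h]
  · intro y hy hre
    by_contra hcon
    push Not at hcon
    obtain ⟨h1, h2⟩ := hcon
    have hy1 := hΞ1 y hy hre.ne'
    have hy2 := hΞ2 y hy (Or.inl hre.ne')
    have e1 := z1 y hy1
    have e2 := z2 y hy2
    rw [← hA y hy1, ← (hB y hy1).deriv_eq, ← h1, ← h2, e2] at e1
    have h3 : s7r2 (I * y + uR) = s7r1 (I * y + uR) := Ch.ψ_inj (hRt2.mem hy2) (hRt1.mem hy1) e1
    rw [s7r2_of_im_pos (by rw [s7f_xi_im]; exact hre)] at h3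
    have h4 : s7r1 (I * y + uR) = 0 := by linear_combination (-1 / 2 : ℂ) * h3
    exact hRt1.ne_zero hy1 h4
  · obtain ⟨C, u₀, h⟩ := Hf.anchor
    refine ⟨C, min u₀ (uR - 1), fun y hy => ?_⟩
    have h1 : y.im < uR := by linarith [hy.trans (min_le_right _ _)]
    simp only [hm₁, if_pos h1]
    exact h y (hy.trans (min_le_left _ _))

end Claimed.Agent.R269
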