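/-
Row 269, P1 Section 7.2-7.3 (energy model and its branch point): THE MODEL OF THE FIRST PROFILE.   HOST-FREE (pure one-variable complex analysis).   PACKAGE BP-S7-modelF (blueprint + proof; the owner cuts it into `S7/ModelF*.lean`).   Statement: helper146.
EXPORTS:  `s7_model_F : Nonempty (S7Model true)`,  `s7_model_Q : Nonempty (S7Model false)`   (interface `S7Model` in `S7/Defs.lean`).     COMMON TOOL: `s7_majode`, `s7_disc_solution`.

NOTATION.  `Ŷ` independent variable, `w = e^{-iŶ}`;  `m(Ŷ)` the solution, `λ = e^{-i m}`, `J = m'`, `z = λJ/2`.  Limit equation `m'' = X(m,m')`;  it has the first integral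
     first profile :  E = 2 (sin z - z cos z)/λ³,          second profile:  E = (tanh z - z sech² z)/λ³,          X = i λ J E_λ/E_J.       The anchored solution (`m - Ŷ → 0`, `J → 1` as `Im Ŷ → -∞`) has `E = 1/12`.
PARAMETRISATION BY `v`.
  (F) `v = z`.   `λ³ = 24 (sin v - v cos v)`, i.e. `λ = 2 v g^{1/3}`, `g(v) = 3 (sin v - v cos v)/v³` (entire, even, `g(0) = 1`, `g > 0` on `[0,π]`, `g(π) = 3/π²`),  `J = 2v/λ = g^{-1/3}`,
       `dŶ = dm/J = i dλ/(λJ) = 4 i sin v dv/λ²`,   `dw/w = -i dŶ = dv/(v P(v))`,   `P = (v/sin v) g^{2/3} = (v/sin v)^{1/3} 𝐹^{2/3}`,   `𝐹 = 3 (1 - v cot v)/v² = 6 ∑_{k≥1} 1/(k²π² - v²)`  (Mathlib `cot_series_rep`).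
       On `ball 0 π`:  `Re 𝐹 > 0`, `|𝐹(v)| ≤ 𝐹(|v|)` (series), `|sin v| ≥ sin |v|` (so `|v/sin v| ≤ |v|/sin|v|`), hence `|P(v)| ≤ P(|v|)`, `P` increasing on `[0,π)`, `P(0) = 1`, `P → ∞` at `π`.    `v_c = π`.
       Check of the equation:  `m' = J`,  `dv/dŶ = λ²/(4 i sin v)`,  `m'' = 2 v'/λ + i J² = i J² - i λ/(2 sin v)`  and  `X = i J² - (12 i/λ²)(sin z - z cos z)/sin z = i J² - i λ/(2 sin z)`.
  (Q) `v = tanh z`.   `λ³ = 12 (tanh z - z sech² z) = 12 (v - (1-v²) artanh v) = 8 v³ g(v)`,  `g(v) = (3/2) ∫₀¹ (1-s²)/(1 - v² s²) ds = 3 ∑_k v^{2k}/((2k+1)(2k+3))`  (`Re g > 0`, `|g(v)| ≤ g(|v|)` on `ball 0 1`, `g(0) = 1`, `g(1⁻) = 3/2`),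
       `λ = 2 v g^{1/3}`,  `J = 2z/λ`,  `dŶ = i dλ/(2z) = 4 i v dv/λ²`,   `dw/w = dv/(v P(v))`,  `P = g^{2/3}`.    `v_c = 1`.
DISC SOLUTION (`s7_disc_solution`).  `𝒲(v) = 2 v exp(E(v))`, `E' = (1/P - 1)/v`, `E(0) = 0` (primitive of a `dslope`, `ca_exists_primitive`): `v 𝒲' P = 𝒲`.  On `[0,v_c)` it is real, strictly increasing; `R = sup`; `v₀ = ` inverse function:
       `r v₀' = v₀ P(v₀)`, `v₀(r)/r → 1/2`.   `s7_majode` gives `vv` on `ball 0 R` with `|vv(w)| ≤ v₀(|w|) < v_c`;  `(𝒲 ∘ vv)(w)/w` has derivative `0`, so `𝒲(vv(w)) = w`.      `uR = log R`.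
       `s7_majode`: Picard iteration `vv_{k+1} = (w/2) exp(h_{k+1})`, `h_{k+1}' = (P(vv_k) - 1)/w` (`dslope`), `h_{k+1}(0) = 0`.   Invariance of the majorant: along a ray `d/dr Re h_{k+1}(r e^{iϑ}) = (Re P(vv_k) - 1)/r ≤ (p(v₀(r)) - 1)/r = d/dr log(2 v₀(r)/r)`.
       Convergence on `closedBall 0 R'`, `R' < R`: `P` is Lipschitz on `closedBall 0 (v₀ R')`, `|h_{k+1} - h_k|(w) ≤ C ∫₀^{|w|} sup|h_k - h_{k-1}|`: factorial decay (pattern: `ca_ode_linear` in `Lib/CAOde.lean`).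
THE SOLUTION ON THE HALF PLANE.  `Im Ŷ < uR` ⇔ `|w| < R`.  `λ(w)/w = 2 (vv(w)/w) g(vv(w))^{1/3}` is holomorphic and zero free on `ball 0 R`, `= 1` at `0`: take `ℒ` = its logarithm with `ℒ(0) = 0` (`ca_exists_log`);  `m₁(Ŷ) = Ŷ + i ℒ(e^{-iŶ})`.
       Anchor: `ℒ(w) = O(w²)` (`ℒ` is even: or simply `|ℒ(w)| ≤ C|w|²` from `ℒ(0) = ℒ'(0) = 0`; `ℒ'(0) = 0` because `vv(w) = w/2 + O(w³)`, as `P(v) = 1 + O(v²)`).      Regular states: `sin vv ≠ 0` (`0 < |vv| < π`), resp. `sinh z ≠ 0` (`v = tanh z ≠ 0`).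
BRANCH POINT (F).  `𝒲` extends holomorphically to a neighbourhood of `[0,π]` (`1/P = (sin v/v) g^{-2/3}`, `g ≠ 0` there), `𝒲'(π) = 0`, `𝒲''(π) ≠ 0`: Morse chart `log(𝒲(v)/R) = -κ(v) (v-π)²`, `κ(π) > 0`;  `χ(v) = (v - π) κ(v)^{1/2}` is a local biholomorphism,
       `χ(v)² = -log(w/R) = i (Ŷ - i uR) =: ξ`.    `ξ > 0` below the branch point.   `m₁` uses `χ = -√ξ` (principal root, cut `ξ < 0` = upward slit; `v < π` for `ξ > 0`);   `m₂` uses `χ = -(-i √(-ξ))·(...)`: the branch of the root on `ℂ \ [0,∞)` which agrees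
       with the principal one for `Im ξ < 0` (= `Re Ŷ < 0`) and is its negative for `Im ξ > 0`.    Gluing with the disc solution: on the convex lens `ball R ϱ_w ∩ ball 0 R` both are inverse branches of `𝒲`, equal on the real segment (`vv(r) = v₀(r) → π`).
       `differ`: at the same `Ŷ` the two branches have `v₁ ≠ v₂` near `π`; `J = g^{-1/3}` is injective near `π` because `g'(π) = -9/π³ ≠ 0`.       (`m₁ - m₂ ~ (Ŷ - i uR)^{3/2}`: `λ'(π) = 0` too, so compare the DERIVATIVES.)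
BRANCH POINT (Q).  Chart in `z`, `Re z > z₁`, `|Im z| < 3π/2`:  `λ(z)³ = 12 (tanh z - z sech² z) → 12`,   `log(w/R) = -∫_z^{∞} 4 tanh ζ sech² ζ/λ(ζ)² dζ = -c_Q e^{-2z} (1 + ε(z))`, `c_Q = 8/12^{2/3}`, `ε → 0`, `ε' → 0`.
       With `ξ = i (Ŷ - i uR)`:  `z = -(1/2) log(ξ/c_Q) + (1/2) log(1 + ε(z))`, solved by contraction for small `ξ ≠ 0` and a given branch of `log ξ`:  `m₁`: principal branch;  `m₂`: `log₂ ξ = Log(-ξ) - iπ` (agrees for `Im ξ < 0`, differs by `-2πi` for `Im ξ > 0`, i.e. `z₂ ≈ z₁ + iπ`).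
       `λ` takes almost the same value, `J = 2z/λ` differs by `≈ 2πi/λ`.
-/
import Claimed.Agent.R269.S7.Defs
import Claimed.Agent.R269.S7.DiscSol
import Claimed.Agent.R269.S7.ModelFE

set_option autoImplicit false

namespace Claimed.Agent.R269

open Complex Filter Topology Set Metric
open scoped Real

/-- EXPORT BP-S7-modelF: the model of the first profile. -/
theorem s7_model_F : Nonempty (S7Model true) :=
  s7f_model @s7_disc_solution

end Claimed.Agent.R269
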