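/-
Row 269, P1 Section 7.2-7.3, package BP-S7-modelQ (owner helper83), file A: TOOLS FOR `S7Sol` (both profiles) AND THE PARAMETRISATION LEMMA OF THE SECOND PROFILE.
 * `S7Sol.congr_of_eqOn`, `S7Sol.union'`, `S7Sol.mono_open`  (generic in `fst`: free for ModelF too).
 * `s7q_param`:  `ζ, m` holomorphic on `Ω`, `sinh ζ, cosh ζ ≠ 0`, `e^{-3im} = 12 (tanh ζ - ζ sech² ζ)`, `ζ' = e^{-2im} cosh³ ζ/(4 i sinh ζ)`   ⟹   `S7Sol false Ω m` and `s7z (m, m') = ζ`.
-/
import Claimed.Agent.R269.S7.Defs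

set_option autoImplicit false

namespace Claimed.Agent.R269

open Complex Filter Topology Set Metric
open scoped Real

/-- a solution may be replaced by a function which agrees with it on the (open) domain. -/
theorem S7Sol.congr_of_eqOn {fst : Bool} {Ω : Set ℂ} {m m' : ℂ → ℂ} (h : S7Sol fst Ω m)
    (he : EqOn m' m Ω) : S7Sol fst Ω m' := by
  have hev : ∀ y ∈ Ω, m' =ᶠ[𝓝 y] m := fun y hy =>
    Filter.eventuallyEq_of_mem (h.isOpen.mem_nhds hy) he
  have hd : EqOn (deriv m') (deriv m) Ω := fun y hy => (hev y hy).deriv_eq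
  have hev2 : ∀ y ∈ Ω, deriv m' =ᶠ[𝓝 y] deriv m := fun y hy =>
    Filter.eventuallyEq_of_mem (h.isOpen.mem_nhds hy) hd
  refine ⟨h.isOpen, h.diff.congr he, fun y hy => ?_, fun y hy => ?_⟩
  · rw [he hy, hd hy]; exact h.reg y hy
  · rw [(hev2 y hy).deriv_eq, he hy, hd hy]; exact h.ode y hy

/-- gluing of two solutions given by the same function. -/
theorem S7Sol.union' {fst : Bool} {Ω₁ Ω₂ : Set ℂ} {m : ℂ → ℂ} (h₁ : S7Sol fst Ω₁ m)
    (h₂ : S7Sol fst Ω₂ m) : S7Sol fst (Ω₁ ∪ Ω₂) m := by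
  refine ⟨h₁.isOpen.union h₂.isOpen, fun y hy => ?_, fun y hy => ?_, fun y hy => ?_⟩
  · rcases hy with hy | hy
    · exact (h₁.diff.differentiableAt (h₁.isOpen.mem_nhds hy)).differentiableWithinAt
    · exact (h₂.diff.differentiableAt (h₂.isOpen.mem_nhds hy)).differentiableWithinAt
  · rcases hy with hy | hy
    · exact h₁.reg y hy
    · exact h₂.reg y hy
  · rcases hy with hy | hy
    · exact h₁.ode y hy
    · exact h₂.ode y hy

/-- restriction to a smaller open set. -/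
theorem S7Sol.mono_open {fst : Bool} {Ω Ω' : Set ℂ} {m : ℂ → ℂ} (h : S7Sol fst Ω m)
    (ho : IsOpen Ω') (hs : Ω' ⊆ Ω) : S7Sol fst Ω' m :=
  ⟨ho, h.diff.mono hs, fun y hy => h.reg y (hs hy), fun y hy => h.ode y (hs hy)⟩

/-- **Parametrisation lemma of the second profile.** -/
theorem s7q_param {Ω : Set ℂ} {ζ m : ℂ → ℂ} (hΩ : IsOpen Ω)
    (hζ : DifferentiableOn ℂ ζ Ω) (hm : DifferentiableOn ℂ m Ω)
    (hs : ∀ y ∈ Ω, Complex.sinh (ζ y) ≠ 0) (hc : ∀ y ∈ Ω, Complex.cosh (ζ y) ≠ 0)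
    (hE : ∀ y ∈ Ω, Complex.exp (-(3 * I * m y))
      = 12 * (Complex.sinh (ζ y) / Complex.cosh (ζ y) - ζ y / Complex.cosh (ζ y) ^ 2))
    (hd : ∀ y ∈ Ω, deriv ζ y
      = Complex.exp (-(2 * I * m y)) * Complex.cosh (ζ y) ^ 3 / (4 * I * Complex.sinh (ζ y))) :
    S7Sol false Ω m ∧ ∀ y ∈ Ω, s7z (m y) (deriv m y) = ζ y := by
  have hζd : ∀ y ∈ Ω, HasDerivAt ζ (deriv ζ y) y := fun y hy =>
    (hζ.differentiableAt (hΩ.mem_nhds hy)).hasDerivAt
  have hmd : ∀ y ∈ Ω, HasDerivAt m (deriv m y) y := fun y hy =>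
    (hm.differentiableAt (hΩ.mem_nhds hy)).hasDerivAt
  -- powers of `λ = e^{-im}`
  have e3 : ∀ y, Complex.exp (-(3 * I * m y)) = Complex.exp (-(I * m y)) ^ 3 := by
    intro y; rw [← Complex.exp_nat_mul]; congr 1; push_cast; ring
  have e2 : ∀ y, Complex.exp (-(2 * I * m y)) = Complex.exp (-(I * m y)) ^ 2 := by
    intro y; rw [← Complex.exp_nat_mul]; congr 1; push_cast; ring
  have em : ∀ y, Complex.exp (I * m y) = (Complex.exp (-(I * m y)))⁻¹ := by
    intro y; rw [← Complex.exp_neg, neg_neg]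
  have em2 : ∀ y, Complex.exp (2 * I * m y) = (Complex.exp (-(I * m y)) ^ 2)⁻¹ := by
    intro y; rw [← e2, ← Complex.exp_neg]; congr 1; ring
  have hl : ∀ y, Complex.exp (-(I * m y)) ≠ 0 := fun y => Complex.exp_ne_zero _
  -- Step 1: `m' = 2 ζ e^{im}`
  have h1 : ∀ y ∈ Ω, deriv m y = 2 * ζ y * Complex.exp (I * m y) := by
    intro y hy
    have hL : HasDerivAt (fun y => Complex.exp (-(3 * I * m y)))
        (Complex.exp (-(3 * I * m y)) * (-(3 * I * deriv m y))) y :=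
      (((hmd y hy).const_mul (3 * I)).neg).cexp
    have hsh : HasDerivAt (fun y => Complex.sinh (ζ y)) (Complex.cosh (ζ y) * deriv ζ y) y :=
      (hζd y hy).csinh
    have hch : HasDerivAt (fun y => Complex.cosh (ζ y)) (Complex.sinh (ζ y) * deriv ζ y) y :=
      (hζd y hy).ccosh
    have hR := ((hsh.div hch (hc y hy)).sub ((hζd y hy).div (hch.pow 2)
      (pow_ne_zero 2 (hc y hy)))).const_mul (12 : ℂ)
    have hev : (fun y => Complex.exp (-(3 * I * m y))) =ᶠ[𝓝 y] fun y =>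
        12 * (Complex.sinh (ζ y) / Complex.cosh (ζ y) - ζ y / Complex.cosh (ζ y) ^ 2) :=
      Filter.eventuallyEq_of_mem (hΩ.mem_nhds hy) hE
    have hu := hL.unique (hR.congr_of_eventuallyEq hev)
    simp only [Pi.pow_apply, Nat.cast_ofNat, Nat.add_one_sub_one, pow_one] at hu
    rw [hd y hy, e3, e2] at hu
    rw [em]
    have hcs := Complex.cosh_sq (ζ y)
    have hsy := hs y hy
    have hcy := hc y hy
    have hly := hl y
    set l := Complex.exp (-(I * m y)) with hldef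
    set S := Complex.sinh (ζ y) with hS
    set Cc := Complex.cosh (ζ y) with hC
    have hI : I ^ 2 = -1 := I_sq
    have hI0 : I ≠ 0 := I_ne_zero
    field_simp at hu ⊢
    rw [hI, hcs] at hu
    exact mul_left_cancel₀ hsy (by linear_combination (1 / 12) * hu)
  -- `s7z = ζ`
  have h2 : ∀ y ∈ Ω, s7z (m y) (deriv m y) = ζ y := by
    intro y hy
    rw [s7z, h1 y hy, em]
    have := hl y
    field_simp
  refine ⟨⟨hΩ, hm, fun y hy => ?_, fun y hy => ?_⟩, h2⟩
  · simp only [s7Reg, Set.mem_ofPred_eq, Bool.false_eq_true, if_false]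
    rw [h2 y hy]
    exact hs y hy
  · have hev : deriv m =ᶠ[𝓝 y] fun y => 2 * ζ y * Complex.exp (I * m y) :=
      Filter.eventuallyEq_of_mem (hΩ.mem_nhds hy) h1
    have hD : HasDerivAt (fun y => 2 * ζ y * Complex.exp (I * m y))
        (2 * deriv ζ y * Complex.exp (I * m y)
          + 2 * ζ y * (Complex.exp (I * m y) * (I * deriv m y))) y :=
      ((hζd y hy).const_mul 2).mul (((hmd y hy).const_mul I).cexp)
    rw [hev.deriv_eq, hD.deriv, s7X, h2 y hy, h1 y hy, hd y hy, e2, em, em2]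
    simp only [Bool.false_eq_true, if_false]
    have hEy := hE y hy
    rw [e3] at hEy
    have hsy := hs y hy
    have hcy := hc y hy
    have hly := hl y
    set l := Complex.exp (-(I * m y)) with hldef
    set S := Complex.sinh (ζ y) with hS
    set Cc := Complex.cosh (ζ y) with hC
    have hI : I ^ 2 = -1 := I_sq
    have hI0 : I ≠ 0 := I_ne_zero
    field_simp at hEy ⊢
    rw [hI]
    linear_combination Cc * hEy

end Claimed.Agent.R269
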