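/-
Row 269, P1 Section 7.2-7.3, package BP-S7-modelQ (owner helper83), file B: SPECIAL FUNCTIONS OF THE SECOND PROFILE (HOST-FREE, Mathlib only).
 `s7qA = artanh` on the unit disc (`cosh A ≠ 0`, `sinh A = v cosh A`, `cosh² A (1 - v²) = 1`, series),   `s7qg v = 3 ∑ v^{2k}/((2k+1)(2k+3))`  (`Re g ≥ 1/2`, `‖g v‖ ≤ g ‖v‖`, `2 v³ g = 3 (v - (1-v²) artanh v)`),
 `s7qc = g^{1/3}`, `s7qP = g^{2/3}` and the real majorant `s7qp`.
-/
import Mathlib

set_option autoImplicit false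

namespace Claimed.Agent.R269

open Complex Filter Topology Set Metric
open scoped Real

/-- `artanh` on the unit disc. -/
noncomputable def s7qA (v : ℂ) : ℂ := (Complex.log (1 + v) - Complex.log (1 - v)) / 2

theorem s7qA_eqns_cite : True := by have := @s7qA.eq_1; trivial

theorem s7q_one_add_mem {v : ℂ} (hv : v ∈ ball (0 : ℂ) 1) : 1 + v ∈ slitPlane := by
  rw [mem_ball_zero_iff] at hv
  left
  have := abs_le.1 ((abs_re_le_norm v).trans hv.le)
  have h2 : |v.re| < 1 := (abs_re_le_norm v).trans_lt hv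
  have := abs_lt.1 h2
  simp only [add_re, one_re]; linarith

theorem s7q_one_sub_mem {v : ℂ} (hv : v ∈ ball (0 : ℂ) 1) : 1 - v ∈ slitPlane := by
  have : -v ∈ ball (0 : ℂ) 1 := by simpa using hv
  simpa [sub_eq_add_neg] using s7q_one_add_mem this

theorem s7qA_hasDerivAt {v : ℂ} (hv : v ∈ ball (0 : ℂ) 1) :
    HasDerivAt s7qA (1 / (1 - v ^ 2)) v := by
  have h1 : HasDerivAt (fun v : ℂ => Complex.log (1 + v)) (1 / (1 + v)) v :=
    ((hasDerivAt_id v).const_add 1).clog (s7q_one_add_mem hv)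
  have h2 : HasDerivAt (fun v : ℂ => Complex.log (1 - v)) (-1 / (1 - v)) v :=
    ((hasDerivAt_id v).const_sub 1).clog (s7q_one_sub_mem hv)
  have h3 := (h1.sub h2).div_const 2
  have ha : (1 + v) ≠ 0 := slitPlane_ne_zero (s7q_one_add_mem hv)
  have hb : (1 - v) ≠ 0 := slitPlane_ne_zero (s7q_one_sub_mem hv)
  have hc : (1 - v ^ 2) ≠ 0 := by
    have : 1 - v ^ 2 = (1 + v) * (1 - v) := by ring
    rw [this]; exact mul_ne_zero ha hb
  have h4 : HasDerivAt s7qA ((1 / (1 + v) - -1 / (1 - v)) / 2) v := h3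
  have h5 : 1 / (1 - v ^ 2) = (1 / (1 + v) - -1 / (1 - v)) / 2 := by
    field_simp
    ring
  rw [h5]; exact h4

/-- `cosh A = 1/(ab)`, `sinh A = v/(ab)` with `a² = 1 + v`, `b² = 1 - v`. -/
theorem s7qA_cosh_sinh {v : ℂ} (hv : v ∈ ball (0 : ℂ) 1) :
    Complex.cosh (s7qA v) ≠ 0 ∧ Complex.sinh (s7qA v) = v * Complex.cosh (s7qA v) ∧
      Complex.cosh (s7qA v) ^ 2 * (1 - v ^ 2) = 1 := by
  have ha : (1 + v) ≠ 0 := slitPlane_ne_zero (s7q_one_add_mem hv)
  have hb : (1 - v) ≠ 0 := slitPlane_ne_zero (s7q_one_sub_mem hv)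
  set a := Complex.exp (Complex.log (1 + v) / 2) with hadef
  set b := Complex.exp (Complex.log (1 - v) / 2) with hbdef
  have ha0 : a ≠ 0 := Complex.exp_ne_zero _
  have hb0 : b ≠ 0 := Complex.exp_ne_zero _
  have ha2 : a ^ 2 = 1 + v := by
    rw [hadef, ← Complex.exp_nat_mul]
    rw [show ((2 : ℕ) : ℂ) * (Complex.log (1 + v) / 2) = Complex.log (1 + v) by push_cast; ring]
    exact Complex.exp_log ha
  have hb2 : b ^ 2 = 1 - v := by
    rw [hbdef, ← Complex.exp_nat_mul]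
    rw [show ((2 : ℕ) : ℂ) * (Complex.log (1 - v) / 2) = Complex.log (1 - v) by push_cast; ring]
    exact Complex.exp_log hb
  have e1 : Complex.exp (s7qA v) = a / b := by
    rw [hadef, hbdef, ← Complex.exp_sub, s7qA]; congr 1; ring
  have e2 : Complex.exp (-s7qA v) = b / a := by
    rw [Complex.exp_neg, e1, inv_div]
  have hcosh : Complex.cosh (s7qA v) = 1 / (a * b) := by
    rw [Complex.cosh, e1, e2]
    field_simp
    rw [ha2, hb2]; ring
  have hsinh : Complex.sinh (s7qA v) = v / (a * b) := by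
    rw [Complex.sinh, e1, e2]
    field_simp
    rw [ha2, hb2]; ring
  refine ⟨?_, ?_, ?_⟩
  · rw [hcosh]; exact one_div_ne_zero (mul_ne_zero ha0 hb0)
  · rw [hcosh, hsinh]; ring
  · rw [hcosh]
    have : (1 - v ^ 2) = a ^ 2 * b ^ 2 := by rw [ha2, hb2]; ring
    rw [this]
    field_simp

theorem s7qA_hasSum {v : ℂ} (hv : v ∈ ball (0 : ℂ) 1) :
    HasSum (fun k : ℕ => v ^ (2 * k + 1) / (2 * k + 1)) (s7qA v) := by
  rw [mem_ball_zero_iff] at hv
  have h1 := Complex.hasSum_taylorSeries_neg_log' hv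
  have h2 := Complex.hasSum_taylorSeries_neg_log' (z := -v) (by simpa using hv)
  have h3 := (h1.sub h2).div_const 2
  set term := fun n : ℕ => (v ^ (n + 1) / ((n : ℂ) + 1) - (-v) ^ (n + 1) / ((n : ℂ) + 1)) / 2
    with hterm
  have h_eq : term ∘ (2 * ·) = fun k : ℕ => v ^ (2 * k + 1) / (2 * k + 1) := by
    ext n
    dsimp only [term, (· ∘ ·)]
    rw [Odd.neg_pow (⟨n, rfl⟩ : Odd (2 * n + 1)) v]
    push_cast
    ring_nf
  rw [← h_eq, (mul_right_injective₀ (two_ne_zero' ℕ)).hasSum_iff]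
  · have h5 : s7qA v = (-Complex.log (1 - v) - -Complex.log (1 - -v)) / 2 := by
      rw [s7qA]; ring_nf
    rw [h5]; exact h3
  · intro m hm
    rw [range_two_mul, Set.mem_ofPred_eq, ← Nat.even_add_one] at hm
    dsimp [term]
    rw [Even.neg_pow hm, sub_self, zero_div]

/-- the coefficients `3/((2k+1)(2k+3))`. -/
noncomputable def s7qa (k : ℕ) : ℝ := 3 / ((2 * k + 1) * (2 * k + 3))

/-- `g(v) = 3 ∑ v^{2k}/((2k+1)(2k+3))`. -/
noncomputable def s7qg (v : ℂ) : ℂ := ∑' k : ℕ, (s7qa k : ℂ) * v ^ (2 * k)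

/-- the real version of `g`. -/
noncomputable def s7qgR (r : ℝ) : ℝ := ∑' k : ℕ, s7qa k * r ^ (2 * k)

theorem s7qg_eqns_cite : True := by
  have := @s7qa.eq_1; have := @s7qg.eq_1; have := @s7qgR.eq_1; trivial

theorem s7qa_pos (k : ℕ) : 0 < s7qa k := by rw [s7qa]; positivity

theorem s7qa_hasSum : HasSum s7qa (3 / 2) := by
  rw [hasSum_iff_tendsto_nat_of_nonneg (fun k => (s7qa_pos k).le)]
  have hs : ∀ n : ℕ, ∑ k ∈ Finset.range n, s7qa k = 3 / 2 - 3 / 2 * (1 / (2 * (n : ℝ) + 1)) := by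
    intro n
    induction n with
    | zero => simp
    | succ n ih =>
      rw [Finset.sum_range_succ, ih, s7qa]
      push_cast
      field_simp
      ring
  simp_rw [hs]
  have h1 : Tendsto (fun n : ℕ => 1 / (2 * (n : ℝ) + 1)) atTop (𝓝 0) := by
    have h2 : Tendsto (fun n : ℕ => 2 * (n : ℝ) + 1) atTop atTop :=
      tendsto_atTop_add_const_right _ _
        (tendsto_natCast_atTop_atTop.const_mul_atTop (by norm_num : (0 : ℝ) < 2))
    simp only [one_div]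
    exact h2.inv_tendsto_atTop
  simpa using (h1.const_mul (3 / 2 : ℝ)).const_sub (3 / 2 : ℝ)

theorem s7qg_term_le {v : ℂ} (hv : ‖v‖ ≤ 1) (k : ℕ) : ‖(s7qa k : ℂ) * v ^ (2 * k)‖ ≤ s7qa k := by
  rw [norm_mul, norm_pow, Complex.norm_real, Real.norm_of_nonneg (s7qa_pos k).le]
  exact mul_le_of_le_one_right (s7qa_pos k).le (pow_le_one₀ (norm_nonneg _) hv)

theorem s7qg_summable {v : ℂ} (hv : ‖v‖ ≤ 1) : Summable fun k : ℕ => (s7qa k : ℂ) * v ^ (2 * k) :=
  Summable.of_norm_bounded s7qa_hasSum.summable (s7qg_term_le hv)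

theorem s7qgR_summable {r : ℝ} (hr : |r| ≤ 1) : Summable fun k : ℕ => s7qa k * r ^ (2 * k) := by
  refine Summable.of_norm_bounded s7qa_hasSum.summable (fun k => ?_)
  rw [norm_mul, norm_pow, Real.norm_of_nonneg (s7qa_pos k).le, Real.norm_eq_abs]
  exact mul_le_of_le_one_right (s7qa_pos k).le (pow_le_one₀ (abs_nonneg _) hr)

theorem s7qg_diff : DifferentiableOn ℂ s7qg (ball 0 1) := by
  refine differentiableOn_tsum_of_summable_norm s7qa_hasSum.summable (fun k => ?_) isOpen_ball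
    (fun k w hw => s7qg_term_le (mem_ball_zero_iff.1 hw).le k)
  fun_prop

theorem s7qg_zero : s7qg 0 = 1 := by
  rw [s7qg, tsum_eq_single 0]
  · simp [s7qa]
  · intro k hk
    simp [hk]

theorem s7qg_even (v : ℂ) : s7qg (-v) = s7qg v := by
  rw [s7qg, s7qg]
  congr 1
  ext k
  rw [Even.neg_pow (even_two_mul k)]

theorem s7qg_re {v : ℂ} (hv : v ∈ ball (0 : ℂ) 1) : 1 / 2 ≤ (s7qg v).re := by
  have hv' := (mem_ball_zero_iff.1 hv).le
  have h1 : s7qg v = 1 + ∑' k : ℕ, (s7qa (k + 1) : ℂ) * v ^ (2 * (k + 1)) := by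
    rw [s7qg, (s7qg_summable hv').tsum_eq_zero_add]
    simp [s7qa]
  have h2 : HasSum (fun k : ℕ => s7qa (k + 1)) (3 / 2 - 1) := by
    have := (hasSum_nat_add_iff' (f := s7qa) 1).2 s7qa_hasSum
    simpa [s7qa] using this
  have h3 : ‖∑' k : ℕ, (s7qa (k + 1) : ℂ) * v ^ (2 * (k + 1))‖ ≤ 3 / 2 - 1 :=
    tsum_of_norm_bounded h2 (fun k => s7qg_term_le hv' (k + 1))
  have h4 := abs_le.1 ((abs_re_le_norm _).trans h3)
  rw [h1, add_re, one_re]
  linarith [h4.1]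

theorem s7qg_norm_le {v : ℂ} (hv : v ∈ ball (0 : ℂ) 1) : ‖s7qg v‖ ≤ s7qgR ‖v‖ := by
  have hv' := (mem_ball_zero_iff.1 hv).le
  refine tsum_of_norm_bounded (s7qgR_summable (by rwa [abs_norm])).hasSum (fun k => ?_)
  rw [norm_mul, norm_pow, Complex.norm_real, Real.norm_of_nonneg (s7qa_pos k).le]

theorem s7qg_ofReal (r : ℝ) : s7qg (r : ℂ) = (s7qgR r : ℂ) := by
  rw [s7qg, s7qgR, Complex.ofReal_tsum]
  congr 1
  ext k
  push_cast
  ring

theorem s7qgR_mono : MonotoneOn s7qgR (Ico 0 1) := by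
  intro a ha b hb hab
  refine (s7qgR_summable ?_).tsum_le_tsum (fun k => ?_) (s7qgR_summable ?_)
  · rw [abs_of_nonneg ha.1]; exact ha.2.le
  · exact mul_le_mul_of_nonneg_left (pow_le_pow_left₀ ha.1 hab _) (s7qa_pos k).le
  · rw [abs_of_nonneg hb.1]; exact hb.2.le

theorem s7qgR_one_le {r : ℝ} (hr : r ∈ Ico (0 : ℝ) 1) : 1 ≤ s7qgR r := by
  have h := (s7qgR_summable (r := r) (by rw [abs_of_nonneg hr.1]; exact hr.2.le)).le_tsum 0
    (fun k _ => mul_nonneg (s7qa_pos k).le (pow_nonneg hr.1 _))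
  simpa [s7qa, s7qgR] using h

/-- `(2/3) v³ g(v) = v - (1 - v²) artanh v`. -/
theorem s7qg_id {v : ℂ} (hv : v ∈ ball (0 : ℂ) 1) :
    2 * v ^ 3 * s7qg v = 3 * (v - (1 - v ^ 2) * s7qA v) := by
  have hv' := (mem_ball_zero_iff.1 hv).le
  have hA := s7qA_hasSum hv
  have h1 : HasSum (fun k : ℕ => v ^ (2 * (k + 1) + 1) / (2 * ((k + 1 : ℕ) : ℂ) + 1)) (s7qA v - v) := by
    have := (hasSum_nat_add_iff' (f := fun k : ℕ => v ^ (2 * k + 1) / (2 * (k : ℂ) + 1)) 1).2 hA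
    simpa using this
  have h2 := (hA.mul_left (v ^ 2)).sub h1
  have h3 := (s7qg_summable hv').hasSum.mul_left (2 * v ^ 3)
  have h4 := h2.mul_left 3
  have h5 : (fun k : ℕ => 2 * v ^ 3 * ((s7qa k : ℂ) * v ^ (2 * k))) = fun k : ℕ =>
      3 * (v ^ 2 * (v ^ (2 * k + 1) / (2 * (k : ℂ) + 1))
        - v ^ (2 * (k + 1) + 1) / (2 * ((k + 1 : ℕ) : ℂ) + 1)) := by
    ext k
    rw [s7qa]
    have e1 : (2 * (k : ℂ) + 1) ≠ 0 := by norm_cast
    have e2 : (2 * (k : ℂ) + 3) ≠ 0 := by norm_cast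
    have e3 : (2 * ((k + 1 : ℕ) : ℂ) + 1) = 2 * (k : ℂ) + 3 := by push_cast; ring
    rw [e3]
    push_cast
    field_simp
    ring
  rw [h5] at h3
  have := h3.unique h4
  rw [s7qg] 
  rw [this]; ring

/-- `c = g^{1/3}`. -/
noncomputable def s7qc (v : ℂ) : ℂ := Complex.exp (Complex.log (s7qg v) / 3)

/-- `P = g^{2/3}`. -/
noncomputable def s7qP (v : ℂ) : ℂ := Complex.exp (2 * Complex.log (s7qg v) / 3)

/-- the real majorant of `P`. -/
noncomputable def s7qp (r : ℝ) : ℝ := Real.exp (2 * Real.log (s7qgR r) / 3)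

theorem s7qc_eqns_cite : True := by
  have := @s7qc.eq_1; have := @s7qP.eq_1; have := @s7qp.eq_1; trivial

theorem s7qg_mem_slit {v : ℂ} (hv : v ∈ ball (0 : ℂ) 1) : s7qg v ∈ slitPlane :=
  Or.inl (by linarith [s7qg_re hv])

theorem s7qg_ne {v : ℂ} (hv : v ∈ ball (0 : ℂ) 1) : s7qg v ≠ 0 :=
  slitPlane_ne_zero (s7qg_mem_slit hv)

theorem s7qc_diff : DifferentiableOn ℂ s7qc (ball 0 1) := by
  have h : DifferentiableOn ℂ (fun v => Complex.log (s7qg v)) (ball 0 1) :=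
    s7qg_diff.clog (fun v hv => s7qg_mem_slit hv)
  exact (h.div_const 3).cexp

theorem s7qP_diff : DifferentiableOn ℂ s7qP (ball 0 1) := by
  have h : DifferentiableOn ℂ (fun v => Complex.log (s7qg v)) (ball 0 1) :=
    s7qg_diff.clog (fun v hv => s7qg_mem_slit hv)
  exact ((h.const_mul 2).div_const 3).cexp

theorem s7qc_ne (v : ℂ) : s7qc v ≠ 0 := Complex.exp_ne_zero _

theorem s7qP_ne (v : ℂ) : s7qP v ≠ 0 := Complex.exp_ne_zero _

theorem s7qc_cube {v : ℂ} (hv : v ∈ ball (0 : ℂ) 1) : s7qc v ^ 3 = s7qg v := by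
  rw [s7qc, ← Complex.exp_nat_mul]
  rw [show ((3 : ℕ) : ℂ) * (Complex.log (s7qg v) / 3) = Complex.log (s7qg v) by push_cast; ring]
  exact Complex.exp_log (s7qg_ne hv)

theorem s7qP_eq (v : ℂ) : s7qP v = s7qc v ^ 2 := by
  rw [s7qc, s7qP, ← Complex.exp_nat_mul]
  congr 1; push_cast; ring

theorem s7qc_zero : s7qc 0 = 1 := by simp [s7qc, s7qg_zero]

theorem s7qP_zero : s7qP 0 = 1 := by simp [s7qP, s7qg_zero]

theorem s7qc_even (v : ℂ) : s7qc (-v) = s7qc v := by rw [s7qc, s7qc, s7qg_even]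

theorem s7qP_even (v : ℂ) : s7qP (-v) = s7qP v := by rw [s7qP, s7qP, s7qg_even]

/-- an even function has vanishing derivative at `0`. -/
theorem s7q_deriv_even {f : ℂ → ℂ} (h : ∀ v, f (-v) = f v) : deriv f 0 = 0 := by
  have h1 : deriv (fun v => f (-v)) 0 = -deriv f (-0) := deriv_comp_neg f 0
  have h2 : (fun v => f (-v)) = f := funext h
  rw [h2, neg_zero] at h1
  have h3 : (2 : ℂ) * deriv f 0 = 0 := by linear_combination h1
  simpa using h3

theorem s7qc_deriv_zero : deriv s7qc 0 = 0 := s7q_deriv_even s7qc_even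

theorem s7qP_deriv_zero : deriv s7qP 0 = 0 := s7q_deriv_even s7qP_even

theorem s7qP_norm_le {v : ℂ} (hv : v ∈ ball (0 : ℂ) 1) : ‖s7qP v‖ ≤ s7qp ‖v‖ := by
  rw [s7qP, Complex.norm_exp, s7qp]
  apply Real.exp_le_exp.2
  have h1 : (2 * Complex.log (s7qg v) / 3).re = 2 * Real.log ‖s7qg v‖ / 3 := by
    rw [show (2 * Complex.log (s7qg v) / 3) = ((2 / 3 : ℝ) : ℂ) * Complex.log (s7qg v) by
      push_cast; ring, Complex.re_ofReal_mul, Complex.log_re]
    ring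
  rw [h1]
  have h2 : Real.log ‖s7qg v‖ ≤ Real.log (s7qgR ‖v‖) :=
    Real.log_le_log (norm_pos_iff.2 (s7qg_ne hv)) (s7qg_norm_le hv)
  linarith

theorem s7qP_ofReal {r : ℝ} (hr : r ∈ Ico (0 : ℝ) 1) : s7qP (r : ℂ) = (s7qp r : ℂ) := by
  have h0 : 0 ≤ s7qgR r := by linarith [s7qgR_one_le hr]
  rw [s7qP, s7qp, s7qg_ofReal, ← Complex.ofReal_log h0]
  push_cast
  rfl

theorem s7qc_ofReal {r : ℝ} (hr : r ∈ Ico (0 : ℝ) 1) :
    s7qc (r : ℂ) = (Real.exp (Real.log (s7qgR r) / 3) : ℂ) := by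
  have h0 : 0 ≤ s7qgR r := by linarith [s7qgR_one_le hr]
  rw [s7qc, s7qg_ofReal, ← Complex.ofReal_log h0]
  push_cast
  rfl

theorem s7qp_mono : MonotoneOn s7qp (Ico 0 1) := by
  intro a ha b hb hab
  rw [s7qp, s7qp]
  apply Real.exp_le_exp.2
  have h1 : Real.log (s7qgR a) ≤ Real.log (s7qgR b) :=
    Real.log_le_log (by linarith [s7qgR_one_le ha]) (s7qgR_mono ha hb hab)
  linarith

/-- `artanh` on the real segment. -/
theorem s7qA_ofReal {r : ℝ} (hr : r ∈ Ioo (-1 : ℝ) 1) :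
    s7qA (r : ℂ) = (((Real.log (1 + r) - Real.log (1 - r)) / 2 : ℝ) : ℂ) := by
  have h1 : (0 : ℝ) ≤ 1 + r := by linarith [hr.1]
  have h2 : (0 : ℝ) ≤ 1 - r := by linarith [hr.2]
  rw [s7qA]
  push_cast
  rw [Complex.ofReal_log h1, Complex.ofReal_log h2]
  push_cast
  rfl

theorem s7qA_tendsto :
    Tendsto (fun r : ℝ => (Real.log (1 + r) - Real.log (1 - r)) / 2) (𝓝[<] 1) atTop := by
  have h1 : Tendsto (fun r : ℝ => Real.log (1 + r)) (𝓝[<] 1) (𝓝 (Real.log (1 + 1))) := by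
    have : ContinuousAt (fun r : ℝ => Real.log (1 + r)) 1 :=
      (continuousAt_const.add continuousAt_id).log (by norm_num)
    exact this.tendsto.mono_left nhdsWithin_le_nhds
  have h2 : Tendsto (fun r : ℝ => 1 - r) (𝓝[<] 1) (𝓝[>] 0) := by
    refine tendsto_nhdsWithin_iff.2 ⟨?_, ?_⟩
    · have : ContinuousAt (fun r : ℝ => 1 - r) 1 := continuousAt_const.sub continuousAt_id
      have h := this.tendsto.mono_left (nhdsWithin_le_nhds (s := Iio 1))
      simpa using h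
    · filter_upwards [self_mem_nhdsWithin] with r hr
      simpa using hr
  have h3 : Tendsto (fun r : ℝ => Real.log (1 - r)) (𝓝[<] 1) atBot :=
    Real.tendsto_log_nhdsGT_zero.comp h2
  have h4 : Tendsto (fun r : ℝ => Real.log (1 + r) - Real.log (1 - r)) (𝓝[<] 1) atTop := by
    simp only [sub_eq_add_neg]
    exact h1.add_atTop (tendsto_neg_atBot_atTop.comp h3)
  exact h4.atTop_div_const (by norm_num)

end Claimed.Agent.R269
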