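/-
Row 269, P1 Section 7.2-7.3, package BP-S7-modelQ (owner helper83), file C: THE DISC DATA AND THE SOLUTION ON THE HALF PLANE `Im y < log R`.
 `S7QDisc` = what we use of `s7_disc_solution` (with `vc = 1`, `P = s7qP`).   `w = e^{-iy}`, `v = vv w`, `ζ = artanh v`, `m = y + i ℒ(w)`, `e^{ℒ} = 2 (vv w/w) c(vv w)`, `ℒ(0) = ℒ'(0) = 0`.
-/
import Claimed.Agent.R269.S7.ModelQA
import Claimed.Agent.R269.S7.ModelQB
import Claimed.Agent.R269.S7.DiscSol

set_option autoImplicit false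

namespace Claimed.Agent.R269

open Complex Filter Topology Set Metric
open scoped Real

/-- the disc solution of the second profile. -/
structure S7QDisc where
  vv : ℂ → ℂ
  R : ℝ
  R_pos : 0 < R
  diff : DifferentiableOn ℂ vv (ball 0 R)
  zero : vv 0 = 0
  deriv_zero : deriv vv 0 = 1 / 2
  mem : ∀ w ∈ ball (0 : ℂ) R, vv w ∈ ball (0 : ℂ) 1
  ne : ∀ w ∈ ball (0 : ℂ) R, w ≠ 0 → vv w ≠ 0
  ode : ∀ w ∈ ball (0 : ℂ) R, w * deriv vv w = vv w * s7qP (vv w)
  real : ∀ r ∈ Ioo 0 R, (vv (r : ℂ)).im = 0 ∧ 0 < (vv (r : ℂ)).re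
  lim : Tendsto (fun r : ℝ => vv (r : ℂ)) (𝓝[<] R) (𝓝 1)

theorem s7q_disc : Nonempty S7QDisc := by
  obtain ⟨Wf, vv, R, hR, -, -, -, -, -, -, h1, h2, h3, h4, h5, h6, h7, h8⟩ :=
    s7_disc_solution (vc := 1) (P := s7qP) (p := s7qp) one_pos s7qP_diff s7qP_zero
      (fun v _ => s7qP_ne v) (fun v hv => s7qP_norm_le hv) (fun r hr => s7qP_ofReal hr) s7qp_mono
  exact ⟨⟨vv, R, hR, h1, h2, h3, fun w hw => (h4 w hw).1, h5, h6, h7, by simpa using h8⟩⟩

/-- a holomorphic function with `L 0 = L' 0 = 0` is `O(w²)`. -/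
theorem s7q_quad_bound {L : ℂ → ℂ} {R : ℝ} (hR : 0 < R) (hL : DifferentiableOn ℂ L (ball 0 R))
    (h0 : L 0 = 0) (h1 : deriv L 0 = 0) : ∃ C : ℝ, ∀ w : ℂ, ‖w‖ ≤ R / 2 → ‖L w‖ ≤ C * ‖w‖ ^ 2 := by
  have hn : ball (0 : ℂ) R ∈ 𝓝 (0 : ℂ) := ball_mem_nhds _ hR
  have hk : DifferentiableOn ℂ (dslope L 0) (ball 0 R) := (Complex.differentiableOn_dslope hn).2 hL
  have hk2 : DifferentiableOn ℂ (dslope (dslope L 0) 0) (ball 0 R) :=
    (Complex.differentiableOn_dslope hn).2 hk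
  have hsub : closedBall (0 : ℂ) (R / 2) ⊆ ball 0 R := closedBall_subset_ball (by linarith)
  obtain ⟨C, hC⟩ := (isCompact_closedBall (0 : ℂ) (R / 2)).exists_bound_of_continuousOn
    (hk2.continuousOn.mono hsub)
  refine ⟨C, fun w hw => ?_⟩
  have e1 : L w = w * dslope L 0 w := by
    have := sub_smul_dslope L 0 w
    simpa [h0] using this.symm
  have e2 : dslope L 0 w = w * dslope (dslope L 0) 0 w := by
    have := sub_smul_dslope (dslope L 0) 0 w
    simpa [h1] using this.symm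
  rw [e1, e2, norm_mul, norm_mul]
  have := hC w (by simpa using hw)
  nlinarith [norm_nonneg w, mul_nonneg (norm_nonneg w) (norm_nonneg w)]

namespace S7QDisc

variable (D : S7QDisc)

/-- the logarithm `ℒ` of `λ(w)/w`. -/
theorem exists_log : ∃ L : ℂ → ℂ, L 0 = 0 ∧ DifferentiableOn ℂ L (ball 0 D.R) ∧ deriv L 0 = 0 ∧
    ∀ w ∈ ball (0 : ℂ) D.R, w * Complex.exp (L w) = 2 * D.vv w * s7qc (D.vv w) := by
  have hn : ball (0 : ℂ) D.R ∈ 𝓝 (0 : ℂ) := ball_mem_nhds _ D.R_pos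
  have h0m : (0 : ℂ) ∈ ball (0 : ℂ) D.R := mem_ball_self D.R_pos
  set Dd := dslope D.vv 0 with hDd
  have hDdiff : DifferentiableOn ℂ Dd (ball 0 D.R) := (Complex.differentiableOn_dslope hn).2 D.diff
  have hD0 : Dd 0 = 1 / 2 := by rw [hDd, dslope_same, D.deriv_zero]
  have hmul : ∀ w, w * Dd w = D.vv w := by
    intro w
    have := sub_smul_dslope D.vv 0 w
    simpa [D.zero] using this
  have hDne : ∀ w ∈ ball (0 : ℂ) D.R, Dd w ≠ 0 := by
    intro w hw h
    by_cases hw0 : w = 0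
    · rw [hw0, hD0] at h; norm_num at h
    · exact D.ne w hw hw0 (by rw [← hmul, h, mul_zero])
  have hcv : DifferentiableOn ℂ (fun w => s7qc (D.vv w)) (ball 0 D.R) :=
    s7qc_diff.comp D.diff (fun w hw => D.mem w hw)
  have hPv : DifferentiableOn ℂ (fun w => s7qP (D.vv w)) (ball 0 D.R) :=
    s7qP_diff.comp D.diff (fun w hw => D.mem w hw)
  set h := fun w => 2 * Dd w * s7qc (D.vv w) with hh
  have hhd : DifferentiableOn ℂ h (ball 0 D.R) := (hDdiff.const_mul 2).mul hcv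
  have hhne : ∀ w ∈ ball (0 : ℂ) D.R, h w ≠ 0 := fun w hw =>
    mul_ne_zero (mul_ne_zero two_ne_zero (hDne w hw)) (s7qc_ne _)
  have hh0 : h 0 = 1 := by simp [hh, hD0, D.zero, s7qc_zero]
  obtain ⟨L, hL0, hLd, hLe⟩ := ca_exists_log isOpen_ball (convex_ball (0 : ℂ) D.R) hhd hhne h0m
    (L₀ := 0) (by rw [Complex.exp_zero, hh0])
  refine ⟨L, hL0, fun w hw => (hLd w hw).differentiableAt.differentiableWithinAt, ?_,
    fun w hw => ?_⟩
  · -- `Dd' 0 = 0`
    have hDd' : DifferentiableOn ℂ (deriv Dd) (ball 0 D.R) := hDdiff.deriv isOpen_ball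
    have hA : HasDerivAt Dd (deriv Dd 0) 0 := (hDdiff.differentiableAt hn).hasDerivAt
    have hB : HasDerivAt (deriv Dd) (deriv (deriv Dd) 0) 0 := (hDd'.differentiableAt hn).hasDerivAt
    have hvv : HasDerivAt D.vv (1 / 2) 0 := by
      rw [← D.deriv_zero]; exact (D.diff.differentiableAt hn).hasDerivAt
    have h01 : (0 : ℂ) ∈ ball (0 : ℂ) 1 := mem_ball_self one_pos
    have hP0 : HasDerivAt s7qP 0 (D.vv 0) := by
      have := (s7qP_diff.differentiableAt (isOpen_ball.mem_nhds h01)).hasDerivAt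
      rw [s7qP_deriv_zero] at this
      rw [D.zero]; exact this
    have hc0 : HasDerivAt s7qc 0 (D.vv 0) := by
      have := (s7qc_diff.differentiableAt (isOpen_ball.mem_nhds h01)).hasDerivAt
      rw [s7qc_deriv_zero] at this
      rw [D.zero]; exact this
    have hPc : HasDerivAt (fun w => s7qP (D.vv w)) (0 * (1 / 2)) 0 := hP0.comp 0 hvv
    have hcc : HasDerivAt (fun w => s7qc (D.vv w)) (0 * (1 / 2)) 0 := hc0.comp 0 hvv
    have hψ : HasDerivAt (fun w => w * deriv Dd w - Dd w * (s7qP (D.vv w) - 1))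
        ((1 * deriv Dd 0 + 0 * deriv (deriv Dd) 0)
          - (deriv Dd 0 * (s7qP (D.vv 0) - 1) + Dd 0 * (0 * (1 / 2)))) 0 :=
      ((hasDerivAt_id (0 : ℂ)).mul hB).sub (hA.mul (hPc.sub_const 1))
    have hψ0 : (fun w => w * deriv Dd w - Dd w * (s7qP (D.vv w) - 1)) =ᶠ[𝓝 0] fun _ => (0 : ℂ) := by
      filter_upwards [hn] with w hw
      by_cases hw0 : w = 0
      · simp [hw0, D.zero, s7qP_zero]
      · have h1 : HasDerivAt D.vv (1 * Dd w + w * deriv Dd w) w := by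
          have h2 : HasDerivAt (fun w => w * Dd w) (1 * Dd w + w * deriv Dd w) w :=
            (hasDerivAt_id w).mul (hDdiff.differentiableAt (isOpen_ball.mem_nhds hw)).hasDerivAt
          have h3 : (fun w => w * Dd w) = D.vv := funext hmul
          rwa [h3] at h2
        have h4 := D.ode w hw
        rw [h1.deriv] at h4
        have h6 := hmul w
        exact mul_left_cancel₀ hw0 (by linear_combination h4 - s7qP (D.vv w) * h6)
    have h5 := (hψ.congr_of_eventuallyEq hψ0.symm).unique (hasDerivAt_const (0 : ℂ) (0 : ℂ))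
    have hDd0 : deriv Dd 0 = 0 := by
      rw [D.zero, s7qP_zero] at h5
      linear_combination h5
    have hhder : HasDerivAt h (2 * deriv Dd 0 * s7qc (D.vv 0) + 2 * Dd 0 * (0 * (1 / 2))) 0 :=
      (hA.const_mul 2).mul hcc
    rw [(hLd 0 h0m).deriv, hhder.deriv, hDd0]
    simp
  · rw [hLe w hw, hh]
    have h6 := hmul w
    linear_combination (2 * s7qc (D.vv w)) * h6

/-- the half plane. -/
def H : Set ℂ := {y | y.im < Real.log D.R}

/-- `v = vv (e^{-iy})`. -/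
noncomputable def v (y : ℂ) : ℂ := D.vv (Complex.exp (-(I * y)))

/-- `ζ = artanh v`. -/
noncomputable def ζg (y : ℂ) : ℂ := s7qA (D.v y)

theorem eqns_cite : True := by
  have := @S7QDisc.H.eq_1; have := @S7QDisc.v.eq_1; have := @S7QDisc.ζg.eq_1; trivial

theorem isOpen_H : IsOpen D.H := isOpen_lt Complex.continuous_im continuous_const

theorem norm_exp_negI (y : ℂ) : ‖Complex.exp (-(I * y))‖ = Real.exp y.im := by
  rw [Complex.norm_exp]; simp

theorem exp_mem {y : ℂ} (hy : y ∈ D.H) : Complex.exp (-(I * y)) ∈ ball (0 : ℂ) D.R := by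
  rw [mem_ball_zero_iff, norm_exp_negI]
  exact (Real.lt_log_iff_exp_lt D.R_pos).1 hy

theorem v_mem {y : ℂ} (hy : y ∈ D.H) : D.v y ∈ ball (0 : ℂ) 1 := D.mem _ (D.exp_mem hy)

theorem v_ne {y : ℂ} (hy : y ∈ D.H) : D.v y ≠ 0 := D.ne _ (D.exp_mem hy) (Complex.exp_ne_zero _)

theorem v_hasDerivAt {y : ℂ} (hy : y ∈ D.H) :
    HasDerivAt D.v (-(I * (D.v y * s7qP (D.v y)))) y := by
  have hw := D.exp_mem hy
  have h1 : HasDerivAt (fun y : ℂ => Complex.exp (-(I * y)))
      (Complex.exp (-(I * y)) * (-(I * 1))) y := (((hasDerivAt_id y).const_mul I).neg).cexp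
  have h2 : HasDerivAt D.vv (deriv D.vv (Complex.exp (-(I * y)))) (Complex.exp (-(I * y))) :=
    (D.diff.differentiableAt (isOpen_ball.mem_nhds hw)).hasDerivAt
  have h3 := h2.comp y h1
  have h4 := D.ode _ hw
  have h5 : deriv D.vv (Complex.exp (-(I * y))) * (Complex.exp (-(I * y)) * (-(I * 1)))
      = -(I * (D.v y * s7qP (D.v y))) := by
    rw [v, ← h4]; ring
  rw [← h5]; exact h3

theorem ζg_hasDerivAt {y : ℂ} (hy : y ∈ D.H) :
    HasDerivAt D.ζg (-(I * (D.v y * s7qP (D.v y))) / (1 - D.v y ^ 2)) y := by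
  have h := (s7qA_hasDerivAt (D.v_mem hy)).comp y (D.v_hasDerivAt hy)
  have h5 : 1 / (1 - D.v y ^ 2) * -(I * (D.v y * s7qP (D.v y)))
      = -(I * (D.v y * s7qP (D.v y))) / (1 - D.v y ^ 2) := by ring
  rw [← h5]; exact h

/-- the global solution on the half plane. -/
theorem exists_mg : ∃ mg : ℂ → ℂ, DifferentiableOn ℂ mg D.H ∧
    (∀ y ∈ D.H, Complex.exp (-(I * mg y)) = 2 * D.v y * s7qc (D.v y)) ∧
    ∃ C u₀ : ℝ, ∀ y : ℂ, y.im ≤ u₀ → ‖mg y - y‖ ≤ C * Real.exp (2 * y.im) := by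
  obtain ⟨L, hL0, hLd, hL1, hLe⟩ := D.exists_log
  obtain ⟨C, hC⟩ := s7q_quad_bound D.R_pos hLd hL0 hL1
  refine ⟨fun y => y + I * L (Complex.exp (-(I * y))), ?_, fun y hy => ?_,
    C, Real.log (D.R / 2), fun y hy => ?_⟩
  · intro y hy
    have h1 : DifferentiableAt ℂ L (Complex.exp (-(I * y))) :=
      hLd.differentiableAt (isOpen_ball.mem_nhds (D.exp_mem hy))
    have h2 : DifferentiableAt ℂ (fun y : ℂ => Complex.exp (-(I * y))) y := by fun_prop
    have h3 : DifferentiableAt ℂ (fun y : ℂ => L (Complex.exp (-(I * y)))) y := h1.comp y h2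
    exact (differentiableAt_id.add (h3.const_mul I)).differentiableWithinAt
  · have h1 : -(I * (y + I * L (Complex.exp (-(I * y))))) = -(I * y) + L (Complex.exp (-(I * y))) := by
      have : I * I = -1 := I_mul_I
      linear_combination (-L (Complex.exp (-(I * y)))) * this
    rw [h1, Complex.exp_add, hLe _ (D.exp_mem hy), v]
  · have h1 : ‖Complex.exp (-(I * y))‖ ≤ D.R / 2 := by
      rw [norm_exp_negI]
      exact (Real.le_log_iff_exp_le (by linarith [D.R_pos])).1 hy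
    have h2 := hC _ h1
    rw [norm_exp_negI] at h2
    have h3 : Real.exp y.im ^ 2 = Real.exp (2 * y.im) := by
      rw [← Real.exp_nat_mul]; norm_num
    rw [h3] at h2
    simpa using h2

theorem sol_half {mg : ℂ → ℂ} (hd : DifferentiableOn ℂ mg D.H)
    (he : ∀ y ∈ D.H, Complex.exp (-(I * mg y)) = 2 * D.v y * s7qc (D.v y)) :
    S7Sol false D.H mg ∧ ∀ y ∈ D.H, s7z (mg y) (deriv mg y) = D.ζg y := by
  refine s7q_param D.isOpen_H
    (fun y hy => (D.ζg_hasDerivAt hy).differentiableAt.differentiableWithinAt) hd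
    (fun y hy => ?_) (fun y hy => ?_) (fun y hy => ?_) (fun y hy => ?_)
  · obtain ⟨h1, h2, -⟩ := s7qA_cosh_sinh (D.v_mem hy)
    rw [ζg, h2]
    exact mul_ne_zero (D.v_ne hy) h1
  · exact (s7qA_cosh_sinh (D.v_mem hy)).1
  · obtain ⟨h1, h2, h3⟩ := s7qA_cosh_sinh (D.v_mem hy)
    have e3 : Complex.exp (-(3 * I * mg y)) = Complex.exp (-(I * mg y)) ^ 3 := by
      rw [← Complex.exp_nat_mul]; congr 1; push_cast; ring
    have hid := s7qg_id (D.v_mem hy)
    have hcu := s7qc_cube (D.v_mem hy)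
    rw [e3, he y hy, ζg, h2]
    have h4 : s7qA (D.v y) / Complex.cosh (s7qA (D.v y)) ^ 2 = s7qA (D.v y) * (1 - D.v y ^ 2) := by
      rw [div_eq_iff (pow_ne_zero 2 h1)]
      linear_combination (-s7qA (D.v y)) * h3
    rw [h4, mul_div_assoc, div_self h1, mul_pow, mul_pow, hcu]
    linear_combination 4 * hid
  · obtain ⟨h1, h2, h3⟩ := s7qA_cosh_sinh (D.v_mem hy)
    have e2 : Complex.exp (-(2 * I * mg y)) = Complex.exp (-(I * mg y)) ^ 2 := by
      rw [← Complex.exp_nat_mul]; congr 1; push_cast; ring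
    rw [(D.ζg_hasDerivAt hy).deriv, e2, he y hy, ζg, h2, s7qP_eq]
    have hv := D.v_ne hy
    have h5 : (1 - D.v y ^ 2) ≠ 0 := by
      intro h0; rw [h0, mul_zero] at h3; exact zero_ne_one h3
    have hI : I ^ 2 = -1 := I_sq
    have hI0 : I ≠ 0 := I_ne_zero
    set Cc := Complex.cosh (s7qA (D.v y)) with hCc
    set u := D.v y with hu
    set c := s7qc u with hc
    field_simp
    rw [hI]
    linear_combination (-(4 * c ^ 2)) * h3

end S7QDisc

end Claimed.Agent.R269
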