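/-
Row 269, P1 Section 7.2-7.3, package BP-S7-modelQ (owner helper83), file D: THE ABSTRACT LOGARITHMIC CHART (HOST-FREE, Mathlib + Lib/CA1Prim).
 Half strip `S = {Re z > z₁, |Im z| < 3π/2}`.   `F` holomorphic on `S`, `F e^{2z} ≈ -2c`.
 * `s7q_decay`:  `‖K'‖ ≤ η e^{-2 Re z}` on `S`  ⟹  `K` has a limit `K∞` at `+∞` and `‖K - K∞‖ ≤ (η/2) e^{-2 Re z}`.
 * `s7q_prim` :  the primitive `Ξ` of `F` which vanishes at `+∞`:  `‖Ξ e^{2z} - c‖ ≤ η/2`.
 * `s7q_chart`:  `Λ = log Ξ = log c - 2z + Log(Ξ e^{2z}/c)` is injective on `S`, and has a holomorphic inverse `Z` on `{Re ℓ < -L₀, |Im ℓ| < 5π/2}`.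
-/
import Claimed.Agent.R269.Lib.CA1Prim

set_option autoImplicit false

namespace Claimed.Agent.R269

open Complex Filter Topology Set Metric
open scoped Real

/-- the half strip in the `z`-plane. -/
def s7qS (z₁ : ℝ) : Set ℂ := {z | z₁ < z.re ∧ |z.im| < 3 * π / 2}

/-- the domain in the `log ξ`-plane. -/
def s7qL (L₀ : ℝ) : Set ℂ := {l | l.re < -L₀ ∧ |l.im| < 5 * π / 2}

theorem s7qS_eqns_cite : True := by have := @s7qS.eq_1; have := @s7qL.eq_1; trivial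

theorem s7qS_isOpen (z₁ : ℝ) : IsOpen (s7qS z₁) :=
  (isOpen_lt continuous_const Complex.continuous_re).inter
    (isOpen_lt (continuous_abs.comp Complex.continuous_im) continuous_const)

theorem s7qL_isOpen (L₀ : ℝ) : IsOpen (s7qL L₀) :=
  (isOpen_lt Complex.continuous_re continuous_const).inter
    (isOpen_lt (continuous_abs.comp Complex.continuous_im) continuous_const)

theorem s7qS_convex (z₁ : ℝ) : Convex ℝ (s7qS z₁) := by
  have h : s7qS z₁ = {z : ℂ | z₁ < z.re} ∩ ({z : ℂ | -(3 * π / 2) < z.im} ∩ {z : ℂ | z.im < 3 * π / 2}) := by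
    ext z
    simp only [s7qS, Set.mem_ofPred_eq, Set.mem_inter_iff, abs_lt]
  rw [h]
  exact (convex_halfSpace_re_gt _).inter ((convex_halfSpace_im_gt _).inter (convex_halfSpace_im_lt _))

theorem s7qS_add {z₁ : ℝ} {z : ℂ} (hz : z ∈ s7qS z₁) {t : ℝ} (ht : 0 ≤ t) : z + (t : ℂ) ∈ s7qS z₁ := by
  refine ⟨?_, ?_⟩
  · simp only [add_re, ofReal_re]; linarith [hz.1]
  · simpa using hz.2

/-- step (1) of `s7q_decay`. -/
theorem s7q_decay_step {z₁ η : ℝ} {K r : ℂ → ℂ}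
    (hK : ∀ z ∈ s7qS z₁, HasDerivAt K (r z) z)
    (hr : ∀ z ∈ s7qS z₁, ‖r z‖ ≤ η * Real.exp (-2 * z.re)) {z : ℂ} (hz : z ∈ s7qS z₁) {t : ℝ}
    (ht : 0 ≤ t) : ‖K (z + (t : ℂ)) - K z‖ ≤ η / 2 * Real.exp (-2 * z.re) := by
  have hη : 0 ≤ η := by
    have h1 := (norm_nonneg _).trans (hr z hz)
    exact nonneg_of_mul_nonneg_left h1 (Real.exp_pos _)
  have hd : ∀ s : ℝ, 0 ≤ s → HasDerivAt (fun s : ℝ => K (z + (s : ℂ)) - K z) (r (z + (s : ℂ))) s := by
    intro s hs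
    have h1 : HasDerivAt (fun w : ℂ => K (z + w)) (r (z + (s : ℂ))) (s : ℂ) :=
      (hK _ (s7qS_add hz hs)).comp_const_add z (s : ℂ)
    exact h1.comp_ofReal.sub_const _
  have hB : ∀ s : ℝ, HasDerivAt (fun s : ℝ => η / 2 * Real.exp (-2 * z.re) * (1 - Real.exp (-2 * s)))
      (η * Real.exp (-2 * z.re) * Real.exp (-2 * s)) s := by
    intro s
    have h1 : HasDerivAt (fun s : ℝ => Real.exp (-2 * s)) (Real.exp (-2 * s) * (-2 * 1)) s :=
      ((hasDerivAt_id s).const_mul (-2 : ℝ)).exp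
    have h2 := ((h1.const_sub 1).const_mul (η / 2 * Real.exp (-2 * z.re)))
    have h3 : η * Real.exp (-2 * z.re) * Real.exp (-2 * s) =
        η / 2 * Real.exp (-2 * z.re) * -(Real.exp (-2 * s) * (-2 * 1)) := by ring
    rw [h3]
    exact h2
  have key := image_norm_le_of_norm_deriv_right_le_deriv_boundary (a := 0) (b := t)
    (f := fun s : ℝ => K (z + (s : ℂ)) - K z) (f' := fun s : ℝ => r (z + (s : ℂ)))
    (B := fun s => η / 2 * Real.exp (-2 * z.re) * (1 - Real.exp (-2 * s)))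
    (B' := fun s => η * Real.exp (-2 * z.re) * Real.exp (-2 * s))
    (fun s hs => (hd s hs.1).continuousAt.continuousWithinAt)
    (fun s hs => (hd s hs.1).hasDerivWithinAt)
    (by simp) hB
    (fun s hs => by
      refine (hr _ (s7qS_add hz hs.1)).trans (le_of_eq ?_)
      rw [mul_assoc, ← Real.exp_add]
      congr 2
      simp
      ring)
    (right_mem_Icc.2 ht)
  refine key.trans ?_
  have h1 : 0 ≤ η / 2 * Real.exp (-2 * z.re) := by positivity
  have h2 : 1 - Real.exp (-2 * t) ≤ 1 := by linarith [Real.exp_pos (-2 * t)]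
  calc η / 2 * Real.exp (-2 * z.re) * (1 - Real.exp (-2 * t))
      ≤ η / 2 * Real.exp (-2 * z.re) * 1 := mul_le_mul_of_nonneg_left h2 h1
    _ = _ := mul_one _

/-- LEAF LF-S7-mq-decay: decay of a function with exponentially small derivative on the half strip.
PLAN. (1) `‖K(z+t) - K z‖ ≤ (η/2) e^{-2 Re z} (1 - e^{-2t})` for `t ≥ 0` (`image_norm_le_of_norm_deriv_right_le_deriv_boundary`, `B s = (η/2) e^{-2 Re z}(1 - e^{-2s})`).
(2) `‖K z - K z'‖ ≤ η e^{-2a} ‖z - z'‖` if `Re z, Re z' ≥ a` (`Convex.norm_image_sub_le_of_norm_hasDerivWithin_le` on `S ∩ {a ≤ Re}`).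
(3) `n ↦ K(x₀ + n)`, `x₀ = z₁ + 1`, is Cauchy by (1) (`cauchySeq_of_le_geometric`): limit `Kinf`.  (4) by (2) `K(z + n) → Kinf` for every `z ∈ S`; pass to the limit in (1). -/
theorem s7q_decay {z₁ η : ℝ} {K r : ℂ → ℂ} (hη : 0 ≤ η)
    (hK : ∀ z ∈ s7qS z₁, HasDerivAt K (r z) z)
    (hr : ∀ z ∈ s7qS z₁, ‖r z‖ ≤ η * Real.exp (-2 * z.re)) :
    ∃ Kinf : ℂ, ∀ z ∈ s7qS z₁, ‖K z - Kinf‖ ≤ η / 2 * Real.exp (-2 * z.re) := by
  have hstep := fun (z : ℂ) (hz : z ∈ s7qS z₁) (t : ℝ) (ht : 0 ≤ t) => s7q_decay_step hK hr hz ht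
  obtain ⟨x₀, hx₀⟩ : ∃ x₀ : ℂ, x₀ = ((z₁ + 1 : ℝ) : ℂ) := ⟨_, rfl⟩
  have hx₀S : x₀ ∈ s7qS z₁ := by
    rw [hx₀]
    refine ⟨by simp, ?_⟩
    simp only [Complex.ofReal_im, abs_zero]
    positivity
  have hSn : ∀ (z : ℂ), z ∈ s7qS z₁ → ∀ n : ℕ, z + ((n : ℝ) : ℂ) ∈ s7qS z₁ := fun z hz n =>
    s7qS_add hz (Nat.cast_nonneg n)
  -- the limit along the real ray
  have hcau : CauchySeq fun n : ℕ => K (x₀ + ((n : ℝ) : ℂ)) := by
    apply cauchySeq_of_le_geometric (Real.exp (-2)) (η / 2 * Real.exp (-2 * x₀.re))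
      (by rw [Real.exp_lt_one_iff]; norm_num)
    intro n
    have h1 := hstep _ (hSn x₀ hx₀S n) 1 zero_le_one
    rw [dist_comm, dist_eq_norm]
    have h2 : x₀ + (((n + 1 : ℕ) : ℝ) : ℂ) = x₀ + ((n : ℝ) : ℂ) + ((1 : ℝ) : ℂ) := by
      push_cast; ring
    rw [h2]
    refine h1.trans (le_of_eq ?_)
    rw [← Real.exp_nat_mul, mul_assoc, ← Real.exp_add]
    congr 2
    simp
    ring
  obtain ⟨Kinf, hKinf⟩ := cauchySeq_tendsto_of_complete hcau
  refine ⟨Kinf, fun z hz => ?_⟩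
  -- the limit along the ray through `z`
  have hlim : Tendsto (fun n : ℕ => K (z + ((n : ℝ) : ℂ))) atTop (𝓝 Kinf) := by
    obtain ⟨a, ha⟩ : ∃ a, a = min z.re x₀.re := ⟨_, rfl⟩
    have hdiff : Tendsto (fun n : ℕ => K (z + ((n : ℝ) : ℂ)) - K (x₀ + ((n : ℝ) : ℂ))) atTop (𝓝 0) := by
      rw [tendsto_zero_iff_norm_tendsto_zero]
      have hb : ∀ n : ℕ, ‖K (z + ((n : ℝ) : ℂ)) - K (x₀ + ((n : ℝ) : ℂ))‖ ≤
          η * Real.exp (-2 * a) * ‖z - x₀‖ * Real.exp (-2) ^ n := by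
        intro n
        have hconv : Convex ℝ (s7qS z₁ ∩ {w : ℂ | a + n ≤ w.re}) :=
          (s7qS_convex z₁).inter (convex_halfSpace_re_ge _)
        have h1 := hconv.norm_image_sub_le_of_norm_hasDerivWithin_le (f := K) (f' := r)
          (C := η * Real.exp (-2 * (a + n)))
          (fun w hw => (hK w hw.1).hasDerivWithinAt)
          (fun w hw => (hr w hw.1).trans (by
            have hw2 : a + n ≤ w.re := hw.2
            exact mul_le_mul_of_nonneg_left (Real.exp_le_exp.2 (by linarith)) hη))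
          (x := x₀ + ((n : ℝ) : ℂ)) (y := z + ((n : ℝ) : ℂ))
          ⟨hSn x₀ hx₀S n, by
            show a + n ≤ (x₀ + ((n : ℝ) : ℂ)).re
            simp only [Complex.add_re, Complex.ofReal_re]
            linarith [ha ▸ min_le_right z.re x₀.re]⟩
          ⟨hSn z hz n, by
            show a + n ≤ (z + ((n : ℝ) : ℂ)).re
            simp only [Complex.add_re, Complex.ofReal_re]
            linarith [ha ▸ min_le_left z.re x₀.re]⟩
        refine h1.trans (le_of_eq ?_)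
        have h2 : z + ((n : ℝ) : ℂ) - (x₀ + ((n : ℝ) : ℂ)) = z - x₀ := by ring
        have h3 : Real.exp (-2 * (a + n)) = Real.exp (-2 * a) * Real.exp (-2) ^ n := by
          rw [← Real.exp_nat_mul, ← Real.exp_add]
          congr 1
          ring
        rw [h2, h3]
        ring
      have hgeo : Tendsto (fun n : ℕ => η * Real.exp (-2 * a) * ‖z - x₀‖ * Real.exp (-2) ^ n) atTop
          (𝓝 (η * Real.exp (-2 * a) * ‖z - x₀‖ * 0)) :=
        (tendsto_pow_atTop_nhds_zero_of_lt_one (Real.exp_pos _).le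
          (by rw [Real.exp_lt_one_iff]; norm_num)).const_mul _
      rw [mul_zero] at hgeo
      exact squeeze_zero (fun n => norm_nonneg _) hb hgeo
    have := hdiff.add hKinf
    simpa using this
  have hle : ∀ n : ℕ, ‖K (z + ((n : ℝ) : ℂ)) - K z‖ ≤ η / 2 * Real.exp (-2 * z.re) := fun n =>
    hstep z hz n (Nat.cast_nonneg n)
  have h1 : Tendsto (fun n : ℕ => ‖K (z + ((n : ℝ) : ℂ)) - K z‖) atTop (𝓝 ‖Kinf - K z‖) :=
    (hlim.sub_const _).norm
  rw [norm_sub_rev]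
  exact le_of_tendsto h1 (Eventually.of_forall hle)

/-- LEAF LF-S7-mq-prim: the primitive of `F` which vanishes at `+∞`.
PLAN. `G` = a primitive (`ca_exists_primitive`, `s7qS_convex`), `K = G - c e^{-2z}`, `K' = (F e^{2z} + 2c) e^{-2z}`; `s7q_decay` gives `Kinf`; `Ξ = G - Kinf`, `Ξ e^{2z} - c = (K - Kinf) e^{2z}`. -/
theorem s7q_prim {z₁ c η : ℝ} {F : ℂ → ℂ} (hη : 0 ≤ η) (hF : DifferentiableOn ℂ F (s7qS z₁))
    (hb : ∀ z ∈ s7qS z₁, ‖F z * Complex.exp (2 * z) + 2 * c‖ ≤ η) :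
    ∃ Ξ : ℂ → ℂ, (∀ z ∈ s7qS z₁, HasDerivAt Ξ (F z) z) ∧
      ∀ z ∈ s7qS z₁, ‖Ξ z * Complex.exp (2 * z) - c‖ ≤ η / 2 := by
  obtain ⟨G, -, hG⟩ := ca_exists_primitive (s7qS_isOpen z₁) (s7qS_convex z₁) hF 0 0
  have hexp : ∀ z : ℂ, HasDerivAt (fun z : ℂ => (c : ℂ) * Complex.exp (-2 * z))
      ((c : ℂ) * (Complex.exp (-2 * z) * (-2 * 1))) z := fun z =>
    (((hasDerivAt_id z).const_mul (-2 : ℂ)).cexp).const_mul (c : ℂ)
  have hee : ∀ z : ℂ, Complex.exp (2 * z) * Complex.exp (-2 * z) = 1 := by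
    intro z
    rw [← Complex.exp_add]
    have : 2 * z + -2 * z = 0 := by ring
    rw [this, Complex.exp_zero]
  obtain ⟨Kinf, hKinf⟩ := s7q_decay (z₁ := z₁) (η := η)
    (K := fun z => G z - (c : ℂ) * Complex.exp (-2 * z))
    (r := fun z => F z - (c : ℂ) * (Complex.exp (-2 * z) * (-2 * 1))) hη
    (fun z hz => (hG z hz).sub (hexp z))
    (fun z hz => by
      have h1 : F z - (c : ℂ) * (Complex.exp (-2 * z) * (-2 * 1)) =
          (F z * Complex.exp (2 * z) + 2 * c) * Complex.exp (-2 * z) := by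
        linear_combination (-(F z)) * hee z
      rw [h1, norm_mul, Complex.norm_exp]
      have h2 : (-2 * z).re = -2 * z.re := by simp
      rw [h2]
      exact mul_le_mul_of_nonneg_right (hb z hz) (Real.exp_pos _).le)
  refine ⟨fun z => G z - Kinf, fun z hz => (hG z hz).sub_const _, fun z hz => ?_⟩
  have h1 : (G z - Kinf) * Complex.exp (2 * z) - c =
      (G z - (c : ℂ) * Complex.exp (-2 * z) - Kinf) * Complex.exp (2 * z) := by
    linear_combination (c : ℂ) * hee z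
  rw [h1, norm_mul, Complex.norm_exp]
  have h2 : (2 * z).re = 2 * z.re := by simp
  rw [h2]
  calc ‖G z - (c : ℂ) * Complex.exp (-2 * z) - Kinf‖ * Real.exp (2 * z.re)
      ≤ η / 2 * Real.exp (-2 * z.re) * Real.exp (2 * z.re) :=
        mul_le_mul_of_nonneg_right (hKinf z hz) (Real.exp_pos _).le
    _ = η / 2 := by
        rw [mul_assoc, ← Real.exp_add]
        have : -2 * z.re + 2 * z.re = 0 := by ring
        rw [this, Real.exp_zero, mul_one]

/-- LEAF LF-S7-mq-chart: the logarithmic chart and its inverse.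
PLAN. `u = Ξ e^{2z}/c - 1`, `‖u‖ ≤ 1/10`;  `E = Log(1 + u)`, `‖E‖ ≤ 3/20` (`Complex.norm_log_one_add_half_le_self`);  `Λ = log c - 2z + E`.   `E' = (F e^{2z} + 2 Ξ e^{2z})/(Ξ e^{2z})`, `‖E'‖ ≤ (c/5 + c/5)/(9c/10) = 4/9`.
`f = -Λ/2 = z - (log c + E)/2` satisfies `ApproximatesLinearOn f (ContinuousLinearEquiv.refl ℂ ℂ) S (1/4)` (mean value inequality on the convex `S`);  `e = toOpenPartialHomeomorph`, `Z l = e.symm (-l/2)`.
Target: for `l` in the domain put `b = (log c - l)/2`: `closedBall b (1/2) ⊆ S` (`5π/4 + 1/2 < 3π/2`), `f b = -l/2 - E(b)/2`, so `-l/2 ∈ closedBall (f b) ((1 - 1/4)/2)` (`ApproximatesLinearOn.closedBall_subset_target`).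
Differentiability: `OpenPartialHomeomorph.hasDerivAt_symm` (`f' = 1 - E'/2 ≠ 0`). -/
theorem s7q_chart {z₁ c : ℝ} {F Ξ : ℂ → ℂ} (hc : 0 < c)
    (hb : ∀ z ∈ s7qS z₁, ‖F z * Complex.exp (2 * z) + 2 * c‖ ≤ c / 5)
    (hΞ : ∀ z ∈ s7qS z₁, HasDerivAt Ξ (F z) z)
    (hΞb : ∀ z ∈ s7qS z₁, ‖Ξ z * Complex.exp (2 * z) - c‖ ≤ c / 10) :
    ∃ Λ Z : ℂ → ℂ, (∀ z ∈ s7qS z₁, Complex.exp (Λ z) = Ξ z) ∧
      (∀ z ∈ s7qS z₁, ‖Λ z - ((Real.log c : ℂ) - 2 * z)‖ ≤ 3 / 20) ∧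
      InjOn Λ (s7qS z₁) ∧
      (∀ l ∈ s7qL (2 * z₁ + 1 - Real.log c), Z l ∈ s7qS z₁ ∧ Λ (Z l) = l) ∧
      DifferentiableOn ℂ Z (s7qL (2 * z₁ + 1 - Real.log c)) := by
  have hcC : (c : ℂ) ≠ 0 := by exact_mod_cast hc.ne'
  obtain ⟨W, hW⟩ : ∃ W : ℂ → ℂ, W = fun z => Ξ z * Complex.exp (2 * z) / c := ⟨_, rfl⟩
  obtain ⟨W', hW'⟩ : ∃ W' : ℂ → ℂ, W' = fun z =>
      (F z * Complex.exp (2 * z) + 2 * (Ξ z * Complex.exp (2 * z))) / c := ⟨_, rfl⟩
  have hW1 : ∀ z ∈ s7qS z₁, ‖W z - 1‖ ≤ 1 / 10 := by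
    intro z hz
    have h1 : W z - 1 = (Ξ z * Complex.exp (2 * z) - c) / c := by rw [hW]; field_simp
    rw [h1, norm_div, Complex.norm_real, Real.norm_of_nonneg hc.le, div_le_iff₀ hc]
    linarith [hΞb z hz]
  have hWs : ∀ z ∈ s7qS z₁, W z ∈ Complex.slitPlane := by
    intro z hz
    have := Complex.mem_slitPlane_of_norm_lt_one (z := W z - 1)
      (lt_of_le_of_lt (hW1 z hz) (by norm_num))
    rwa [add_sub_cancel] at this
  have hWd : ∀ z ∈ s7qS z₁, HasDerivAt W (W' z) z := by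
    intro z hz
    have h1 : HasDerivAt (fun z : ℂ => Complex.exp (2 * z)) (Complex.exp (2 * z) * (2 * 1)) z :=
      ((hasDerivAt_id z).const_mul (2 : ℂ)).cexp
    have h2 := ((hΞ z hz).mul h1).div_const (c : ℂ)
    have h3 : W' z = (F z * Complex.exp (2 * z) + Ξ z * (Complex.exp (2 * z) * (2 * 1))) / c := by
      rw [hW']; ring
    rw [hW, h3]
    exact h2
  obtain ⟨E, hE⟩ : ∃ E : ℂ → ℂ, E = fun z => Complex.log (W z) := ⟨_, rfl⟩
  have hEn : ∀ z ∈ s7qS z₁, ‖E z‖ ≤ 3 / 20 := by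
    intro z hz
    have h1 := Complex.norm_log_one_add_half_le_self (z := W z - 1)
      ((hW1 z hz).trans (by norm_num))
    rw [add_sub_cancel] at h1
    rw [hE]
    linarith [hW1 z hz]
  have hEd : ∀ z ∈ s7qS z₁, HasDerivAt E (W' z / W z) z := by
    intro z hz
    rw [hE]
    exact (hWd z hz).clog (hWs z hz)
  have hE' : ∀ z ∈ s7qS z₁, ‖W' z / W z‖ ≤ 4 / 9 := by
    intro z hz
    have h1 : ‖W' z‖ ≤ 2 / 5 := by
      have h2 : W' z = ((F z * Complex.exp (2 * z) + 2 * c) +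
          2 * (Ξ z * Complex.exp (2 * z) - c)) / c := by rw [hW']; ring
      rw [h2, norm_div, Complex.norm_real, Real.norm_of_nonneg hc.le, div_le_iff₀ hc]
      calc ‖(F z * Complex.exp (2 * z) + 2 * c) + 2 * (Ξ z * Complex.exp (2 * z) - c)‖
          ≤ ‖F z * Complex.exp (2 * z) + 2 * c‖ + ‖2 * (Ξ z * Complex.exp (2 * z) - c)‖ :=
            norm_add_le _ _
        _ = ‖F z * Complex.exp (2 * z) + 2 * c‖ + 2 * ‖Ξ z * Complex.exp (2 * z) - c‖ := by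
            rw [norm_mul]; norm_num
        _ ≤ 2 / 5 * c := by linarith [hb z hz, hΞb z hz]
    have h3 : 9 / 10 ≤ ‖W z‖ := by
      have h4 : ‖(1 : ℂ)‖ ≤ ‖W z‖ + ‖W z - 1‖ := by
        have := norm_sub_le (W z) (W z - 1)
        rwa [sub_sub_cancel] at this
      rw [norm_one] at h4
      linarith [hW1 z hz]
    rw [norm_div, div_le_iff₀ (by linarith)]
    linarith
  obtain ⟨Λ, hΛ⟩ : ∃ Λ : ℂ → ℂ, Λ = fun z => (Real.log c : ℂ) - 2 * z + E z := ⟨_, rfl⟩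
  obtain ⟨f, hf⟩ : ∃ f : ℂ → ℂ, f = fun z => z - ((Real.log c : ℂ) + E z) / 2 := ⟨_, rfl⟩
  have hfΛ : ∀ z, Λ z = -2 * f z := by intro z; rw [hΛ, hf]; ring
  have hlip : ∀ x ∈ s7qS z₁, ∀ y ∈ s7qS z₁, ‖E x - E y‖ ≤ 4 / 9 * ‖x - y‖ := by
    intro x hx y hy
    exact (s7qS_convex z₁).norm_image_sub_le_of_norm_hasDerivWithin_le (f := E)
      (f' := fun z => W' z / W z) (fun w hw => (hEd w hw).hasDerivWithinAt) hE' hy hx
  have happ : ApproximatesLinearOn f ((ContinuousLinearEquiv.refl ℂ ℂ : ℂ ≃L[ℂ] ℂ) : ℂ →L[ℂ] ℂ)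
      (s7qS z₁) (1 / 4 : NNReal) := by
    intro x hx y hy
    have h1 : f x - f y - ((ContinuousLinearEquiv.refl ℂ ℂ : ℂ ≃L[ℂ] ℂ) : ℂ →L[ℂ] ℂ) (x - y) =
        -((E x - E y) / 2) := by
      rw [hf]
      simp only [ContinuousLinearEquiv.coe_refl, ContinuousLinearMap.coe_id', id_eq]
      ring
    rw [h1, norm_neg, norm_div]
    have h2 := hlip x hx y hy
    have h3 := norm_nonneg (x - y)
    have h4 : ‖(2 : ℂ)‖ = 2 := by norm_num
    rw [h4]
    push_cast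
    linarith
  have hN : ‖((ContinuousLinearEquiv.refl ℂ ℂ : ℂ ≃L[ℂ] ℂ).symm : ℂ →L[ℂ] ℂ)‖₊ = 1 := by
    apply NNReal.eq
    simp
  have hcN : Subsingleton ℂ ∨
      (1 / 4 : NNReal) < ‖((ContinuousLinearEquiv.refl ℂ ℂ : ℂ ≃L[ℂ] ℂ).symm : ℂ →L[ℂ] ℂ)‖₊⁻¹ := by
    right
    rw [hN, inv_one]
    norm_num
  obtain ⟨e, he⟩ : ∃ e : OpenPartialHomeomorph ℂ ℂ,
      e = happ.toOpenPartialHomeomorph f (s7qS z₁) hcN (s7qS_isOpen z₁) := ⟨_, rfl⟩
  have hecoe : ∀ z, e z = f z := fun z => by rw [he]; rfl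
  have hesrc : e.source = s7qS z₁ := by rw [he]; rfl
  have hπ := Real.pi_gt_three
  -- the target
  have htar : ∀ l ∈ s7qL (2 * z₁ + 1 - Real.log c), -l / 2 ∈ e.target := by
    intro l hl
    obtain ⟨b, hbdef⟩ : ∃ b : ℂ, b = ((Real.log c : ℂ) - l) / 2 := ⟨_, rfl⟩
    have hbre : b.re = (Real.log c - l.re) / 2 := by rw [hbdef]; simp
    have hbim : b.im = -l.im / 2 := by rw [hbdef]; simp
    have hball : closedBall b (1 / 2) ⊆ s7qS z₁ := by
      intro w hw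
      rw [mem_closedBall, dist_eq_norm] at hw
      have h1 := abs_le.1 ((Complex.abs_re_le_norm _).trans hw)
      have h2 := abs_le.1 ((Complex.abs_im_le_norm _).trans hw)
      rw [Complex.sub_re, hbre] at h1
      rw [Complex.sub_im, hbim] at h2
      have h3 := hl.1
      have h4 := abs_lt.1 hl.2
      refine ⟨by linarith [h1.1], ?_⟩
      rw [abs_lt]
      constructor <;> linarith [h2.1, h2.2, h4.1, h4.2]
    have hbS : b ∈ s7qS z₁ := hball (mem_closedBall_self (by norm_num))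
    have hsub := happ.closedBall_subset_target hcN (s7qS_isOpen z₁) (b := b) (ε := 1 / 2)
      (by norm_num) hball
    rw [he]
    apply hsub
    rw [mem_closedBall, dist_eq_norm, hN]
    have h1 : -l / 2 - f b = E b / 2 := by rw [hf, hbdef]; ring
    rw [h1, norm_div]
    have h4 : ‖(2 : ℂ)‖ = 2 := by norm_num
    rw [h4]
    push_cast
    have := hEn b hbS
    norm_num
    linarith
  refine ⟨Λ, fun l => e.symm (-l / 2), ?_, ?_, ?_, ?_, ?_⟩
  · intro z hz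
    have h1 : Complex.exp (Real.log c : ℂ) = c := by
      rw [← Complex.ofReal_exp, Real.exp_log hc]
    have h2 : Complex.exp (E z) = W z := by
      rw [hE]; exact Complex.exp_log (Complex.slitPlane_ne_zero (hWs z hz))
    have h3 : Complex.exp (2 * z) * Complex.exp (-(2 * z)) = 1 := by
      rw [← Complex.exp_add, add_neg_cancel, Complex.exp_zero]
    rw [hΛ]
    simp only []
    rw [Complex.exp_add, sub_eq_add_neg, Complex.exp_add, h1, h2, hW]
    field_simp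
    linear_combination (Ξ z) * h3
  · intro z hz
    have h1 : Λ z - ((Real.log c : ℂ) - 2 * z) = E z := by rw [hΛ]; ring
    rw [h1]
    exact hEn z hz
  · intro x hx y hy hxy
    apply happ.injOn hcN hx hy
    have h1 := hfΛ x
    have h2 := hfΛ y
    rw [hxy, h2] at h1
    have h3 : (-2 : ℂ) ≠ 0 := by norm_num
    exact (mul_left_cancel₀ h3 h1).symm
  · intro l hl
    have h1 := e.map_target (htar l hl)
    have h2 := e.right_inv (htar l hl)
    rw [hesrc] at h1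
    refine ⟨h1, ?_⟩
    rw [hfΛ, ← hecoe, h2]
    ring
  · intro l hl
    have h1 := e.map_target (htar l hl)
    rw [hesrc] at h1
    obtain ⟨ζ, hζ⟩ : ∃ ζ, ζ = e.symm (-l / 2) := ⟨_, rfl⟩
    rw [← hζ] at h1
    have hfd : HasDerivAt e (1 - W' ζ / W ζ / 2) ζ := by
      have h2 : (e : ℂ → ℂ) = f := funext hecoe
      rw [h2, hf]
      exact (hasDerivAt_id ζ).sub (((hEd ζ h1).const_add _).div_const 2)
    have hne : (1 - W' ζ / W ζ / 2 : ℂ) ≠ 0 := by
      intro h0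
      have h2 : W' ζ / W ζ = 2 := by linear_combination (-2) * h0
      have h3 := hE' ζ h1
      rw [h2] at h3
      norm_num at h3
    have hs := e.hasDerivAt_symm (htar l hl) hne (hζ ▸ hfd)
    have hlin : HasDerivAt (fun l : ℂ => -l / 2) (-1 / 2) l := (hasDerivAt_id l).neg.div_const 2
    exact (hs.comp l hlin).differentiableAt.differentiableWithinAt

end Claimed.Agent.R269
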