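/-
Row 269, P1 Section 7.2-7.3, package BP-S7-modelQ (owner helper83), file E: THE CONCRETE CHART OF THE SECOND PROFILE NEAR THE BRANCH POINT.
 `T(z) = tanh z - z sech² z`,  `M(z) = (i/3) Log(12 T)` (so `e^{-iM} = (12T)^{1/3}`),  `F(z) = -4 sinh z/(cosh³ z (12T)^{2/3})`,  `c_Q = 8/12^{2/3}`.
 LEAF `s7qF_asymp` (HOST-FREE).  With `q = e^{-2z}`:  `sinh z = e^z (1-q)/2`, `cosh z = e^z (1+q)/2`, `T = (1-q)/(1+q) - 4 z q/(1+q)²`, `F e^{2z} = Φ(q, z q)`,
   `Φ(q,s) = -16 (1-q)/((1+q)³ exp((2/3) Log(12 ((1-q)/(1+q) - 4 s/(1+q)²))))` is continuous at `(0,0)` with `Φ(0,0) = -16/12^{2/3} = -2 c_Q`;  on the half strip `|q| = e^{-2 Re z}`, `|z q| ≤ (Re z + 5) e^{-2 Re z} ≤ 2 e^{-Re z}` for `Re z ≥ 5`.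
-/
import Claimed.Agent.R269.S7.ModelQD

set_option autoImplicit false

namespace Claimed.Agent.R269

open Complex Filter Topology Set Metric
open scoped Real

/-- `T = tanh z - z sech² z`. -/
noncomputable def s7qT (z : ℂ) : ℂ := Complex.sinh z / Complex.cosh z - z / Complex.cosh z ^ 2

/-- `M = (i/3) Log (12 T)`. -/
noncomputable def s7qM (z : ℂ) : ℂ := I / 3 * Complex.log (12 * s7qT z)

/-- `F = -4 tanh z sech² z/(12 T)^{2/3}`. -/
noncomputable def s7qF (z : ℂ) : ℂ :=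
  -4 * Complex.sinh z / (Complex.cosh z ^ 3 * Complex.exp (2 * Complex.log (12 * s7qT z) / 3))

/-- `c_Q = 8/12^{2/3}`. -/
noncomputable def s7qcQ : ℝ := 8 * Real.exp (-(2 * Real.log 12 / 3))

theorem s7qT_eqns_cite : True := by
  have := @s7qT.eq_1; have := @s7qM.eq_1; have := @s7qF.eq_1; have := @s7qcQ.eq_1; trivial

theorem s7qcQ_pos : 0 < s7qcQ := by rw [s7qcQ]; positivity

/-- LEAF LF-S7-mq-asymp: asymptotics on the half strip. -/
theorem s7qF_asymp {η : ℝ} (hη : 0 < η) : ∃ z₁ : ℝ, ∀ z ∈ s7qS z₁,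
    Complex.cosh z ≠ 0 ∧ Complex.sinh z ≠ 0 ∧ 0 < (s7qT z).re ∧
      ‖s7qF z * Complex.exp (2 * z) + 2 * s7qcQ‖ ≤ η := by
  obtain ⟨τ, hτ⟩ : ∃ τ : ℂ × ℂ → ℂ, τ = fun p => (1 - p.1) / (1 + p.1) - 4 * p.2 / (1 + p.1) ^ 2 :=
    ⟨_, rfl⟩
  obtain ⟨Φ, hΦ⟩ : ∃ Φ : ℂ × ℂ → ℂ, Φ = fun p =>
      -16 * (1 - p.1) / ((1 + p.1) ^ 3 * Complex.exp (2 * Complex.log (12 * τ p) / 3)) := ⟨_, rfl⟩
  have hτ0 : τ (0, 0) = 1 := by rw [hτ]; simp
  have hτc : ContinuousAt τ (0, 0) := by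
    rw [hτ]
    apply ContinuousAt.sub
    · exact ContinuousAt.div (by fun_prop) (by fun_prop) (by simp)
    · exact ContinuousAt.div (by fun_prop) (by fun_prop) (by simp)
  have hslit : 12 * τ (0, 0) ∈ slitPlane := by
    rw [hτ0, mul_one]
    left
    norm_num
  have hΦc : ContinuousAt Φ (0, 0) := by
    rw [hΦ]
    refine ContinuousAt.div (by fun_prop) (ContinuousAt.mul (by fun_prop) ?_) ?_
    · exact ((continuousAt_const.mul ((continuousAt_const.mul hτc).clog hslit)).div_const 3).cexp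
    · simp [Complex.exp_ne_zero]
  have hΦ0 : Φ (0, 0) = -(2 * (s7qcQ : ℂ)) := by
    rw [hΦ]
    simp only [hτ0]
    have h1 : Complex.log (12 * 1) = (Real.log 12 : ℂ) := by
      rw [mul_one, Complex.ofReal_log (by norm_num)]
      norm_num
    rw [h1, s7qcQ]
    push_cast
    rw [Complex.exp_neg]
    have := Complex.exp_ne_zero (2 * (Real.log 12 : ℂ) / 3)
    field_simp
    ring
  have hev : ∀ᶠ p in 𝓝 ((0 : ℂ), (0 : ℂ)), 0 < (τ p).re ∧ Φ p ∈ ball (Φ (0, 0)) η ∧ ‖p.1‖ < 1 := by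
    refine (hτc.eventually ((isOpen_lt continuous_const Complex.continuous_re).mem_nhds ?_)).and
      ((hΦc.eventually (ball_mem_nhds _ hη)).and ?_)
    · show 0 < (τ (0, 0)).re
      rw [hτ0]; norm_num
    · have : ContinuousAt (fun p : ℂ × ℂ => ‖p.1‖) (0, 0) := by fun_prop
      exact this.eventually (gt_mem_nhds (by simp))
  obtain ⟨δ, hδ, hball⟩ := Metric.eventually_nhds_iff_ball.1 hev
  refine ⟨max 5 (Real.log (2 / δ)), fun z hz => ?_⟩
  obtain ⟨hz1, hz2⟩ := hz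
  have hx5 : 5 < z.re := lt_of_le_of_lt (le_max_left _ _) hz1
  have hxδ : Real.log (2 / δ) < z.re := lt_of_le_of_lt (le_max_right _ _) hz1
  have hπ := Real.pi_lt_d2
  have hexδ : Real.exp (-z.re) < δ / 2 := by
    have h1 : Real.exp (-z.re) < Real.exp (-Real.log (2 / δ)) := Real.exp_lt_exp.2 (by linarith)
    rw [Real.exp_neg (Real.log (2 / δ)), Real.exp_log (by positivity), inv_div] at h1
    exact h1
  obtain ⟨q, hq⟩ : ∃ q, q = Complex.exp (-2 * z) := ⟨_, rfl⟩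
  obtain ⟨w, hw⟩ : ∃ w, w = Complex.exp z := ⟨_, rfl⟩
  have hw0 : w ≠ 0 := hw ▸ Complex.exp_ne_zero z
  have hqw : q = (w ^ 2)⁻¹ := by
    rw [hq, hw, ← Complex.exp_nat_mul, ← Complex.exp_neg]
    congr 1
    push_cast
    ring
  have hqn : ‖q‖ = Real.exp (-z.re) * Real.exp (-z.re) := by
    rw [hq, Complex.norm_exp, ← Real.exp_add]
    congr 1
    simp
    ring
  have he1 : Real.exp (-z.re) < 1 := by rw [Real.exp_lt_one_iff]; linarith
  have he0 := Real.exp_pos (-z.re)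
  have hqδ : ‖q‖ < δ := by
    rw [hqn]
    nlinarith
  have hzn : ‖z‖ ≤ 2 * Real.exp z.re := by
    have h1 := Complex.norm_le_abs_re_add_abs_im z
    have h2 := Real.add_one_le_exp z.re
    rw [abs_of_pos (by linarith : 0 < z.re)] at h1
    linarith
  have hsδ : ‖z * q‖ < δ := by
    rw [norm_mul, hqn]
    have h1 : Real.exp z.re * Real.exp (-z.re) = 1 := by rw [← Real.exp_add]; simp
    calc ‖z‖ * (Real.exp (-z.re) * Real.exp (-z.re))
        ≤ 2 * Real.exp z.re * (Real.exp (-z.re) * Real.exp (-z.re)) :=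
          mul_le_mul_of_nonneg_right hzn (by positivity)
      _ = 2 * (Real.exp z.re * Real.exp (-z.re)) * Real.exp (-z.re) := by ring
      _ = 2 * Real.exp (-z.re) := by rw [h1, mul_one]
      _ < δ := by linarith
  have hp : (q, z * q) ∈ ball ((0 : ℂ), (0 : ℂ)) δ := by
    rw [mem_ball, dist_eq_norm, Prod.norm_def]
    simpa using ⟨hqδ, by simpa using hsδ⟩
  obtain ⟨hτp, hΦp, hq1⟩ := hball _ hp
  have hq1' : ‖q‖ < 1 := hq1
  have h1q : 1 + q ≠ 0 := by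
    intro h
    have : q = -1 := by linear_combination h
    rw [this, norm_neg, norm_one] at hq1'
    exact lt_irrefl _ hq1'
  have h1q' : 1 - q ≠ 0 := by
    intro h
    have : q = 1 := by linear_combination -h
    rw [this, norm_one] at hq1'
    exact lt_irrefl _ hq1'
  have hw2 : w ^ 2 + 1 ≠ 0 := by
    intro h
    apply h1q
    rw [hqw]
    field_simp
    linear_combination h
  have hw2' : w ^ 2 - 1 ≠ 0 := by
    intro h
    apply h1q'
    rw [hqw]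
    field_simp
    linear_combination h
  have hcosh : Complex.cosh z = (w ^ 2 + 1) / (2 * w) := by
    rw [Complex.cosh, Complex.exp_neg, ← hw]
    field_simp
  have hsinh : Complex.sinh z = (w ^ 2 - 1) / (2 * w) := by
    rw [Complex.sinh, Complex.exp_neg, ← hw]
    field_simp
  have hT : s7qT z = τ (q, z * q) := by
    rw [s7qT, hτ, hcosh, hsinh]
    simp only []
    rw [hqw]
    field_simp
    ring
  have he2 : Complex.exp (2 * z) = w ^ 2 := by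
    rw [hw, ← Complex.exp_nat_mul]
    push_cast
    rfl
  have hF : s7qF z * Complex.exp (2 * z) = Φ (q, z * q) := by
    rw [s7qF, hΦ, hT, hcosh, hsinh, he2]
    simp only []
    have := Complex.exp_ne_zero (2 * Complex.log (12 * τ (q, z * q)) / 3)
    rw [hqw]
    field_simp
    ring
  refine ⟨?_, ?_, ?_, ?_⟩
  · rw [hcosh]; exact div_ne_zero hw2 (mul_ne_zero two_ne_zero hw0)
  · rw [hsinh]; exact div_ne_zero hw2' (mul_ne_zero two_ne_zero hw0)
  · rw [hT]; exact hτp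
  · rw [hF]
    rw [mem_ball, dist_eq_norm, hΦ0, sub_neg_eq_add] at hΦp
    exact hΦp.le

/-- the chart data. -/
structure S7QChart where
  z₁ : ℝ
  L₀ : ℝ
  Ξ : ℂ → ℂ
  Λ : ℂ → ℂ
  Z : ℂ → ℂ
  cosh_ne : ∀ z ∈ s7qS z₁, Complex.cosh z ≠ 0
  sinh_ne : ∀ z ∈ s7qS z₁, Complex.sinh z ≠ 0
  T_re : ∀ z ∈ s7qS z₁, 0 < (s7qT z).re
  Ξ_deriv : ∀ z ∈ s7qS z₁, HasDerivAt Ξ (s7qF z) z
  Ξ_bound : ∀ z ∈ s7qS z₁, ‖Ξ z‖ ≤ 2 * s7qcQ * Real.exp (-2 * z.re)
  exp_Λ : ∀ z ∈ s7qS z₁, Complex.exp (Λ z) = Ξ z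
  Λ_near : ∀ z ∈ s7qS z₁, ‖Λ z - ((Real.log s7qcQ : ℂ) - 2 * z)‖ ≤ 3 / 20
  Λ_inj : InjOn Λ (s7qS z₁)
  Z_mem : ∀ l ∈ s7qL L₀, Z l ∈ s7qS z₁
  Λ_Z : ∀ l ∈ s7qL L₀, Λ (Z l) = l
  Z_diff : DifferentiableOn ℂ Z (s7qL L₀)

theorem s7qT_diffAt {z : ℂ} (hc : Complex.cosh z ≠ 0) : DifferentiableAt ℂ s7qT z := by
  unfold s7qT
  exact (Complex.differentiable_sinh.differentiableAt.div Complex.differentiable_cosh.differentiableAt hc).sub
    (differentiableAt_id.div (Complex.differentiable_cosh.differentiableAt.pow 2) (pow_ne_zero 2 hc))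

theorem s7qT_slit {z : ℂ} (h : 0 < (s7qT z).re) : 12 * s7qT z ∈ slitPlane := by
  left
  have : (12 * s7qT z).re = 12 * (s7qT z).re := by simp
  rw [this]; positivity

theorem s7qM_diffAt {z : ℂ} (hc : Complex.cosh z ≠ 0) (h : 0 < (s7qT z).re) :
    DifferentiableAt ℂ s7qM z := by
  unfold s7qM
  exact (((s7qT_diffAt hc).const_mul 12).clog (s7qT_slit h)).const_mul _

theorem s7qF_diffAt {z : ℂ} (hc : Complex.cosh z ≠ 0) (h : 0 < (s7qT z).re) :
    DifferentiableAt ℂ s7qF z := by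
  unfold s7qF
  refine (Complex.differentiable_sinh.differentiableAt.const_mul (-4)).div
    ((Complex.differentiable_cosh.differentiableAt.pow 3).mul
      (((((s7qT_diffAt hc).const_mul 12).clog (s7qT_slit h)).const_mul 2).div_const 3).cexp)
    (mul_ne_zero (pow_ne_zero 3 hc) (Complex.exp_ne_zero _))

theorem s7q_chart_exists : Nonempty S7QChart := by
  obtain ⟨z₁, h⟩ := s7qF_asymp (η := s7qcQ / 5) (by linarith [s7qcQ_pos])
  have hF : DifferentiableOn ℂ s7qF (s7qS z₁) := fun z hz =>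
    (s7qF_diffAt (h z hz).1 (h z hz).2.2.1).differentiableWithinAt
  obtain ⟨Ξ, hΞ, hΞb⟩ := s7q_prim (c := s7qcQ) (by linarith [s7qcQ_pos]) hF (fun z hz => (h z hz).2.2.2)
  have hΞb' : ∀ z ∈ s7qS z₁, ‖Ξ z * Complex.exp (2 * z) - s7qcQ‖ ≤ s7qcQ / 10 := fun z hz => by
    have := hΞb z hz; linarith
  obtain ⟨Λ, Z, h1, h2, h3, h4, h5⟩ := s7q_chart s7qcQ_pos (fun z hz => (h z hz).2.2.2) hΞ hΞb'
  refine ⟨⟨z₁, _, Ξ, Λ, Z, fun z hz => (h z hz).1, fun z hz => (h z hz).2.1,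
    fun z hz => (h z hz).2.2.1, hΞ, fun z hz => ?_, h1, h2, h3, fun l hl => (h4 l hl).1,
    fun l hl => (h4 l hl).2, h5⟩⟩
  have e1 : ‖Ξ z * Complex.exp (2 * z)‖ ≤ 2 * s7qcQ := by
    have h6 := norm_add_le (Ξ z * Complex.exp (2 * z) - s7qcQ) (s7qcQ : ℂ)
    rw [sub_add_cancel, Complex.norm_real, Real.norm_of_nonneg s7qcQ_pos.le] at h6
    linarith [hΞb' z hz, s7qcQ_pos]
  rw [norm_mul, Complex.norm_exp] at e1
  have e2 : (2 * z).re = 2 * z.re := by simp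
  rw [e2] at e1
  have e3 : Real.exp (-2 * z.re) = (Real.exp (2 * z.re))⁻¹ := by rw [← Real.exp_neg]; congr 1; ring
  rw [e3, ← div_eq_mul_inv, le_div_iff₀ (Real.exp_pos _)]
  exact e1

end Claimed.Agent.R269
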