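/-
Row 269, P1 Section 7.2-7.3, package BP-S7-modelQ (owner helper83), file F: LOCAL SOLUTIONS FROM THE CHART AND THE MATCHING WITH THE HALF-PLANE SOLUTION.
 `ξ = i y + uR`.   `S7QChart.sol_loc`: a holomorphic branch `l` of `log ξ` with values in the chart domain gives the solution `M(Z(l y)) + k₀` (`e^{-i k₀} = 1`), with `s7z = Z(l y)`.
 Matching: on the segment `y = i s`, `s ↑ uR`, everything is real: `Ξ(ζg(is)) = uR - s` (equal derivatives, both sides tend to `0`), hence `ζg = Z(Log ξ)` there, then on the lens by the identity theorem.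
-/
import Claimed.Agent.R269.S7.ModelQC
import Claimed.Agent.R269.S7.ModelQE

set_option autoImplicit false

namespace Claimed.Agent.R269

open Complex Filter Topology Set Metric
open scoped Real

theorem S7QChart.sol_loc (Ch : S7QChart) {Ω : Set ℂ} {l : ℂ → ℂ} {uR : ℝ} {k₀ : ℂ} (hΩ : IsOpen Ω)
    (hl : DifferentiableOn ℂ l Ω) (hmem : ∀ y ∈ Ω, l y ∈ s7qL Ch.L₀)
    (hexp : ∀ y ∈ Ω, Complex.exp (l y) = I * y + uR) (hk : Complex.exp (-(I * k₀)) = 1) :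
    S7Sol false Ω (fun y => s7qM (Ch.Z (l y)) + k₀) ∧
      ∀ y ∈ Ω, s7z (s7qM (Ch.Z (l y)) + k₀) (deriv (fun y => s7qM (Ch.Z (l y)) + k₀) y)
        = Ch.Z (l y) := by
  have hζ : DifferentiableOn ℂ (fun y => Ch.Z (l y)) Ω := Ch.Z_diff.comp hl hmem
  have hS : ∀ y ∈ Ω, Ch.Z (l y) ∈ s7qS Ch.z₁ := fun y hy => Ch.Z_mem _ (hmem y hy)
  have hm : DifferentiableOn ℂ (fun y => s7qM (Ch.Z (l y)) + k₀) Ω := by
    intro y hy
    have h1 : DifferentiableAt ℂ s7qM (Ch.Z (l y)) :=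
      s7qM_diffAt (Ch.cosh_ne _ (hS y hy)) (Ch.T_re _ (hS y hy))
    have h2 : DifferentiableAt ℂ (fun y => Ch.Z (l y)) y := hζ.differentiableAt (hΩ.mem_nhds hy)
    have h3 : DifferentiableAt ℂ (fun y => s7qM (Ch.Z (l y))) y :=
      DifferentiableAt.comp (f := fun y => Ch.Z (l y)) (g := s7qM) y h1 h2
    exact (h3.add_const k₀).differentiableWithinAt
  refine s7q_param hΩ hζ hm (fun y hy => Ch.sinh_ne _ (hS y hy)) (fun y hy => Ch.cosh_ne _ (hS y hy))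
    (fun y hy => ?_) (fun y hy => ?_)
  · have hT : 12 * s7qT (Ch.Z (l y)) ≠ 0 := slitPlane_ne_zero (s7qT_slit (Ch.T_re _ (hS y hy)))
    have e1 : -(3 * I * (s7qM (Ch.Z (l y)) + k₀))
        = Complex.log (12 * s7qT (Ch.Z (l y))) + ((3 : ℕ) : ℂ) * (-(I * k₀)) := by
      rw [s7qM]
      have : I * I = -1 := I_mul_I
      push_cast
      linear_combination (-Complex.log (12 * s7qT (Ch.Z (l y)))) * this
    rw [e1, Complex.exp_add, Complex.exp_nat_mul, hk, Complex.exp_log hT, s7qT]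
    ring
  · have hz := hS y hy
    have h1 : HasDerivAt (fun y => Ch.Z (l y)) (deriv (fun y => Ch.Z (l y)) y) y :=
      (hζ.differentiableAt (hΩ.mem_nhds hy)).hasDerivAt
    have h2 : HasDerivAt (fun y => Ch.Ξ (Ch.Z (l y)))
        (s7qF (Ch.Z (l y)) * deriv (fun y => Ch.Z (l y)) y) y := (Ch.Ξ_deriv _ hz).comp y h1
    have h3 : (fun y => Ch.Ξ (Ch.Z (l y))) =ᶠ[𝓝 y] fun y => I * y + uR := by
      filter_upwards [hΩ.mem_nhds hy] with x hx
      rw [← Ch.exp_Λ _ (hS x hx), Ch.Λ_Z _ (hmem x hx), hexp x hx]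
    have h4 : HasDerivAt (fun y : ℂ => I * y + uR) (I * 1) y :=
      ((hasDerivAt_id y).const_mul I).add_const _
    have h5 := h2.unique (h4.congr_of_eventuallyEq h3)
    have e2 : -(2 * I * (s7qM (Ch.Z (l y)) + k₀))
        = 2 * Complex.log (12 * s7qT (Ch.Z (l y))) / 3 + ((2 : ℕ) : ℂ) * (-(I * k₀)) := by
      rw [s7qM]
      have : I * I = -1 := I_mul_I
      push_cast
      linear_combination (-(2 / 3) * Complex.log (12 * s7qT (Ch.Z (l y)))) * this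
    rw [e2, Complex.exp_add, Complex.exp_nat_mul, hk]
    rw [s7qF] at h5
    have hs := Ch.sinh_ne _ hz
    have hc := Ch.cosh_ne _ hz
    have he := Complex.exp_ne_zero (2 * Complex.log (12 * s7qT (Ch.Z (l y))) / 3)
    set E := Complex.exp (2 * Complex.log (12 * s7qT (Ch.Z (l y))) / 3) with hE
    set S := Complex.sinh (Ch.Z (l y)) with hSd
    set Cc := Complex.cosh (Ch.Z (l y)) with hCd
    set d := deriv (fun y => Ch.Z (l y)) y with hd
    have hI : I ^ 2 = -1 := I_sq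
    have hI0 : I ≠ 0 := I_ne_zero
    field_simp at h5 ⊢
    linear_combination (-I) * h5 - Cc ^ 3 * E * hI

/-- `12 T(artanh v) = (2 v c(v))³`. -/
theorem s7qT_A {v : ℂ} (hv : v ∈ ball (0 : ℂ) 1) : 12 * s7qT (s7qA v) = (2 * v * s7qc v) ^ 3 := by
  obtain ⟨h1, h2, h3⟩ := s7qA_cosh_sinh hv
  have hid := s7qg_id hv
  have hcu := s7qc_cube hv
  have h4 : s7qA v / Complex.cosh (s7qA v) ^ 2 = s7qA v * (1 - v ^ 2) := by
    rw [div_eq_iff (pow_ne_zero 2 h1)]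
    linear_combination (-s7qA v) * h3
  rw [s7qT, h2, h4, mul_div_assoc, div_self h1, mul_pow, mul_pow, hcu]
  linear_combination (-4) * hid

/-- the principal cube root of the cube of a positive real. -/
theorem s7q_cuberoot {a : ℝ} (ha : 0 < a) : Complex.exp (Complex.log ((a : ℂ) ^ 3) / 3) = a := by
  have h1 : ((a : ℂ) ^ 3) = ((a ^ 3 : ℝ) : ℂ) := by push_cast; rfl
  rw [h1, ← Complex.ofReal_log (by positivity), Real.log_pow]
  have h2 : (((3 : ℕ) : ℝ) * Real.log a : ℝ) / (3 : ℂ) = ((Real.log a : ℝ) : ℂ) := by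
    push_cast; ring
  rw [h2, ← Complex.ofReal_exp, Real.exp_log ha]

namespace S7QDisc

variable (D : S7QDisc)

theorem seg_mem {s : ℝ} (hs : s < Real.log D.R) : (s : ℂ) * I ∈ D.H := by
  simpa [H] using hs

theorem seg_exp (s : ℝ) : Complex.exp (-(I * ((s : ℂ) * I))) = ((Real.exp s : ℝ) : ℂ) := by
  rw [show -(I * ((s : ℂ) * I)) = (s : ℂ) by linear_combination (-(s : ℂ)) * I_mul_I]
  push_cast; rfl

/-- the real value of `v` on the segment. -/
noncomputable def rr (s : ℝ) : ℝ := (D.v ((s : ℂ) * I)).re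

theorem rr_eqns_cite : True := by have := @S7QDisc.rr.eq_1; trivial

theorem exp_mem_Ioo {s : ℝ} (hs : s < Real.log D.R) : Real.exp s ∈ Ioo 0 D.R :=
  ⟨Real.exp_pos s, (Real.lt_log_iff_exp_lt D.R_pos).1 hs⟩

theorem v_seg {s : ℝ} (hs : s < Real.log D.R) : D.v ((s : ℂ) * I) = (D.rr s : ℂ) := by
  have h := (D.real _ (D.exp_mem_Ioo hs)).1
  apply Complex.ext
  · simp [rr]
  · rw [v, seg_exp, h]; simp

theorem rr_mem {s : ℝ} (hs : s < Real.log D.R) : D.rr s ∈ Ioo (0 : ℝ) 1 := by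
  have h := (D.real _ (D.exp_mem_Ioo hs)).2
  have h2 := D.v_mem (D.seg_mem hs)
  refine ⟨?_, ?_⟩
  · rw [rr, v, seg_exp]; exact h
  · rw [mem_ball_zero_iff] at h2
    exact (Complex.re_le_norm _).trans_lt h2

theorem rr_tendsto : Tendsto D.rr (𝓝[<] (Real.log D.R)) (𝓝[<] 1) := by
  have h1 : Tendsto Real.exp (𝓝[<] (Real.log D.R)) (𝓝[<] D.R) := by
    refine tendsto_nhdsWithin_iff.2 ⟨?_, ?_⟩
    · have := (Real.continuous_exp.tendsto (Real.log D.R)).mono_left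
        (nhdsWithin_le_nhds (s := Iio (Real.log D.R)))
      rwa [Real.exp_log D.R_pos] at this
    · filter_upwards [self_mem_nhdsWithin] with s hs
      exact (D.exp_mem_Ioo hs).2
  have h2 := (Complex.continuous_re.tendsto (1 : ℂ)).comp (D.lim.comp h1)
  refine tendsto_nhdsWithin_iff.2 ⟨?_, ?_⟩
  · refine h2.congr (fun s => ?_)
    simp [rr, v, seg_exp]
  · filter_upwards [self_mem_nhdsWithin] with s hs
    exact (D.rr_mem hs).2

theorem ζg_seg {s : ℝ} (hs : s < Real.log D.R) : D.ζg ((s : ℂ) * I)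
    = (((Real.log (1 + D.rr s) - Real.log (1 - D.rr s)) / 2 : ℝ) : ℂ) := by
  have h := D.rr_mem hs
  rw [ζg, D.v_seg hs, s7qA_ofReal ⟨by linarith [h.1], h.2⟩]

theorem ζg_seg_tendsto :
    Tendsto (fun s : ℝ => (D.ζg ((s : ℂ) * I)).re) (𝓝[<] (Real.log D.R)) atTop := by
  refine (s7qA_tendsto.comp D.rr_tendsto).congr' ?_
  filter_upwards [self_mem_nhdsWithin] with s hs
  rw [D.ζg_seg hs, Complex.ofReal_re]
  rfl

/-- on the segment the principal cube root is the right one. -/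
theorem lam_seg {s : ℝ} (hs : s < Real.log D.R) :
    Complex.exp (Complex.log (12 * s7qT (D.ζg ((s : ℂ) * I))) / 3)
      = 2 * D.v ((s : ℂ) * I) * s7qc (D.v ((s : ℂ) * I)) := by
  have h := D.rr_mem hs
  rw [ζg, s7qT_A (D.v_mem (D.seg_mem hs)), D.v_seg hs, s7qc_ofReal ⟨h.1.le, h.2⟩]
  have h1 : (2 * (D.rr s : ℂ) * (Real.exp (Real.log (s7qgR (D.rr s)) / 3) : ℂ))
      = ((2 * D.rr s * Real.exp (Real.log (s7qgR (D.rr s)) / 3) : ℝ) : ℂ) := by push_cast; rfl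
  rw [h1, s7q_cuberoot (by have := h.1; positivity)]

/-- `F(ζ) ζ' = i` on the segment. -/
theorem F_seg {s : ℝ} (hs : s < Real.log D.R) :
    s7qF (D.ζg ((s : ℂ) * I)) * (-(I * (D.v ((s : ℂ) * I) * s7qP (D.v ((s : ℂ) * I))))
      / (1 - D.v ((s : ℂ) * I) ^ 2)) = I := by
  have hy := D.seg_mem hs
  obtain ⟨h1, h2, h3⟩ := s7qA_cosh_sinh (D.v_mem hy)
  have hl := D.lam_seg hs
  have e2 : Complex.exp (2 * Complex.log (12 * s7qT (D.ζg ((s : ℂ) * I))) / 3)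
      = Complex.exp (Complex.log (12 * s7qT (D.ζg ((s : ℂ) * I))) / 3) ^ 2 := by
    rw [← Complex.exp_nat_mul]; congr 1; push_cast; ring
  rw [s7qF, e2, hl, s7qP_eq, ζg, h2]
  have hv := D.v_ne hy
  have h5 : (1 - D.v ((s : ℂ) * I) ^ 2) ≠ 0 := by
    intro h0; rw [h0, mul_zero] at h3; exact zero_ne_one h3
  have hc := s7qc_ne (D.v ((s : ℂ) * I))
  set Cc := Complex.cosh (s7qA (D.v ((s : ℂ) * I))) with hCc
  set u := D.v ((s : ℂ) * I) with hu
  set c := s7qc u with hcd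
  field_simp
  linear_combination (-4) * h3

/-- eventually the segment lies in the chart. -/
theorem seg_chart (Ch : S7QChart) : ∃ s₀ < Real.log D.R, ∀ s ∈ Ioo s₀ (Real.log D.R),
    D.ζg ((s : ℂ) * I) ∈ s7qS Ch.z₁ := by
  have h1 := D.ζg_seg_tendsto.eventually (eventually_gt_atTop Ch.z₁)
  obtain ⟨s₀, hs₀, h2⟩ := (mem_nhdsLT_iff_exists_Ioo_subset).1 h1
  refine ⟨s₀, hs₀, fun s hs => ⟨h2 hs, ?_⟩⟩
  rw [D.ζg_seg hs.2, Complex.ofReal_im, abs_zero]
  positivity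

/-- `Ξ(ζg(is)) = uR - s`. -/
theorem Ξ_seg (Ch : S7QChart) {s₀ : ℝ}
    (h0 : ∀ s ∈ Ioo s₀ (Real.log D.R), D.ζg ((s : ℂ) * I) ∈ s7qS Ch.z₁) :
    ∀ s ∈ Ioo s₀ (Real.log D.R), Ch.Ξ (D.ζg ((s : ℂ) * I)) = ((Real.log D.R - s : ℝ) : ℂ) := by
  set uR := Real.log D.R with huR
  set φ : ℝ → ℂ := fun s => Ch.Ξ (D.ζg ((s : ℂ) * I)) - ((uR - s : ℝ) : ℂ) with hφ
  have hder : ∀ s ∈ Ioo s₀ uR, HasDerivAt φ 0 s := by
    intro s hs
    have hγ : HasDerivAt (fun s : ℝ => (s : ℂ) * I) (((1 : ℝ) : ℂ) * I) s :=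
      ((hasDerivAt_id s).ofReal_comp).mul_const I
    have h1 := (Ch.Ξ_deriv _ (h0 s hs)).comp _ (D.ζg_hasDerivAt (D.seg_mem hs.2))
    rw [D.F_seg hs.2] at h1
    have h2 : HasDerivAt (fun s : ℝ => Ch.Ξ (D.ζg ((s : ℂ) * I))) ((((1 : ℝ) : ℂ) * I) • I) s :=
      HasDerivAt.scomp (g₁ := Ch.Ξ ∘ D.ζg) (h := fun s : ℝ => (s : ℂ) * I) s h1 hγ
    have h3 : HasDerivAt (fun s : ℝ => ((uR - s : ℝ) : ℂ)) (((0 - 1 : ℝ)) : ℂ) s :=
      ((hasDerivAt_const s uR).sub (hasDerivAt_id s)).ofReal_comp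
    have h4 := h2.sub h3
    have h5 : (((1 : ℝ) : ℂ) * I) • I - (((0 - 1 : ℝ)) : ℂ) = 0 := by
      simp
    rw [h5] at h4
    exact h4
  have hconst : ∀ s ∈ Ioo s₀ uR, ∀ s' ∈ Ioo s₀ uR, φ s' = φ s := by
    intro s hs s' hs'
    refine isOpen_Ioo.is_const_of_deriv_eq_zero isPreconnected_Ioo
      (fun x hx => (hder x hx).differentiableAt.differentiableWithinAt)
      (fun x hx => (hder x hx).deriv) hs' hs
  intro s hs
  have hlt : s₀ < uR := hs.1.trans hs.2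
  have hlim : Tendsto φ (𝓝[<] uR) (𝓝 0) := by
    have h1 : Tendsto (fun s : ℝ => Ch.Ξ (D.ζg ((s : ℂ) * I))) (𝓝[<] uR) (𝓝 0) := by
      have h2 : Tendsto (fun s : ℝ => 2 * s7qcQ * Real.exp (-2 * (D.ζg ((s : ℂ) * I)).re))
          (𝓝[<] uR) (𝓝 (2 * s7qcQ * 0)) := by
        refine Tendsto.const_mul _ (Real.tendsto_exp_atBot.comp ?_)
        exact D.ζg_seg_tendsto.const_mul_atTop_of_neg (by norm_num)
      rw [mul_zero] at h2
      refine squeeze_zero_norm' ?_ h2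
      filter_upwards [Ioo_mem_nhdsLT hlt] with s hs
      exact Ch.Ξ_bound _ (h0 s hs)
    have h3 : Tendsto (fun s : ℝ => ((uR - s : ℝ) : ℂ)) (𝓝[<] uR) (𝓝 0) := by
      have h4 : Continuous (fun s : ℝ => ((uR - s : ℝ) : ℂ)) := by fun_prop
      have h5 := (h4.tendsto uR).mono_left (nhdsWithin_le_nhds (s := Iio uR))
      simpa using h5
    have h6 := h1.sub h3
    rw [sub_zero] at h6
    exact h6
  have hev : φ =ᶠ[𝓝[<] uR] fun _ => φ s := by
    filter_upwards [Ioo_mem_nhdsLT (hs.1.trans hs.2)] with s' hs'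
    exact hconst s hs s' hs'
  have h6 : φ s = 0 := tendsto_nhds_unique (tendsto_const_nhds.congr' hev.symm) hlim
  exact sub_eq_zero.1 h6

/-- matching on the segment. -/
theorem ζg_seg_eq (Ch : S7QChart) : ∃ s₀ < Real.log D.R, ∀ s ∈ Ioo s₀ (Real.log D.R),
    D.ζg ((s : ℂ) * I) = Ch.Z (Complex.log (I * ((s : ℂ) * I) + (Real.log D.R : ℝ))) := by
  obtain ⟨s₀, hs₀, h0⟩ := D.seg_chart Ch
  have hΞ := D.Ξ_seg Ch h0
  refine ⟨max s₀ (Real.log D.R - Real.exp (-Ch.L₀)), max_lt hs₀ (by linarith [Real.exp_pos (-Ch.L₀)]),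
    fun s hs => ?_⟩
  have hs1 : s ∈ Ioo s₀ (Real.log D.R) := ⟨(le_max_left _ _).trans_lt hs.1, hs.2⟩
  have hs2 : Real.log D.R - s < Real.exp (-Ch.L₀) := by
    have := (le_max_right s₀ (Real.log D.R - Real.exp (-Ch.L₀))).trans_lt hs.1
    linarith
  have hpos : 0 < Real.log D.R - s := by linarith [hs.2]
  have hx := h0 s hs1
  have e1 : I * ((s : ℂ) * I) + (Real.log D.R : ℝ) = ((Real.log D.R - s : ℝ) : ℂ) := by
    push_cast
    linear_combination (s : ℂ) * I_mul_I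
  rw [e1]
  -- `Λ x = Log ξ`
  have him : (D.ζg ((s : ℂ) * I)).im = 0 := by rw [D.ζg_seg hs.2, Complex.ofReal_im]
  have hΛim : |(Ch.Λ (D.ζg ((s : ℂ) * I))).im| ≤ 3 / 20 := by
    have h1 := (Complex.abs_im_le_norm _).trans (Ch.Λ_near _ hx)
    simpa [him] using h1
  have hπ : (3 : ℝ) < π := Real.pi_gt_three
  have hΛ : Ch.Λ (D.ζg ((s : ℂ) * I)) = Complex.log ((Real.log D.R - s : ℝ) : ℂ) := by
    rw [← hΞ s hs1, ← Ch.exp_Λ _ hx, Complex.log_exp]
    · linarith [(abs_le.1 hΛim).1]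
    · linarith [(abs_le.1 hΛim).2]
  have hl : Complex.log ((Real.log D.R - s : ℝ) : ℂ) ∈ s7qL Ch.L₀ := by
    rw [← Complex.ofReal_log hpos.le]
    refine ⟨?_, ?_⟩
    · rw [Complex.ofReal_re]
      exact (Real.log_lt_iff_lt_exp hpos).2 hs2
    · rw [Complex.ofReal_im, abs_zero]; positivity
  exact Ch.Λ_inj hx (Ch.Z_mem _ hl) (by rw [hΛ, Ch.Λ_Z _ hl])

end S7QDisc

/-- `ξ = i y + uR = i (y - i uR)`. -/
noncomputable def s7qξ (uR : ℝ) (y : ℂ) : ℂ := I * y + uR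

theorem s7qξ_eqns_cite : True := by have := @s7qξ.eq_1; trivial

theorem s7qξ_re (uR : ℝ) (y : ℂ) : (s7qξ uR y).re = uR - y.im := by
  simp [s7qξ]; ring

theorem s7qξ_im (uR : ℝ) (y : ℂ) : (s7qξ uR y).im = y.re := by
  simp [s7qξ]

theorem s7qξ_norm (uR : ℝ) (y : ℂ) : ‖s7qξ uR y‖ = dist y ((uR : ℂ) * I) := by
  have h : s7qξ uR y = I * (y - (uR : ℂ) * I) := by
    rw [s7qξ]; linear_combination (uR : ℂ) * I_mul_I
  rw [h, norm_mul, Complex.norm_I, one_mul, dist_eq_norm]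

theorem s7qξ_diff (uR : ℝ) : Differentiable ℂ (s7qξ uR) := by
  unfold s7qξ; fun_prop

/-- the principal branch lies in the chart domain. -/
theorem s7q_l1_mem {uR L₀ : ℝ} {y : ℂ} (hy : y ∈ ball ((uR : ℂ) * I) (Real.exp (-L₀)))
    (h0 : s7qξ uR y ≠ 0) : Complex.log (s7qξ uR y) ∈ s7qL L₀ := by
  have hπ := Real.pi_pos
  refine ⟨?_, ?_⟩
  · rw [Complex.log_re, Real.log_lt_iff_lt_exp (norm_pos_iff.2 h0), s7qξ_norm]
    exact hy
  · rw [Complex.log_im]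
    exact (Complex.abs_arg_le_pi _).trans_lt (by linarith)

/-- the second branch lies in the chart domain. -/
theorem s7q_l2_mem {uR L₀ : ℝ} {y : ℂ} (hy : y ∈ ball ((uR : ℂ) * I) (Real.exp (-L₀)))
    (h0 : s7qξ uR y ≠ 0) : Complex.log (-s7qξ uR y) - π * I ∈ s7qL L₀ := by
  have hπ := Real.pi_pos
  refine ⟨?_, ?_⟩
  · have : (Complex.log (-s7qξ uR y) - π * I).re = Real.log ‖s7qξ uR y‖ := by
      simp [Complex.log_re]
    rw [this, Real.log_lt_iff_lt_exp (norm_pos_iff.2 h0), s7qξ_norm]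
    exact hy
  · have : (Complex.log (-s7qξ uR y) - π * I).im = Complex.arg (-s7qξ uR y) - π := by
      simp [Complex.log_im]
    rw [this, abs_lt]
    have h1 := Complex.neg_pi_lt_arg (-s7qξ uR y)
    have h2 := Complex.arg_le_pi (-s7qξ uR y)
    constructor <;> linarith

theorem s7q_l2_exp {uR : ℝ} {y : ℂ} (h0 : s7qξ uR y ≠ 0) :
    Complex.exp (Complex.log (-s7qξ uR y) - π * I) = s7qξ uR y := by
  rw [Complex.exp_sub, Complex.exp_log (neg_ne_zero.2 h0), Complex.exp_pi_mul_I]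
  simp

end Claimed.Agent.R269
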