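/-
Row 269, P1 Section 7.2-7.3, package BP-S7-modelQ (owner helper83), file G: MATCHING ON THE LENS `ball (i uR) ϱ ∩ {Im y < uR}` (identity theorem) AND THE CONSTANT `k₀`.
-/
import Claimed.Agent.R269.S7.ModelQF

set_option autoImplicit false

namespace Claimed.Agent.R269

open Complex Filter Topology Set Metric
open scoped Real

namespace S7QDisc

variable (D : S7QDisc)

/-- the lens. -/
def lens (Ch : S7QChart) : Set ℂ := ball ((Real.log D.R : ℂ) * I) (Real.exp (-Ch.L₀)) ∩ D.H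

theorem lens_eqns_cite : True := by have := @S7QDisc.lens.eq_1; trivial

theorem lens_isOpen (Ch : S7QChart) : IsOpen (D.lens Ch) := isOpen_ball.inter D.isOpen_H

theorem lens_convex (Ch : S7QChart) : Convex ℝ (D.lens Ch) :=
  (convex_ball _ _).inter (convex_halfSpace_im_lt _)

theorem lens_slit (Ch : S7QChart) {y : ℂ} (hy : y ∈ D.lens Ch) :
    s7qξ (Real.log D.R) y ∈ slitPlane := by
  left
  rw [s7qξ_re]
  have : y.im < Real.log D.R := hy.2
  linarith

/-- the first local branch of `ζ` is holomorphic where `ξ` is in the slit plane. -/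
theorem _root_.Claimed.Agent.R269.S7QChart.ζ₁_diff (Ch : S7QChart) (uR : ℝ) :
    DifferentiableOn ℂ (fun y => Ch.Z (Complex.log (s7qξ uR y)))
      {y | y ∈ ball ((uR : ℂ) * I) (Real.exp (-Ch.L₀)) ∧ s7qξ uR y ∈ slitPlane} := by
  refine Ch.Z_diff.comp (fun y hy => ?_) (fun y hy => s7q_l1_mem hy.1 (slitPlane_ne_zero hy.2))
  exact ((s7qξ_diff uR y).clog hy.2).differentiableWithinAt

theorem seg_lens (Ch : S7QChart) {s : ℝ} (h1 : Real.log D.R - Real.exp (-Ch.L₀) < s)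
    (h2 : s < Real.log D.R) : (s : ℂ) * I ∈ D.lens Ch := by
  refine ⟨?_, D.seg_mem h2⟩
  rw [mem_ball, ← s7qξ_norm]
  have e1 : s7qξ (Real.log D.R) ((s : ℂ) * I) = ((Real.log D.R - s : ℝ) : ℂ) := by
    rw [s7qξ]; push_cast
    linear_combination (s : ℂ) * I_mul_I
  rw [e1, Complex.norm_real, Real.norm_of_nonneg (by linarith)]
  linarith

/-- matching of `ζ` on the lens. -/
theorem ζg_eq (Ch : S7QChart) :
    EqOn D.ζg (fun y => Ch.Z (Complex.log (s7qξ (Real.log D.R) y))) (D.lens Ch) := by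
  obtain ⟨s₀, hs₀, hseg⟩ := D.ζg_seg_eq Ch
  set uR := Real.log D.R with huR
  set a := max s₀ (uR - Real.exp (-Ch.L₀)) with ha
  have haR : a < uR := max_lt hs₀ (by linarith [Real.exp_pos (-Ch.L₀)])
  set s₁ := (a + uR) / 2 with hs₁
  have h1 : a < s₁ := by rw [hs₁]; linarith
  have h2 : s₁ < uR := by rw [hs₁]; linarith
  have hf : AnalyticOnNhd ℂ D.ζg (D.lens Ch) :=
    DifferentiableOn.analyticOnNhd
      (fun y hy => (D.ζg_hasDerivAt hy.2).differentiableAt.differentiableWithinAt) (D.lens_isOpen Ch)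
  have hg : AnalyticOnNhd ℂ (fun y => Ch.Z (Complex.log (s7qξ uR y))) (D.lens Ch) :=
    DifferentiableOn.analyticOnNhd
      ((Ch.ζ₁_diff uR).mono (fun y hy => ⟨hy.1, D.lens_slit Ch hy⟩)) (D.lens_isOpen Ch)
  have hz₀ : (s₁ : ℂ) * I ∈ D.lens Ch :=
    D.seg_lens Ch ((le_max_right _ _).trans_lt h1) h2
  refine hf.eqOn_of_preconnected_of_frequently_eq hg (D.lens_convex Ch).isPreconnected hz₀ ?_
  have hγ : Tendsto (fun t : ℝ => (t : ℂ) * I) (𝓝[≠] s₁) (𝓝[≠] ((s₁ : ℂ) * I)) := by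
    refine tendsto_nhdsWithin_iff.2 ⟨?_, ?_⟩
    · have : Continuous (fun t : ℝ => (t : ℂ) * I) := by fun_prop
      exact (this.tendsto s₁).mono_left nhdsWithin_le_nhds
    · filter_upwards [self_mem_nhdsWithin] with t ht
      intro h
      apply ht
      have := mul_right_cancel₀ I_ne_zero h
      exact_mod_cast this
  refine hγ.frequently (Eventually.frequently ?_)
  have : Ioo a uR ∈ 𝓝[≠] s₁ := nhdsWithin_le_nhds (Ioo_mem_nhds h1 h2)
  filter_upwards [this] with t ht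
  have := hseg t ⟨(le_max_left _ _).trans_lt ht.1, ht.2⟩
  rw [this, s7qξ]

/-- the constant `k₀` and the matching of `m` on the lens. -/
theorem mg_eq (Ch : S7QChart) {mg : ℂ → ℂ} (hd : DifferentiableOn ℂ mg D.H)
    (he : ∀ y ∈ D.H, Complex.exp (-(I * mg y)) = 2 * D.v y * s7qc (D.v y)) :
    ∃ k₀ : ℂ, Complex.exp (-(I * k₀)) = 1 ∧
      EqOn mg (fun y => s7qM (Ch.Z (Complex.log (s7qξ (Real.log D.R) y))) + k₀) (D.lens Ch) := by
  have hζ := D.ζg_eq Ch
  set uR := Real.log D.R with huR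
  have hpos := Real.exp_pos (-Ch.L₀)
  set s₁ := uR - Real.exp (-Ch.L₀) / 2 with hs₁
  have h2 : s₁ < uR := by rw [hs₁]; linarith
  have hy₁ : (s₁ : ℂ) * I ∈ D.lens Ch := D.seg_lens Ch (by rw [hs₁]; linarith) h2
  set y₁ := (s₁ : ℂ) * I with hy₁d
  have hS : ∀ y ∈ D.lens Ch, Ch.Z (Complex.log (s7qξ uR y)) ∈ s7qS Ch.z₁ := fun y hy =>
    Ch.Z_mem _ (s7q_l1_mem hy.1 (slitPlane_ne_zero (D.lens_slit Ch hy)))
  have eM : ∀ z, -(I * s7qM z) = Complex.log (12 * s7qT z) / 3 := by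
    intro z
    rw [s7qM]
    linear_combination (-(1 / 3) * Complex.log (12 * s7qT z)) * I_mul_I
  set k₀ := mg y₁ - s7qM (D.ζg y₁) with hk₀
  have hk : Complex.exp (-(I * k₀)) = 1 := by
    have e1 : -(I * k₀) = -(I * mg y₁) - -(I * s7qM (D.ζg y₁)) := by rw [hk₀]; ring
    rw [e1, Complex.exp_sub, he y₁ hy₁.2, eM, D.lam_seg h2]
    exact div_self (mul_ne_zero (mul_ne_zero two_ne_zero (D.v_ne hy₁.2)) (s7qc_ne _))
  refine ⟨k₀, hk, ?_⟩
  set f := fun y => mg y - (s7qM (Ch.Z (Complex.log (s7qξ uR y))) + k₀) with hf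
  have hfd : DifferentiableOn ℂ f (D.lens Ch) := by
    intro y hy
    have h1 : DifferentiableAt ℂ s7qM (Ch.Z (Complex.log (s7qξ uR y))) :=
      s7qM_diffAt (Ch.cosh_ne _ (hS y hy)) (Ch.T_re _ (hS y hy))
    have h3 : DifferentiableAt ℂ (fun y => Ch.Z (Complex.log (s7qξ uR y))) y :=
      ((Ch.ζ₁_diff uR).mono (fun y hy => ⟨hy.1, D.lens_slit Ch hy⟩)).differentiableAt
        ((D.lens_isOpen Ch).mem_nhds hy)
    have h4 : DifferentiableAt ℂ (fun y => s7qM (Ch.Z (Complex.log (s7qξ uR y)))) y :=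
      DifferentiableAt.comp (f := fun y => Ch.Z (Complex.log (s7qξ uR y))) (g := s7qM) y h1 h3
    exact ((hd.differentiableAt (D.isOpen_H.mem_nhds hy.2)).sub
      (h4.add_const k₀)).differentiableWithinAt
  have hexp : ∀ y ∈ D.lens Ch, Complex.exp (((3 : ℕ) : ℂ) * -(I * f y)) = 1 := by
    intro y hy
    have hT : 12 * s7qT (Ch.Z (Complex.log (s7qξ uR y))) ≠ 0 :=
      slitPlane_ne_zero (s7qT_slit (Ch.T_re _ (hS y hy)))
    have e1 : ((3 : ℕ) : ℂ) * -(I * f y) = ((3 : ℕ) : ℂ) * -(I * mg y)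
        - (((3 : ℕ) : ℂ) * (-(I * s7qM (Ch.Z (Complex.log (s7qξ uR y)))))
          + ((3 : ℕ) : ℂ) * -(I * k₀)) := by
      rw [hf]; ring
    rw [e1, Complex.exp_sub, Complex.exp_add, Complex.exp_nat_mul, Complex.exp_nat_mul,
      Complex.exp_nat_mul, hk, he y hy.2, ← s7qT_A (D.v_mem hy.2), eM, ← Complex.exp_nat_mul]
    have e2 : ((3 : ℕ) : ℂ) * (Complex.log (12 * s7qT (Ch.Z (Complex.log (s7qξ uR y)))) / 3)
        = Complex.log (12 * s7qT (Ch.Z (Complex.log (s7qξ uR y)))) := by push_cast; ring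
    rw [e2, Complex.exp_log hT, one_pow, mul_one]
    have e3 : s7qA (D.v y) = Ch.Z (Complex.log (s7qξ uR y)) := hζ hy
    rw [e3]
    exact div_self hT
  have hder : ∀ y ∈ D.lens Ch, deriv f y = 0 := by
    intro y hy
    have h1 : HasDerivAt f (deriv f y) y :=
      (hfd.differentiableAt ((D.lens_isOpen Ch).mem_nhds hy)).hasDerivAt
    have h3 : HasDerivAt (fun y => Complex.exp (((3 : ℕ) : ℂ) * -(I * f y)))
        (Complex.exp (((3 : ℕ) : ℂ) * -(I * f y)) * (((3 : ℕ) : ℂ) * -(I * deriv f y))) y :=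
      (((h1.const_mul I).neg).const_mul _).cexp
    have h4 : (fun y => Complex.exp (((3 : ℕ) : ℂ) * -(I * f y))) =ᶠ[𝓝 y] fun _ => (1 : ℂ) := by
      filter_upwards [(D.lens_isOpen Ch).mem_nhds hy] with x hx
      exact hexp x hx
    have h5 := h3.unique ((hasDerivAt_const y (1 : ℂ)).congr_of_eventuallyEq h4)
    rw [hexp y hy, one_mul] at h5
    have hI0 : I ≠ 0 := I_ne_zero
    have h6 : (-(3 : ℂ) * I) * deriv f y = 0 := by
      push_cast at h5
      linear_combination h5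
    rcases mul_eq_zero.1 h6 with h7 | h7
    · exact absurd h7 (mul_ne_zero (by norm_num) hI0)
    · exact h7
  intro y hy
  have h7 : f y = f y₁ := (D.lens_isOpen Ch).is_const_of_deriv_eq_zero
    (D.lens_convex Ch).isPreconnected hfd hder hy hy₁
  have h8 : f y₁ = 0 := by
    have e3 : D.ζg y₁ = Ch.Z (Complex.log (s7qξ uR y₁)) := hζ hy₁
    rw [hf]
    simp only
    rw [← e3, hk₀]; ring
  rw [h8] at h7
  exact sub_eq_zero.1 h7

end S7QDisc

end Claimed.Agent.R269
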