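/-
Row 269, P1 Section 7.2-7.3 (energy model and its branch point): THE MODEL OF THE SECOND PROFILE.   HOST-FREE (pure one-variable complex analysis).   PACKAGE BP-S7-modelQ (blueprint + proof; the owner cuts it into `S7/ModelQ*.lean`).   Statement: helper146.
EXPORTS:  `s7_model_F : Nonempty (S7Model true)`,  `s7_model_Q : Nonempty (S7Model false)`   (interface `S7Model` in `S7/Defs.lean`).     COMMON TOOL: `s7_majode`, `s7_disc_solution`.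

NOTATION.  `Ŷ` independent variable, `w = e^{-iŶ}`;  `m(Ŷ)` the solution, `λ = e^{-i m}`, `J = m'`, `z = λJ/2`.  Limit equation `m'' = X(m,m')`;  it has the first integral
     first profile :  E = 2 (sin z - z cos z)/λ³,          second profile:  E = (tanh z - z sech² z)/λ³,          X = i λ J E_λ/E_J.       The anchored solution (`m - Ŷ → 0`, `J → 1` as `Im Ŷ → -∞`) has `E = 1/12`.
PARAMETRISATION BY `v`.
  (F) `v = z`.   `λ³ = 24 (sin v - v cos v)`, i.e. `λ = 2 v g^{1/3}`, `g(v) = 3 (sin v - v cos v)/v³` (entire, even, `g(0) = 1`, `g > 0` on `[0,π]`, `g(π) = 3/π²`),  `J = 2v/λ = g^{-1/3}`,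
       `dŶ = dm/J = i dλ/(λJ) = 4 i sin v dv/λ²`,   `dw/w = -i dŶ = dv/(v P(v))`,   `P = (v/sin v) g^{2/3} = (v/sin v)^{1/3} 𝐹^{2/3}`,   `𝐹 = 3 (1 - v cot v)/v² = 6 ∑_{k≥1} 1/(k²π² - v²)`  (Mathlib `cot_series_rep`).
       On `ball 0 π`:  `Re 𝐹 > 0`, `|𝐹(v)| ≤ 𝐹(|v|)` (series), `|sin v| ≥ sin |v|` (so `|v/sin v| ≤ |v|/sin|v|`), hence `|P(v)| ≤ P(|v|)`, `P` increasing on `[0,π)`, `P(0) = 1`, `P → ∞` at `π`.    `v_c = π`.
       Check of the equation:  `m' = J`,  `dv/dŶ = λ²/(4 i sin v)`,  `m'' = 2 v'/λ + i J² = i J² - i λ/(2 sin v)`  and  `X = i J² - (12 i/λ²)(sin z - z cos z)/sin z = i J² - i λ/(2 sin z)`.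
  (Q) `v = tanh z`.   `λ³ = 12 (tanh z - z sech² z) = 12 (v - (1-v²) artanh v) = 8 v³ g(v)`,  `g(v) = (3/2) ∫₀¹ (1-s²)/(1 - v² s²) ds = 3 ∑_k v^{2k}/((2k+1)(2k+3))`  (`Re g > 0`, `|g(v)| ≤ g(|v|)` on `ball 0 1`, `g(0) = 1`, `g(1⁻) = 3/2`),
       `λ = 2 v g^{1/3}`,  `J = 2z/λ`,  `dŶ = i dλ/(2z) = 4 i v dv/λ²`,   `dw/w = dv/(v P(v))`,  `P = g^{2/3}`.    `v_c = 1`.
DISC SOLUTION (`s7_disc_solution`).  `𝒲(v) = 2 v exp(E(v))`, `E' = (1/P - 1)/v`, `E(0) = 0` (primitive of a `dslope`, `ca_exists_primitive`): `v 𝒲' P = 𝒲`.  On `[0,v_c)` it is real, strictly increasing; `R = sup`; `v₀ = ` inverse function: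
       `r v₀' = v₀ P(v₀)`, `v₀(r)/r → 1/2`.   `s7_majode` gives `vv` on `ball 0 R` with `|vv(w)| ≤ v₀(|w|) < v_c`;  `(𝒲 ∘ vv)(w)/w` has derivative `0`, so `𝒲(vv(w)) = w`.      `uR = log R`.
       `s7_majode`: Picard iteration `vv_{k+1} = (w/2) exp(h_{k+1})`, `h_{k+1}' = (P(vv_k) - 1)/w` (`dslope`), `h_{k+1}(0) = 0`.   Invariance of the majorant: along a ray `d/dr Re h_{k+1}(r e^{iϑ}) = (Re P(vv_k) - 1)/r ≤ (p(v₀(r)) - 1)/r = d/dr log(2 v₀(r)/r)`.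
       Convergence on `closedBall 0 R'`, `R' < R`: `P` is Lipschitz on `closedBall 0 (v₀ R')`, `|h_{k+1} - h_k|(w) ≤ C ∫₀^{|w|} sup|h_k - h_{k-1}|`: factorial decay (pattern: `ca_ode_linear` in `Lib/CAOde.lean`).
THE SOLUTION ON THE HALF PLANE.  `Im Ŷ < uR` ⇔ `|w| < R`.  `λ(w)/w = 2 (vv(w)/w) g(vv(w))^{1/3}` is holomorphic and zero free on `ball 0 R`, `= 1` at `0`: take `ℒ` = its logarithm with `ℒ(0) = 0` (`ca_exists_log`);  `m₁(Ŷ) = Ŷ + i ℒ(e^{-iŶ})`.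
       Anchor: `ℒ(w) = O(w²)` (`ℒ` is even: or simply `|ℒ(w)| ≤ C|w|²` from `ℒ(0) = ℒ'(0) = 0`; `ℒ'(0) = 0` because `vv(w) = w/2 + O(w³)`, as `P(v) = 1 + O(v²)`).      Regular states: `sin vv ≠ 0` (`0 < |vv| < π`), resp. `sinh z ≠ 0` (`v = tanh z ≠ 0`).
BRANCH POINT (F).  `𝒲` extends holomorphically to a neighbourhood of `[0,π]` (`1/P = (sin v/v) g^{-2/3}`, `g ≠ 0` there), `𝒲'(π) = 0`, `𝒲''(π) ≠ 0`: Morse chart `log(𝒲(v)/R) = -κ(v) (v-π)²`, `κ(π) > 0`;  `χ(v) = (v - π) κ(v)^{1/2}` is a local biholomorphism,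
       `χ(v)² = -log(w/R) = i (Ŷ - i uR) =: ξ`.    `ξ > 0` below the branch point.   `m₁` uses `χ = -√ξ` (principal root, cut `ξ < 0` = upward slit; `v < π` for `ξ > 0`);   `m₂` uses `χ = -(-i √(-ξ))·(...)`: the branch of the root on `ℂ \ [0,∞)` which agrees
       with the principal one for `Im ξ < 0` (= `Re Ŷ < 0`) and is its negative for `Im ξ > 0`.    Gluing with the disc solution: on the convex lens `ball R ϱ_w ∩ ball 0 R` both are inverse branches of `𝒲`, equal on the real segment (`vv(r) = v₀(r) → π`).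
       `differ`: at the same `Ŷ` the two branches have `v₁ ≠ v₂` near `π`; `J = g^{-1/3}` is injective near `π` because `g'(π) = -9/π³ ≠ 0`.       (`m₁ - m₂ ~ (Ŷ - i uR)^{3/2}`: `λ'(π) = 0` too, so compare the DERIVATIVES.)
BRANCH POINT (Q).  Chart in `z`, `Re z > z₁`, `|Im z| < 3π/2`:  `λ(z)³ = 12 (tanh z - z sech² z) → 12`,   `log(w/R) = -∫_z^{∞} 4 tanh ζ sech² ζ/λ(ζ)² dζ = -c_Q e^{-2z} (1 + ε(z))`, `c_Q = 8/12^{2/3}`, `ε → 0`, `ε' → 0`.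
       With `ξ = i (Ŷ - i uR)`:  `z = -(1/2) log(ξ/c_Q) + (1/2) log(1 + ε(z))`, solved by contraction for small `ξ ≠ 0` and a given branch of `log ξ`:  `m₁`: principal branch;  `m₂`: `log₂ ξ = Log(-ξ) - iπ` (agrees for `Im ξ < 0`, differs by `-2πi` for `Im ξ > 0`, i.e. `z₂ ≈ z₁ + iπ`).
       `λ` takes almost the same value, `J = 2z/λ` differs by `≈ 2πi/λ`.
-/
import Claimed.Agent.R269.S7.ModelQG

set_option autoImplicit false

namespace Claimed.Agent.R269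

open Complex Filter Topology Set Metric
open scoped Real

theorem s7q_log_neg_of_im_neg {x : ℂ} (h : x.im < 0) :
    Complex.log (-x) - π * I = Complex.log x := by
  rw [Complex.log, Complex.log, Complex.arg_neg_eq_arg_add_pi_of_im_neg h, norm_neg]
  push_cast; ring

theorem s7q_log_neg_of_im_pos {x : ℂ} (h : 0 < x.im) :
    Complex.log (-x) - π * I = Complex.log x - 2 * π * I := by
  rw [Complex.log, Complex.log, Complex.arg_neg_eq_arg_sub_pi_of_im_pos h, norm_neg]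
  push_cast; ring

/-- EXPORT BP-S7-modelQ: the model of the second profile. -/
theorem s7_model_Q : Nonempty (S7Model false) := by
  obtain ⟨D⟩ := s7q_disc
  obtain ⟨Ch⟩ := s7q_chart_exists
  obtain ⟨mg, hmd, hme, C, u₀, hanch⟩ := D.exists_mg
  obtain ⟨hsolH, -⟩ := D.sol_half hmd hme
  obtain ⟨k₀, hk, hmatch⟩ := D.mg_eq Ch hmd hme
  set uR := Real.log D.R with huR
  set ϱ := Real.exp (-Ch.L₀) with hϱ
  set Ω₁ : Set ℂ := {y | y ∈ ball ((uR : ℂ) * I) ϱ ∧ s7qξ uR y ∈ slitPlane} with hΩ₁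
  have hΩ₁o : IsOpen Ω₁ :=
    isOpen_ball.inter (isOpen_slitPlane.preimage (s7qξ_diff uR).continuous)
  have hΩ₂ : s7Ω₂ uR ϱ = {y | y ∈ ball ((uR : ℂ) * I) ϱ ∧ -s7qξ uR y ∈ slitPlane} := by
    ext y
    simp only [s7Ω₂, Set.mem_ofPred_eq, Complex.mem_slitPlane_iff, neg_re, neg_im, s7qξ_re, s7qξ_im,
      neg_ne_zero, neg_sub, sub_pos]
    tauto
  have hΩ₂o : IsOpen (s7Ω₂ uR ϱ) := by
    rw [hΩ₂]
    exact isOpen_ball.inter (isOpen_slitPlane.preimage (s7qξ_diff uR).continuous.neg)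
  have hΩ₁u : s7Ω₁ uR ϱ = D.H ∪ Ω₁ := by
    ext y
    simp only [s7Ω₁, hΩ₁, S7QDisc.H, Set.mem_ofPred_eq, Set.mem_union, Complex.mem_slitPlane_iff,
      s7qξ_re, s7qξ_im, sub_pos, ← huR]
    tauto
  obtain ⟨hsol1, hz1⟩ := Ch.sol_loc (Ω := Ω₁) (l := fun y => Complex.log (s7qξ uR y)) (uR := uR)
    (k₀ := k₀) hΩ₁o (fun y hy => ((s7qξ_diff uR y).clog hy.2).differentiableWithinAt)
    (fun y hy => s7q_l1_mem hy.1 (slitPlane_ne_zero hy.2))
    (fun y hy => Complex.exp_log (slitPlane_ne_zero hy.2)) hk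
  have hne2 : ∀ y ∈ s7Ω₂ uR ϱ, s7qξ uR y ≠ 0 := by
    intro y hy
    rw [hΩ₂] at hy
    exact neg_ne_zero.1 (slitPlane_ne_zero hy.2)
  obtain ⟨hsol2, hz2⟩ := Ch.sol_loc (Ω := s7Ω₂ uR ϱ)
    (l := fun y => Complex.log (-s7qξ uR y) - π * I) (uR := uR) (k₀ := k₀) hΩ₂o
    (fun y hy => by
      have hy' := hy
      rw [hΩ₂] at hy'
      exact (((s7qξ_diff uR y).neg.clog hy'.2).sub_const _).differentiableWithinAt)
    (fun y hy => s7q_l2_mem hy.1 (hne2 y hy))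
    (fun y hy => s7q_l2_exp (hne2 y hy)) hk
  set ml₁ := fun y => s7qM (Ch.Z (Complex.log (s7qξ uR y))) + k₀ with hml₁
  set m₂ := fun y => s7qM (Ch.Z (Complex.log (-s7qξ uR y) - π * I)) + k₀ with hm₂
  set m₁ := fun y : ℂ => if y.im < uR then mg y else ml₁ y with hm₁
  have hEH : EqOn m₁ mg D.H := fun y hy => if_pos hy
  have hE1 : EqOn m₁ ml₁ Ω₁ := by
    intro y hy
    by_cases h : y.im < uR
    · rw [hm₁]
      simp only [if_pos h]
      exact hmatch ⟨hy.1, h⟩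
    · rw [hm₁]
      simp only [if_neg h]
  have hmemΩ₁ : ∀ y ∈ ball ((uR : ℂ) * I) ϱ, y.re ≠ 0 → y ∈ Ω₁ := fun y hy h =>
    ⟨hy, Or.inr (by rw [s7qξ_im]; exact h)⟩
  have hmemΩ₂ : ∀ y ∈ ball ((uR : ℂ) * I) ϱ, y.re ≠ 0 → y ∈ s7Ω₂ uR ϱ := fun y hy h =>
    ⟨hy, Or.inl h⟩
  refine ⟨⟨uR, ϱ, Real.exp_pos _, m₁, m₂, ?_, hsol2, ?_, ?_, ?_⟩⟩
  · rw [hΩ₁u]
    exact (hsolH.congr_of_eqOn hEH).union' (hsol1.congr_of_eqOn hE1)
  · intro y hy hre
    rw [hE1 (hmemΩ₁ y hy hre.ne), hm₂, hml₁]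
    simp only
    rw [s7q_log_neg_of_im_neg (by rw [s7qξ_im]; exact hre)]
  · intro y hy hre
    by_contra hcon
    rw [not_or, not_not, not_not] at hcon
    obtain ⟨hc1, hc2⟩ := hcon
    have hy1 := hmemΩ₁ y hy hre.ne'
    have hy2 := hmemΩ₂ y hy hre.ne'
    have hd1 : deriv m₁ y = deriv ml₁ y :=
      (Filter.eventuallyEq_of_mem (hΩ₁o.mem_nhds hy1) hE1).deriv_eq
    have h1 := hz1 y hy1
    have h2 := hz2 y hy2
    have h3 : Ch.Z (Complex.log (-s7qξ uR y) - π * I) = Ch.Z (Complex.log (s7qξ uR y)) := by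
      rw [← h1, ← h2]
      have e1 : m₂ y = ml₁ y := by rw [hc1, hE1 hy1]
      have e2 : deriv m₂ y = deriv ml₁ y := by rw [hc2, hd1]
      change s7z (m₂ y) (deriv m₂ y) = s7z (ml₁ y) (deriv ml₁ y)
      rw [e1, e2]
    have h4 := congrArg Ch.Λ h3
    rw [Ch.Λ_Z _ (s7q_l2_mem hy (hne2 y hy2)), Ch.Λ_Z _ (s7q_l1_mem hy (slitPlane_ne_zero hy1.2)),
      s7q_log_neg_of_im_pos (by rw [s7qξ_im]; exact hre)] at h4
    have h5 : (2 : ℂ) * π * I = 0 := by linear_combination -h4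
    have hπ : (π : ℂ) ≠ 0 := by exact_mod_cast Real.pi_ne_zero
    exact (mul_ne_zero (mul_ne_zero two_ne_zero hπ) I_ne_zero) h5
  · refine ⟨C, min u₀ (uR - 1), fun y hy => ?_⟩
    have h1 : y.im < uR := by
      have := hy.trans (min_le_right _ _); linarith
    rw [hEH h1]
    exact hanch y (hy.trans (min_le_left _ _))

end Claimed.Agent.R269
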