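/-
Row 269, P1 Section 7.2-7.3: umbrella for the two models (`S7/ModelF.lean`, `S7/ModelQ.lean`).   Owner: helper146.
-/
import Claimed.Agent.R269.S7.ModelF
import Claimed.Agent.R269.S7.ModelQ

set_option autoImplicit false

namespace Claimed.Agent.R269

open Complex Filter Topology Set Metric
open scoped Real

theorem s7_model (fst : Bool) : Nonempty (S7Model fst) := by
  cases fst
  · exact s7_model_Q
  · exact s7_model_F

end Claimed.Agent.R269
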