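/-
Row 269, P1 Section 7: ONE STEP OF THE RECURRENCE AGAINST A MODEL SOLUTION (T2, HOST-FREE).   LEAF PACKAGE LF-S7-T2 (ONE FILE = ONE OWNER).   Statements: helper146.
Errors `e = |σ - mdl y|`, `j = |Jm - (mdl y - mdl (y-a))/a|`:  the OS root satisfies `j₊ ≤ j + |a| (L (e + j) + ε)`.
PROOF.  `𝒦 = {(σ,J) : ∃ y ∈ K, |σ - mdl y| ≤ δ₀, |J - mdl' y| ≤ 2δ₀}` is compact (continuous image of `K × closedBall × closedBall`) and, for small `δ₀`, contained in `s7Reg` (open; `{(mdl y, mdl' y)}` is a compact subset: positive distance to the complement).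
  `X` is Lipschitz (`L₀`) in the sense `|X(σ,J) - X(mdl y, mdl' y)| ≤ L₀ (|σ - mdl y| + |J - mdl' y|)` for `(σ,J)` in the `δ₀`-polydisc about a model state (mean value on the convex polydisc, `fderiv X` bounded on the compact `𝒦`).
  `s7_onestep` (with `ε/2`) gives `Jp`.  Model: for `y ∈ K`, `|a|` small, Taylor with Cauchy bounds on a compact neighbourhood of `K` in `Ω`:
      `(mdl(y+a) - 2 mdl y + mdl(y-a))/a = a mdl''(y) + O(|a|³)`, `(mdl y - mdl(y-a))/a = mdl'(y) + O(|a|)`, `mdl'' = X(mdl, mdl')`.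
  So  `Jp - (mdl(y+a) - mdl y)/a = [Jm - (mdl y - mdl(y-a))/a] + a [X(σ,Jm) - X(mdl y, mdl' y)] + O(ε|a|/2) + O(|a|³)`.
-/
import Claimed.Agent.R269.S7.OneStep
import Claimed.Agent.R269.S7.XFun
import Claimed.Agent.R269.S7.TrackLib

set_option autoImplicit false

namespace Claimed.Agent.R269

open Complex Filter Topology Set Metric

/-- LEAF LF-S7-T2: **one step against the model**. -/
theorem s7_track_step (fst : Bool) {Ω : Set ℂ} {mdl : ℂ → ℂ} (hm : S7Sol fst Ω mdl) {K : Set ℂ}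
    (hK : IsCompact K) (hKΩ : K ⊆ Ω) :
    ∃ r₁ L δ₀ : ℝ, 0 < r₁ ∧ 0 ≤ L ∧ 0 < δ₀ ∧ ∀ ε > 0, ∃ η₀ > 0, ∀ (Ff Qf : ℂ → ℂ) (W : Set ℂ)
      (a y σ Jm : ℂ) (θ C C' Dd Dd' : ℂ → ℂ), S7Fld Ff Qf W → y ∈ K → a ≠ 0 → ‖a‖ ≤ η₀ →
      S7Close fst Ff Qf W (closedBall σ 1) η₀ → ‖σ - mdl y‖ ≤ δ₀ →
      ‖Jm - (mdl y - mdl (y - a)) / a‖ ≤ δ₀ →
      IsFast {u | σ + a * u ∈ W} (fun u => Ff (σ + a * u)) (fun u => Qf (σ + a * u)) θ C C' Dd Dd' →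
      ∃ Jp : ℂ, ‖Jp - Jm‖ < r₁ ∧ Dd Jp * C (-Jm) + Dd (-Jm) * C Jp = 0 ∧
        Dd' Jp * C (-Jm) + Dd (-Jm) * C' Jp ≠ 0 ∧
        (∀ J : ℂ, ‖J - Jm‖ ≤ r₁ → Dd J * C (-Jm) + Dd (-Jm) * C J = 0 → J = Jp) ∧
        ‖Jp - (mdl (y + a) - mdl y) / a‖ ≤ ‖Jm - (mdl y - mdl (y - a)) / a‖ +
          ‖a‖ * (L * (‖σ - mdl y‖ + ‖Jm - (mdl y - mdl (y - a)) / a‖) + ε) := by
  -- the compact set of model states
  have hd1 : DifferentiableOn ℂ (deriv mdl) Ω := hm.diff.deriv hm.isOpen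
  set 𝒦₀ : Set (ℂ × ℂ) := (fun y => (mdl y, deriv mdl y)) '' K with h𝒦₀
  have hc₀ : IsCompact 𝒦₀ := hK.image_of_continuousOn
    ((hm.diff.continuousOn.mono hKΩ).prodMk (hd1.continuousOn.mono hKΩ))
  have hs₀ : 𝒦₀ ⊆ s7Reg fst := by
    rintro _ ⟨y, hy, rfl⟩
    exact hm.reg y (hKΩ hy)
  obtain ⟨δ, L₀, hδ, hL₀, hth, hlip⟩ :=
    s7t_lip_compact (s7Reg_isOpen fst) (s7X_diff fst) hc₀ hs₀
  have hc : IsCompact (cthickening δ 𝒦₀) := hc₀.cthickening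
  have hs : cthickening δ 𝒦₀ ⊆ s7Reg fst := (cthickening_mono (by linarith) _).trans hth
  obtain ⟨r₁, hr₁, hos⟩ := s7_onestep fst _ hc hs
  obtain ⟨r, B, hr, hB, hball⟩ := s7t_unif_ball hm.isOpen hm.diff hK hKΩ
  refine ⟨r₁, L₀, δ / 2, hr₁, hL₀, by positivity, fun ε hε => ?_⟩
  obtain ⟨η₁, hη₁, hos⟩ := hos (ε / 2) (by positivity)
  set C₁ : ℝ := 30 * B / r ^ 2 with hC₁
  set C₂ : ℝ := 160 * B / r ^ 3 with hC₂
  have hC₁0 : 0 ≤ C₁ := by positivity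
  have hC₂0 : 0 ≤ C₂ := by positivity
  refine ⟨min (min η₁ (r / 4)) (min (δ / 2 / (C₁ + 1)) (ε / 2 / (L₀ * C₁ + C₂ + 1))), by positivity, ?_⟩
  intro Ff Qf W a y σ Jm θ C C' Dd Dd' hfld hy ha0 ha hclose he hj hfast
  have ha1 : ‖a‖ ≤ η₁ := ha.trans ((min_le_left _ _).trans (min_le_left _ _))
  have ha2 : ‖a‖ ≤ r / 4 := ha.trans ((min_le_left _ _).trans (min_le_right _ _))
  have ha3 : C₁ * ‖a‖ ≤ δ / 2 := by
    have h := ha.trans ((min_le_right _ _).trans (min_le_left _ _))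
    rw [le_div_iff₀ (by positivity)] at h
    nlinarith [norm_nonneg a]
  have ha4 : (L₀ * C₁ + C₂) * ‖a‖ ≤ ε / 2 := by
    have h := ha.trans ((min_le_right _ _).trans (min_le_right _ _))
    rw [le_div_iff₀ (by positivity)] at h
    nlinarith [norm_nonneg a]
  obtain ⟨hbΩ, hbB⟩ := hball y hy
  obtain ⟨q1, -, q3⟩ := s7t_quot hr (hm.diff.mono hbΩ) hbB ha0 ha2
  set qm : ℂ := (mdl y - mdl (y - a)) / a with hqm
  set qp : ℂ := (mdl (y + a) - mdl y) / a with hqp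
  have hJ : ‖Jm - deriv mdl y‖ ≤ ‖Jm - qm‖ + C₁ * ‖a‖ := by
    calc ‖Jm - deriv mdl y‖ = ‖(Jm - qm) + (qm - deriv mdl y)‖ := by ring_nf
      _ ≤ ‖Jm - qm‖ + ‖qm - deriv mdl y‖ := norm_add_le _ _
      _ ≤ _ := by linarith
  have hJδ : ‖Jm - deriv mdl y‖ ≤ δ := by linarith
  have hp₀ : (mdl y, deriv mdl y) ∈ 𝒦₀ := ⟨y, hy, rfl⟩
  have hmem : (σ, Jm) ∈ cthickening δ 𝒦₀ := by
    refine closedBall_subset_cthickening hp₀ δ ?_
    rw [← closedBall_prod_same]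
    refine ⟨?_, ?_⟩
    · rw [mem_closedBall, dist_eq_norm]; linarith
    · rw [mem_closedBall, dist_eq_norm]; exact hJδ
  obtain ⟨Jp, h1, h2, h3, h4, h5⟩ := hos Ff Qf W a σ Jm θ C C' Dd Dd' hfld hmem
    (hclose.s7t_mono subset_rfl ((min_le_left _ _).trans (min_le_left _ _))) ha0 ha1 hfast
  refine ⟨Jp, h1, h2, h3, h4, ?_⟩
  have hX := hlip _ hp₀ σ (mdl y) Jm (deriv mdl y) (by simpa using (by linarith : ‖σ - mdl y‖ ≤ δ))
    (by simp [hδ.le]) (by simpa using hJδ) (by simp [hδ.le])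
  rw [hm.ode y (hKΩ hy)] at q3
  have e : Jp - qp = (Jm - qm) + (Jp - Jm - a * s7X fst σ Jm)
      + a * (s7X fst σ Jm - s7X fst (mdl y) (deriv mdl y))
      - (qp - qm - a * s7X fst (mdl y) (deriv mdl y)) := by ring
  have hna := norm_nonneg a
  calc ‖Jp - qp‖ ≤ ‖Jm - qm‖ + ‖Jp - Jm - a * s7X fst σ Jm‖
        + ‖a * (s7X fst σ Jm - s7X fst (mdl y) (deriv mdl y))‖
        + ‖qp - qm - a * s7X fst (mdl y) (deriv mdl y)‖ := by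
        rw [e]
        refine (norm_sub_le _ _).trans (add_le_add_left ?_ _)
        refine (norm_add_le _ _).trans (add_le_add_left ?_ _)
        exact norm_add_le _ _
    _ ≤ ‖Jm - qm‖ + ε / 2 * ‖a‖ + ‖a‖ * (L₀ * (‖σ - mdl y‖ + (‖Jm - qm‖ + C₁ * ‖a‖)))
        + C₂ * ‖a‖ ^ 2 := by
        rw [norm_mul]
        have : L₀ * (‖σ - mdl y‖ + ‖Jm - deriv mdl y‖) ≤ L₀ * (‖σ - mdl y‖ + (‖Jm - qm‖ + C₁ * ‖a‖)) := by
          gcongr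
        gcongr
        exact hX.trans this
    _ = ‖Jm - qm‖ + ‖a‖ * (L₀ * (‖σ - mdl y‖ + ‖Jm - qm‖) + ε / 2 + (L₀ * C₁ + C₂) * ‖a‖) := by ring
    _ ≤ ‖Jm - qm‖ + ‖a‖ * (L₀ * (‖σ - mdl y‖ + ‖Jm - qm‖) + ε) := by
        have h6 : L₀ * (‖σ - mdl y‖ + ‖Jm - qm‖) + ε / 2 + (L₀ * C₁ + C₂) * ‖a‖
            ≤ L₀ * (‖σ - mdl y‖ + ‖Jm - qm‖) + ε := by linarith
        have h7 := mul_le_mul_of_nonneg_left h6 hna
        linarith

end Claimed.Agent.R269
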