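/-
Row 269, P1 Section 7: TRACKING ALONG A HORIZONTAL ROW WITH A REAL STEP (L7, HOST-FREE).   LEAF PACKAGE LF-S7-row (ONE FILE = ONE OWNER).   Statements: helper146.
The function is already known to exist and to be continuous on the row; the only issue is to show that it follows the model (continuity induction).
PROOF.  `r₁, L, δ₀` from `s7_track_step` for `K = ` the row.  `e(x) = |γ x - mdl(x+iu)|`, `j(x) = |(γ x - γ(x-a))/a - (mdl(x+iu) - mdl(x-a+iu))/a|`, `E = e + j`, `B(x) = (2δ + ε') exp((L+2)(x-p)) - ε'`,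
  with `δ, ε'` so small that `B(q) ≤ min(ε, δ₀, r₁/4)`.   `x* = sup {x ∈ [p+a,q] : E ≤ B on [p+a, x]}` (`≥ p + ri ≥ p + 2a`).  Suppose `x* < q`.
  At `x*`: `|J₋(x*) - J₋(x*-a)| ≤ j(x*) + j(x*-a) + |model second difference| ≤ 2B + C a < r₁`; by continuity this persists on `[x*, x*+κ)`; there the actual `J₊(x-a) = J₋(x)` is a root (hypothesis `S7StepEq` at `x - a`) in
  `closedBall (J₋(x-a)) r₁`, hence THE root of `s7_track_step` (applied with the fast functions provided by `S7StepEq`), so `j(x) ≤ j(x-a) + a(L E(x-a) + ε')`, `e(x) ≤ e(x-a) + a j(x)`, which gives `E(x) ≤ B(x)`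
  (`B(x) + ε' ≥ (B(x-a) + ε')(1 + (L+2)a)`): contradiction with the maximality of `x*`.       `closedBall (γ x) 1 ⊆ closedBall (mdl ..) 2` gives the closeness hypothesis of `s7_track_step`.
-/
import Claimed.Agent.R269.S7.TrackStep

set_option autoImplicit false

namespace Claimed.Agent.R269

open Complex Filter Topology Set Metric

/-- LEAF LF-S7-row: **tracking along a horizontal row** `{x + i u : p ≤ x ≤ q}` with a real step `a`.  `γ x` = the actual function at `x + i u`. -/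
theorem s7_row (fst : Bool) {Ω : Set ℂ} {mdl : ℂ → ℂ} (hm : S7Sol fst Ω mdl) (p q u ri : ℝ)
    (hri : 0 < ri) (hpq : p + ri ≤ q) (hseg : ∀ x ∈ Icc p q, (⟨x, u⟩ : ℂ) ∈ Ω) :
    ∀ ε > 0, ∃ δ > 0, ∃ η₀ > 0, ∀ (Ff Qf : ℂ → ℂ) (W : Set ℂ) (a : ℝ) (γ : ℝ → ℂ), S7Fld Ff Qf W →
      0 < a → a ≤ η₀ → ContinuousOn γ (Icc p q) →
      (∀ x ∈ Icc p q, S7Close fst Ff Qf W (closedBall (mdl ⟨x, u⟩) 2) η₀) →
      (∀ x ∈ Icc (p + a) (q - a), S7StepEq Ff Qf W a (γ x) ((γ x - γ (x - a)) / a) ((γ (x + a) - γ x) / a)) →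
      (∀ x ∈ Icc (p + a) (p + ri), ‖γ x - mdl ⟨x, u⟩‖ ≤ δ ∧
        ‖(γ x - γ (x - a)) / a - (mdl ⟨x, u⟩ - mdl ⟨x - a, u⟩) / a‖ ≤ δ) →
      ∀ x ∈ Icc (p + a) q, ‖γ x - mdl ⟨x, u⟩‖ ≤ ε ∧
        ‖(γ x - γ (x - a)) / a - (mdl ⟨x, u⟩ - mdl ⟨x - a, u⟩) / a‖ ≤ ε := by
  have hptc : Continuous (fun x : ℝ => (⟨x, u⟩ : ℂ)) := by
    have : (fun x : ℝ => (⟨x, u⟩ : ℂ)) = fun x : ℝ => (x : ℂ) + (u : ℂ) * I := by
      funext x; apply Complex.ext <;> simp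
    rw [this]; fun_prop
  have hpt_sub : ∀ x a : ℝ, (⟨x, u⟩ : ℂ) - (a : ℂ) = ⟨x - a, u⟩ := by
    intro x a; apply Complex.ext <;> simp
  have hpt_add : ∀ x a : ℝ, (⟨x - a, u⟩ : ℂ) + (a : ℂ) = ⟨x, u⟩ := by
    intro x a; apply Complex.ext <;> simp
  set K : Set ℂ := (fun x : ℝ => (⟨x, u⟩ : ℂ)) '' Icc p q with hKdef
  have hK : IsCompact K := isCompact_Icc.image hptc
  have hKΩ : K ⊆ Ω := by rintro _ ⟨x, hx, rfl⟩; exact hseg x hx
  obtain ⟨r₁, L, δ₀, hr₁, hL, hδ₀, hT2⟩ := s7_track_step fst hm hK hKΩ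
  obtain ⟨r, B, hr, hB, hball⟩ := s7t_unif_ball hm.isOpen hm.diff hK hKΩ
  intro ε hε
  set β : ℝ := min (min ε δ₀) (min 1 (r₁ / 8)) with hβdef
  have hβ : 0 < β := by positivity
  have hβε : β ≤ ε := (min_le_left _ _).trans (min_le_left _ _)
  have hβδ₀ : β ≤ δ₀ := (min_le_left _ _).trans (min_le_right _ _)
  have hβ1 : β ≤ 1 := (min_le_right _ _).trans (min_le_left _ _)
  have hβr : β ≤ r₁ / 8 := (min_le_right _ _).trans (min_le_right _ _)
  set δ : ℝ := β / (3 * Real.exp ((2 * L + 2) * (q - p))) with hδdef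
  have hδ : 0 < δ := by positivity
  have hδβ : 3 * δ * Real.exp ((2 * L + 2) * (q - p)) ≤ β := by
    rw [hδdef]; apply le_of_eq; field_simp
  obtain ⟨η₁, hη₁, hT2⟩ := hT2 δ hδ
  set C₂ : ℝ := 160 * B / r ^ 3 with hC₂
  set C₃ : ℝ := 20 * B / r ^ 2 with hC₃
  have hC₂0 : 0 ≤ C₂ := by positivity
  have hC₃0 : 0 ≤ C₃ := by positivity
  refine ⟨δ, hδ, min (min η₁ (ri / 2)) (min (min 1 (r / 4)) (r₁ / 4 / (C₃ + C₂ + 1))),
    by positivity, ?_⟩
  intro Ff Qf W a γ hfld ha0 ha hγ hclose hstep hinit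
  have ha_η : a ≤ η₁ := ha.trans ((min_le_left _ _).trans (min_le_left _ _))
  have ha_ri : 2 * a ≤ ri := by
    have := ha.trans ((min_le_left _ _).trans (min_le_right _ _)); linarith
  have ha1 : a ≤ 1 := ha.trans ((min_le_right _ _).trans ((min_le_left _ _).trans (min_le_left _ _)))
  have ha_r : a ≤ r / 4 :=
    ha.trans ((min_le_right _ _).trans ((min_le_left _ _).trans (min_le_right _ _)))
  have ha_C : (C₃ + C₂) * a ≤ r₁ / 4 := by
    have h := ha.trans ((min_le_right _ _).trans (min_le_right _ _))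
    rw [le_div_iff₀ (by positivity)] at h
    nlinarith
  have hac0 : (a : ℂ) ≠ 0 := by exact_mod_cast ha0.ne'
  have hna : ‖(a : ℂ)‖ = a := by rw [Complex.norm_real, Real.norm_eq_abs, abs_of_pos ha0]
  -- continuity
  have hμc : ContinuousOn (fun x : ℝ => mdl ⟨x, u⟩) (Icc p q) :=
    hm.diff.continuousOn.comp hptc.continuousOn (fun x hx => hseg x hx)
  have hsh : ∀ {f : ℝ → ℂ} {s : ℝ}, ContinuousOn f (Icc s q) →
      ContinuousOn (fun x => f (x - a)) (Icc (s + a) q) := by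
    intro f s hf
    exact hf.comp (by fun_prop) (fun x hx => ⟨by linarith [hx.1], by linarith [hx.2]⟩)
  have hmono : ∀ {f : ℝ → ℂ} {s s' : ℝ}, s ≤ s' → ContinuousOn f (Icc s q) →
      ContinuousOn f (Icc s' q) := fun h hf => hf.mono (Icc_subset_Icc h le_rfl)
  have hγ1 : ContinuousOn (fun x => γ (x - a)) (Icc (p + a) q) := hsh hγ
  have hμ1 : ContinuousOn (fun x : ℝ => mdl ⟨x - a, u⟩) (Icc (p + a) q) := hsh hμc
  have hγ0 : ContinuousOn γ (Icc (p + a) q) := hmono (by linarith) hγ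
  have hμ0 : ContinuousOn (fun x : ℝ => mdl ⟨x, u⟩) (Icc (p + a) q) := hmono (by linarith) hμc
  have hJc : ContinuousOn (fun x => (γ x - γ (x - a)) / (a : ℂ)) (Icc (p + a) q) :=
    (hγ0.sub hγ1).div_const _
  have hJc1 : ContinuousOn (fun x => (γ (x - a) - γ (x - a - a)) / (a : ℂ)) (Icc (p + 2 * a) q) := by
    have := hsh hJc
    rwa [show p + a + a = p + 2 * a by ring] at this
  have hres := s7t_row_abs (p := p) (q := q) (ri := ri) (a := a) (L := L) (δ := δ) (β := β) (r₁ := r₁)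
    (e := fun x => ‖γ x - mdl ⟨x, u⟩‖)
    (j := fun x => ‖(γ x - γ (x - a)) / a - (mdl ⟨x, u⟩ - mdl ⟨x - a, u⟩) / a‖)
    (D := fun x => ‖(γ x - γ (x - a)) / a - (γ (x - a) - γ (x - a - a)) / a‖)
    ha0 ha1 ha_ri hpq hL hδ hr₁ hβr hδβ (fun _ => norm_nonneg _) (fun _ => norm_nonneg _)
    (hγ0.sub hμ0).norm (hJc.sub ((hμ0.sub hμ1).div_const _)).norm
    (((hmono (by linarith) hJc).sub hJc1).norm)
    (fun x hx => by have := hinit x hx; linarith [this.1, this.2])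
    ?_ ?_ ?_
  · intro x hx
    have h := hres x hx
    constructor
    · linarith [norm_nonneg ((γ x - γ (x - a)) / a - (mdl ⟨x, u⟩ - mdl ⟨x - a, u⟩) / a)]
    · linarith [norm_nonneg (γ x - mdl ⟨x, u⟩)]
  · -- H1
    intro x hx
    have e1 : γ x - mdl ⟨x, u⟩ = (γ (x - a) - mdl ⟨x - a, u⟩)
        + (a : ℂ) * ((γ x - γ (x - a)) / a - (mdl ⟨x, u⟩ - mdl ⟨x - a, u⟩) / a) := by
      field_simp; ring
    calc ‖γ x - mdl ⟨x, u⟩‖ ≤ ‖γ (x - a) - mdl ⟨x - a, u⟩‖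
          + ‖(a : ℂ) * ((γ x - γ (x - a)) / a - (mdl ⟨x, u⟩ - mdl ⟨x - a, u⟩) / a)‖ := by
          conv_lhs => rw [e1]
          exact norm_add_le _ _
      _ = _ := by rw [norm_mul, hna]
  · -- H2
    intro x hx hE hD
    have hxa : x - a ∈ Icc (p + a) (q - a) := ⟨by linarith [hx.1], by linarith [hx.2]⟩
    have hxaI : x - a ∈ Icc p q := ⟨by linarith [hx.1], by linarith [hx.2]⟩
    obtain ⟨θ, C, C', Dd, Dd', hfast, heq⟩ := hstep (x - a) hxa
    rw [sub_add_cancel] at heq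
    have he : ‖γ (x - a) - mdl ⟨x - a, u⟩‖ ≤ β := by
      linarith [norm_nonneg ((γ (x - a) - γ (x - a - a)) / a
        - (mdl ⟨x - a, u⟩ - mdl ⟨x - a - a, u⟩) / a)]
    have hj : ‖(γ (x - a) - γ (x - a - a)) / a - (mdl ⟨x - a, u⟩ - mdl ⟨x - a - a, u⟩) / a‖ ≤ β := by
      linarith [norm_nonneg (γ (x - a) - mdl ⟨x - a, u⟩)]
    have hcl : S7Close fst Ff Qf W (closedBall (γ (x - a)) 1) η₁ := by
      refine (hclose (x - a) hxaI).s7t_mono ?_ ((min_le_left _ _).trans (min_le_left _ _))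
      intro z hz
      rw [mem_closedBall, dist_eq_norm] at *
      calc ‖z - mdl ⟨x - a, u⟩‖ = ‖(z - γ (x - a)) + (γ (x - a) - mdl ⟨x - a, u⟩)‖ := by ring_nf
        _ ≤ ‖z - γ (x - a)‖ + ‖γ (x - a) - mdl ⟨x - a, u⟩‖ := norm_add_le _ _
        _ ≤ 2 := by linarith
    have h := hT2 Ff Qf W (a : ℂ) ⟨x - a, u⟩ (γ (x - a)) ((γ (x - a) - γ (x - a - a)) / a)
      θ C C' Dd Dd' hfld ⟨x - a, hxaI, rfl⟩ hac0 (by rw [hna]; exact ha_η) hcl (he.trans hβδ₀)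
      (by rw [hpt_sub]; exact hj.trans hβδ₀) hfast
    obtain ⟨Jp, -, -, -, huniq, hest⟩ := h
    have hJ : (γ x - γ (x - a)) / a = Jp := huniq _ hD heq
    rw [← hJ, hpt_sub, hpt_add, hna] at hest
    exact hest
  · -- H3
    intro x hx
    have hxaI : x - a ∈ Icc p q := ⟨by linarith [hx.1], by linarith [hx.2]⟩
    obtain ⟨hbΩ, hbB⟩ := hball ⟨x - a, u⟩ ⟨x - a, hxaI, rfl⟩
    obtain ⟨-, -, q3⟩ := s7t_quot hr (hm.diff.mono hbΩ) hbB hac0 (by rw [hna]; exact ha_r)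
    obtain ⟨-, g2, -⟩ := s7t_taylor hr (hm.diff.mono hbΩ) hbB
    rw [hpt_sub, hpt_add, hna] at q3
    set qx : ℂ := (mdl ⟨x, u⟩ - mdl ⟨x - a, u⟩) / a with hqx
    set qa : ℂ := (mdl ⟨x - a, u⟩ - mdl ⟨x - a - a, u⟩) / a with hqa
    have hq : ‖qx - qa‖ ≤ r₁ / 4 := by
      calc ‖qx - qa‖ = ‖(qx - qa - a * deriv (deriv mdl) ⟨x - a, u⟩)
            + a * deriv (deriv mdl) ⟨x - a, u⟩‖ := by ring_nf
        _ ≤ ‖qx - qa - a * deriv (deriv mdl) ⟨x - a, u⟩‖ + ‖(a : ℂ) * deriv (deriv mdl) ⟨x - a, u⟩‖ :=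
            norm_add_le _ _
        _ ≤ C₂ * a ^ 2 + a * C₃ := by
            rw [norm_mul, hna]; gcongr
        _ ≤ (C₃ + C₂) * a := by
            have h8 : a ^ 2 ≤ a := by nlinarith
            have h9 := mul_le_mul_of_nonneg_left h8 hC₂0
            linarith
        _ ≤ r₁ / 4 := ha_C
    calc ‖(γ x - γ (x - a)) / a - (γ (x - a) - γ (x - a - a)) / a‖
        = ‖((γ x - γ (x - a)) / a - qx) - ((γ (x - a) - γ (x - a - a)) / a - qa) + (qx - qa)‖ := by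
          ring_nf
      _ ≤ ‖(γ x - γ (x - a)) / a - qx‖ + ‖(γ (x - a) - γ (x - a - a)) / a - qa‖ + ‖qx - qa‖ :=
          (norm_add_le _ _).trans (add_le_add_left (norm_sub_le _ _) _)
      _ ≤ _ := by linarith

end Claimed.Agent.R269
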