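/-
Row 269, P1 Section 7: THE SCALED MAXIMAL PASSAGE (interface between the host `Shape` and the host-free tracking lemmas).   LEAF PACKAGE LF-S7-sc1 (ONE FILE = ONE OWNER).   Statements: helper146.
Notation of `S7/Defs.lean`:  `z = (Ŷ,T)`, `phys`, `dom`, `Sc`, `stp`, `unsc`, `fF`, `fQ`, `fW`, `Conv`.

All proofs are changes of variables.  Key identities (`ℓ = Y.ℓ n`, `m = Y.m n`, `a = stp n T = T/(ℓ m)`, `t = T/m = ℓ a`):
   `phys n (Ŷ + a, T) = ((phys n (Ŷ,T)).1 + t, t)`;    `unsc n T (Sc n z) = Smax (phys n z)`;    `unsc n T (σ + a u) = unsc n T σ + t u`;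
   `(Ŷ,T) ↦ phys n (Ŷ,T)` is a biholomorphic map of `ℂ × ball 1 (1/2)` onto its image (`Complex.log` is holomorphic on `ball 1 (1/2) ⊆ slitPlane`), it maps vertical segments with `T` fixed to vertical segments with `t` fixed.
PLANS.
(close)     `fF n T σ = T · F_n(σ - i log T)`, `F_n → s7pF` uniformly on the compact set `{σ - i log T : σ ∈ K, |T - 1| ≤ 1/2}` (`TendstoLocallyUniformly` ⇒ uniform on compacts), and `T · s7pF(σ - i log T) = s7pF σ` as `exp(log T) = T`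
            (`s7pF (σ - i log T) = e^{-iσ} e^{-log T}`); same for `fQ` with `T²`.  Membership in `fW`: `exhaust`.
-/
import Claimed.Agent.R269.S7.Defs

set_option autoImplicit false

namespace Claimed.Agent.R269

open Complex Filter Topology Set Metric
open scoped Real

namespace S7Sys

variable {Sh : Shape} (Y : S7Sys Sh)

/-! ### LF-S7-sc1: basic facts -/

omit Y in
theorem sc_re_gt {T : ℂ} (hT : T ∈ closedBall (1 : ℂ) (1 / 2)) : 1 / 2 ≤ T.re := by
  have h1 : ‖T - 1‖ ≤ 1 / 2 := by simpa [dist_eq_norm] using hT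
  have h2 := Complex.abs_re_le_norm (T - 1)
  have h3 : (T - 1).re = T.re - 1 := by simp
  rw [h3] at h2
  have := (abs_le.1 (h2.trans h1)).1
  linarith

omit Y in
theorem sc_slit' {T : ℂ} (hT : T ∈ closedBall (1 : ℂ) (1 / 2)) : T ∈ Complex.slitPlane := by
  rw [Complex.mem_slitPlane_iff]
  left
  have := sc_re_gt hT
  linarith

omit Y in
theorem sc_slit {T : ℂ} (hT : T ∈ ball (1 : ℂ) (1 / 2)) : T ∈ Complex.slitPlane :=
  sc_slit' (ball_subset_closedBall hT)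

omit Y in
theorem sc_ne {T : ℂ} (hT : T ∈ ball (1 : ℂ) (1 / 2)) : T ≠ 0 := Complex.slitPlane_ne_zero (sc_slit hT)

omit Y in
theorem sc_norm_le {T : ℂ} (hT : T ∈ closedBall (1 : ℂ) (1 / 2)) : ‖T‖ ≤ 3 / 2 := by
  have h1 : ‖T - 1‖ ≤ 1 / 2 := by simpa [dist_eq_norm] using hT
  have h2 : ‖T‖ ≤ ‖T - 1‖ + ‖(1 : ℂ)‖ := by
    have := norm_add_le (T - 1) 1
    simpa using this
  rw [norm_one] at h2
  linarith

theorem ℓ_ne (n : ℕ) : (Y.ℓ n : ℂ) ≠ 0 := by exact_mod_cast (Y.ℓ_pos n).ne'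

theorem m_ne (n : ℕ) : (Y.m n : ℂ) ≠ 0 := by exact_mod_cast (Y.m_pos n).ne'

/-- the set of admissible `(Ŷ,T)`. -/
def scU : Set (ℂ × ℂ) := {z | z.2 ∈ ball (1 : ℂ) (1 / 2)}

omit Y in
theorem scU_isOpen : IsOpen scU := isOpen_ball.preimage continuous_snd

omit Y in
theorem sc_log_diff : DifferentiableOn ℂ (fun z : ℂ × ℂ => Complex.log z.2) scU := fun _ hz =>
  (DifferentiableAt.clog differentiableAt_snd (sc_slit hz)).differentiableWithinAt

theorem phys_diff (n : ℕ) : DifferentiableOn ℂ (Y.phys n) scU := by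
  have h1 : DifferentiableOn ℂ (fun z : ℂ × ℂ => Y.ctr n + (Y.ℓ n : ℂ) * (z.1 - I * Complex.log z.2)) scU :=
    (differentiableOn_const _).add ((differentiableOn_fst.sub (sc_log_diff.const_mul I)).const_mul _)
  have h2 : DifferentiableOn ℂ (fun z : ℂ × ℂ => z.2 / (Y.m n : ℂ)) scU := by
    simp only [div_eq_mul_inv]
    exact differentiableOn_snd.mul_const _
  exact h1.prodMk h2

theorem dom_eq (n : ℕ) : Y.dom n = scU ∩ Y.phys n ⁻¹' Sh.s9Rmax := rfl

theorem dom_isOpen (n : ℕ) : IsOpen (Y.dom n) :=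
  (Y.phys_diff n).continuousOn.isOpen_inter_preimage scU_isOpen Sh.s9k_max.isOpen

theorem Sc_diff (n : ℕ) : DifferentiableOn ℂ (Y.Sc n) (Y.dom n) := by
  have h1 : DifferentiableOn ℂ (fun z => Sh.s9Smax (Y.phys n z)) (Y.dom n) :=
    Sh.s9k_max.diff.comp ((Y.phys_diff n).mono fun z hz => hz.1) fun z hz => hz.2
  have h2 : DifferentiableOn ℂ (fun z : ℂ × ℂ => Complex.log z.2) (Y.dom n) :=
    sc_log_diff.mono fun z hz => hz.1
  have h3 : DifferentiableOn ℂ (fun z => (Sh.s9Smax (Y.phys n z) - Y.ctr n) * (Y.ℓ n : ℂ)⁻¹ + I * Complex.log z.2)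
      (Y.dom n) := ((h1.sub (differentiableOn_const _)).mul_const _).add (h2.const_mul I)
  exact h3.congr fun z _ => by simp only [Sc, div_eq_mul_inv]

/-- `unsc n T (Sc n z) = Smax (phys n z)`. -/
theorem unsc_Sc (n : ℕ) (y T : ℂ) : Y.unsc n T (Y.Sc n (y, T)) = Sh.s9Smax (Y.phys n (y, T)) := by
  have := Y.ℓ_ne n
  simp only [unsc, Sc]
  field_simp
  ring

theorem Sc_mem (n : ℕ) {y T : ℂ} (hz : (y, T) ∈ Y.dom n) : Y.Sc n (y, T) ∈ Y.fW n T := by
  show Y.unsc n T (Y.Sc n (y, T)) ∈ Sh.D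
  rw [unsc_Sc]
  exact Sh.s9k_max.mem _ hz.2

theorem unsc_diff (n : ℕ) (T : ℂ) : Differentiable ℂ (Y.unsc n T) := by
  unfold unsc
  fun_prop

theorem fld (n : ℕ) {T : ℂ} (_hT : T ∈ ball (1 : ℂ) (1 / 2)) :
    S7Fld (Y.fF n T) (Y.fQ n T) (Y.fW n T) where
  isOpen := Sh.ch_isOpen_D.preimage (Y.unsc_diff n T).continuous
  convex := by
    intro x hx y hy a b ha hb hab
    show Y.unsc n T (a • x + b • y) ∈ Sh.D
    have e : Y.unsc n T (a • x + b • y) = a • Y.unsc n T x + b • Y.unsc n T y := by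
      have hab' : (a : ℂ) + b = 1 := by exact_mod_cast hab
      simp only [unsc, Complex.real_smul]
      linear_combination (-(Y.ctr n) + (Y.ℓ n : ℂ) * (I * Complex.log T)) * hab'
    rw [e]
    exact Sh.ch_convex_D hx hy ha hb hab
  diffF := by
    have h1 : DifferentiableOn ℂ (fun σ => Sh.f (Y.unsc n T σ)) (Y.fW n T) :=
      Sh.ch_f_diff.comp (Y.unsc_diff n T).differentiableOn fun σ hσ => hσ
    have h2 := (h1.const_mul T).mul_const ((Y.m n : ℂ)⁻¹)
    exact h2.congr fun σ _ => by simp only [fF, div_eq_mul_inv]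
  diffQ := by
    have h1 : DifferentiableOn ℂ (fun σ => Sh.q (Y.unsc n T σ)) (Y.fW n T) :=
      Sh.q_diff.comp (Y.unsc_diff n T).differentiableOn fun σ hσ => hσ
    have h2 := (h1.const_mul (T ^ 2)).mul_const (((Y.m n : ℂ) ^ 2)⁻¹)
    exact h2.congr fun σ _ => by simp only [fQ, div_eq_mul_inv]

theorem stp_small : ∀ η > 0, ∀ᶠ n in atTop, ∀ T ∈ ball (1 : ℂ) (1 / 2),
    Y.stp n T ≠ 0 ∧ ‖Y.stp n T‖ ≤ η := by
  intro η hη
  filter_upwards [Y.b_tendsto.eventually_ge_atTop (2 / η)] with n hn T hT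
  have hb : 0 < Y.ℓ n * Y.m n := mul_pos (Y.ℓ_pos n) (Y.m_pos n)
  refine ⟨div_ne_zero (sc_ne hT) (mul_ne_zero (Y.ℓ_ne n) (Y.m_ne n)), ?_⟩
  have h1 : ‖Y.stp n T‖ = ‖T‖ / (Y.ℓ n * Y.m n) := by
    simp only [stp, norm_div, norm_mul, Complex.norm_real, Real.norm_eq_abs, abs_of_pos (Y.ℓ_pos n),
      abs_of_pos (Y.m_pos n)]
  rw [h1, div_le_iff₀ hb]
  have h2 := sc_norm_le (ball_subset_closedBall hT)
  rw [div_le_iff₀ hη] at hn
  linarith

theorem param_small : ∀ᶠ n in atTop, ∀ T ∈ ball (1 : ℂ) (1 / 2), T / (Y.m n : ℂ) ∈ ball (0 : ℂ) Sh.ρ := by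
  filter_upwards [Y.m_tendsto.eventually_ge_atTop (2 / Sh.ρ)] with n hn T hT
  rw [mem_ball_zero_iff, norm_div, Complex.norm_real, Real.norm_eq_abs, abs_of_pos (Y.m_pos n),
    div_lt_iff₀ (Y.m_pos n)]
  have h2 := sc_norm_le (ball_subset_closedBall hT)
  rw [div_le_iff₀ Sh.ρ_pos] at hn
  linarith

theorem Conv.mono {A B : Set (ℂ × ℂ)} {mdl : ℂ → ℂ} (h : Y.Conv B mdl) (hAB : A ⊆ B) : Y.Conv A mdl :=
  fun ε hε => (h ε hε).mono fun _ hn z hz => hn z (hAB hz)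

theorem Conv.union {A B : Set (ℂ × ℂ)} {mdl : ℂ → ℂ} (hA : Y.Conv A mdl) (hB : Y.Conv B mdl) :
    Y.Conv (A ∪ B) mdl := fun ε hε => by
  filter_upwards [hA ε hε, hB ε hε] with n h1 h2 z hz
  rcases hz with hz | hz
  · exact h1 z hz
  · exact h2 z hz

/-! ### LF-S7-sc2: convergence of the scaled fields -/

omit Y in
theorem sc_pF (fst : Bool) {T : ℂ} (hT : T ≠ 0) (σ : ℂ) :
    T * s7pF fst (σ - I * Complex.log T) = s7pF fst σ := by
  unfold s7pF
  cases fst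
  · simp
  · simp only [if_true]
    have e : -(I * (σ - I * Complex.log T)) = -(I * σ) + -Complex.log T := by
      linear_combination (Complex.log T) * Complex.I_sq
    rw [e, Complex.exp_add, Complex.exp_neg (Complex.log T), Complex.exp_log hT]
    field_simp

omit Y in
theorem sc_pQ (fst : Bool) {T : ℂ} (hT : T ≠ 0) (σ : ℂ) :
    T ^ 2 * s7pQ fst (σ - I * Complex.log T) = s7pQ fst σ := by
  unfold s7pQ
  cases fst
  · simp only [Bool.false_eq_true, if_false]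
    have e : -(2 * I * (σ - I * Complex.log T)) = -(2 * I * σ) + (-Complex.log T + -Complex.log T) := by
      linear_combination (2 * Complex.log T) * Complex.I_sq
    rw [e, Complex.exp_add, Complex.exp_add, Complex.exp_neg (Complex.log T), Complex.exp_log hT]
    field_simp
  · simp

theorem close {K : Set ℂ} (hK : IsCompact K) : ∀ η > 0, ∀ᶠ n in atTop, ∀ T ∈ ball (1 : ℂ) (1 / 2),
    S7Close Y.fst (Y.fF n T) (Y.fQ n T) (Y.fW n T) K η := by
  intro η hη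
  -- the compact set of the arguments `σ - i log T`
  have hK' : IsCompact ((fun p : ℂ × ℂ => p.1 - I * Complex.log p.2) '' (K ×ˢ closedBall (1 : ℂ) (1 / 2))) := by
    refine (hK.prod (isCompact_closedBall _ _)).image_of_continuousOn ?_
    refine continuousOn_fst.sub (continuousOn_const.mul ?_)
    exact fun p hp => (ContinuousAt.clog continuousAt_snd (sc_slit' hp.2)).continuousWithinAt
  obtain ⟨B, hB⟩ := hK'.isBounded.exists_norm_le
  have hF := (tendstoLocallyUniformly_iff_forall_isCompact.1 Y.limF) _ hK'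
  have hQ := (tendstoLocallyUniformly_iff_forall_isCompact.1 Y.limQ) _ hK'
  rw [Metric.tendstoUniformlyOn_iff] at hF hQ
  filter_upwards [hF (η / 3) (by positivity), hQ (η / 3) (by positivity), Y.exhaust B] with n h1 h2 h3 T hT σ hσ
  have hmem : σ - I * Complex.log T ∈ (fun p : ℂ × ℂ => p.1 - I * Complex.log p.2) '' (K ×ˢ closedBall (1 : ℂ) (1 / 2)) :=
    ⟨(σ, T), ⟨hσ, ball_subset_closedBall hT⟩, rfl⟩
  have hT0 := sc_ne hT
  have hTn := sc_norm_le (ball_subset_closedBall hT)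
  refine ⟨h3 _ (hB _ hmem), ?_, ?_⟩
  · have e : Y.fF n T σ - s7pF Y.fst σ = T * (Sh.f ((⟨Y.x n, Y.h n⟩ : ℂ) + (Y.ℓ n : ℂ) * (σ - I * Complex.log T)) / (Y.m n : ℂ)
        - s7pF Y.fst (σ - I * Complex.log T)) := by
      rw [mul_sub, sc_pF Y.fst hT0]
      simp only [fF, unsc, ctr]
      ring
    rw [e, norm_mul]
    have h4 := h1 _ hmem
    rw [dist_comm, dist_eq_norm] at h4
    nlinarith [norm_nonneg T, norm_nonneg (Sh.f ((⟨Y.x n, Y.h n⟩ : ℂ) + (Y.ℓ n : ℂ) * (σ - I * Complex.log T)) / (Y.m n : ℂ)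
        - s7pF Y.fst (σ - I * Complex.log T))]
  · have e : Y.fQ n T σ - s7pQ Y.fst σ = T ^ 2 * (Sh.q ((⟨Y.x n, Y.h n⟩ : ℂ) + (Y.ℓ n : ℂ) * (σ - I * Complex.log T)) / (Y.m n : ℂ) ^ 2
        - s7pQ Y.fst (σ - I * Complex.log T)) := by
      rw [mul_sub, sc_pQ Y.fst hT0]
      simp only [fQ, unsc, ctr]
      ring
    rw [e, norm_mul, norm_pow]
    have h4 := h2 _ hmem
    rw [dist_comm, dist_eq_norm] at h4
    have h5 : ‖T‖ ^ 2 ≤ 9 / 4 := by nlinarith [norm_nonneg T]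
    nlinarith [sq_nonneg ‖T‖, norm_nonneg (Sh.q ((⟨Y.x n, Y.h n⟩ : ℂ) + (Y.ℓ n : ℂ) * (σ - I * Complex.log T)) / (Y.m n : ℂ) ^ 2
        - s7pQ Y.fst (σ - I * Complex.log T))]

end S7Sys

end Claimed.Agent.R269
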