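/-
Row 269, P1 Section 7: THE SCALED MAXIMAL PASSAGE (interface between the host `Shape` and the host-free tracking lemmas).   LEAF PACKAGE LF-S7-sc3 (ONE FILE = ONE OWNER).   Statements: helper146.
Notation of `S7/Defs.lean`:  `z = (Ŷ,T)`, `phys`, `dom`, `Sc`, `stp`, `unsc`, `fF`, `fQ`, `fW`, `Conv`.

All proofs are changes of variables.  Key identities (`ℓ = Y.ℓ n`, `m = Y.m n`, `a = stp n T = T/(ℓ m)`, `t = T/m = ℓ a`):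
   `phys n (Ŷ + a, T) = ((phys n (Ŷ,T)).1 + t, t)`;    `unsc n T (Sc n z) = Smax (phys n z)`;    `unsc n T (σ + a u) = unsc n T σ + t u`;
   `(Ŷ,T) ↦ phys n (Ŷ,T)` is a biholomorphic map of `ℂ × ball 1 (1/2)` onto its image (`Complex.log` is holomorphic on `ball 1 (1/2) ⊆ slitPlane`), it maps vertical segments with `T` fixed to vertical segments with `t` fixed.
PLANS.
(isFast)    `Sh.ch_isFast` at `s = unsc n T σ`, `t = T/m`.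
(stepEq)    `Sh.ch_rec` at `(y,t) = phys n z`, divided by `t³`.
-/
import Claimed.Agent.R269.S7.ScaledA

set_option autoImplicit false

namespace Claimed.Agent.R269

open Complex Filter Topology Set Metric
open scoped Real

namespace S7Sys

variable {Sh : Shape} (Y : S7Sys Sh)

/-! ### LF-S7-sc3: the explicit fast functions and the scaled recurrence -/

/-- `θ`. -/
noncomputable def fθ (n : ℕ) (T σ u : ℂ) : ℂ :=
  Sh.φ (Y.unsc n T (σ + Y.stp n T * u)) - Sh.φ (Y.unsc n T σ)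
/-- `C`. -/
noncomputable def fC (n : ℕ) (T σ u : ℂ) : ℂ :=
  Sh.chC (Y.unsc n T σ) (Y.unsc n T (σ + Y.stp n T * u)) / (T / (Y.m n : ℂ)) ^ 2
/-- `C'`. -/
noncomputable def fC' (n : ℕ) (T σ u : ℂ) : ℂ :=
  Sh.chC' (Y.unsc n T σ) (Y.unsc n T (σ + Y.stp n T * u)) / (T / (Y.m n : ℂ))
/-- `Dd`. -/
noncomputable def fD (n : ℕ) (T σ u : ℂ) : ℂ :=
  Sh.chD (Y.unsc n T σ) (Y.unsc n T (σ + Y.stp n T * u)) / (T / (Y.m n : ℂ))
/-- `Dd'`. -/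
noncomputable def fD' (n : ℕ) (T σ u : ℂ) : ℂ :=
  Sh.chD' (Y.unsc n T σ) (Y.unsc n T (σ + Y.stp n T * u))

/-- `unsc n T (σ + a u) = unsc n T σ + t u`. -/
theorem unsc_add (n : ℕ) (T σ u : ℂ) :
    Y.unsc n T (σ + Y.stp n T * u) = Y.unsc n T σ + T / (Y.m n : ℂ) * u := by
  have h1 := Y.ℓ_ne n
  have h2 := Y.m_ne n
  simp only [unsc, stp]
  field_simp
  ring

theorem isFast (n : ℕ) {T σ : ℂ} (hT : T ∈ ball (1 : ℂ) (1 / 2)) (hσ : σ ∈ Y.fW n T) :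
    IsFast {u | σ + Y.stp n T * u ∈ Y.fW n T} (fun u => Y.fF n T (σ + Y.stp n T * u))
      (fun u => Y.fQ n T (σ + Y.stp n T * u)) (Y.fθ n T σ) (Y.fC n T σ) (Y.fC' n T σ) (Y.fD n T σ)
      (Y.fD' n T σ) := by
  have hs : Y.unsc n T σ ∈ Sh.D := hσ
  have ht : T / (Y.m n : ℂ) ≠ 0 := div_ne_zero (sc_ne hT) (Y.m_ne n)
  have h := Sh.ch_isFast hs ht
  have e0 : {u | σ + Y.stp n T * u ∈ Y.fW n T} = {u | Y.unsc n T σ + T / (Y.m n : ℂ) * u ∈ Sh.D} := by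
    ext u
    show Y.unsc n T (σ + Y.stp n T * u) ∈ Sh.D ↔ _
    rw [unsc_add]; rfl
  have e1 : (fun u => Y.fF n T (σ + Y.stp n T * u))
      = fun u => T / (Y.m n : ℂ) * Sh.f (Y.unsc n T σ + T / (Y.m n : ℂ) * u) := by
    funext u; simp only [fF, unsc_add]; ring
  have e2 : (fun u => Y.fQ n T (σ + Y.stp n T * u))
      = fun u => (T / (Y.m n : ℂ)) ^ 2 * Sh.q (Y.unsc n T σ + T / (Y.m n : ℂ) * u) := by
    funext u; simp only [fQ, unsc_add]; ring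
  have e3 : Y.fθ n T σ = fun u => Sh.φ (Y.unsc n T σ + T / (Y.m n : ℂ) * u) - Sh.φ (Y.unsc n T σ) := by
    funext u; simp only [fθ, unsc_add]
  have e4 : Y.fC n T σ = fun u => Sh.chC (Y.unsc n T σ) (Y.unsc n T σ + T / (Y.m n : ℂ) * u) / (T / (Y.m n : ℂ)) ^ 2 := by
    funext u; simp only [fC, unsc_add]
  have e5 : Y.fC' n T σ = fun u => Sh.chC' (Y.unsc n T σ) (Y.unsc n T σ + T / (Y.m n : ℂ) * u) / (T / (Y.m n : ℂ)) := by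
    funext u; simp only [fC', unsc_add]
  have e6 : Y.fD n T σ = fun u => Sh.chD (Y.unsc n T σ) (Y.unsc n T σ + T / (Y.m n : ℂ) * u) / (T / (Y.m n : ℂ)) := by
    funext u; simp only [fD, unsc_add]
  have e7 : Y.fD' n T σ = fun u => Sh.chD' (Y.unsc n T σ) (Y.unsc n T σ + T / (Y.m n : ℂ) * u) := by
    funext u; simp only [fD', unsc_add]
  rw [e0, e1, e2, e3, e4, e5, e6, e7]
  exact h

/-- the set on which the explicit fast functions are jointly holomorphic in `(T,σ,u)`. -/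
def fastDom (n : ℕ) : Set (ℂ × ℂ × ℂ) :=
  {p | p.1 ∈ ball (1 : ℂ) (1 / 2) ∧ p.2.1 ∈ Y.fW n p.1 ∧ p.2.1 + Y.stp n p.1 * p.2.2 ∈ Y.fW n p.1}

omit Y in
theorem sc_div {f g : ℂ × ℂ × ℂ → ℂ} {s : Set (ℂ × ℂ × ℂ)} (hf : DifferentiableOn ℂ f s)
    (hg : DifferentiableOn ℂ g s) (h0 : ∀ x ∈ s, g x ≠ 0) : DifferentiableOn ℂ (fun x => f x / g x) s := by
  simp only [div_eq_mul_inv]
  exact hf.mul (hg.inv h0)

/-- admissible `(T,σ,u)`. -/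
def scU3 : Set (ℂ × ℂ × ℂ) := {p | p.1 ∈ ball (1 : ℂ) (1 / 2)}

omit Y in
theorem scU3_isOpen : IsOpen scU3 := isOpen_ball.preimage continuous_fst

theorem sc_g1_diff (n : ℕ) : DifferentiableOn ℂ (fun p : ℂ × ℂ × ℂ => Y.unsc n p.1 p.2.1) scU3 := by
  have hlog : DifferentiableOn ℂ (fun p : ℂ × ℂ × ℂ => Complex.log p.1) scU3 := fun _ hp =>
    (DifferentiableAt.clog differentiableAt_fst (sc_slit hp)).differentiableWithinAt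
  have h1 : DifferentiableOn ℂ (fun p : ℂ × ℂ × ℂ => p.2.1) scU3 := by fun_prop
  exact (differentiableOn_const _).add ((h1.sub (hlog.const_mul I)).const_mul _)

theorem sc_g2_diff (n : ℕ) :
    DifferentiableOn ℂ (fun p : ℂ × ℂ × ℂ => Y.unsc n p.1 (p.2.1 + Y.stp n p.1 * p.2.2)) scU3 := by
  have h1 : DifferentiableOn ℂ (fun p : ℂ × ℂ × ℂ => p.1 / (Y.m n : ℂ) * p.2.2) scU3 := by
    simp only [div_eq_mul_inv]
    fun_prop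
  exact ((Y.sc_g1_diff n).add h1).congr fun p _ => Y.unsc_add n p.1 p.2.1 p.2.2

theorem fastDom_eq (n : ℕ) : Y.fastDom n =
    (scU3 ∩ (fun p : ℂ × ℂ × ℂ => Y.unsc n p.1 p.2.1) ⁻¹' Sh.D) ∩
      (scU3 ∩ (fun p : ℂ × ℂ × ℂ => Y.unsc n p.1 (p.2.1 + Y.stp n p.1 * p.2.2)) ⁻¹' Sh.D) := by
  ext p
  constructor
  · rintro ⟨h1, h2, h3⟩
    exact ⟨⟨h1, h2⟩, ⟨h1, h3⟩⟩
  · rintro ⟨⟨h1, h2⟩, ⟨-, h3⟩⟩
    exact ⟨h1, h2, h3⟩

theorem fastDom_isOpen (n : ℕ) : IsOpen (Y.fastDom n) := by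
  rw [fastDom_eq]
  exact ((Y.sc_g1_diff n).continuousOn.isOpen_inter_preimage scU3_isOpen Sh.ch_isOpen_D).inter
    ((Y.sc_g2_diff n).continuousOn.isOpen_inter_preimage scU3_isOpen Sh.ch_isOpen_D)

theorem fast_diff (n : ℕ) :
    DifferentiableOn ℂ (fun p : ℂ × ℂ × ℂ => Y.fC n p.1 p.2.1 p.2.2) (Y.fastDom n) ∧
    DifferentiableOn ℂ (fun p : ℂ × ℂ × ℂ => Y.fC' n p.1 p.2.1 p.2.2) (Y.fastDom n) ∧
    DifferentiableOn ℂ (fun p : ℂ × ℂ × ℂ => Y.fD n p.1 p.2.1 p.2.2) (Y.fastDom n) ∧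
    DifferentiableOn ℂ (fun p : ℂ × ℂ × ℂ => Y.fD' n p.1 p.2.1 p.2.2) (Y.fastDom n) := by
  have hsub : Y.fastDom n ⊆ scU3 := fun p hp => hp.1
  have hpair : DifferentiableOn ℂ
      (fun p : ℂ × ℂ × ℂ => (Y.unsc n p.1 p.2.1, Y.unsc n p.1 (p.2.1 + Y.stp n p.1 * p.2.2))) (Y.fastDom n) :=
    ((Y.sc_g1_diff n).mono hsub).prodMk ((Y.sc_g2_diff n).mono hsub)
  have hmaps : MapsTo
      (fun p : ℂ × ℂ × ℂ => (Y.unsc n p.1 p.2.1, Y.unsc n p.1 (p.2.1 + Y.stp n p.1 * p.2.2))) (Y.fastDom n)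
      (Sh.D ×ˢ Sh.D) := fun p hp => ⟨hp.2.1, hp.2.2⟩
  have ht : DifferentiableOn ℂ (fun p : ℂ × ℂ × ℂ => p.1 / (Y.m n : ℂ)) (Y.fastDom n) := by
    simp only [div_eq_mul_inv]
    fun_prop
  have ht0 : ∀ p ∈ Y.fastDom n, p.1 / (Y.m n : ℂ) ≠ 0 := fun p hp => div_ne_zero (sc_ne hp.1) (Y.m_ne n)
  refine ⟨?_, ?_, ?_, ?_⟩
  · have ht2 : DifferentiableOn ℂ (fun p : ℂ × ℂ × ℂ => (p.1 / (Y.m n : ℂ)) ^ 2) (Y.fastDom n) := ht.pow 2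
    exact sc_div (Sh.ch_isChord.c_joint.comp hpair hmaps) ht2 fun p hp => pow_ne_zero 2 (ht0 p hp)
  · exact sc_div (Sh.ch_isChord.c'_joint.comp hpair hmaps) ht ht0
  · exact sc_div (Sh.ch_isChord.d_joint.comp hpair hmaps) ht ht0
  · exact Sh.ch_isChord.d'_joint.comp hpair hmaps

/-- `phys n (Ŷ + a, T) = ((phys n (Ŷ,T)).1 + t, t)`. -/
theorem phys_add (n : ℕ) (y T : ℂ) :
    Y.phys n (y + Y.stp n T, T) = ((Y.phys n (y, T)).1 + T / (Y.m n : ℂ), T / (Y.m n : ℂ)) := by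
  have h1 := Y.ℓ_ne n
  have h2 := Y.m_ne n
  simp only [phys, stp, Prod.mk.injEq, and_true]
  field_simp
  ring

theorem phys_sub (n : ℕ) (y T : ℂ) :
    Y.phys n (y - Y.stp n T, T) = ((Y.phys n (y, T)).1 - T / (Y.m n : ℂ), T / (Y.m n : ℂ)) := by
  have h1 := Y.ℓ_ne n
  have h2 := Y.m_ne n
  simp only [phys, stp, Prod.mk.injEq, and_true]
  field_simp
  ring

/-- the scaled recurrence with the explicit fast functions. -/
theorem rec_fast (n : ℕ) {y T : ℂ} (hm : (y - Y.stp n T, T) ∈ Y.dom n) (h0 : (y, T) ∈ Y.dom n)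
    (hp : (y + Y.stp n T, T) ∈ Y.dom n) :
    Y.fD n T (Y.Sc n (y, T)) ((Y.Sc n (y + Y.stp n T, T) - Y.Sc n (y, T)) / Y.stp n T) *
        Y.fC n T (Y.Sc n (y, T)) (-((Y.Sc n (y, T) - Y.Sc n (y - Y.stp n T, T)) / Y.stp n T)) +
      Y.fD n T (Y.Sc n (y, T)) (-((Y.Sc n (y, T) - Y.Sc n (y - Y.stp n T, T)) / Y.stp n T)) *
        Y.fC n T (Y.Sc n (y, T)) ((Y.Sc n (y + Y.stp n T, T) - Y.Sc n (y, T)) / Y.stp n T) = 0 := by
  have hT : T ∈ ball (1 : ℂ) (1 / 2) := h0.1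
  have ha : Y.stp n T ≠ 0 := div_ne_zero (sc_ne hT) (mul_ne_zero (Y.ℓ_ne n) (Y.m_ne n))
  have ht : T / (Y.m n : ℂ) ≠ 0 := div_ne_zero (sc_ne hT) (Y.m_ne n)
  have hrec := Sh.ch_rec (Y.phys n (y, T)).1 (T / (Y.m n : ℂ))
    (by rw [← Y.phys_sub n y T]; exact hm.2) h0.2 (by rw [← Y.phys_add n y T]; exact hp.2)
  rw [← Y.phys_sub n y T, ← Y.phys_add n y T] at hrec
  have e0 : ((Y.phys n (y, T)).1, T / (Y.m n : ℂ)) = Y.phys n (y, T) := rfl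
  rw [e0, ← unsc_Sc, ← unsc_Sc, ← unsc_Sc] at hrec
  have ep : Y.Sc n (y, T) + Y.stp n T * ((Y.Sc n (y + Y.stp n T, T) - Y.Sc n (y, T)) / Y.stp n T)
      = Y.Sc n (y + Y.stp n T, T) := by field_simp; ring
  have em : Y.Sc n (y, T) + Y.stp n T * (-((Y.Sc n (y, T) - Y.Sc n (y - Y.stp n T, T)) / Y.stp n T))
      = Y.Sc n (y - Y.stp n T, T) := by field_simp; ring
  simp only [fD, fC, ep, em]
  unfold Shape.chREC at hrec
  have : Sh.chD (Y.unsc n T (Y.Sc n (y, T))) (Y.unsc n T (Y.Sc n (y + Y.stp n T, T))) / (T / (Y.m n : ℂ)) *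
        (Sh.chC (Y.unsc n T (Y.Sc n (y, T))) (Y.unsc n T (Y.Sc n (y - Y.stp n T, T))) / (T / (Y.m n : ℂ)) ^ 2) +
      Sh.chD (Y.unsc n T (Y.Sc n (y, T))) (Y.unsc n T (Y.Sc n (y - Y.stp n T, T))) / (T / (Y.m n : ℂ)) *
        (Sh.chC (Y.unsc n T (Y.Sc n (y, T))) (Y.unsc n T (Y.Sc n (y + Y.stp n T, T))) / (T / (Y.m n : ℂ)) ^ 2)
      = (Sh.chD (Y.unsc n T (Y.Sc n (y, T))) (Y.unsc n T (Y.Sc n (y + Y.stp n T, T))) *
          Sh.chC (Y.unsc n T (Y.Sc n (y, T))) (Y.unsc n T (Y.Sc n (y - Y.stp n T, T))) +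
        Sh.chD (Y.unsc n T (Y.Sc n (y, T))) (Y.unsc n T (Y.Sc n (y - Y.stp n T, T))) *
          Sh.chC (Y.unsc n T (Y.Sc n (y, T))) (Y.unsc n T (Y.Sc n (y + Y.stp n T, T)))) / (T / (Y.m n : ℂ)) ^ 3 := by
    field_simp
  rw [this, hrec, zero_div]

theorem stepEq (n : ℕ) {y T : ℂ} (hm : (y - Y.stp n T, T) ∈ Y.dom n) (h0 : (y, T) ∈ Y.dom n)
    (hp : (y + Y.stp n T, T) ∈ Y.dom n) :
    S7StepEq (Y.fF n T) (Y.fQ n T) (Y.fW n T) (Y.stp n T) (Y.Sc n (y, T))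
      ((Y.Sc n (y, T) - Y.Sc n (y - Y.stp n T, T)) / Y.stp n T)
      ((Y.Sc n (y + Y.stp n T, T) - Y.Sc n (y, T)) / Y.stp n T) := by
  have hT : T ∈ ball (1 : ℂ) (1 / 2) := h0.1
  have hσ : Y.Sc n (y, T) ∈ Y.fW n T := Y.Sc_mem n h0
  have h1 := Y.isFast n hT hσ
  have h2 := Y.rec_fast n hm h0 hp
  refine ⟨Y.fθ n T (Y.Sc n (y, T)), Y.fC n T (Y.Sc n (y, T)), Y.fC' n T (Y.Sc n (y, T)),
    Y.fD n T (Y.Sc n (y, T)), Y.fD' n T (Y.Sc n (y, T)), h1, ?_⟩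
  exact h2

end S7Sys

end Claimed.Agent.R269
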