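/-
Row 269, P1 Section 7: THE SCALED MAXIMAL PASSAGE (interface between the host `Shape` and the host-free tracking lemmas).   LEAF PACKAGE LF-S7-sc4 (ONE FILE = ONE OWNER).   Statements: helper146.
Notation of `S7/Defs.lean`:  `z = (Ŷ,T)`, `phys`, `dom`, `Sc`, `stp`, `unsc`, `fF`, `fQ`, `fW`, `Conv`.

All proofs are changes of variables.  Key identities (`ℓ = Y.ℓ n`, `m = Y.m n`, `a = stp n T = T/(ℓ m)`, `t = T/m = ℓ a`):
   `phys n (Ŷ + a, T) = ((phys n (Ŷ,T)).1 + t, t)`;    `unsc n T (Sc n z) = Smax (phys n z)`;    `unsc n T (σ + a u) = unsc n T σ + t u`;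
   `(Ŷ,T) ↦ phys n (Ŷ,T)` is a biholomorphic map of `ℂ × ball 1 (1/2)` onto its image (`Complex.log` is holomorphic on `ball 1 (1/2) ⊆ slitPlane`), it maps vertical segments with `T` fixed to vertical segments with `t` fixed.
PLANS.
(ext)       `Sh.s7_ext` for the image of `O` under `phys n`, `w_phys = unsc ∘ w ∘ phys⁻¹`.
(fill)      `Sh.s7_konti` with `tc = Tc/m`, radius `R/m`, `g_phys t = ctr + ℓ (Yc + g((m t - Tc)/R) - i log(m t))`; then the maximum modulus principle (`Complex.norm_le_of_forall_mem_frontier_norm_le`) for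
            `ζ ↦ Sc n (Yc + g ζ - s i, Tc + R ζ) - mdl (Yc + g ζ - s i)` on `ball 0 1`.
-/
import Claimed.Agent.R269.S7.ScaledA
import Claimed.Agent.R269.S7.Konti

set_option autoImplicit false

namespace Claimed.Agent.R269

open Complex Filter Topology Set Metric
open scoped Real

namespace S7Sys

variable {Sh : Shape} (Y : S7Sys Sh)

/-! ### LF-S7-sc4: extension in scaled coordinates -/

/-- the inverse of `phys n`. -/
noncomputable def scInv (n : ℕ) (z : ℂ × ℂ) : ℂ × ℂ :=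
  ((z.1 - Y.ctr n) / (Y.ℓ n : ℂ) + I * Complex.log ((Y.m n : ℂ) * z.2), (Y.m n : ℂ) * z.2)

theorem scInv_phys (n : ℕ) (z : ℂ × ℂ) : Y.scInv n (Y.phys n z) = z := by
  have h1 := Y.ℓ_ne n
  have h2 := Y.m_ne n
  have e : (Y.m n : ℂ) * (z.2 / (Y.m n : ℂ)) = z.2 := by field_simp
  apply Prod.ext
  · simp only [scInv, phys, e]
    field_simp
    ring
  · simp only [scInv, phys, e]

theorem phys_scInv (n : ℕ) (z : ℂ × ℂ) : Y.phys n (Y.scInv n z) = z := by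
  have h1 := Y.ℓ_ne n
  have h2 := Y.m_ne n
  apply Prod.ext
  · simp only [scInv, phys]
    field_simp
    ring
  · simp only [scInv, phys]
    field_simp

/-- the physical parameters corresponding to `T ∈ ball 1 (1/2)`. -/
def scU' (n : ℕ) : Set (ℂ × ℂ) := {z | (Y.m n : ℂ) * z.2 ∈ ball (1 : ℂ) (1 / 2)}

theorem scU'_isOpen (n : ℕ) : IsOpen (Y.scU' n) :=
  isOpen_ball.preimage (continuous_const.mul continuous_snd)

theorem scInv_diff (n : ℕ) : DifferentiableOn ℂ (Y.scInv n) (Y.scU' n) := by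
  have hm : DifferentiableOn ℂ (fun z : ℂ × ℂ => (Y.m n : ℂ) * z.2) (Y.scU' n) :=
    differentiableOn_snd.const_mul _
  have hlog : DifferentiableOn ℂ (fun z : ℂ × ℂ => Complex.log ((Y.m n : ℂ) * z.2)) (Y.scU' n) :=
    fun z hz => ((hm z hz).clog (sc_slit hz))
  have h1 : DifferentiableOn ℂ (fun z : ℂ × ℂ => (z.1 - Y.ctr n) * (Y.ℓ n : ℂ)⁻¹ + I * Complex.log ((Y.m n : ℂ) * z.2))
      (Y.scU' n) := ((differentiableOn_fst.sub (differentiableOn_const _)).mul_const _).add (hlog.const_mul I)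
  exact (h1.prodMk hm).congr fun z _ => by simp only [scInv, div_eq_mul_inv]

/-- vertical lines go to vertical lines. -/
theorem scInv_vert (n : ℕ) (y t : ℂ) (τ : ℝ) :
    Y.scInv n ((⟨y.re, τ⟩ : ℂ), t)
      = ((⟨(Y.scInv n (y, t)).1.re, (Y.scInv n (y, t)).1.im + (τ - y.im) / Y.ℓ n⟩ : ℂ), (Y.scInv n (y, t)).2) := by
  have h1 := (Y.ℓ_pos n).ne'
  apply Prod.ext
  · apply Complex.ext
    · simp [scInv, Complex.div_ofReal_re]
    · simp only [scInv, Complex.add_im, Complex.div_ofReal_im, Complex.sub_im]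
      field_simp
      ring
  · rfl

theorem phys_vert (n : ℕ) (y T : ℂ) (τ : ℝ) :
    Y.phys n ((⟨y.re, τ⟩ : ℂ), T)
      = ((⟨(Y.phys n (y, T)).1.re, (Y.phys n (y, T)).1.im + Y.ℓ n * (τ - y.im)⟩ : ℂ), (Y.phys n (y, T)).2) := by
  apply Prod.ext
  · apply Complex.ext
    · simp [phys]
    · simp only [phys, Complex.add_im, Complex.mul_im, Complex.ofReal_re, Complex.ofReal_im, Complex.sub_im,
        Complex.sub_re]
      ring
  · rfl

theorem unsc_inj (n : ℕ) (T : ℂ) {σ σ' : ℂ} (h : Y.unsc n T σ = Y.unsc n T σ') : σ = σ' := by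
  have h1 := Y.ℓ_ne n
  simp only [unsc, add_right_inj] at h
  have := mul_left_cancel₀ h1 h
  linear_combination this

theorem ext (n : ℕ) (hn : ∀ T ∈ ball (1 : ℂ) (1 / 2), T / (Y.m n : ℂ) ∈ ball (0 : ℂ) Sh.ρ)
    {O : Set (ℂ × ℂ)} (hO : IsOpen O) (hOT : ∀ z ∈ O, z.2 ∈ ball (1 : ℂ) (1 / 2)) {w : ℂ × ℂ → ℂ}
    (hw : DifferentiableOn ℂ w O) (hD : ∀ z ∈ O, w z ∈ Y.fW n z.2)
    (hatt : ∀ z ∈ O, ∃ η : ℝ, η ≤ z.1.im ∧ (∀ τ ∈ Icc η z.1.im, ((⟨z.1.re, τ⟩ : ℂ), z.2) ∈ O) ∧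
      ((⟨z.1.re, η⟩ : ℂ), z.2) ∈ Y.dom n ∧ w =ᶠ[𝓝 ((⟨z.1.re, η⟩ : ℂ), z.2)] Y.Sc n) :
    O ⊆ Y.dom n ∧ EqOn w (Y.Sc n) O := by
  have hℓ := Y.ℓ_pos n
  -- the physical set and function
  have hO'eq : Y.scInv n ⁻¹' O = Y.scU' n ∩ Y.scInv n ⁻¹' O := by
    ext z
    exact ⟨fun hz => ⟨hOT _ hz, hz⟩, fun hz => hz.2⟩
  have hO' : IsOpen (Y.scInv n ⁻¹' O) := by
    rw [hO'eq]
    exact (Y.scInv_diff n).continuousOn.isOpen_inter_preimage (Y.scU'_isOpen n) hO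
  have hsubU : Y.scInv n ⁻¹' O ⊆ Y.scU' n := fun z hz => hOT _ hz
  have hinvd : DifferentiableOn ℂ (Y.scInv n) (Y.scInv n ⁻¹' O) := (Y.scInv_diff n).mono hsubU
  have hw' : DifferentiableOn ℂ (fun z => Y.unsc n (Y.scInv n z).2 (w (Y.scInv n z))) (Y.scInv n ⁻¹' O) := by
    have h1 : DifferentiableOn ℂ (fun z => w (Y.scInv n z)) (Y.scInv n ⁻¹' O) := hw.comp hinvd fun z hz => hz
    have h2 : DifferentiableOn ℂ (fun z => Complex.log (Y.scInv n z).2) (Y.scInv n ⁻¹' O) :=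
      fun z hz => ((differentiableAt_snd.comp_differentiableWithinAt z (hinvd z hz)).clog (sc_slit (hOT _ hz)))
    exact (differentiableOn_const _).add ((h1.sub (h2.const_mul I)).const_mul _)
  obtain ⟨hsub, heq⟩ := Sh.s7_ext hO' hw' (fun z hz => hD _ hz)
    (fun z hz => by
      have := hn _ (hOT _ hz)
      have e : (Y.scInv n z).2 / (Y.m n : ℂ) = z.2 := by
        have h2 := Y.m_ne n
        simp only [scInv]; field_simp
      rwa [e] at this)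
    (fun z hz => by
      obtain ⟨η, hη, hseg, hbase, hev⟩ := hatt _ hz
      refine ⟨z.1.im + Y.ℓ n * (η - (Y.scInv n z).1.im), ?_, ?_, ?_, ?_⟩
      · have : Y.ℓ n * (η - (Y.scInv n z).1.im) ≤ 0 := mul_nonpos_of_nonneg_of_nonpos hℓ.le (by linarith)
        linarith
      · intro τ hτ
        show Y.scInv n ((⟨z.1.re, τ⟩ : ℂ), z.2) ∈ O
        rw [Y.scInv_vert n z.1 z.2 τ]
        refine hseg _ ⟨?_, ?_⟩
        · have h1 := hτ.1
          have h2 : η - (Y.scInv n z).1.im ≤ (τ - z.1.im) / Y.ℓ n := by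
            rw [le_div_iff₀ hℓ]; linarith
          show η ≤ (Y.scInv n (z.1, z.2)).1.im + (τ - z.1.im) / Y.ℓ n
          have e : (Y.scInv n (z.1, z.2)) = Y.scInv n z := rfl
          rw [e]; linarith
        · have h1 := hτ.2
          have h2 : (τ - z.1.im) / Y.ℓ n ≤ 0 := div_nonpos_of_nonpos_of_nonneg (by linarith) hℓ.le
          show (Y.scInv n (z.1, z.2)).1.im + (τ - z.1.im) / Y.ℓ n ≤ (Y.scInv n z).1.im
          have e : (Y.scInv n (z.1, z.2)) = Y.scInv n z := rfl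
          rw [e]; linarith
      · have h1 := hbase.2
        rw [Y.phys_vert n (Y.scInv n z).1 (Y.scInv n z).2 η] at h1
        have e : ((Y.scInv n z).1, (Y.scInv n z).2) = Y.scInv n z := rfl
        rw [e, phys_scInv] at h1
        exact h1
      · -- the base points correspond
        have hb : Y.scInv n ((⟨z.1.re, z.1.im + Y.ℓ n * (η - (Y.scInv n z).1.im)⟩ : ℂ), z.2)
            = ((⟨(Y.scInv n z).1.re, η⟩ : ℂ), (Y.scInv n z).2) := by
          rw [Y.scInv_vert n z.1 z.2]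
          have e : (Y.scInv n (z.1, z.2)) = Y.scInv n z := rfl
          rw [e]
          congr 2
          field_simp
          ring
        have hbO : ((⟨z.1.re, z.1.im + Y.ℓ n * (η - (Y.scInv n z).1.im)⟩ : ℂ), z.2) ∈ Y.scInv n ⁻¹' O := by
          show Y.scInv n _ ∈ O
          rw [hb]
          exact hseg η ⟨le_rfl, hη⟩
        have hcont : ContinuousAt (Y.scInv n) ((⟨z.1.re, z.1.im + Y.ℓ n * (η - (Y.scInv n z).1.im)⟩ : ℂ), z.2) :=
          ((hinvd _ hbO).differentiableAt (hO'.mem_nhds hbO)).continuousAt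
        have hev' := hcont.tendsto.eventually (by rw [hb]; exact hev)
        filter_upwards [hev'] with z' hz'
        show Y.unsc n (Y.scInv n z').2 (w (Y.scInv n z')) = Sh.s9Smax z'
        rw [hz']
        have e : Y.scInv n z' = ((Y.scInv n z').1, (Y.scInv n z').2) := rfl
        rw [e, unsc_Sc, ← e, phys_scInv])
  have hmem : ∀ z ∈ O, Y.phys n z ∈ Y.scInv n ⁻¹' O := fun z hz => by
    show Y.scInv n (Y.phys n z) ∈ O
    rwa [scInv_phys]
  refine ⟨fun z hz => ⟨hOT z hz, hsub (hmem z hz)⟩, fun z hz => ?_⟩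
  have h1 := heq (hmem z hz)
  simp only [scInv_phys] at h1
  have e : z = (z.1, z.2) := rfl
  rw [e, ← unsc_Sc] at h1
  exact Y.unsc_inj n z.2 h1

/-! ### LF-S7-sc5: filling analytic discs in scaled coordinates -/

/-- discs `ζ ↦ (Yc + g ζ - s i, Tc + R ζ)`, `|ζ| ≤ 1`, `0 ≤ s ≤ s₀`. -/
theorem fill (n : ℕ) (hn : ∀ T ∈ ball (1 : ℂ) (1 / 2), T / (Y.m n : ℂ) ∈ ball (0 : ℂ) Sh.ρ)
    {Ω : Set ℂ} {mdl : ℂ → ℂ} (hΩ : IsOpen Ω) (hmdl : DifferentiableOn ℂ mdl Ω) (Tc Yc : ℂ)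
    (R R' s₀ ε : ℝ) (hR : 0 < R) (hTc : closedBall Tc R ⊆ ball (1 : ℂ) (1 / 2)) (hR' : 1 < R')
    (g : ℂ → ℂ) (hg : DifferentiableOn ℂ g (ball 0 R')) (hs₀ : 0 ≤ s₀)
    (hΩ' : ∀ ζ ∈ closedBall (0 : ℂ) 1, ∀ s ∈ Icc 0 s₀, Yc + g ζ - (s : ℂ) * I ∈ Ω)
    (hdeep : ∀ ζ ∈ closedBall (0 : ℂ) 1, (Yc + g ζ - (s₀ : ℂ) * I, Tc + (R : ℂ) * ζ) ∈ Y.dom n)
    (hbd : ∀ ζ ∈ sphere (0 : ℂ) 1, ∀ s ∈ Icc 0 s₀,
      (Yc + g ζ - (s : ℂ) * I, Tc + (R : ℂ) * ζ) ∈ Y.dom n ∧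
        ‖Y.Sc n (Yc + g ζ - (s : ℂ) * I, Tc + (R : ℂ) * ζ) - mdl (Yc + g ζ - (s : ℂ) * I)‖ ≤ ε) :
    ∀ ζ ∈ closedBall (0 : ℂ) 1, ∀ s ∈ Icc 0 s₀,
      (Yc + g ζ - (s : ℂ) * I, Tc + (R : ℂ) * ζ) ∈ Y.dom n ∧
        ‖Y.Sc n (Yc + g ζ - (s : ℂ) * I, Tc + (R : ℂ) * ζ) - mdl (Yc + g ζ - (s : ℂ) * I)‖ ≤ ε := by
  have hℓ := Y.ℓ_pos n
  have hm := Y.m_pos n
  have hℓc := Y.ℓ_ne n
  have hmc := Y.m_ne n
  have hRc : (R : ℂ) ≠ 0 := by exact_mod_cast hR.ne'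
  -- a slightly larger disc of parameters
  obtain ⟨δ, hδ, hthick⟩ := (isCompact_closedBall Tc R).exists_thickening_subset_open isOpen_ball hTc
  rw [thickening_closedBall hδ hR.le] at hthick
  obtain ⟨R'', hR''def⟩ : ∃ R'' : ℝ, R'' = min (δ + R) (R * R') := ⟨_, rfl⟩
  have hR''1 : R < R'' := by
    rw [hR''def]; exact lt_min (by linarith) (by nlinarith)
  have hR''2 : R'' ≤ δ + R := by rw [hR''def]; exact min_le_left _ _
  have hR''3 : R'' ≤ R * R' := by rw [hR''def]; exact min_le_right _ _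
  -- coordinates on the parameter disc
  have hζ : ∀ (_r : ℝ) (t : ℂ), ‖t - Tc / (Y.m n : ℂ)‖ = ‖((Y.m n : ℂ) * t - Tc) / (R : ℂ)‖ * (R / Y.m n) := by
    intro _ t
    have e : t - Tc / (Y.m n : ℂ) = ((Y.m n : ℂ) * t - Tc) / (R : ℂ) * ((R : ℂ) / (Y.m n : ℂ)) := by
      field_simp
    rw [e, norm_mul, norm_div (R : ℂ), Complex.norm_real, Complex.norm_real, Real.norm_eq_abs, Real.norm_eq_abs,
      abs_of_pos hR, abs_of_pos hm]
  have hRm : 0 < R / Y.m n := by positivity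
  have hTζ : ∀ t : ℂ, Tc + (R : ℂ) * (((Y.m n : ℂ) * t - Tc) / (R : ℂ)) = (Y.m n : ℂ) * t := by
    intro t; field_simp; ring
  have hcl : ∀ t ∈ closedBall (Tc / (Y.m n : ℂ)) (R / Y.m n), ((Y.m n : ℂ) * t - Tc) / (R : ℂ) ∈ closedBall (0 : ℂ) 1 := by
    intro t ht
    rw [mem_closedBall, dist_eq_norm, hζ 0 t] at ht
    rw [mem_closedBall_zero_iff]
    exact le_of_mul_le_mul_right (by linarith) hRm
  have hsp : ∀ t ∈ sphere (Tc / (Y.m n : ℂ)) (R / Y.m n), ((Y.m n : ℂ) * t - Tc) / (R : ℂ) ∈ sphere (0 : ℂ) 1 := by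
    intro t ht
    rw [mem_sphere, dist_eq_norm, hζ 0 t] at ht
    rw [mem_sphere_zero_iff_norm]
    exact mul_right_cancel₀ hRm.ne' (by linarith)
  -- the physical disc
  obtain ⟨gp, hgp⟩ : ∃ gp : ℂ → ℂ, ∀ t, gp t = Y.ctr n + (Y.ℓ n : ℂ) *
      (Yc + g (((Y.m n : ℂ) * t - Tc) / (R : ℂ)) - I * Complex.log ((Y.m n : ℂ) * t)) := ⟨_, fun _ => rfl⟩
  have hphys : ∀ (t : ℂ) (s : ℝ), Y.phys n (Yc + g (((Y.m n : ℂ) * t - Tc) / (R : ℂ)) - (s : ℂ) * I, (Y.m n : ℂ) * t)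
      = (gp t - ((Y.ℓ n * s : ℝ) : ℂ) * I, t) := by
    intro t s
    apply Prod.ext
    · simp only [phys, hgp]
      push_cast
      ring
    · simp only [phys]
      field_simp
  have hgpd : DifferentiableOn ℂ gp (ball (Tc / (Y.m n : ℂ)) (R'' / Y.m n)) := by
    have hin : ∀ t ∈ ball (Tc / (Y.m n : ℂ)) (R'' / Y.m n), ‖((Y.m n : ℂ) * t - Tc) / (R : ℂ)‖ * R < R'' := by
      intro t ht
      rw [mem_ball, dist_eq_norm, hζ 0 t, lt_div_iff₀ hm] at ht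
      have e : ‖((Y.m n : ℂ) * t - Tc) / (R : ℂ)‖ * (R / Y.m n) * Y.m n = ‖((Y.m n : ℂ) * t - Tc) / (R : ℂ)‖ * R := by
        field_simp
      rwa [e] at ht
    have h1 : DifferentiableOn ℂ (fun t : ℂ => ((Y.m n : ℂ) * t - Tc) / (R : ℂ)) (ball (Tc / (Y.m n : ℂ)) (R'' / Y.m n)) := by
      simp only [div_eq_mul_inv]
      fun_prop
    have h2 : DifferentiableOn ℂ (fun t : ℂ => g (((Y.m n : ℂ) * t - Tc) / (R : ℂ))) (ball (Tc / (Y.m n : ℂ)) (R'' / Y.m n)) := by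
      refine hg.comp h1 fun t ht => ?_
      rw [mem_ball_zero_iff]
      have := hin t ht
      have h3 : ‖((Y.m n : ℂ) * t - Tc) / (R : ℂ)‖ * R < R' * R := by linarith
      exact lt_of_mul_lt_mul_right h3 hR.le
    have h3 : DifferentiableOn ℂ (fun t : ℂ => Complex.log ((Y.m n : ℂ) * t)) (ball (Tc / (Y.m n : ℂ)) (R'' / Y.m n)) := by
      intro t ht
      have h4 : DifferentiableWithinAt ℂ (fun t : ℂ => (Y.m n : ℂ) * t) (ball (Tc / (Y.m n : ℂ)) (R'' / Y.m n)) t := by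
        fun_prop
      refine h4.clog (sc_slit (hthick ?_))
      rw [mem_ball, dist_eq_norm]
      have := hin t ht
      have e : ‖(Y.m n : ℂ) * t - Tc‖ = ‖((Y.m n : ℂ) * t - Tc) / (R : ℂ)‖ * R := by
        rw [norm_div, Complex.norm_real, Real.norm_eq_abs, abs_of_pos hR]; field_simp
      rw [e]; linarith
    have h5 : DifferentiableOn ℂ (fun t => Y.ctr n + (Y.ℓ n : ℂ) *
        (Yc + g (((Y.m n : ℂ) * t - Tc) / (R : ℂ)) - I * Complex.log ((Y.m n : ℂ) * t))) (ball (Tc / (Y.m n : ℂ)) (R'' / Y.m n)) :=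
      (differentiableOn_const _).add ((((differentiableOn_const _).add h2).sub (h3.const_mul I)).const_mul _)
    exact h5.congr fun t _ => hgp t
  have hkonti := Sh.s7_konti (Tc / (Y.m n : ℂ)) (R / Y.m n) (R'' / Y.m n) hRm
    (div_lt_div_of_pos_right hR''1 hm)
    (fun t ht => by
      have h1 := hcl t ht
      have h2 : (Y.m n : ℂ) * t ∈ closedBall Tc R := by
        rw [← hTζ t, mem_closedBall, dist_eq_norm, add_sub_cancel_left, norm_mul, Complex.norm_real,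
          Real.norm_eq_abs, abs_of_pos hR]
        rw [mem_closedBall_zero_iff] at h1
        nlinarith
      have h3 := hn _ (hTc h2)
      have e : (Y.m n : ℂ) * t / (Y.m n : ℂ) = t := by field_simp
      rwa [e] at h3)
    gp hgpd (Y.ℓ n * s₀) (by positivity)
    (fun t ht => by
      have h1 := (hdeep _ (hcl t ht)).2
      rw [hTζ t, hphys t s₀] at h1
      exact h1)
    (fun t ht s hs => by
      have hs' : s / Y.ℓ n ∈ Icc 0 s₀ := ⟨div_nonneg hs.1 hℓ.le, by rw [div_le_iff₀ hℓ]; linarith [hs.2]⟩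
      have h1 := (hbd _ (hsp t ht) _ hs').1.2
      rw [hTζ t, hphys t (s / Y.ℓ n)] at h1
      have e : Y.ℓ n * (s / Y.ℓ n) = s := by field_simp
      rwa [e] at h1)
  -- membership
  have hdom : ∀ ζ ∈ closedBall (0 : ℂ) 1, ∀ s ∈ Icc 0 s₀, (Yc + g ζ - (s : ℂ) * I, Tc + (R : ℂ) * ζ) ∈ Y.dom n := by
    intro ζ hζ1 s hs
    have hT : Tc + (R : ℂ) * ζ ∈ closedBall Tc R := by
      rw [mem_closedBall, dist_eq_norm, add_sub_cancel_left, norm_mul, Complex.norm_real, Real.norm_eq_abs,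
        abs_of_pos hR]
      rw [mem_closedBall_zero_iff] at hζ1
      nlinarith
    refine ⟨hTc hT, ?_⟩
    have et : (Y.m n : ℂ) * ((Tc + (R : ℂ) * ζ) / (Y.m n : ℂ)) = Tc + (R : ℂ) * ζ := by field_simp
    have eζ : ((Y.m n : ℂ) * ((Tc + (R : ℂ) * ζ) / (Y.m n : ℂ)) - Tc) / (R : ℂ) = ζ := by
      rw [et]; field_simp; ring
    have ht : (Tc + (R : ℂ) * ζ) / (Y.m n : ℂ) ∈ closedBall (Tc / (Y.m n : ℂ)) (R / Y.m n) := by
      rw [mem_closedBall, dist_eq_norm, hζ 0, eζ]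
      rw [mem_closedBall_zero_iff] at hζ1
      nlinarith
    have h1 := hkonti _ ht (Y.ℓ n * s) ⟨by have := hs.1; positivity, mul_le_mul_of_nonneg_left hs.2 hℓ.le⟩
    rw [← hphys, eζ, et] at h1
    exact h1
  intro ζ hζ1 s hs
  refine ⟨hdom ζ hζ1 s hs, ?_⟩
  -- maximum principle
  have hdiff : DifferentiableOn ℂ (fun ζ : ℂ => Y.Sc n (Yc + g ζ - (s : ℂ) * I, Tc + (R : ℂ) * ζ)
      - mdl (Yc + g ζ - (s : ℂ) * I)) (closure (ball (0 : ℂ) 1)) := by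
    rw [closure_ball (0 : ℂ) one_ne_zero]
    intro ζ' hζ'
    have hg' : DifferentiableAt ℂ g ζ' := hg.differentiableAt (isOpen_ball.mem_nhds (by
      rw [mem_ball_zero_iff]; rw [mem_closedBall_zero_iff] at hζ'; linarith))
    have h1 : DifferentiableAt ℂ (fun ζ : ℂ => Yc + g ζ - (s : ℂ) * I) ζ' :=
      ((differentiableAt_const _).add hg').sub (differentiableAt_const _)
    have h2 : DifferentiableAt ℂ (fun ζ : ℂ => (Yc + g ζ - (s : ℂ) * I, Tc + (R : ℂ) * ζ)) ζ' :=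
      h1.prodMk (by fun_prop)
    have h3 : DifferentiableAt ℂ (Y.Sc n) (Yc + g ζ' - (s : ℂ) * I, Tc + (R : ℂ) * ζ') :=
      (Y.Sc_diff n).differentiableAt ((Y.dom_isOpen n).mem_nhds (hdom ζ' hζ' s hs))
    have h4 : DifferentiableAt ℂ mdl (Yc + g ζ' - (s : ℂ) * I) :=
      hmdl.differentiableAt (hΩ.mem_nhds (hΩ' ζ' hζ' s hs))
    exact ((DifferentiableAt.comp ζ' h3 h2).sub (DifferentiableAt.comp ζ' h4 h1)).differentiableWithinAt
  refine Complex.norm_le_of_forall_mem_frontier_norm_le isBounded_ball hdiff.diffContOnCl ?_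
    (by rw [closure_ball (0 : ℂ) one_ne_zero]; exact hζ1)
  intro ζ' hζ'
  rw [frontier_ball (0 : ℂ) one_ne_zero] at hζ'
  exact (hbd ζ' hζ' s hs).2

end S7Sys

end Claimed.Agent.R269
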