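/-
Row 269, P1 Section 7: THE SCALED MAXIMAL PASSAGE (interface between the host `Shape` and the host-free tracking lemmas).   LEAF PACKAGE LF-S7-sc6 (ONE FILE = ONE OWNER).   Statements: helper146.
Notation of `S7/Defs.lean`:  `z = (Ŷ,T)`, `phys`, `dom`, `Sc`, `stp`, `unsc`, `fF`, `fQ`, `fW`, `Conv`.

All proofs are changes of variables.  Key identities (`ℓ = Y.ℓ n`, `m = Y.m n`, `a = stp n T = T/(ℓ m)`, `t = T/m = ℓ a`):
   `phys n (Ŷ + a, T) = ((phys n (Ŷ,T)).1 + t, t)`;    `unsc n T (Sc n z) = Smax (phys n z)`;    `unsc n T (σ + a u) = unsc n T σ + t u`;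
   `(Ŷ,T) ↦ phys n (Ŷ,T)` is a biholomorphic map of `ℂ × ball 1 (1/2)` onto its image (`Complex.log` is holomorphic on `ball 1 (1/2) ⊆ slitPlane`), it maps vertical segments with `T` fixed to vertical segments with `t` fixed.
PLANS.
(band)      `T = 1`: `t = 1/m` is real.  `Sh.s7i_passage_width Sh.s9k_max` gives `ofReal (Im y₀') < hX t`; for `0 ≤ Im y' ≤ Im y₀'` the point `(y',t)` lies in the tube (`conj t = t`), `T ⊆ Rmax` (`s9k_max_spec Sh.s9k_tube`);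
            `Im y' = h_n + ℓ_n Im Ŷ ≥ 0` eventually by `height`.
(conv_quot) `D = Sc n (·,T) - mdl` is holomorphic and `≤ ε'` on `ball y κ`; Cauchy: `|D'| ≤ 2ε'/κ` on `ball y (κ/2)`; mean value inequality on the segment `[y - a, y]`.
-/
import Claimed.Agent.R269.S7.ScaledA
import Claimed.Agent.R269.S7.Imports

set_option autoImplicit false

namespace Claimed.Agent.R269

open Complex Filter Topology Set Metric
open scoped Real

namespace S7Sys

variable {Sh : Shape} (Y : S7Sys Sh)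

/-! ### LF-S7-sc6: the band at the real parameter, difference quotients -/

theorem band (y₀ : ℂ) (lo : ℝ) (h : ∀ᶠ n in atTop, (y₀, (1 : ℂ)) ∈ Y.dom n) :
    ∀ᶠ n in atTop, ∀ y : ℂ, lo ≤ y.im → y.im ≤ y₀.im → (y, (1 : ℂ)) ∈ Y.dom n := by
  filter_upwards [h, Y.height.eventually_ge_atTop (-lo)] with n hn hh y hy1 hy2
  have hℓ := Y.ℓ_pos n
  have hm := Y.m_pos n
  have hphys : ∀ y : ℂ, Y.phys n (y, 1) = (Y.ctr n + (Y.ℓ n : ℂ) * y, (((1 / Y.m n : ℝ)) : ℂ)) := by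
    intro y
    simp [phys]
  have him : ∀ y : ℂ, (Y.ctr n + (Y.ℓ n : ℂ) * y).im = Y.h n + Y.ℓ n * y.im := by
    intro y
    simp [ctr]
  have h0 := hn.2
  rw [hphys] at h0
  have hw := Sh.s7i_passage_width Sh.s9k_max (1 / Y.m n) _ h0
  have hpar := Sh.s9k_max.param _ h0
  refine ⟨hn.1, ?_⟩
  rw [hphys]
  apply (Sh.s9k_max_spec Sh.s9k_tube).1
  refine ⟨hpar, ?_, ?_⟩
  · refine lt_of_le_of_lt (ENNReal.ofReal_le_ofReal ?_) hw
    rw [him, him]
    have := mul_le_mul_of_nonneg_left hy2 hℓ.le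
    linarith
  · have h1 : -(Y.ctr n + (Y.ℓ n : ℂ) * y).im ≤ 0 := by
      rw [him]
      rw [le_div_iff₀ hℓ] at hh
      have := mul_le_mul_of_nonneg_left hy1 hℓ.le
      linarith
    show ENNReal.ofReal (-(Y.ctr n + (Y.ℓ n : ℂ) * y).im) < Sh.G.hX ((starRingEnd ℂ) (((1 / Y.m n : ℝ)) : ℂ))
    rw [ENNReal.ofReal_of_nonpos h1, Complex.conj_ofReal]
    exact lt_of_le_of_lt zero_le hw

theorem conv_quot {Ω : Set ℂ} {mdl : ℂ → ℂ} (hΩ : IsOpen Ω) (hmdl : DifferentiableOn ℂ mdl Ω)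
    {A 𝒯 : Set ℂ} {κ : ℝ} (hκ : 0 < κ) (hAΩ : ∀ y₀ ∈ A, closedBall y₀ κ ⊆ Ω)
    (h𝒯 : 𝒯 ⊆ ball (1 : ℂ) (1 / 2))
    (hconv : Y.Conv ({y | ∃ y₀ ∈ A, ‖y - y₀‖ ≤ κ} ×ˢ 𝒯) mdl) :
    ∀ ε > 0, ∀ᶠ n in atTop, ∀ y ∈ A, ∀ T ∈ 𝒯, ∀ a : ℂ, (a = Y.stp n T ∨ a = -Y.stp n T) →
      ‖(Y.Sc n (y, T) - Y.Sc n (y - a, T)) / a - (mdl y - mdl (y - a)) / a‖ ≤ ε := by
  intro ε hε
  filter_upwards [hconv (ε * κ / 2) (by positivity), Y.stp_small (κ / 2) (by positivity)] with n h1 h2 y hy T hT a ha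
  obtain ⟨hs0, hs1⟩ := h2 T (h𝒯 hT)
  have ha0 : a ≠ 0 := by
    rcases ha with rfl | rfl
    · exact hs0
    · exact neg_ne_zero.2 hs0
  have ha1 : ‖a‖ ≤ κ / 2 := by
    rcases ha with rfl | rfl
    · exact hs1
    · rw [norm_neg]; exact hs1
  -- the difference
  have hpt : ∀ w ∈ closedBall y κ, (w, T) ∈ Y.dom n ∧ ‖Y.Sc n (w, T) - mdl w‖ ≤ ε * κ / 2 := by
    intro w hw
    exact h1 (w, T) ⟨⟨y, hy, by simpa [dist_eq_norm] using hw⟩, hT⟩
  have hDat : ∀ w ∈ closedBall y κ, DifferentiableAt ℂ (fun w => Y.Sc n (w, T) - mdl w) w := by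
    intro w hw
    have h3 : DifferentiableAt ℂ (Y.Sc n) (w, T) :=
      (Y.Sc_diff n).differentiableAt ((Y.dom_isOpen n).mem_nhds (hpt w hw).1)
    have h4 : DifferentiableAt ℂ (fun w : ℂ => (w, T)) w := by fun_prop
    exact (DifferentiableAt.comp w h3 h4).sub (hmdl.differentiableAt (hΩ.mem_nhds (hAΩ y hy hw)))
  have hsub : ∀ w ∈ closedBall y (κ / 2), closedBall w (κ / 2) ⊆ closedBall y κ := by
    intro w hw v hv
    rw [mem_closedBall] at hw hv ⊢
    have := dist_triangle v w y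
    linarith
  have hder : ∀ w ∈ closedBall y (κ / 2), ‖deriv (fun w => Y.Sc n (w, T) - mdl w) w‖ ≤ ε := by
    intro w hw
    have h5 : DiffContOnCl ℂ (fun w => Y.Sc n (w, T) - mdl w) (ball w (κ / 2)) := by
      apply DifferentiableOn.diffContOnCl
      rw [closure_ball w (by positivity : κ / 2 ≠ 0)]
      exact fun v hv => (hDat v (hsub w hw hv)).differentiableWithinAt
    have h6 := Complex.norm_deriv_le_of_forall_mem_sphere_norm_le (by positivity : 0 < κ / 2) h5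
      (C := ε * κ / 2) (fun v hv => (hpt v (hsub w hw (sphere_subset_closedBall hv))).2)
    have e : ε * κ / 2 / (κ / 2) = ε := by field_simp
    rwa [e] at h6
  have hmv := Convex.norm_image_sub_le_of_norm_deriv_le (𝕜 := ℂ) (f := fun w => Y.Sc n (w, T) - mdl w)
    (s := closedBall y (κ / 2)) (x := y - a) (y := y)
    (fun w hw => hDat w (closedBall_subset_closedBall (by linarith) hw)) hder (convex_closedBall y (κ / 2))
    (by rw [mem_closedBall, dist_eq_norm]; simpa using ha1) (mem_closedBall_self (by positivity))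
  have e1 : (Y.Sc n (y, T) - Y.Sc n (y - a, T)) / a - (mdl y - mdl (y - a)) / a
      = ((Y.Sc n (y, T) - mdl y) - (Y.Sc n (y - a, T) - mdl (y - a))) / a := by ring
  have e2 : y - (y - a) = a := by ring
  rw [e2] at hmv
  rw [e1, norm_div, div_le_iff₀ (norm_pos_iff.2 ha0)]
  exact hmv

end S7Sys

end Claimed.Agent.R269
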